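import Vale.Agent.P217.MathlibUsed
import Vale.Agent.P217.Defs

set_option linter.all false

section

section

/-!
# P217: the ring of integers `OK K`, evaluation of power series
-/

namespace Vale.Agent.P217

open MvPowerSeries

section OKdef

variable (K : Type*) [NontriviallyNormedField K] [IsUltrametricDist K]

/-- The ring of integers (closed unit ball) of an ultrametric normed field. -/
def OK : Subring K where
  carrier := {x | ‖x‖ ≤ 1}
  mul_mem' {a b} ha hb := by
    change ‖a * b‖ ≤ 1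
    rw [norm_mul]
    exact mul_le_one₀ ha (norm_nonneg _) hb
  one_mem' := by
    change ‖(1 : K)‖ ≤ 1
    simp
  add_mem' {a b} ha hb := (IsUltrametricDist.norm_add_le_max a b).trans (max_le ha hb)
  zero_mem' := by
    change ‖(0 : K)‖ ≤ 1
    simp
  neg_mem' {a} ha := by
    change ‖-a‖ ≤ 1
    rw [norm_neg]
    exact ha

/-- The (points of the) maximal ideal of `OK K`: elements of norm `< 1`. -/
abbrev MK : Type _ := {a : OK K // ‖a‖ < 1}

end OKdef

section Eval

variable {K : Type*} [NontriviallyNormedField K] [IsUltrametricDist K]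

theorem norm_le_one (a : OK K) : ‖a‖ ≤ 1 := a.2

theorem OK_norm_mul (a b : OK K) : ‖a * b‖ = ‖a‖ * ‖b‖ := norm_mul (a : K) (b : K)

theorem OK_norm_pow (a : OK K) (n : ℕ) : ‖a ^ n‖ = ‖a‖ ^ n := norm_pow (a : K) n

theorem OK_norm_add_le (a b : OK K) : ‖a + b‖ ≤ max ‖a‖ ‖b‖ :=
  IsUltrametricDist.norm_add_le_max (a : K) (b : K)

theorem OK_norm_sub_le (a b : OK K) : ‖a - b‖ ≤ max ‖a‖ ‖b‖ := by
  simpa only [sub_eq_add_neg, AddSubgroupClass.coe_norm, Subring.coe_add, NegMemClass.coe_neg, le_sup_iff,     norm_neg] using OK_norm_add_le a (-b)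

instance [CompleteSpace K] : CompleteSpace (OK K) := by
  have : IsClosed {x : K | ‖x‖ ≤ 1} := isClosed_le continuous_norm continuous_const
  exact this.completeSpace_coe

/-- The open ball ideal of radius `r` (for `r > 0`). -/
def ballIdeal (K : Type*) [NontriviallyNormedField K] [IsUltrametricDist K] (r : ℝ) :
    Ideal (OK K) where
  carrier := {x | ‖x‖ < r ∨ x = 0}
  add_mem' {a b} ha hb := by
    rcases ha with ha | rfl
    · rcases hb with hb | rfl
      · exact Or.inl ((OK_norm_add_le a b).trans_lt (max_lt ha hb))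
      · rw [add_zero]; exact Or.inl ha
    · rw [zero_add]; exact hb
  zero_mem' := Or.inr rfl
  smul_mem' c x hx := by
    rcases hx with hx | rfl
    · refine Or.inl (lt_of_le_of_lt ?_ hx)
      rw [smul_eq_mul, OK_norm_mul]
      exact mul_le_of_le_one_left (norm_nonneg _) (norm_le_one c)
    · exact Or.inr (smul_zero c)

/-- The closed ball ideal of radius `r` (for `r ≥ 0`). -/
def cballIdeal (K : Type*) [NontriviallyNormedField K] [IsUltrametricDist K] (r : ℝ)
    (hr : 0 ≤ r) : Ideal (OK K) where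
  carrier := {x | ‖x‖ ≤ r}
  add_mem' {a b} ha hb := (OK_norm_add_le a b).trans (max_le ha hb)
  zero_mem' := by simpa using hr
  smul_mem' c x hx := by
    refine le_trans (b := ‖x‖) ?_ hx
    rw [smul_eq_mul, OK_norm_mul]
    exact mul_le_of_le_one_left (norm_nonneg _) (norm_le_one c)

theorem mem_cballIdeal {r : ℝ} {hr : 0 ≤ r} {x : OK K} : x ∈ cballIdeal K r hr ↔ ‖x‖ ≤ r :=
  Iff.rfl

theorem norm_sum_le {ι : Type*} (s : Finset ι) (f : ι → OK K) {r : ℝ} (hr : 0 ≤ r)
    (h : ∀ i ∈ s, ‖f i‖ ≤ r) : ‖∑ i ∈ s, f i‖ ≤ r :=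
  mem_cballIdeal.mp ((cballIdeal K r hr).sum_mem fun i hi => mem_cballIdeal.mpr (h i hi))

instance : IsLinearTopology (OK K) (OK K) := by
  refine IsLinearTopology.mk_of_hasBasis (OK K) (p := fun r : ℝ => 0 < r)
    (s := fun r => ballIdeal K r) ?_
  refine Metric.nhds_basis_ball.to_hasBasis (fun r hr => ⟨r, hr, fun x hx => ?_⟩)
    (fun r hr => ⟨r, hr, fun x hx => ?_⟩)
  · rcases hx with hx | rfl
    · simpa using hx
    · simpa using hr
  · exact Or.inl (by simpa using hx)

theorem hasEval_of_lt {σ : Type*} [Finite σ] (a : σ → MK K) :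
    MvPowerSeries.HasEval (fun i => (a i : OK K)) where
  hpow i := tendsto_pow_atTop_nhds_zero_of_norm_lt_one (a i).2
  tendsto_zero := by simp only [AddSubgroupClass.coe_norm, Filter.cofinite_eq_bot, Filter.tendsto_bot]

variable [CompleteSpace K]

/-- Evaluation of a power series with integral coefficients at a point of the open unit ball. -/
noncomputable def ev {σ : Type*} [Finite σ] (a : σ → MK K) :
    MvPowerSeries σ (OK K) →+* OK K :=
  MvPowerSeries.eval₂Hom (φ := RingHom.id (OK K)) continuous_id (hasEval_of_lt a)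

section Decomp

open Classical in
/-- Every power series in finitely many variables is `c + ∑ X_i g_i`. -/
theorem exists_decomp {σ S : Type*} [Fintype σ] [CommRing S] (f : MvPowerSeries σ S) :
    ∃ g : σ → MvPowerSeries σ S, f = C (constantCoeff f) + ∑ i, X i * g i := by
  have hch : ∀ d : σ →₀ ℕ, d ≠ 0 → ∃ i, d i ≠ 0 := fun d hd => by
    by_contra h
    push Not at h
    exact hd (Finsupp.ext h)
  let c : (σ →₀ ℕ) → Option σ := fun d => if h : d ≠ 0 then some (hch d h).choose else none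
  have hc : ∀ d i, c d = some i → d i ≠ 0 := by
    intro d i h
    by_cases hd : d ≠ 0
    · simp only [c, dif_pos hd, Option.some.injEq] at h
      rw [← h]
      exact (hch d hd).choose_spec
    · simp only [c, dif_neg hd] at h
      exact absurd h (by simp)
  let h : σ → MvPowerSeries σ S := fun i d => if c d = some i then coeff d f else 0
  have hh : ∀ i d, coeff d (h i) = if c d = some i then coeff d f else 0 := fun i d => rfl
  have hdvd : ∀ i, X i ∣ h i := by
    intro i
    rw [X_dvd_iff]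
    intro m hm
    rw [hh, if_neg]
    intro hcm
    exact hc m i hcm hm
  choose g hg using hdvd
  refine ⟨g, ?_⟩
  ext d
  rw [map_add, map_sum]
  simp_rw [← hg, hh]
  by_cases hd : d = 0
  · subst hd
    have : c 0 = none := by simp only [ne_eq, dite_not, ↓reduceDIte, c]
    simp only [coeff_zero_eq_constantCoeff, constantCoeff_C, this, reduceCtorEq, ↓reduceIte, Finset.sum_const_zero, add_zero]
  · have h1 : coeff d (C (constantCoeff f) : MvPowerSeries σ S) = 0 := by
      rw [coeff_C, if_neg hd]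
    have h2 : c d = some (hch d hd).choose := dif_pos hd
    rw [h1, zero_add, h2]
    simp only [Option.some.injEq]
    rw [Finset.sum_ite_eq]
    simp only [ne_eq, Finset.mem_univ, ↓reduceIte]

/-- Contraction principle on power series: a bounded quantity `E` with
`E (c + ∑ X_i g_i) ≤ max (ρ sup E (g_i)) R` is at most `R`. -/
theorem contraction_principle {σ S : Type*} [Fintype σ] [CommRing S]
    (E : MvPowerSeries σ S → ℝ) (hE : ∀ f, E f ≤ 1) (ρ R : ℝ) (hρ0 : 0 ≤ ρ) (hρ : ρ < 1)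
    (hR : 0 ≤ R)
    (h : ∀ (c : S) (g : σ → MvPowerSeries σ S) (M : ℝ), 0 ≤ M → (∀ i, E (g i) ≤ M) →
      E (C c + ∑ i, X i * g i) ≤ max (ρ * M) R)
    (f : MvPowerSeries σ S) : E f ≤ R := by
  have key : ∀ N : ℕ, ∀ f, E f ≤ max (ρ ^ N) R := by
    intro N
    induction N with
    | zero => intro f; exact (hE f).trans (by simp only [pow_zero, le_sup_left])
    | succ N ih =>
      intro f
      obtain ⟨g, hg⟩ := exists_decomp f
      rw [hg]
      refine (h _ g (max (ρ ^ N) R) ((pow_nonneg hρ0 N).trans (le_max_left _ _))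
        fun i => ih (g i)).trans ?_
      refine max_le ?_ (le_max_right _ _)
      rw [mul_max_of_nonneg _ _ hρ0]
      refine max_le_max (by rw [pow_succ']) ?_
      exact mul_le_of_le_one_left hR hρ.le
  have hlim : Filter.Tendsto (fun N : ℕ => max (ρ ^ N) R) Filter.atTop (nhds (max 0 R)) :=
    (tendsto_pow_atTop_nhds_zero_of_lt_one hρ0 hρ).max tendsto_const_nhds
  rw [max_eq_right hR] at hlim
  exact ge_of_tendsto' hlim fun N => key N f

/-- A common bound `< 1` for finitely many elements of norm `< 1`. -/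
theorem exists_bound {σ : Type*} [Finite σ] (x : σ → ℝ) (hx : ∀ i, x i < 1) :
    ∃ ρ : ℝ, 0 ≤ ρ ∧ ρ < 1 ∧ ∀ i, x i ≤ ρ := by
  classical
  have := Fintype.ofFinite σ
  rcases isEmpty_or_nonempty σ with hσ | hσ
  · exact ⟨0, le_rfl, one_pos, fun i => isEmptyElim i⟩
  · refine ⟨max 0 (Finset.univ.sup' Finset.univ_nonempty x), le_max_left _ _, ?_, fun i => ?_⟩
    · refine max_lt one_pos ?_
      rw [Finset.sup'_lt_iff]
      exact fun i _ => hx i
    · exact (Finset.le_sup' x (Finset.mem_univ i)).trans (le_max_right _ _)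

end Decomp

variable {σ τ : Type*} [Finite σ] [Finite τ]

@[simp] theorem ev_C (a : σ → MK K) (c : OK K) : ev a (C c) = c := by
  simp only [ev, AddSubgroupClass.coe_norm, coe_eval₂Hom, eval₂_C, RingHom.id_apply]

@[simp] theorem ev_X (a : σ → MK K) (i : σ) : ev a (X i) = a i := by
  simp only [ev, AddSubgroupClass.coe_norm, coe_eval₂Hom, eval₂_X]

omit [CompleteSpace K] in
/-- Ring homomorphisms from a power series ring to `OK K` are determined by the values on
constants and variables, if the variables are mapped to elements of norm `< 1`. -/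
theorem ringHom_ext {S : Type*} [CommRing S] {φ ψ : MvPowerSeries σ S →+* OK K}
    (hC : ∀ c, φ (C c) = ψ (C c)) (hX : ∀ i, φ (X i) = ψ (X i)) (hn : ∀ i, ‖φ (X i)‖ < 1) :
    φ = ψ := by
  have := Fintype.ofFinite σ
  obtain ⟨ρ, hρ0, hρ1, hρ⟩ := exists_bound (fun i => ‖φ (X i)‖) hn
  ext1 f
  have key : ‖φ f - ψ f‖ ≤ 0 := by
    refine contraction_principle (fun f => ‖φ f - ψ f‖) (fun f => norm_le_one _) ρ 0 hρ0 hρ1
      le_rfl ?_ f
    intro c g M hM hg
    refine le_trans ?_ (le_max_left _ _)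
    have h1 : φ (C c + ∑ i, X i * g i) - ψ (C c + ∑ i, X i * g i) =
        ∑ i, φ (X i) * (φ (g i) - ψ (g i)) := by
      simp only [map_add, map_sum, map_mul, hC, ← hX, mul_sub, Finset.sum_sub_distrib]
      ring
    rw [h1]
    refine norm_sum_le _ _ (mul_nonneg hρ0 hM) fun i _ => ?_
    rw [OK_norm_mul]
    exact mul_le_mul (hρ i) (hg i) (norm_nonneg _) hρ0
  exact sub_eq_zero.mp (norm_le_zero_iff.mp key)

/-- Evaluation as a convergent sum (in `OK K`). -/
theorem hasSum_ev (a : σ → MK K) (f : MvPowerSeries σ (OK K)) :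
    HasSum (fun d : σ →₀ ℕ => coeff d f * d.prod (fun s e => (a s : OK K) ^ e)) (ev a f) := by
  have := MvPowerSeries.hasSum_eval₂ (φ := RingHom.id (OK K)) continuous_id (hasEval_of_lt a) f
  simpa only [AddSubgroupClass.coe_norm, ev, coe_eval₂Hom, RingHom.id_apply] using this

/-- bound: if all coefficients have norm `≤ r` then the value has norm `≤ r`. -/
theorem norm_ev_le (a : σ → MK K) (f : MvPowerSeries σ (OK K)) (r : ℝ) (hr : 0 ≤ r)
    (h : ∀ d, ‖coeff d f‖ ≤ r) : ‖ev a f‖ ≤ r := by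
  refine le_of_tendsto' (hasSum_ev a f).norm fun s => norm_sum_le _ _ hr fun d _ => ?_
  rw [OK_norm_mul]
  exact (mul_le_of_le_one_right (norm_nonneg _) (norm_le_one _)).trans (h d)

/-- bound: if the constant coefficient vanishes the value has norm `≤ max ‖a i‖`. -/
theorem norm_ev_le_of_constantCoeff (a : σ → MK K) (f : MvPowerSeries σ (OK K)) (r : ℝ)
    (hr : 0 ≤ r) (h0 : constantCoeff f = 0) (h : ∀ i, ‖(a i : OK K)‖ ≤ r) : ‖ev a f‖ ≤ r := by
  have := Fintype.ofFinite σ
  obtain ⟨g, hg⟩ := exists_decomp f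
  rw [hg, h0]
  simp only [map_zero, zero_add, map_sum, map_mul, ev_X]
  refine norm_sum_le _ _ hr fun i _ => ?_
  rw [OK_norm_mul]
  exact (mul_le_of_le_one_right (norm_nonneg _) (norm_le_one _)).trans (h i)

/-- Lipschitz in the point. -/
theorem norm_ev_sub_le (a b : σ → MK K) (f : MvPowerSeries σ (OK K)) (r : ℝ) (hr : 0 ≤ r)
    (h : ∀ i, ‖(a i : OK K) - b i‖ ≤ r) : ‖ev a f - ev b f‖ ≤ r := by
  have := Fintype.ofFinite σ
  obtain ⟨ρ, hρ0, hρ1, hρ⟩ := exists_bound (fun i => ‖(a i : OK K)‖) fun i => (a i).2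
  refine contraction_principle (fun f => ‖ev a f - ev b f‖) (fun f => norm_le_one _) ρ r hρ0 hρ1
    hr ?_ f
  intro c g M hM hg
  have h1 : ev a (C c + ∑ i, X i * g i) - ev b (C c + ∑ i, X i * g i) =
      ∑ i, ((a i : OK K) * (ev a (g i) - ev b (g i)) + ((a i : OK K) - b i) * ev b (g i)) := by
    simp only [map_add, map_sum, map_mul, ev_C, ev_X, mul_sub, sub_mul, Finset.sum_sub_distrib,
      Finset.sum_add_distrib]
    ring
  rw [h1]
  refine norm_sum_le _ _ ((mul_nonneg hρ0 hM).trans (le_max_left _ _)) fun i _ => ?_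
  refine (OK_norm_add_le _ _).trans (max_le_max ?_ ?_)
  · rw [OK_norm_mul]
    exact mul_le_mul (hρ i) (hg i) (norm_nonneg _) hρ0
  · rw [OK_norm_mul]
    exact (mul_le_of_le_one_right (norm_nonneg _) (norm_le_one _)).trans (h i)

/-- Lipschitz in the coefficients. -/
theorem norm_ev_sub_le' (a : σ → MK K) (f g : MvPowerSeries σ (OK K)) (r : ℝ) (hr : 0 ≤ r)
    (h : ∀ d, ‖coeff d f - coeff d g‖ ≤ r) : ‖ev a f - ev a g‖ ≤ r := by
  rw [← map_sub]
  exact norm_ev_le a _ r hr (by simpa only [map_sub, AddSubgroupClass.coe_norm, AddSubgroupClass.coe_sub] using h)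

/-- First order Taylor expansion. -/
theorem norm_ev_taylor (a b : σ → MK K) (f : MvPowerSeries σ (OK K)) [Fintype σ] (r : ℝ)
    (hr : 0 ≤ r) (h : ∀ i, ‖(a i : OK K) - b i‖ ≤ r) :
    ‖ev a f - ev b f - ∑ i, ev b (MvPowerSeries.pderiv (OK K) i f) * ((a i : OK K) - b i)‖
      ≤ r ^ 2 := by
  obtain ⟨ρ, hρ0, hρ1, hρ⟩ := exists_bound (fun i => ‖(b i : OK K)‖) fun i => (b i).2
  refine contraction_principle (fun f => ‖ev a f - ev b f -
    ∑ i, ev b (MvPowerSeries.pderiv (OK K) i f) * ((a i : OK K) - b i)‖)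
    (fun f => norm_le_one _) ρ (r ^ 2) hρ0 hρ1 (sq_nonneg r) ?_ f
  intro c g M hM hg
  classical
  have hd : ∀ j, ev b (MvPowerSeries.pderiv (OK K) j (C c + ∑ i, X i * g i)) =
      ev b (g j) + ∑ i, (b i : OK K) * ev b (MvPowerSeries.pderiv (OK K) j (g i)) := by
    intro j
    rw [map_add, pderiv_C, zero_add, map_sum]
    simp only [Derivation.leibniz, smul_eq_mul, map_sum, map_add, map_mul, ev_X]
    rw [Finset.sum_add_distrib, add_comm]
    congr 1
    rw [Finset.sum_eq_single j]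
    · simp
    · intro i _ hij
      rw [pderiv_X_of_ne hij]
      simp
    · simp only [Finset.mem_univ, not_true_eq_false, pderiv_X_self, map_one, mul_one, IsEmpty.forall_iff]
  have h1 : ev a (C c + ∑ i, X i * g i) - ev b (C c + ∑ i, X i * g i) -
      ∑ j, ev b (MvPowerSeries.pderiv (OK K) j (C c + ∑ i, X i * g i)) * ((a j : OK K) - b j) =
      ∑ i, ((b i : OK K) * (ev a (g i) - ev b (g i) -
        ∑ j, ev b (MvPowerSeries.pderiv (OK K) j (g i)) * ((a j : OK K) - b j)) +
        ((a i : OK K) - b i) * (ev a (g i) - ev b (g i))) := by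
    simp_rw [hd]
    simp only [map_add, map_sum, map_mul, ev_C, ev_X, add_mul, Finset.sum_add_distrib, mul_sub,
      Finset.sum_sub_distrib, Finset.mul_sum, Finset.sum_mul]
    rw [Finset.sum_comm (f := fun (i j : σ) => (b j : OK K) *
      ev b (MvPowerSeries.pderiv (OK K) i (g j)) * ((a i : OK K)))]
    rw [Finset.sum_comm (f := fun (i j : σ) => (b j : OK K) *
      ev b (MvPowerSeries.pderiv (OK K) i (g j)) * ((b i : OK K)))]
    simp only [mul_assoc, sub_mul, Finset.sum_sub_distrib]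
    simp only [mul_comm]
    ring
  rw [h1]
  refine norm_sum_le _ _ ((mul_nonneg hρ0 hM).trans (le_max_left _ _)) fun i _ => ?_
  refine (OK_norm_add_le _ _).trans (max_le_max ?_ ?_)
  · rw [OK_norm_mul]
    exact mul_le_mul (hρ i) (hg i) (norm_nonneg _) hρ0
  · rw [OK_norm_mul, sq]
    exact mul_le_mul (h i) (norm_ev_sub_le a b (g i) r hr h) (norm_nonneg _) hr

/-- Evaluation of a composition. -/
theorem ev_subst (b : τ → MK K) (f : MvPowerSeries σ (OK K)) (g : σ → MvPowerSeries τ (OK K))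
    (hg : ∀ i, constantCoeff (g i) = 0) (c : σ → MK K) (hc : ∀ i, (c i : OK K) = ev b (g i)) :
    ev b (f.subst g) = ev c f := by
  have hs : HasSubst g := hasSubst_of_constantCoeff_zero hg
  have key : (ev b).comp (substAlgHom (R := OK K) hs : MvPowerSeries σ (OK K) →+*
      MvPowerSeries τ (OK K)) = ev c := by
    refine ringHom_ext (fun x => ?_) (fun i => ?_) (fun i => ?_)
    · rw [ev_C, RingHom.comp_apply, RingHom.coe_coe, substAlgHom_apply, subst_C, ev_C]
    · rw [ev_X, RingHom.comp_apply, RingHom.coe_coe, substAlgHom_apply, subst_X hs, hc]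
    · rw [RingHom.comp_apply, RingHom.coe_coe, substAlgHom_apply, subst_X hs, ← hc]
      exact (c i).2
  rw [← key, RingHom.comp_apply, RingHom.coe_coe, substAlgHom_apply]

end Eval

section EvalK

variable {K : Type*} [NontriviallyNormedField K] [IsUltrametricDist K] [CompleteSpace K]
variable {κ : Type*} [Field κ] [Algebra κ (OK K)]
variable {σ τ : Type*} [Finite σ] [Finite τ]

/-- Evaluation of a power series with coefficients in a field `κ ⊆ OK K`. -/
noncomputable def evk (κ : Type*) [Field κ] [Algebra κ (OK K)] (a : σ → MK K) :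
    MvPowerSeries σ κ →+* OK K :=
  (ev a).comp (MvPowerSeries.map (algebraMap κ (OK K)))

@[simp] theorem evk_C (a : σ → MK K) (c : κ) : evk κ a (C c) = algebraMap κ (OK K) c := by
  simp only [evk, RingHom.coe_comp, Function.comp_apply, map_C, ev_C]

@[simp] theorem evk_X (a : σ → MK K) (i : σ) : evk κ a (X i) = a i := by
  simp only [evk, RingHom.coe_comp, Function.comp_apply, map_X, ev_X, AddSubgroupClass.coe_norm]

omit [CompleteSpace K] in
theorem norm_algebraMap_of_ne_zero {c : κ} (hc : c ≠ 0) : ‖algebraMap κ (OK K) c‖ = 1 := by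
  have h1 : ‖algebraMap κ (OK K) c‖ * ‖algebraMap κ (OK K) c⁻¹‖ = 1 := by
    rw [← OK_norm_mul, ← map_mul, mul_inv_cancel₀ hc, map_one]
    exact norm_one (α := K)
  refine le_antisymm (norm_le_one _) ?_
  rw [← h1]
  exact mul_le_of_le_one_right (norm_nonneg _) (norm_le_one _)

theorem norm_evk_lt (a : σ → MK K) (f : MvPowerSeries σ κ) :
    ‖evk κ a f‖ < 1 ↔ constantCoeff f = 0 := by
  obtain ⟨ρ, hρ0, hρ1, hρ⟩ := exists_bound (fun i => ‖(a i : OK K)‖) fun i => (a i).2
  have key : ∀ f : MvPowerSeries σ κ, constantCoeff f = 0 → ‖evk κ a f‖ < 1 := by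
    intro f hf
    refine lt_of_le_of_lt (norm_ev_le_of_constantCoeff a _ ρ hρ0 ?_ hρ) hρ1
    rw [← coeff_zero_eq_constantCoeff_apply, coeff_map, coeff_zero_eq_constantCoeff_apply, hf,
      map_zero]
  refine ⟨fun h => ?_, key f⟩
  by_contra hc
  have h1 := norm_algebraMap_of_ne_zero (K := K) hc
  have h2 : algebraMap κ (OK K) (constantCoeff f) =
      evk κ a f - evk κ a (f - C (constantCoeff f)) := by
    rw [map_sub, evk_C]; ring
  rw [h2] at h1
  have h3 := (OK_norm_sub_le (evk κ a f) (evk κ a (f - C (constantCoeff f)))).trans_lt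
    (max_lt h (key _ (by simp)))
  rw [h1] at h3
  exact lt_irrefl _ h3

/-- Evaluation of a composition of power series with coefficients in `κ`. -/
theorem evk_subst (b : τ → MK K) (f : MvPowerSeries σ κ) (g : σ → MvPowerSeries τ κ)
    (hg : ∀ i, constantCoeff (g i) = 0) (c : σ → MK K) (hc : ∀ i, (c i : OK K) = evk κ b (g i)) :
    evk κ b (f.subst g) = evk κ c f := by
  have hs : HasSubst g := hasSubst_of_constantCoeff_zero hg
  have h1 : MvPowerSeries.map (algebraMap κ (OK K)) (f.subst g) =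
      (MvPowerSeries.map (algebraMap κ (OK K)) f).subst
        (fun i => MvPowerSeries.map (algebraMap κ (OK K)) (g i)) := map_subst hs f
  rw [evk, RingHom.comp_apply, h1, ev_subst b _ _ (fun i => ?_) c hc]
  · rfl
  · rw [← coeff_zero_eq_constantCoeff_apply, coeff_map, coeff_zero_eq_constantCoeff_apply, hg,
      map_zero]

end EvalK

end Vale.Agent.P217
end
end

section

section

/-!
# P217: points of formal group laws over `OK K` in the open unit ball
-/

namespace Vale.Agent.P217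

open MvPowerSeries

section Decomp

variable {R : Type*} [CommRing R]

theorem coeff_single_zero_FG (F : FormalGroup R) (n : ℕ) :
    coeff (Finsupp.single 0 n) F.toPowerSeries = if n = 1 then 1 else 0 := by
  have h := congrArg (PowerSeries.coeff n) F.Xzero_eq_X
  rw [PowerSeries.coeff_X] at h
  rw [← h, FormalGroup.Xzero, PowerSeries.coeff, coeff_subst,
    finsum_eq_single _ (Finsupp.single 0 n)]
  · simp [PowerSeries.coeff_X_pow, ← PowerSeries.coeff_def rfl]
  · intro d hd
    by_cases hd₁ : d 1 = 0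
    · have : d 0 ≠ n := by
        intro h0
        apply hd
        ext i
        fin_cases i
        · simpa only [Nat.succ_eq_add_one, Nat.reduceAdd, Fin.zero_eta, Fin.isValue, Finsupp.single_eq_same] using h0
        · simpa only [Nat.succ_eq_add_one, Nat.reduceAdd, Fin.mk_one, Fin.isValue, ne_eq, one_ne_zero,     not_false_eq_true, Finsupp.single_eq_of_ne] using hd₁
      simp only [Nat.succ_eq_add_one, Nat.reduceAdd, ← PowerSeries.coeff_def rfl, Finsupp.single_eq_same, Finsupp.prod_pow, Fin.prod_univ_two, Fin.isValue, Matrix.cons_val_zero, Matrix.cons_val_one, Matrix.cons_val_fin_one, hd₁, pow_zero, mul_one, PowerSeries.coeff_X_pow, Ne.symm this, ↓reduceIte, smul_eq_mul, mul_zero]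
    · simp only [Nat.succ_eq_add_one, Nat.reduceAdd, Finsupp.prod_pow, Fin.prod_univ_two, Fin.isValue, Matrix.cons_val_zero, Matrix.cons_val_one, Matrix.cons_val_fin_one, ne_eq, hd₁, not_false_eq_true, zero_pow, mul_zero, coeff_zero, smul_eq_mul]
  · exact HasSubst.X_zero

theorem coeff_single_one_FG (F : FormalGroup R) (n : ℕ) :
    coeff (Finsupp.single 1 n) F.toPowerSeries = if n = 1 then 1 else 0 := by
  have h := congrArg (PowerSeries.coeff n) F.zeroX_eq_X
  rw [PowerSeries.coeff_X] at h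
  rw [← h, FormalGroup.zeroX, PowerSeries.coeff, coeff_subst,
    finsum_eq_single _ (Finsupp.single 1 n)]
  · simp [PowerSeries.coeff_X_pow, ← PowerSeries.coeff_def rfl]
  · intro d hd
    by_cases hd₁ : d 0 = 0
    · have : d 1 ≠ n := by
        intro h0
        apply hd
        ext i
        fin_cases i
        · simpa only [Nat.succ_eq_add_one, Nat.reduceAdd, Fin.zero_eta, Fin.isValue, ne_eq, zero_ne_one,     not_false_eq_true, Finsupp.single_eq_of_ne] using hd₁
        · simpa only [Nat.succ_eq_add_one, Nat.reduceAdd, Fin.mk_one, Fin.isValue, Finsupp.single_eq_same] using h0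
      simp only [Nat.succ_eq_add_one, Nat.reduceAdd, ← PowerSeries.coeff_def rfl, Finsupp.single_eq_same, Finsupp.prod_pow, Fin.prod_univ_two, Fin.isValue, Matrix.cons_val_zero, hd₁, pow_zero, Matrix.cons_val_one, Matrix.cons_val_fin_one, one_mul, PowerSeries.coeff_X_pow, Ne.symm this, ↓reduceIte, smul_eq_mul, mul_zero]
    · simp only [Nat.succ_eq_add_one, Nat.reduceAdd, Finsupp.prod_pow, Fin.prod_univ_two, Fin.isValue, Matrix.cons_val_zero, ne_eq, hd₁, not_false_eq_true, zero_pow, Matrix.cons_val_one, Matrix.cons_val_fin_one, zero_mul, coeff_zero, smul_eq_mul, mul_zero]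
  · exact HasSubst.zero_X

/-- `F(X,Y) = X + Y + X Y H(X,Y)`. -/
theorem exists_FG_decomp (F : FormalGroup R) : ∃ H : MvPowerSeries (Fin 2) R,
    F.toPowerSeries = X 0 + X 1 + X 0 * X 1 * H := by
  classical
  obtain ⟨H, hH⟩ : ∃ H : MvPowerSeries (Fin 2) R, ∀ d, coeff d H =
      coeff (d + Finsupp.single 0 1 + Finsupp.single 1 1) F.toPowerSeries :=
    ⟨fun d => coeff (d + Finsupp.single 0 1 + Finsupp.single 1 1) F.toPowerSeries,
      fun d => rfl⟩
  refine ⟨H, ?_⟩
  ext d
  have hX : (X 0 * X 1 : MvPowerSeries (Fin 2) R) =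
      monomial (Finsupp.single 0 1 + Finsupp.single 1 1) 1 := by
    simp only [X, Fin.isValue, monomial_mul_monomial, mul_one]
  rw [map_add, hX, coeff_monomial_mul, map_add, coeff_X, coeff_X]
  by_cases h0 : d 0 = 0
  · have hd : d = Finsupp.single 1 (d 1) := by
      ext i; fin_cases i
      · simpa only [Fin.zero_eta, Fin.isValue, ne_eq, zero_ne_one, not_false_eq_true, Finsupp.single_eq_of_ne] using     h0
      · simp only [Fin.mk_one, Fin.isValue, Finsupp.single_eq_same]
    have : ¬ (Finsupp.single 0 1 + Finsupp.single 1 1 ≤ d) := by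
      intro h
      have := h 0
      simp only [Fin.isValue, Finsupp.coe_add, Pi.add_apply, Finsupp.single_eq_same, ne_eq, zero_ne_one, not_false_eq_true, Finsupp.single_eq_of_ne, add_zero, h0, nonpos_iff_eq_zero, one_ne_zero] at this
    rw [if_neg this, hd, coeff_single_one_FG]
    by_cases h1 : d 1 = 1
    · simp [h1, Finsupp.single_left_inj (one_ne_zero : (1 : ℕ) ≠ 0)]
    · simp only [h1, if_false]
      rw [if_neg, if_neg]
      · simp
      · intro h
        have := DFunLike.congr_fun h 1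
        simp only [Fin.isValue, Finsupp.single_eq_same] at this
        exact h1 this
      · intro h
        have := DFunLike.congr_fun h 0
        simp at this
  · by_cases h1 : d 1 = 0
    · have hd : d = Finsupp.single 0 (d 0) := by
        ext i; fin_cases i
        · simp only [Fin.zero_eta, Fin.isValue, Finsupp.single_eq_same]
        · simpa only [Fin.mk_one, Fin.isValue, ne_eq, one_ne_zero, not_false_eq_true, Finsupp.single_eq_of_ne] using h1
      have : ¬ (Finsupp.single 0 1 + Finsupp.single 1 1 ≤ d) := by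
        intro h
        have := h 1
        simp only [Fin.isValue, Finsupp.coe_add, Pi.add_apply, ne_eq, one_ne_zero, not_false_eq_true, Finsupp.single_eq_of_ne, Finsupp.single_eq_same, zero_add, h1, nonpos_iff_eq_zero] at this
      rw [if_neg this, hd, coeff_single_zero_FG]
      by_cases h2 : d 0 = 1
      · simp [h2, Finsupp.single_left_inj (one_ne_zero : (1 : ℕ) ≠ 0)]
      · simp only [h2, if_false]
        rw [if_neg, if_neg]
        · simp
        · intro h
          have := DFunLike.congr_fun h 1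
          simp only [Fin.isValue, ne_eq, one_ne_zero, not_false_eq_true, Finsupp.single_eq_of_ne, Finsupp.single_eq_same, zero_ne_one] at this
        · intro h
          have := DFunLike.congr_fun h 0
          simp only [Fin.isValue, Finsupp.single_eq_same] at this
          exact h2 this
    · have hle : (Finsupp.single 0 1 + Finsupp.single 1 1 : Fin 2 →₀ ℕ) ≤ d := by
        intro i
        fin_cases i
        · simp only [Fin.isValue, Fin.zero_eta, Finsupp.coe_add, Pi.add_apply, Finsupp.single_eq_same, ne_eq, zero_ne_one, not_false_eq_true, Finsupp.single_eq_of_ne, add_zero]; omega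
        · simp only [Fin.isValue, Fin.mk_one, Finsupp.coe_add, Pi.add_apply, ne_eq, one_ne_zero, not_false_eq_true, Finsupp.single_eq_of_ne, Finsupp.single_eq_same, zero_add]; omega
      rw [if_pos hle, if_neg, if_neg]
      · rw [hH, add_assoc (d - _), tsub_add_cancel_of_le hle]
        simp
      · intro h
        apply h0
        rw [h]; simp
      · intro h
        apply h1
        rw [h]; simp

end Decomp

section Points

variable {K : Type*} [NontriviallyNormedField K] [IsUltrametricDist K] [CompleteSpace K]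

/-- The points of the formal group law `F` over `OK K` in the open unit ball. -/
def FPt (_F : FormalGroup (OK K)) : Type _ := MK K

namespace FPt

variable {F : FormalGroup (OK K)}

/-- underlying element of a point. -/
def val (a : FPt F) : OK K := (show MK K from a).1

omit [CompleteSpace K] in
theorem norm_val_lt (a : FPt F) : ‖a.val‖ < 1 := (show MK K from a).2

/-- make a point. -/
def mk (F : FormalGroup (OK K)) (a : OK K) (ha : ‖a‖ < 1) : FPt F := (⟨a, ha⟩ : MK K)

omit [CompleteSpace K] in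
@[simp] theorem val_mk (a : OK K) (ha : ‖a‖ < 1) : (mk F a ha).val = a := rfl

omit [CompleteSpace K] in
@[ext] theorem ext {a b : FPt F} (h : a.val = b.val) : a = b := Subtype.ext h

theorem norm_ev_FG_le (F : FormalGroup (OK K)) (a : Fin 2 → MK K) :
    ‖ev a F.toPowerSeries‖ ≤ max ‖(a 0 : OK K)‖ ‖(a 1 : OK K)‖ := by
  refine norm_ev_le_of_constantCoeff a _ _ (le_max_of_le_left (norm_nonneg _))
    F.zero_constantCoeff ?_
  intro i
  fin_cases i
  · exact le_max_left _ _
  · exact le_max_right _ _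

theorem norm_ev_FG_lt (F : FormalGroup (OK K)) (a : Fin 2 → MK K) :
    ‖ev a F.toPowerSeries‖ < 1 :=
  (norm_ev_FG_le F a).trans_lt (max_lt (a 0).2 (a 1).2)

noncomputable instance : Add (FPt F) :=
  ⟨fun a b => mk F (ev (![a, b] : Fin 2 → MK K) F.toPowerSeries) (norm_ev_FG_lt F _)⟩

instance : Zero (FPt F) := ⟨mk F 0 (by simp)⟩

theorem val_add (a b : FPt F) :
    (a + b).val = ev (![a, b] : Fin 2 → MK K) F.toPowerSeries := rfl

omit [CompleteSpace K] in
@[simp] theorem val_zero : (0 : FPt F).val = 0 := rfl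

/-- `F(X,Y) = X + Y + X Y H(X,Y)` at points. -/
theorem ev_FG_eq {H : MvPowerSeries (Fin 2) (OK K)}
    (hH : F.toPowerSeries = X 0 + X 1 + X 0 * X 1 * H) (a : Fin 2 → MK K) :
    ev a F.toPowerSeries = a 0 + a 1 + a 0 * a 1 * ev a H := by
  rw [hH]
  simp

theorem exists_neg' (a : FPt F) : ∃ b : FPt F, b + a = 0 := by
  obtain ⟨H, hH⟩ := exists_FG_decomp F
  let s : Set (OK K) := {b | ‖b‖ ≤ ‖a.val‖}
  have hs : IsClosed s := isClosed_le continuous_norm continuous_const
  have hlt : ∀ b : s, ‖(b : OK K)‖ < 1 := fun b => b.2.trans_lt a.norm_val_lt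
  let T : s → s := fun b => ⟨-a.val - b * a.val * ev (![⟨b, hlt b⟩, a] : Fin 2 → MK K) H, by
    refine (OK_norm_sub_le _ _).trans (max_le (by simp only [norm_neg, AddSubgroupClass.coe_norm, Std.le_refl]) ?_)
    rw [OK_norm_mul, OK_norm_mul]
    calc ‖(b : OK K)‖ * ‖a.val‖ * ‖ev (![⟨b, hlt b⟩, a] : Fin 2 → MK K) H‖
        ≤ 1 * ‖a.val‖ * 1 := by
          gcongr
          · exact norm_le_one _
          · exact norm_le_one _
      _ = ‖a.val‖ := by ring⟩
  have hT : ContractingWith ‖a.val‖₊ T := by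
    refine ⟨?_, ?_⟩
    · rw [← NNReal.coe_lt_coe, coe_nnnorm]
      exact a.norm_val_lt
    · refine LipschitzWith.of_dist_le_mul fun b c => ?_
      have d1 : dist (T b) (T c) = ‖((T b : s) : OK K) - (T c : s)‖ :=
        dist_eq_norm ((T b : s) : OK K) (T c : s)
      have d2 : dist b c = ‖(b : OK K) - c‖ := dist_eq_norm (b : OK K) c
      rw [d1, d2, coe_nnnorm]
      change ‖(-a.val - b * a.val * ev (![⟨b, hlt b⟩, a] : Fin 2 → MK K) H) -
        (-a.val - c * a.val * ev (![⟨c, hlt c⟩, a] : Fin 2 → MK K) H)‖ ≤ ‖a.val‖ * ‖(b : OK K) - c‖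
      have e : (-a.val - b * a.val * ev (![⟨b, hlt b⟩, a] : Fin 2 → MK K) H) -
        (-a.val - c * a.val * ev (![⟨c, hlt c⟩, a] : Fin 2 → MK K) H) =
        a.val * (ev (![⟨c, hlt c⟩, a] : Fin 2 → MK K) (X 0 * H) -
          ev (![⟨b, hlt b⟩, a] : Fin 2 → MK K) (X 0 * H)) := by
        simp only [map_mul, ev_X, Matrix.cons_val_zero]
        ring
      rw [e, OK_norm_mul]
      gcongr
      rw [norm_sub_rev]
      refine norm_ev_sub_le _ _ _ _ (norm_nonneg _) ?_
      intro i
      fin_cases i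
      · exact le_rfl
      · change ‖(a.val : OK K) - a.val‖ ≤ _
        simp only [sub_self, norm_zero, AddSubgroupClass.coe_norm, AddSubgroupClass.coe_sub, norm_nonneg]
  have : CompleteSpace s := hs.completeSpace_coe
  have : Nonempty s := ⟨⟨0, by simp only [AddSubgroupClass.coe_norm, Set.mem_ofPred_eq, ZeroMemClass.coe_zero, norm_zero, norm_nonneg, s]⟩⟩
  obtain ⟨b, hb⟩ : ∃ b : s, T b = b := ⟨_, hT.fixedPoint_isFixedPt⟩
  refine ⟨mk F b (hlt b), ext ?_⟩
  rw [val_add, ev_FG_eq hH]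
  have hb' := congrArg (fun x : s => (x : OK K)) hb
  change -a.val - b * a.val * ev (![⟨b, hlt b⟩, a] : Fin 2 → MK K) H = b at hb'
  change (b : OK K) + a.val + b * a.val * ev (![⟨b, hlt b⟩, a] : Fin 2 → MK K) H = 0
  linear_combination -hb'

theorem exists_neg [F.IsComm] (a : FPt F) : ∃ b : FPt F, b + a = 0 := exists_neg' a

noncomputable instance [F.IsComm] : Neg (FPt F) := ⟨fun a => (exists_neg a).choose⟩

theorem zero_add' (a : FPt F) : 0 + a = a := by
  obtain ⟨H, hH⟩ := exists_FG_decomp F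
  apply ext
  rw [val_add, ev_FG_eq hH]
  change (0 : OK K) + a.val + 0 * a.val * _ = a.val
  ring

theorem add_zero' (a : FPt F) : a + 0 = a := by
  obtain ⟨H, hH⟩ := exists_FG_decomp F
  apply ext
  rw [val_add, ev_FG_eq hH]
  change a.val + 0 + a.val * 0 * _ = a.val
  ring

omit [CompleteSpace K] in
theorem constantCoeff_subst_FG {τ : Type*} [Finite τ] (F : FormalGroup (OK K))
    (g : Fin 2 → MvPowerSeries τ (OK K)) (hg : ∀ i, constantCoeff (g i) = 0) :
    constantCoeff (subst g F.toPowerSeries) = 0 := by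
  rw [constantCoeff_subst_eq_zero (hasSubst_of_constantCoeff_zero hg) hg F.zero_constantCoeff]

/-- the value of `F(g₀, g₁)` is the sum of the values. -/
theorem ev_subst_FG {τ : Type*} [Finite τ] (x : τ → MK K)
    (g : Fin 2 → MvPowerSeries τ (OK K)) (hg : ∀ i, constantCoeff (g i) = 0) (a b : FPt F)
    (ha : a.val = ev x (g 0)) (hb : b.val = ev x (g 1)) :
    (a + b).val = ev x (subst g F.toPowerSeries) := by
  rw [val_add]
  refine (ev_subst x F.toPowerSeries g hg (![a, b] : Fin 2 → MK K) ?_).symm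
  intro i
  fin_cases i
  · exact ha
  · exact hb

theorem add_assoc' (a b c : FPt F) : a + b + c = a + (b + c) := by
  apply ext
  have h := congrArg (ev (![a, b, c] : Fin 3 → MK K)) F.assoc
  have hX : ∀ i : Fin 3, constantCoeff (X i : MvPowerSeries (Fin 3) (OK K)) = 0 := by
    intro i; simp
  have hab : (a + b).val = ev (![a, b, c] : Fin 3 → MK K)
      (subst ![(X 0 : MvPowerSeries (Fin 3) (OK K)), X 1] F.toPowerSeries) :=
    ev_subst_FG _ _ (by intro i; fin_cases i <;> simp) a b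
      ((ev_X (![a, b, c] : Fin 3 → MK K) 0).symm) ((ev_X (![a, b, c] : Fin 3 → MK K) 1).symm)
  have hbc : (b + c).val = ev (![a, b, c] : Fin 3 → MK K)
      (subst ![(X 1 : MvPowerSeries (Fin 3) (OK K)), X 2] F.toPowerSeries) :=
    ev_subst_FG _ _ (by intro i; fin_cases i <;> simp) b c
      ((ev_X (![a, b, c] : Fin 3 → MK K) 1).symm) ((ev_X (![a, b, c] : Fin 3 → MK K) 2).symm)
  have h1 : (a + b + c).val = ev (![a, b, c] : Fin 3 → MK K)
      (subst ![subst ![(X 0 : MvPowerSeries (Fin 3) (OK K)), X 1] F.toPowerSeries, X 2]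
        F.toPowerSeries) :=
    ev_subst_FG _ _ (by
      intro i
      fin_cases i
      · exact constantCoeff_subst_FG F _ (by intro i; fin_cases i <;> simp)
      · exact hX 2) (a + b) c hab
      ((ev_X (![a, b, c] : Fin 3 → MK K) 2).symm)
  have h2 : (a + (b + c)).val = ev (![a, b, c] : Fin 3 → MK K)
      (subst ![(X 0 : MvPowerSeries (Fin 3) (OK K)),
        subst ![(X 1 : MvPowerSeries (Fin 3) (OK K)), X 2] F.toPowerSeries]
        F.toPowerSeries) :=
    ev_subst_FG _ _ (by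
      intro i
      fin_cases i
      · exact hX 0
      · exact constantCoeff_subst_FG F _ (by intro i; fin_cases i <;> simp)) a (b + c)
      ((ev_X (![a, b, c] : Fin 3 → MK K) 0).symm) hbc
  rw [h1, h2]
  exact h

theorem add_comm' [F.IsComm] (a b : FPt F) : a + b = b + a := by
  apply ext
  have h := congrArg (ev (![a, b] : Fin 2 → MK K)) (FormalGroup.IsComm.comm (F := F))
  have h1 : (b + a).val = ev (![a, b] : Fin 2 → MK K)
      (subst ![(X 1 : MvPowerSeries (Fin 2) (OK K)), X 0] F.toPowerSeries) :=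
    ev_subst_FG _ _ (by intro i; fin_cases i <;> simp) b a
      ((ev_X (![a, b] : Fin 2 → MK K) 1).symm) ((ev_X (![a, b] : Fin 2 → MK K) 0).symm)
  rw [h1]
  exact h

noncomputable instance [F.IsComm] : AddCommGroup (FPt F) where
  add_assoc := add_assoc'
  zero_add := zero_add'
  add_zero := add_zero'
  nsmul := nsmulRec
  zsmul := zsmulRec
  neg_add_cancel := fun a => (exists_neg a).choose_spec
  add_comm := add_comm'

/-- `a + b` (formal group sum) is `a + b` up to terms of higher order. -/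
theorem norm_val_add_sub_le (a b : FPt F) :
    ‖(a + b).val - (a.val + b.val)‖ ≤ ‖a.val‖ * ‖b.val‖ := by
  obtain ⟨H, hH⟩ := exists_FG_decomp F
  rw [val_add, ev_FG_eq hH]
  change ‖a.val + b.val + a.val * b.val * ev (![a, b] : Fin 2 → MK K) H - (a.val + b.val)‖ ≤ _
  rw [add_sub_cancel_left, OK_norm_mul, OK_norm_mul]
  exact mul_le_of_le_one_right (by (clear H hH; positivity)) (norm_le_one _)

theorem norm_val_add_le (a b : FPt F) : ‖(a + b).val‖ ≤ max ‖a.val‖ ‖b.val‖ :=
  norm_ev_FG_le F _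

/-- `‖c +_F b - b‖ = ‖c‖`. -/
theorem norm_val_add_sub_right (c b : FPt F) : ‖(c + b).val - b.val‖ = ‖c.val‖ := by
  obtain ⟨H, hH⟩ := exists_FG_decomp F
  rw [val_add, ev_FG_eq hH]
  change ‖c.val + b.val + c.val * b.val * ev (![c, b] : Fin 2 → MK K) H - b.val‖ = _
  rw [show c.val + b.val + c.val * b.val * ev (![c, b] : Fin 2 → MK K) H - b.val =
    c.val * (1 + b.val * ev (![c, b] : Fin 2 → MK K) H) by ring, OK_norm_mul]
  have h1 : ‖b.val * ev (![c, b] : Fin 2 → MK K) H‖ < 1 := by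
    rw [OK_norm_mul]
    exact mul_lt_one_of_nonneg_of_lt_one_left (norm_nonneg _) b.norm_val_lt (norm_le_one _)
  have h2 : ‖(1 : OK K) + b.val * ev (![c, b] : Fin 2 → MK K) H‖ = 1 := by
    have h3 := IsUltrametricDist.norm_add_eq_max_of_norm_ne_norm (x := (1 : K))
      (y := ((b.val * ev (![c, b] : Fin 2 → MK K) H : OK K) : K)) (by
        rw [norm_one]; exact h1.ne')
    have h4 : ‖(1 : K)‖ = 1 := norm_one
    rw [h4, max_eq_left (show ‖((b.val * ev (![c, b] : Fin 2 → MK K) H : OK K) : K)‖ ≤ 1 from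
      h1.le)] at h3
    exact h3
  rw [h2, mul_one]

theorem norm_val_sub [F.IsComm] (a b : FPt F) : ‖(a - b).val‖ = ‖a.val - b.val‖ := by
  rw [← norm_val_add_sub_right (a - b) b, sub_add_cancel]

theorem norm_val_neg [F.IsComm] (a : FPt F) : ‖(-a).val‖ = ‖a.val‖ := by
  have := norm_val_sub 0 a
  rwa [zero_sub, val_zero, zero_sub, norm_neg] at this

/-- `a - b` in the formal group is `(a - b)` times a unit congruent to `1`. -/
theorem norm_val_sub_sub_le [F.IsComm] (a b : FPt F) :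
    ‖(a - b).val - (a.val - b.val)‖ ≤ ‖a.val - b.val‖ * max ‖a.val‖ ‖b.val‖ := by
  have h := norm_val_add_sub_le (a - b) b
  rw [sub_add_cancel, norm_val_sub, ← sub_sub, sub_right_comm, ← norm_neg, neg_sub] at h
  exact h.trans (mul_le_mul_of_nonneg_left (le_max_right _ _) (norm_nonneg _))

/-- the norm of the multiples. -/
theorem norm_val_nsmul_le [F.IsComm] (m : ℕ) (a : FPt F) : ‖(m • a).val‖ ≤ ‖a.val‖ := by
  induction m with
  | zero => rw [zero_nsmul, val_zero]; simp only [norm_zero, AddSubgroupClass.coe_norm, norm_nonneg]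
  | succ m ih =>
    rw [succ_nsmul]
    exact (norm_val_add_le _ _).trans (max_le ih le_rfl)

theorem norm_val_zsmul_le [F.IsComm] (m : ℤ) (a : FPt F) : ‖(m • a).val‖ ≤ ‖a.val‖ := by
  cases m with
  | ofNat m => rw [Int.ofNat_eq_natCast, natCast_zsmul]; exact norm_val_nsmul_le m a
  | negSucc m => rw [negSucc_zsmul, norm_val_neg]; exact norm_val_nsmul_le _ a

theorem multSeries_succ {R : Type*} [CommRing R] (F : FormalGroup R) (m : ℕ) :
    multSeries F (m + 1) =
      MvPowerSeries.subst ![multSeries F m, PowerSeries.X] F.toPowerSeries := by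
  rw [multSeries, Function.iterate_succ_apply']
  rfl

theorem constantCoeff_multSeries {R : Type*} [CommRing R] (F : FormalGroup R) (m : ℕ) :
    PowerSeries.constantCoeff (multSeries F m) = 0 := by
  induction m with
  | zero => simp [multSeries]
  | succ m ih =>
    rw [multSeries_succ, PowerSeries.constantCoeff, constantCoeff_subst_eq_zero]
    · refine hasSubst_of_constantCoeff_zero fun i => ?_
      fin_cases i
      · exact ih
      · exact PowerSeries.constantCoeff_X
    · intro i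
      fin_cases i
      · exact ih
      · exact PowerSeries.constantCoeff_X
    · exact F.zero_constantCoeff

/-- `m • a` is the value of the series `[m]_F` at `a`. -/
theorem val_nsmul [F.IsComm] (m : ℕ) (a : FPt F) :
    (m • a).val = ev (fun _ : Unit => (a : MK K)) (multSeries F m) := by
  induction m with
  | zero => rw [zero_nsmul, val_zero]; simp [multSeries]
  | succ m ih =>
    rw [succ_nsmul, multSeries_succ]
    refine ev_subst_FG _ _ ?_ (m • a) a ih ((ev_X (fun _ : Unit => (a : MK K)) ()).symm)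
    intro i
    fin_cases i
    · exact constantCoeff_multSeries F m
    · exact PowerSeries.constantCoeff_X

/-- A homomorphism of formal group laws induces a homomorphism on points. -/
noncomputable def mapHom {F G : FormalGroup (OK K)} [F.IsComm] [G.IsComm] (f : PowerSeries (OK K))
    (hf : IsHom F G f) : FPt F →+ FPt G where
  toFun a := mk G (ev (fun _ : Unit => (a : MK K)) f) ((norm_ev_le_of_constantCoeff _ _ _
    (norm_nonneg a.val) hf.1 (fun _ => le_rfl)).trans_lt a.norm_val_lt)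
  map_zero' := by
    apply ext
    have h := norm_ev_le_of_constantCoeff (fun _ : Unit => ((0 : FPt F) : MK K)) f 0 le_rfl hf.1
      (fun _ => by
        change ‖(0 : OK K)‖ ≤ 0
        simp)
    exact norm_le_zero_iff.mp h
  map_add' := by
    intro a b
    apply ext
    have h := congrArg (ev (![a, b] : Fin 2 → MK K)) hf.2
    have hX : ∀ i : Fin 2, ∀ _ : Unit,
        constantCoeff (X i : MvPowerSeries (Fin 2) (OK K)) = 0 := by
      intro i _; simp
    have e1 : ev (![a, b] : Fin 2 → MK K)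
        (PowerSeries.subst F.toPowerSeries f : MvPowerSeries (Fin 2) (OK K)) =
        ev (fun _ : Unit => ((a + b : FPt F) : MK K)) f :=
      ev_subst (![a, b] : Fin 2 → MK K) f (fun _ => F.toPowerSeries)
        (fun _ => F.zero_constantCoeff) (fun _ : Unit => ((a + b : FPt F) : MK K))
        (fun _ => val_add a b)
    have e2 : ev (![a, b] : Fin 2 → MK K)
        (PowerSeries.subst (X 0 : MvPowerSeries (Fin 2) (OK K)) f : MvPowerSeries (Fin 2) (OK K)) =
        ev (fun _ : Unit => (a : MK K)) f :=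
      ev_subst (![a, b] : Fin 2 → MK K) f (fun _ => X 0) (hX 0) (fun _ : Unit => (a : MK K))
        (fun _ => (ev_X (![a, b] : Fin 2 → MK K) 0).symm)
    have e3 : ev (![a, b] : Fin 2 → MK K)
        (PowerSeries.subst (X 1 : MvPowerSeries (Fin 2) (OK K)) f : MvPowerSeries (Fin 2) (OK K)) =
        ev (fun _ : Unit => (b : MK K)) f :=
      ev_subst (![a, b] : Fin 2 → MK K) f (fun _ => X 1) (hX 1) (fun _ : Unit => (b : MK K))
        (fun _ => (ev_X (![a, b] : Fin 2 → MK K) 1).symm)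
    rw [e1] at h
    refine h.trans (ev_subst_FG (![a, b] : Fin 2 → MK K)
      ![(PowerSeries.subst (X 0 : MvPowerSeries (Fin 2) (OK K)) f : MvPowerSeries (Fin 2) (OK K)),
        (PowerSeries.subst (X 1 : MvPowerSeries (Fin 2) (OK K)) f : MvPowerSeries (Fin 2) (OK K))]
      ?_ (mk G (ev (fun _ : Unit => (a : MK K)) f) _) (mk G (ev (fun _ : Unit => (b : MK K)) f) _)
      e2.symm e3.symm).symm
    intro i
    fin_cases i
    · exact constantCoeff_subst_eq_zero (hasSubst_of_constantCoeff_zero (hX 0)) (hX 0) hf.1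
    · exact constantCoeff_subst_eq_zero (hasSubst_of_constantCoeff_zero (hX 1)) (hX 1) hf.1

end FPt

end Points

end Vale.Agent.P217
end
end

section

section

/-!
# P217: the local context `LocalFG`, the map `E`
-/

namespace Vale.Agent.P217

open MvPowerSeries Filter Topology

variable {K : Type*} [NontriviallyNormedField K] [IsUltrametricDist K] [CompleteSpace K]

/-- A formal group law `F` over `OK K`, close to `Γ` (where `[p]_Γ(X) = X^(p^n)`), with
`[p]_F(X) = V(X^(p^h))`, `V ≡ X^(p^(n-h))` modulo elements of norm `≤ r < 1`, and `V'(0) ≠ 0`. -/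
structure LocalFG (p n h : ℕ) (Γ : FormalGroup (OK K)) where
  one_le_h : 1 ≤ h
  h_lt_n : h < n
  Γcomm : Γ.IsComm
  Γseries : multSeries Γ p = PowerSeries.X ^ (p ^ n)
  F : FormalGroup (OK K)
  comm : F.IsComm
  r : ℝ
  r_nonneg : 0 ≤ r
  r_lt_one : r < 1
  close : ∀ d, ‖coeff d F.toPowerSeries - coeff d Γ.toPowerSeries‖ ≤ r
  V : PowerSeries (OK K)
  V_zero : PowerSeries.constantCoeff V = 0
  series : multSeries F p = PowerSeries.subst (PowerSeries.X ^ (p ^ h) : PowerSeries (OK K)) V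
  V_close : ∀ j, ‖PowerSeries.coeff j V - if j = p ^ (n - h) then 1 else 0‖ ≤ r
  V_one : PowerSeries.coeff 1 V ≠ 0

attribute [instance] LocalFG.comm

section Perfect

variable {p : ℕ} [Fact p.Prime] [CharP K p] [IsAlgClosed K]

omit [CompleteSpace K] [IsAlgClosed K] in
theorem OK_injective_pow (N : ℕ) : Function.Injective fun x : OK K => x ^ (p ^ N) := by
  intro x y hxy
  have h1 : (x - y) ^ (p ^ N) = 0 := by
    rw [sub_pow_char_pow]
    exact sub_eq_zero.2 hxy
  exact sub_eq_zero.1 (pow_eq_zero_iff (pow_ne_zero _ (Fact.out : p.Prime).ne_zero) |>.1 h1)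

omit [CompleteSpace K] in
instance : PerfectRing (OK K) p := by
  have hp : p ≠ 0 := (Fact.out : p.Prime).ne_zero
  refine ⟨?_, ?_⟩
  · have := OK_injective_pow (K := K) (p := p) 1
    simpa using this
  · intro a
    obtain ⟨z, hz⟩ := IsAlgClosed.exists_pow_nat_eq (a : K) (Nat.pos_of_ne_zero hp)
    have hz1 : ‖z‖ ≤ 1 := by
      have h1 : ‖z‖ ^ p ≤ 1 := by
        rw [← norm_pow, hz]
        exact a.2
      exact (pow_le_one_iff_of_nonneg (norm_nonneg _) hp).1 h1
    exact ⟨⟨z, hz1⟩, Subtype.ext hz⟩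

/-- the `p^j`-th root in `OK K` (a ring automorphism). -/
noncomputable def rt (p : ℕ) [Fact p.Prime] [CharP K p] (j : ℕ) : OK K ≃+* OK K :=
  (iterateFrobeniusEquiv (OK K) p j).symm

omit [CompleteSpace K] in
theorem rt_pow (j : ℕ) (a : OK K) : (rt p j a) ^ (p ^ j) = a := by
  rw [rt, ← iterateFrobeniusEquiv_def, RingEquiv.apply_symm_apply]

omit [CompleteSpace K] in
theorem rt_of_pow (j : ℕ) (a : OK K) : rt p j (a ^ (p ^ j)) = a := by
  rw [rt, ← iterateFrobeniusEquiv_def, RingEquiv.symm_apply_apply]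

omit [CompleteSpace K] in
theorem norm_rt_pow (j : ℕ) (a : OK K) : ‖rt p j a‖ ^ (p ^ j) = ‖a‖ := by
  rw [← OK_norm_pow, rt_pow]

omit [CompleteSpace K] in
theorem norm_rt_lt (j : ℕ) (a : OK K) (ha : ‖a‖ < 1) : ‖rt p j a‖ < 1 := by
  rw [← norm_rt_pow (p := p) j a] at ha
  exact (pow_lt_one_iff_of_nonneg (norm_nonneg _)
    (pow_ne_zero _ (Fact.out : p.Prime).ne_zero)).1 ha

/-- first order expansion of a univariate power series. -/
theorem norm_ev_sub_coeff_one_le {L : Type*} [NontriviallyNormedField L] [IsUltrametricDist L]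
    [CompleteSpace L] (b : MK L) (f : PowerSeries (OK L))
    (h0 : PowerSeries.constantCoeff f = 0) :
    ‖ev (fun _ : Unit => b) f - PowerSeries.coeff 1 f * (b : OK L)‖ ≤ ‖(b : OK L)‖ ^ 2 := by
  have h1 : (PowerSeries.X : PowerSeries (OK L)) ^ 2 ∣
      f - PowerSeries.C (PowerSeries.coeff 1 f) * PowerSeries.X := by
    rw [PowerSeries.X_pow_dvd_iff]
    intro m hm
    interval_cases m
    · simp only [PowerSeries.coeff_zero_eq_constantCoeff, map_sub, h0, map_mul, PowerSeries.constantCoeff_C, PowerSeries.constantCoeff_X, mul_zero, sub_self]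
    · simp only [map_sub, PowerSeries.coeff_succ_mul_X, PowerSeries.coeff_zero_C, sub_self]
  obtain ⟨g, hg⟩ := h1
  have h2 : f = PowerSeries.X ^ 2 * g + PowerSeries.C (PowerSeries.coeff 1 f) * PowerSeries.X := by
    rw [← hg]; ring
  have hX : ev (fun _ : Unit => b) (PowerSeries.X : PowerSeries (OK L)) = (b : OK L) := ev_X _ _
  have hC : ev (fun _ : Unit => b) (PowerSeries.C (PowerSeries.coeff 1 f) : PowerSeries (OK L)) =
      PowerSeries.coeff 1 f := ev_C _ _
  have h3 : ev (fun _ : Unit => b) f = (b : OK L) ^ 2 * ev (fun _ : Unit => b) g +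
      PowerSeries.coeff 1 f * (b : OK L) := by
    conv_lhs => rw [h2]
    rw [map_add, map_mul, map_mul, map_pow, hX, hC]
  rw [h3, add_sub_cancel_right, OK_norm_mul, OK_norm_pow]
  exact mul_le_of_le_one_right (by (clear f h0 g hg h2 hX hC h3; positivity)) (norm_le_one _)

variable {n h : ℕ} {Γ : FormalGroup (OK K)}

/-- division by `p^N` on the points of `Γ`: the `p^(n N)`-th root. -/
noncomputable def divp (p n : ℕ) [Fact p.Prime] [CharP K p] {Γ : FormalGroup (OK K)} (N : ℕ)
    (Y : FPt Γ) : FPt Γ :=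
  FPt.mk Γ (rt p (n * N) Y.val) (norm_rt_lt _ _ Y.norm_val_lt)

namespace LocalFG

variable (D : LocalFG p n h Γ)

/-- `p^N • Y = Y^(p^(n N))` on points of `Γ`. -/
theorem val_pow_smul (D : LocalFG p n h Γ) [Γ.IsComm] (N : ℕ) (Y : FPt Γ) :
    (p ^ N • Y).val = Y.val ^ (p ^ (n * N)) := by
  induction N with
  | zero => simp
  | succ N ih =>
    have h1 : p ^ (N + 1) • Y = p • (p ^ N • Y) := by rw [smul_smul, pow_succ']
    rw [h1, FPt.val_nsmul, D.Γseries]
    have h2 : ev (fun _ : Unit => ((p ^ N • Y : FPt Γ) : MK K))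
        (PowerSeries.X ^ (p ^ n) : PowerSeries (OK K)) = ((p ^ N • Y : FPt Γ)).val ^ (p ^ n) := by
      rw [map_pow]
      congr 1
      exact ev_X _ _
    rw [h2, ih, ← pow_mul, ← pow_add, Nat.mul_succ]

theorem pow_smul_divp (D : LocalFG p n h Γ) [Γ.IsComm] (N : ℕ) (Y : FPt Γ) :
    p ^ N • divp p n N Y = Y := by
  apply FPt.ext
  rw [D.val_pow_smul]
  exact rt_pow _ _

/-- On points of `F`: `p • a = V(a^Q)`. -/
theorem val_p_smul (a : FPt D.F) (b : MK K) (hb : (b : OK K) = a.val ^ (p ^ h)) :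
    (p • a).val = ev (fun _ : Unit => b) D.V := by
  rw [FPt.val_nsmul, D.series, PowerSeries.subst_def]
  have hp : p ^ h ≠ 0 := pow_ne_zero _ (Fact.out : p.Prime).ne_zero
  apply ev_subst
  · intro _
    have : MvPowerSeries.constantCoeff (PowerSeries.X ^ (p ^ h) : PowerSeries (OK K)) = 0 := by
      rw [map_pow]
      have : MvPowerSeries.constantCoeff (PowerSeries.X : PowerSeries (OK K)) = 0 :=
        MvPowerSeries.constantCoeff_X _
      rw [this, zero_pow hp]
    exact this
  · intro _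
    have : ev (fun _ : Unit => (a : MK K)) (PowerSeries.X : PowerSeries (OK K)) = a.val :=
      ev_X _ _
    rw [hb, map_pow, this]

theorem norm_pow_lt (a : FPt D.F) : ‖a.val ^ (p ^ h)‖ < 1 := by
  rw [OK_norm_pow]
  exact pow_lt_one₀ (norm_nonneg _) a.norm_val_lt
    (pow_ne_zero _ (Fact.out : p.Prime).ne_zero)

/-- contraction property of multiplication by `p`. -/
theorem norm_p_smul_sub_le (a b : FPt D.F) :
    ‖(p • a).val - (p • b).val‖ ≤ ‖a.val - b.val‖ ^ (p ^ h) := by
  rw [D.val_p_smul a ⟨_, D.norm_pow_lt a⟩ rfl, D.val_p_smul b ⟨_, D.norm_pow_lt b⟩ rfl]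
  apply norm_ev_sub_le _ _ _ _ (by positivity)
  intro _
  show ‖a.val ^ (p ^ h) - b.val ^ (p ^ h)‖ ≤ _
  rw [← sub_pow_char_pow, OK_norm_pow]

theorem norm_pow_smul_sub_le (N : ℕ) (a b : FPt D.F) :
    ‖(p ^ N • a).val - (p ^ N • b).val‖ ≤ ‖a.val - b.val‖ ^ (p ^ (h * N)) := by
  induction N with
  | zero => simp only [pow_zero, one_smul, AddSubgroupClass.coe_norm, AddSubgroupClass.coe_sub, mul_zero, pow_one, Std.le_refl]
  | succ N ih =>
    have h1 : ∀ c : FPt D.F, p ^ (N + 1) • c = p • (p ^ N • c) := by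
      intro c; rw [smul_smul, pow_succ']
    rw [h1, h1]
    refine (D.norm_p_smul_sub_le _ _).trans ?_
    refine (pow_le_pow_left₀ (norm_nonneg _) ih _).trans ?_
    rw [← pow_mul, ← pow_add, Nat.mul_succ]

/-- `p • a = V'(0) a^Q` up to `‖a‖^(2Q)`. -/
theorem norm_p_smul_sub_V_one_le (a : FPt D.F) :
    ‖(p • a).val - PowerSeries.coeff 1 D.V * a.val ^ (p ^ h)‖ ≤ ‖a.val‖ ^ (2 * p ^ h) := by
  rw [D.val_p_smul a ⟨_, D.norm_pow_lt a⟩ rfl]
  refine (norm_ev_sub_coeff_one_le ⟨_, D.norm_pow_lt a⟩ D.V D.V_zero).trans ?_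
  show ‖a.val ^ (p ^ h)‖ ^ 2 ≤ _
  rw [OK_norm_pow, ← pow_mul, mul_comm]

theorem norm_p_smul_sub_pow_le (a : FPt D.F) :
    ‖(p • a).val - a.val ^ (p ^ n)‖ ≤ D.r := by
  rw [D.val_p_smul a ⟨_, D.norm_pow_lt a⟩ rfl]
  have h1 : a.val ^ (p ^ n) = ev (fun _ : Unit => (⟨_, D.norm_pow_lt a⟩ : MK K))
      (PowerSeries.X ^ (p ^ (n - h)) : PowerSeries (OK K)) := by
    rw [map_pow]
    have : ev (fun _ : Unit => (⟨_, D.norm_pow_lt a⟩ : MK K))
        (PowerSeries.X : PowerSeries (OK K)) = a.val ^ (p ^ h) := ev_X _ _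
    rw [this, ← pow_mul, ← pow_add, Nat.add_sub_cancel' D.h_lt_n.le]
  rw [h1]
  apply norm_ev_sub_le' _ _ _ _ D.r_nonneg
  intro d
  have h2 := D.V_close (d ())
  have h3 : ∀ f : PowerSeries (OK K), MvPowerSeries.coeff d f = PowerSeries.coeff (d ()) f := by
    intro f
    rw [PowerSeries.coeff]
    congr 1
    rw [← Finsupp.unique_single]
  rw [h3, h3, PowerSeries.coeff_X_pow]
  exact h2

include D in
omit [CompleteSpace K] [CharP K p] [IsAlgClosed K] in
theorem pow_le_geom {ρ : ℝ} (h0 : 0 ≤ ρ) (h1 : ρ ≤ 1) (N : ℕ) :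
    ρ ^ (p ^ (h * N)) ≤ ρ ^ N := by
  apply pow_le_pow_of_le_one h0 h1
  calc N ≤ 2 ^ N := Nat.lt_two_pow_self.le
    _ ≤ p ^ N := Nat.pow_le_pow_left (Fact.out : p.Prime).two_le _
    _ ≤ p ^ (h * N) := Nat.pow_le_pow_right (Fact.out : p.Prime).pos
        (Nat.le_mul_of_pos_left _ D.one_le_h)

omit [CompleteSpace K] [CharP K p] [IsAlgClosed K] in
theorem r_pow_anti {M N : ℕ} (h1 : N ≤ M) : D.r ^ (p ^ (h * M)) ≤ D.r ^ (p ^ (h * N)) :=
  pow_le_pow_of_le_one D.r_nonneg D.r_lt_one.le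
    (Nat.pow_le_pow_right (Fact.out : p.Prime).pos (Nat.mul_le_mul_left _ h1))

include D in
omit [CompleteSpace K] [CharP K p] [IsAlgClosed K] in
theorem tendsto_pow_geom {ρ : ℝ} (h0 : 0 ≤ ρ) (h1 : ρ < 1) :
    Tendsto (fun N : ℕ => ρ ^ (p ^ (h * N))) atTop (𝓝 0) :=
  squeeze_zero (fun _ => pow_nonneg h0 _) (fun N => D.pow_le_geom h0 h1.le N)
    (tendsto_pow_atTop_nhds_zero_of_lt_one h0 h1)

/-- The approximations `[p^N]_F (Y^(1/q^N))`. -/
noncomputable def Eseq (Y : FPt Γ) (N : ℕ) : FPt D.F :=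
  p ^ N • FPt.mk D.F (divp p n N Y).val (divp p n N Y).norm_val_lt

/-- The value of `E(Y) = lim [p^N]_F (Y^(1/q^N))`. -/
noncomputable def Eval (Y : FPt Γ) : OK K :=
  limUnder atTop (fun N => (D.Eseq Y N).val)

omit [CompleteSpace K] in
theorem rt_add (a b : ℕ) (x : OK K) : (rt p (a + b) x) ^ (p ^ b) = rt p a x := by
  apply OK_injective_pow (K := K) (p := p) a
  show ((rt p (a + b) x) ^ (p ^ b)) ^ (p ^ a) = (rt p a x) ^ (p ^ a)
  rw [rt_pow, ← pow_mul, ← pow_add, add_comm b a, rt_pow]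

theorem norm_Eseq_succ_sub_le (Y : FPt Γ) (N : ℕ) :
    ‖(D.Eseq Y (N + 1)).val - (D.Eseq Y N).val‖ ≤ D.r ^ (p ^ (h * N)) := by
  unfold LocalFG.Eseq
  rw [pow_succ, mul_smul]
  refine (D.norm_pow_smul_sub_le N _ _).trans ?_
  apply pow_le_pow_left₀ (norm_nonneg _)
  have h1 : (FPt.mk D.F (divp p n N Y).val (divp p n N Y).norm_val_lt).val =
      (FPt.mk D.F (divp p n (N + 1) Y).val (divp p n (N + 1) Y).norm_val_lt).val ^ (p ^ n) := by
    show rt p (n * N) Y.val = (rt p (n * (N + 1)) Y.val) ^ (p ^ n)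
    rw [Nat.mul_succ, rt_add]
  rw [h1]
  exact D.norm_p_smul_sub_pow_le _

theorem tendsto_Eseq (Y : FPt Γ) :
    Tendsto (fun N => (D.Eseq Y N).val) atTop (𝓝 (D.Eval Y)) := by
  have hC : CauchySeq (fun N => (D.Eseq Y N).val) := by
    apply cauchySeq_of_le_geometric D.r 1 D.r_lt_one
    intro N
    rw [dist_comm, dist_eq_norm, one_mul]
    exact (D.norm_Eseq_succ_sub_le Y N).trans (D.pow_le_geom D.r_nonneg D.r_lt_one.le N)
  exact hC.tendsto_limUnder

theorem norm_Eseq_add_sub_Eseq_le (Y : FPt Γ) (N k : ℕ) :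
    ‖(D.Eseq Y (N + k)).val - (D.Eseq Y N).val‖ ≤ D.r ^ (p ^ (h * N)) := by
  induction k with
  | zero => simpa only [add_zero, sub_self, norm_zero] using pow_nonneg D.r_nonneg _
  | succ k ih =>
    have h1 : (D.Eseq Y (N + (k + 1))).val - (D.Eseq Y N).val =
        ((D.Eseq Y (N + k + 1)).val - (D.Eseq Y (N + k)).val) +
          ((D.Eseq Y (N + k)).val - (D.Eseq Y N).val) := by
      rw [← add_assoc]; ring
    rw [h1]
    exact (OK_norm_add_le _ _).trans (max_le
      ((D.norm_Eseq_succ_sub_le Y (N + k)).trans (D.r_pow_anti (Nat.le_add_right _ _))) ih)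

theorem norm_Eval_sub_Eseq_le (Y : FPt Γ) (N : ℕ) :
    ‖D.Eval Y - (D.Eseq Y N).val‖ ≤ D.r ^ (p ^ (h * N)) := by
  have h1 : Tendsto (fun M => ‖(D.Eseq Y M).val - (D.Eseq Y N).val‖) atTop
      (𝓝 ‖D.Eval Y - (D.Eseq Y N).val‖) := ((D.tendsto_Eseq Y).sub_const _).norm
  refine le_of_tendsto h1 ?_
  filter_upwards [eventually_ge_atTop N] with M hM
  obtain ⟨k, rfl⟩ := Nat.exists_eq_add_of_le hM
  exact D.norm_Eseq_add_sub_Eseq_le Y N k

theorem norm_Eval_sub_le (Y : FPt Γ) : ‖D.Eval Y - Y.val‖ ≤ D.r := by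
  have h1 := D.norm_Eval_sub_Eseq_le Y 0
  have h2 : (D.Eseq Y 0).val = Y.val := by
    unfold LocalFG.Eseq
    rw [pow_zero, one_smul]
    show rt p (n * 0) Y.val = Y.val
    have := rt_pow (p := p) (n * 0) Y.val
    simpa using this
  rw [h2] at h1
  simpa only [AddSubgroupClass.coe_norm, AddSubgroupClass.coe_sub, ge_iff_le, mul_zero, pow_zero, pow_one] using     h1

theorem norm_Eval_lt (Y : FPt Γ) : ‖D.Eval Y‖ < 1 := by
  have h1 : D.Eval Y = (D.Eval Y - Y.val) + Y.val := by ring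
  rw [h1]
  exact (OK_norm_add_le _ _).trans_lt
    (max_lt ((D.norm_Eval_sub_le Y).trans_lt D.r_lt_one) Y.norm_val_lt)

/-- division by `p^N` is additive on `Γ`. -/
theorem divp_add (D : LocalFG p n h Γ) [Γ.IsComm] (N : ℕ) (Y Z : FPt Γ) :
    divp p n N (Y + Z) = divp p n N Y + divp p n N Z := by
  have h1 : p ^ N • divp p n N (Y + Z) = p ^ N • (divp p n N Y + divp p n N Z) := by
    rw [D.pow_smul_divp, smul_add, D.pow_smul_divp, D.pow_smul_divp]
  have h2 := congrArg FPt.val h1
  rw [D.val_pow_smul, D.val_pow_smul] at h2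
  exact FPt.ext (OK_injective_pow (K := K) (p := p) _ h2)

omit [Fact p.Prime] [CharP K p] [IsAlgClosed K] in
theorem norm_add_sub_le (Y Z : FPt Γ) :
    ‖(FPt.mk D.F Y.val Y.norm_val_lt + FPt.mk D.F Z.val Z.norm_val_lt).val - (Y + Z).val‖
      ≤ D.r := by
  rw [FPt.val_add, FPt.val_add]
  exact norm_ev_sub_le' _ _ _ _ D.r_nonneg D.close

theorem norm_Eseq_add_sub_le [Γ.IsComm] (Y Z : FPt Γ) (N : ℕ) :
    ‖(D.Eseq Y N + D.Eseq Z N).val - (D.Eseq (Y + Z) N).val‖ ≤ D.r ^ (p ^ (h * N)) := by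
  unfold LocalFG.Eseq
  rw [← smul_add]
  refine (D.norm_pow_smul_sub_le N _ _).trans ?_
  apply pow_le_pow_left₀ (norm_nonneg _)
  have h1 := D.norm_add_sub_le (divp p n N Y) (divp p n N Z)
  have h2 : (FPt.mk D.F (divp p n N (Y + Z)).val (divp p n N (Y + Z)).norm_val_lt).val =
      (divp p n N Y + divp p n N Z).val := by
    rw [FPt.val_mk, D.divp_add]
  rw [h2]
  exact h1

/-- The additive map `E : Γ(𝔪_K) → F(𝔪_K)`. -/
noncomputable def E [Γ.IsComm] : FPt Γ →+ FPt D.F where
  toFun Y := FPt.mk D.F (D.Eval Y) (D.norm_Eval_lt Y)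
  map_zero' := by
    apply FPt.ext
    rw [FPt.val_mk, FPt.val_zero]
    have h1 : ∀ N, (D.Eseq (0 : FPt Γ) N).val = 0 := by
      intro N
      unfold LocalFG.Eseq
      have : FPt.mk D.F (divp p n N (0 : FPt Γ)).val (divp p n N (0 : FPt Γ)).norm_val_lt = 0 := by
        apply FPt.ext
        show rt p (n * N) (0 : OK K) = 0
        exact map_zero _
      rw [this, smul_zero, FPt.val_zero]
    have h2 := D.tendsto_Eseq (0 : FPt Γ)
    simp only [h1] at h2
    exact tendsto_nhds_unique h2 tendsto_const_nhds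
  map_add' := by
    intro Y Z
    apply FPt.ext
    rw [FPt.val_mk]
    set S : FPt D.F := FPt.mk D.F (D.Eval Y) (D.norm_Eval_lt Y) +
      FPt.mk D.F (D.Eval Z) (D.norm_Eval_lt Z) with hS
    -- the sum of the approximations tends to `S`
    have h1 : Tendsto (fun N => (D.Eseq Y N + D.Eseq Z N).val) atTop (𝓝 S.val) := by
      rw [tendsto_iff_norm_sub_tendsto_zero]
      have hY := (tendsto_iff_norm_sub_tendsto_zero.1 (D.tendsto_Eseq Y))
      have hZ := (tendsto_iff_norm_sub_tendsto_zero.1 (D.tendsto_Eseq Z))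
      have hm := hY.max hZ
      rw [max_self] at hm
      refine squeeze_zero (fun _ => norm_nonneg _) (fun N => ?_) hm
      rw [hS, FPt.val_add, FPt.val_add]
      apply norm_ev_sub_le _ _ _ _ (le_max_of_le_left (norm_nonneg _))
      intro i
      fin_cases i
      · exact le_max_left _ _
      · exact le_max_right _ _
    have h2 : Tendsto (fun N => (D.Eseq Y N + D.Eseq Z N).val - (D.Eseq (Y + Z) N).val) atTop
        (𝓝 0) := by
      rw [tendsto_zero_iff_norm_tendsto_zero]
      exact squeeze_zero (fun _ => norm_nonneg _)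
        (fun N => D.norm_Eseq_add_sub_le Y Z N) (D.tendsto_pow_geom D.r_nonneg D.r_lt_one)
    have h3 := h1.sub h2
    rw [sub_zero] at h3
    have h4 : Tendsto (fun N => (D.Eseq (Y + Z) N).val) atTop (𝓝 S.val) := by
      refine h3.congr (fun N => ?_)
      ring
    exact tendsto_nhds_unique (D.tendsto_Eseq (Y + Z)) h4

variable [Γ.IsComm]

theorem norm_E_sub_le (Y : FPt Γ) : ‖(D.E Y).val - Y.val‖ ≤ D.r := D.norm_Eval_sub_le Y

theorem norm_E_sub_Eseq_le (Y : FPt Γ) (N : ℕ) :
    ‖(D.E Y).val - (D.Eseq Y N).val‖ ≤ D.r ^ (p ^ (h * N)) := D.norm_Eval_sub_Eseq_le Y N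

/-- continuity of `E` at `0`. -/
theorem exists_norm_E_lt (ε : ℝ) (hε : 0 < ε) :
    ∃ δ : ℝ, 0 < δ ∧ ∀ Y : FPt Γ, ‖Y.val‖ < δ → ‖(D.E Y).val‖ < ε := by
  obtain ⟨N, hN⟩ := ((D.tendsto_pow_geom D.r_nonneg D.r_lt_one).eventually
    (gt_mem_nhds hε)).exists
  refine ⟨ε ^ (p ^ (n * N)), by positivity, fun Y hY => ?_⟩
  have h1 : (D.E Y).val = ((D.E Y).val - (D.Eseq Y N).val) + (D.Eseq Y N).val := by ring
  rw [h1]
  refine (OK_norm_add_le _ _).trans_lt (max_lt ((D.norm_E_sub_Eseq_le Y N).trans_lt hN) ?_)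
  refine (FPt.norm_val_nsmul_le _ _).trans_lt ?_
  show ‖rt p (n * N) Y.val‖ < ε
  rw [← norm_rt_pow (p := p) (n * N) Y.val] at hY
  exact lt_of_pow_lt_pow_left₀ _ hε.le hY

/-- `E_F(Y)` depends on `F` in a Lipschitz way. -/
theorem norm_E_sub_E_le (D' : LocalFG p n h Γ) (δ : ℝ) (hδ : 0 ≤ δ)
    (hclose : ∀ d, ‖coeff d D'.F.toPowerSeries - coeff d D.F.toPowerSeries‖ ≤ δ) (Y : FPt Γ) :
    ‖(D'.E Y).val - (D.E Y).val‖ ≤ δ := by
  have key : ∀ (y : OK K) (hy : ‖y‖ < 1) (k : ℕ),
      ‖(k • FPt.mk D'.F y hy).val - (k • FPt.mk D.F y hy).val‖ ≤ δ := by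
    intro y hy k
    induction k with
    | zero => simpa only [zero_nsmul, FPt.val_zero, sub_self, norm_zero] using hδ
    | succ k ih =>
      rw [succ_nsmul, succ_nsmul, FPt.val_add, FPt.val_add]
      set a' : MK K := k • FPt.mk D'.F y hy
      set a : MK K := k • FPt.mk D.F y hy
      have h1 : ev (![a', (⟨y, hy⟩ : MK K)] : Fin 2 → MK K) D'.F.toPowerSeries -
          ev (![a, (⟨y, hy⟩ : MK K)] : Fin 2 → MK K) D.F.toPowerSeries =
          (ev (![a', (⟨y, hy⟩ : MK K)] : Fin 2 → MK K) D'.F.toPowerSeries -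
            ev (![a', (⟨y, hy⟩ : MK K)] : Fin 2 → MK K) D.F.toPowerSeries) +
          (ev (![a', (⟨y, hy⟩ : MK K)] : Fin 2 → MK K) D.F.toPowerSeries -
            ev (![a, (⟨y, hy⟩ : MK K)] : Fin 2 → MK K) D.F.toPowerSeries) := by ring
      refine (le_of_eq (congrArg norm h1)).trans ?_
      refine (OK_norm_add_le _ _).trans (max_le (norm_ev_sub_le' _ _ _ _ hδ hclose) ?_)
      apply norm_ev_sub_le _ _ _ _ hδ
      intro i
      fin_cases i
      · exact ih
      · simpa only [AddSubgroupClass.coe_norm, Nat.succ_eq_add_one, Nat.reduceAdd, Fin.mk_one, Fin.isValue,     Matrix.cons_val_one, Matrix.cons_val, sub_self, norm_zero] using hδ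
  have h1 : Tendsto (fun N => ‖(D'.Eseq Y N).val - (D.Eseq Y N).val‖) atTop
      (𝓝 ‖(D'.E Y).val - (D.E Y).val‖) :=
    ((D'.tendsto_Eseq Y).sub (D.tendsto_Eseq Y)).norm
  exact le_of_tendsto' h1 (fun N => key _ _ _)

/-- Functoriality of `E` under an isomorphism `τ : F → F'` lifting an endomorphism `g` of `Γ`
which commutes with roots. -/
theorem E_functorial (D' : LocalFG p n h Γ) (τ : FPt D.F →+ FPt D'.F) (g : FPt Γ →+ FPt Γ)
    (hτ : ∀ a b : FPt D.F, ‖(τ a).val - (τ b).val‖ ≤ ‖a.val - b.val‖) (ρ : ℝ) (hρ : ρ < 1)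
    (hτg : ∀ (a : FPt D.F) (Y : FPt Γ), a.val = Y.val → ‖(τ a).val - (g Y).val‖ ≤ ρ)
    (hroot : ∀ (N : ℕ) (Y : FPt Γ), divp p n N (g Y) = g (divp p n N Y)) (Y : FPt Γ) :
    τ (D.E Y) = D'.E (g Y) := by
  apply FPt.ext
  have hρ0 : 0 ≤ ρ :=
    (norm_nonneg _).trans (hτg (FPt.mk D.F Y.val Y.norm_val_lt) Y rfl)
  have h1 : Tendsto (fun N => (τ (D.Eseq Y N)).val) atTop (𝓝 (τ (D.E Y)).val) := by
    rw [tendsto_iff_norm_sub_tendsto_zero]
    exact squeeze_zero (fun _ => norm_nonneg _) (fun N => hτ _ _)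
      (tendsto_iff_norm_sub_tendsto_zero.1 (D.tendsto_Eseq Y))
  have h2 : Tendsto (fun N => (τ (D.Eseq Y N)).val - (D'.Eseq (g Y) N).val) atTop (𝓝 0) := by
    rw [tendsto_zero_iff_norm_tendsto_zero]
    refine squeeze_zero (fun _ => norm_nonneg _) (fun N => ?_) (D.tendsto_pow_geom hρ0 hρ)
    unfold LocalFG.Eseq
    rw [map_nsmul]
    refine (D'.norm_pow_smul_sub_le N _ _).trans ?_
    apply pow_le_pow_left₀ (norm_nonneg _)
    rw [FPt.val_mk, hroot]
    exact hτg _ _ rfl
  have h3 := h1.sub h2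
  rw [sub_zero] at h3
  have h4 : Tendsto (fun N => (D'.Eseq (g Y) N).val) atTop (𝓝 (τ (D.E Y)).val) := by
    refine h3.congr (fun N => ?_)
    ring
  exact tendsto_nhds_unique h4 (D'.tendsto_Eseq (g Y))

/-- The kernel `Λ` of `E`. -/
noncomputable def Lam : AddSubgroup (FPt Γ) := D.E.ker

theorem mem_Lam {Y : FPt Γ} : Y ∈ D.Lam ↔ D.E Y = 0 := AddMonoidHom.mem_ker

theorem norm_le_of_mem_Lam {Y : FPt Γ} (hY : Y ∈ D.Lam) : ‖Y.val‖ ≤ D.r := by
  have h1 := D.norm_E_sub_le Y
  rw [D.mem_Lam.1 hY, FPt.val_zero, zero_sub, norm_neg] at h1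
  exact h1

/-- Towers `p z_{N+1} = z_N` come from points of `Γ`. -/
theorem exists_of_tower (z : ℕ → FPt D.F) (hz : ∀ N, p • z (N + 1) = z N) :
    ∃ Y : FPt Γ, ∀ N, D.E (divp p n N Y) = z N := by
  have hpn : ∀ N, 1 ≤ p ^ (n * N) := fun N => Nat.one_le_pow _ _ (Fact.out : p.Prime).pos
  -- the approximations
  have hstep : ∀ N, ‖(z N).val - (z (N + 1)).val ^ (p ^ n)‖ ≤ D.r := by
    intro N
    rw [← hz N]
    exact D.norm_p_smul_sub_pow_le _
  have hstep2 : ∀ N, ‖(z N).val ^ (p ^ (n * N)) - (z (N + 1)).val ^ (p ^ (n * (N + 1)))‖ ≤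
      D.r ^ (p ^ (n * N)) := by
    intro N
    have h1 : (z (N + 1)).val ^ (p ^ (n * (N + 1))) =
        ((z (N + 1)).val ^ (p ^ n)) ^ (p ^ (n * N)) := by
      rw [← pow_mul, ← pow_add, Nat.mul_succ, add_comm n (n * N)]
    rw [h1, ← sub_pow_char_pow, OK_norm_pow]
    exact pow_le_pow_left₀ (norm_nonneg _) (hstep N) _
  have hn : 1 ≤ n := D.one_le_h.trans D.h_lt_n.le
  have hgeom : ∀ N, D.r ^ (p ^ (n * N)) ≤ D.r ^ N := by
    intro N
    apply pow_le_pow_of_le_one D.r_nonneg D.r_lt_one.le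
    calc N ≤ 2 ^ N := Nat.lt_two_pow_self.le
      _ ≤ p ^ N := Nat.pow_le_pow_left (Fact.out : p.Prime).two_le _
      _ ≤ p ^ (n * N) := Nat.pow_le_pow_right (Fact.out : p.Prime).pos
          (Nat.le_mul_of_pos_left _ hn)
  have hC : CauchySeq (fun N => (z N).val ^ (p ^ (n * N))) := by
    apply cauchySeq_of_le_geometric D.r 1 D.r_lt_one
    intro N
    rw [dist_eq_norm, one_mul]
    exact (hstep2 N).trans (hgeom N)
  obtain ⟨y, hy⟩ := cauchySeq_tendsto_of_complete hC
  have hdist : ∀ N k, ‖(z (N + k)).val ^ (p ^ (n * (N + k))) - (z N).val ^ (p ^ (n * N))‖ ≤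
      D.r ^ (p ^ (n * N)) := by
    intro N k
    induction k with
    | zero => simpa only [add_zero, sub_self, norm_zero] using pow_nonneg D.r_nonneg _
    | succ k ih =>
      have h1 : (z (N + (k + 1))).val ^ (p ^ (n * (N + (k + 1)))) - (z N).val ^ (p ^ (n * N)) =
          -((z (N + k)).val ^ (p ^ (n * (N + k))) -
            (z (N + k + 1)).val ^ (p ^ (n * (N + k + 1)))) +
          ((z (N + k)).val ^ (p ^ (n * (N + k))) - (z N).val ^ (p ^ (n * N))) := by
        rw [← add_assoc]; ring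
      rw [h1]
      refine (OK_norm_add_le _ _).trans (max_le ?_ ih)
      rw [norm_neg]
      refine (hstep2 (N + k)).trans ?_
      apply pow_le_pow_of_le_one D.r_nonneg D.r_lt_one.le
      exact Nat.pow_le_pow_right (Fact.out : p.Prime).pos
        (Nat.mul_le_mul_left _ (Nat.le_add_right _ _))
  have hlim : ∀ N, ‖y - (z N).val ^ (p ^ (n * N))‖ ≤ D.r ^ (p ^ (n * N)) := by
    intro N
    have h1 : Tendsto (fun M => ‖(z M).val ^ (p ^ (n * M)) - (z N).val ^ (p ^ (n * N))‖) atTop
        (𝓝 ‖y - (z N).val ^ (p ^ (n * N))‖) := (hy.sub_const _).norm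
    refine le_of_tendsto h1 ?_
    filter_upwards [eventually_ge_atTop N] with M hM
    obtain ⟨k, rfl⟩ := Nat.exists_eq_add_of_le hM
    exact hdist N k
  have hylt : ‖y‖ < 1 := by
    have h0 := hlim 0
    have h1 : y = (y - (z 0).val ^ (p ^ (n * 0))) + (z 0).val ^ (p ^ (n * 0)) := by ring
    rw [h1]
    refine (OK_norm_add_le _ _).trans_lt (max_lt (h0.trans_lt ?_) ?_)
    · simpa only [mul_zero, pow_zero, pow_one] using D.r_lt_one
    · simpa only [mul_zero, pow_zero, pow_one, AddSubgroupClass.coe_norm] using (z 0).norm_val_lt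
  have hroot : ∀ N, ‖rt p (n * N) y - (z N).val‖ ≤ D.r := by
    intro N
    have h1 := hlim N
    have h2 : y - (z N).val ^ (p ^ (n * N)) = (rt p (n * N) y - (z N).val) ^ (p ^ (n * N)) := by
      rw [sub_pow_char_pow, rt_pow]
    rw [h2, OK_norm_pow] at h1
    exact le_of_pow_le_pow_left₀ (by have := hpn N; omega) D.r_nonneg h1
  have htow : ∀ N M, p ^ M • z (N + M) = z N := by
    intro N M
    induction M with
    | zero => simp
    | succ M ih =>
      rw [pow_succ, mul_smul, ← add_assoc, hz, ih]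
  refine ⟨FPt.mk Γ y hylt, fun N => ?_⟩
  apply FPt.ext
  have h1 := D.tendsto_Eseq (divp p n N (FPt.mk Γ y hylt))
  have h2 : Tendsto (fun M => (D.Eseq (divp p n N (FPt.mk Γ y hylt)) M).val - (z N).val) atTop
      (𝓝 0) := by
    rw [tendsto_zero_iff_norm_tendsto_zero]
    refine squeeze_zero (fun _ => norm_nonneg _) (fun M => ?_)
      (D.tendsto_pow_geom D.r_nonneg D.r_lt_one)
    have h3 : (z N).val = (p ^ M • z (N + M)).val := by rw [htow]
    rw [h3]
    unfold LocalFG.Eseq
    refine (D.norm_pow_smul_sub_le M _ _).trans ?_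
    apply pow_le_pow_left₀ (norm_nonneg _)
    have h4 : (divp p n M (divp p n N (FPt.mk Γ y hylt))).val = rt p (n * (N + M)) y := by
      show rt p (n * M) (rt p (n * N) y) = _
      apply OK_injective_pow (K := K) (p := p) (n * (N + M))
      show (rt p (n * M) (rt p (n * N) y)) ^ (p ^ (n * (N + M))) =
        (rt p (n * (N + M)) y) ^ (p ^ (n * (N + M)))
      rw [rt_pow, mul_add, pow_add, mul_comm (p ^ (n * N)), pow_mul, rt_pow, rt_pow]
    rw [FPt.val_mk, h4]
    exact hroot _
  have h5 := h2.add_const (z N).val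
  rw [zero_add] at h5
  have h6 : Tendsto (fun M => (D.Eseq (divp p n N (FPt.mk Γ y hylt)) M).val) atTop
      (𝓝 (z N).val) := by
    refine h5.congr (fun M => ?_)
    ring
  exact tendsto_nhds_unique h1 h6

end LocalFG

end Perfect

end Vale.Agent.P217
end
end

section

section

/-!
# P217: Weierstrass factorization over the unit ball of an ultrametric field
-/

namespace Vale.Agent.P217

open Filter Topology

variable {K : Type*} [NontriviallyNormedField K] [IsUltrametricDist K]

/-- all coefficients have norm `≤ c` -/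
def CoeffLe (c : ℝ) (f : PowerSeries (OK K)) : Prop := ∀ j, ‖PowerSeries.coeff j f‖ ≤ c

lemma CoeffLe.mul {a b : ℝ} (ha : 0 ≤ a) (hb : 0 ≤ b) {f g : PowerSeries (OK K)}
    (hf : CoeffLe a f) (hg : CoeffLe b g) : CoeffLe (a * b) (f * g) := by
  intro j
  rw [PowerSeries.coeff_mul]
  refine norm_sum_le _ _ (mul_nonneg ha hb) fun x _ => ?_
  rw [OK_norm_mul]
  exact mul_le_mul (hf _) (hg _) (norm_nonneg _) ha

lemma coeffLe_one (f : PowerSeries (OK K)) : CoeffLe 1 f := fun _ => norm_le_one _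

lemma CoeffLe.sub {a b : ℝ} {f g : PowerSeries (OK K)}
    (hf : CoeffLe a f) (hg : CoeffLe b g) : CoeffLe (max a b) (f - g) := by
  intro j
  rw [map_sub]
  exact (OK_norm_sub_le _ _).trans (max_le_max (hf j) (hg j))

lemma CoeffLe.add {a b : ℝ} {f g : PowerSeries (OK K)}
    (hf : CoeffLe a f) (hg : CoeffLe b g) : CoeffLe (max a b) (f + g) := by
  intro j
  rw [map_add]
  exact (OK_norm_add_le _ _).trans (max_le_max (hf j) (hg j))

lemma CoeffLe.neg {a : ℝ} {f : PowerSeries (OK K)} (hf : CoeffLe a f) : CoeffLe a (-f) := by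
  intro j
  rw [map_neg, norm_neg]
  exact hf j

lemma CoeffLe.mono {a b : ℝ} {f : PowerSeries (OK K)} (hf : CoeffLe a f) (h : a ≤ b) :
    CoeffLe b f := fun j => (hf j).trans h

lemma coeffLe_eq_zero {f : PowerSeries (OK K)} (hf : CoeffLe 0 f) : f = 0 := by
  ext1 j
  rw [map_zero]
  exact norm_le_zero_iff.1 (hf j)

/-- the shift -/
noncomputable def shiftM (M : ℕ) (f : PowerSeries (OK K)) : PowerSeries (OK K) :=
  PowerSeries.mk fun j => PowerSeries.coeff (j + M) f

lemma coeff_shiftM (M j : ℕ) (f : PowerSeries (OK K)) :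
    PowerSeries.coeff j (shiftM M f) = PowerSeries.coeff (j + M) f := PowerSeries.coeff_mk _ _

lemma CoeffLe.shiftM {a : ℝ} {f : PowerSeries (OK K)} (hf : CoeffLe a f) (M : ℕ) :
    CoeffLe a (shiftM M f) := fun j => by rw [coeff_shiftM]; exact hf _

lemma shiftM_sub (M : ℕ) (f g : PowerSeries (OK K)) :
    shiftM M (f - g) = shiftM M f - shiftM M g := by
  ext j
  rw [coeff_shiftM, map_sub, map_sub, coeff_shiftM, coeff_shiftM]

/-- coefficientwise limits of power series which are Cauchy uniformly -/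
lemma exists_coeff_lim [CompleteSpace K] {r : ℝ} (hr0 : 0 ≤ r) (hr : r < 1)
    (q : ℕ → PowerSeries (OK K)) (hq : ∀ k, CoeffLe (r ^ k) (q (k + 1) - q k)) :
    ∃ l : PowerSeries (OK K), ∀ k, CoeffLe (r ^ k) (l - q k) := by
  have hc : ∀ j, ∃ l, Tendsto (fun k => PowerSeries.coeff j (q k)) atTop (𝓝 l) := by
    intro j
    apply cauchySeq_tendsto_of_complete
    apply cauchySeq_of_le_geometric r 1 hr
    intro k
    rw [one_mul, dist_comm, dist_eq_norm, ← map_sub]
    exact hq k j
  choose l hl using hc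
  have hkm : ∀ k m, CoeffLe (r ^ k) (q (k + m) - q k) := by
    intro k m
    induction m with
    | zero => 
      intro j
      rw [add_zero, sub_self, map_zero, norm_zero]
      exact pow_nonneg hr0 k
    | succ m ih =>
      have h1 : q (k + (m + 1)) - q k = (q (k + m + 1) - q (k + m)) + (q (k + m) - q k) := by
        rw [← add_assoc]; ring
      rw [h1]
      refine (CoeffLe.add (hq (k + m)) ih).mono (max_le ?_ le_rfl)
      exact pow_le_pow_of_le_one hr0 hr.le (Nat.le_add_right k m)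
  refine ⟨PowerSeries.mk l, fun k j => ?_⟩
  rw [map_sub, PowerSeries.coeff_mk]
  have h1 : Tendsto (fun m => ‖PowerSeries.coeff j (q (m + k)) - PowerSeries.coeff j (q k)‖) atTop
      (𝓝 ‖l j - PowerSeries.coeff j (q k)‖) :=
    (((tendsto_add_atTop_iff_nat k).2 (hl j)).sub_const _).norm
  refine le_of_tendsto' h1 fun m => ?_
  rw [← map_sub, add_comm m k]
  exact hkm k m j

/-- Weierstrass factorization over `OK K` of a series congruent to `X^M` modulo elements of norm
`≤ r < 1`. -/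
theorem exists_weierstrass_aux [CompleteSpace K] (V : PowerSeries (OK K)) (M : ℕ) (r : ℝ)
    (hr : r < 1) (hV : ∀ j, ‖PowerSeries.coeff j V - if j = M then 1 else 0‖ ≤ r) :
    ∃ (W : Polynomial (OK K)) (e : PowerSeries (OK K)), W.Monic ∧ W.natDegree = M ∧
      (∀ j, j < M → ‖W.coeff j‖ ≤ r) ∧
      (∀ j, ‖PowerSeries.coeff j e - if j = 0 then 1 else 0‖ ≤ r) ∧
      V = e * (W : PowerSeries (OK K)) := by
  have hr0 : 0 ≤ r := (norm_nonneg _).trans (hV 0)
  set P : PowerSeries (OK K) := V - PowerSeries.X ^ M with hP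
  have hPr : CoeffLe r P := by
    intro j
    rw [hP, map_sub, PowerSeries.coeff_X_pow]
    exact hV j
  -- the fixed point
  let T : PowerSeries (OK K) → PowerSeries (OK K) := fun q => 1 - shiftM M (q * P)
  have hTsub : ∀ q q' c, 0 ≤ c → CoeffLe c (q - q') → CoeffLe (r * c) (T q - T q') := by
    intro q q' c hc hqq
    have h1 : T q - T q' = - shiftM M ((q - q') * P) := by
      change (1 - shiftM M (q * P)) - (1 - shiftM M (q' * P)) = _
      rw [sub_mul, shiftM_sub]
      ring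
    rw [h1, mul_comm r c]
    exact ((CoeffLe.mul hc hr0 hqq hPr).shiftM M).neg
  let q : ℕ → PowerSeries (OK K) := fun k => T^[k] 1
  have hqs : ∀ k, q (k + 1) = T (q k) := fun k => Function.iterate_succ_apply' T k 1
  have hq : ∀ k, CoeffLe (r ^ k) (q (k + 1) - q k) := by
    intro k
    induction k with
    | zero => rw [pow_zero]; exact coeffLe_one _
    | succ k ih =>
      rw [hqs (k + 1), hqs k, pow_succ']
      refine hTsub _ _ _ (pow_nonneg hr0 k) ?_
      rw [← hqs k]
      exact ih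
  obtain ⟨l, hl⟩ := exists_coeff_lim hr0 hr q hq
  have hfix : l = T l := by
    have h1 : ∀ k, CoeffLe (r ^ (k + 1)) (l - T l) := by
      intro k
      have h2 : l - T l = (l - q (k + 1)) - (T l - T (q k)) := by
        rw [hqs k]; ring
      rw [h2]
      refine (CoeffLe.sub (hl (k + 1)) (hTsub _ _ _ (pow_nonneg hr0 k) (hl k))).mono ?_
      rw [pow_succ']
      exact max_le le_rfl le_rfl
    have h3 : CoeffLe 0 (l - T l) := by
      intro j
      have h4 : Tendsto (fun k : ℕ => r ^ (k + 1)) atTop (𝓝 0) :=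
        (tendsto_add_atTop_iff_nat 1).2 (tendsto_pow_atTop_nhds_zero_of_lt_one hr0 hr)
      exact ge_of_tendsto' h4 fun k => h1 k j
    exact sub_eq_zero.1 (coeffLe_eq_zero h3)
  have hl1 : CoeffLe r (l - 1) := by
    have h1 : l - 1 = - shiftM M (l * P) := by
      conv_lhs => rw [hfix]
      change (1 - shiftM M (l * P)) - 1 = _
      ring
    rw [h1]
    have h2 := (CoeffLe.mul zero_le_one hr0 (coeffLe_one l) hPr)
    rw [one_mul] at h2
    exact (h2.shiftM M).neg
  -- `l` is invertible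
  have hunit : IsUnit (PowerSeries.constantCoeff l) := by
    have h1 : ‖PowerSeries.constantCoeff l - 1‖ ≤ r := by
      have h2 := hl1 0
      rw [map_sub, PowerSeries.coeff_zero_eq_constantCoeff_apply,
        PowerSeries.coeff_zero_eq_constantCoeff_apply, map_one] at h2
      exact h2
    set c := PowerSeries.constantCoeff l with hc
    have h3 : ‖(c : K)‖ = 1 := by
      have h4 : ‖((c - 1 : OK K) : K)‖ < ‖(1 : K)‖ := by
        rw [norm_one]; exact lt_of_le_of_lt h1 hr
      have h5 : (c : K) = ((c - 1 : OK K) : K) + 1 := by push_cast; ring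
      rw [h5, IsUltrametricDist.norm_add_eq_max_of_norm_ne_norm h4.ne, max_eq_right h4.le,
        norm_one]
    have h6 : (c : K) ≠ 0 := by
      intro h0
      rw [h0, norm_zero] at h3
      exact zero_ne_one h3
    refine IsUnit.of_mul_eq_one ⟨(c : K)⁻¹, ?_⟩ ?_
    · change ‖(c : K)⁻¹‖ ≤ 1
      rw [norm_inv, h3, inv_one]
    · apply Subtype.ext
      change (c : K) * (c : K)⁻¹ = 1
      exact mul_inv_cancel₀ h6
  obtain ⟨e, he⟩ : ∃ e : PowerSeries (OK K), e * l = 1 := by
    have h1 := (PowerSeries.isUnit_iff_constantCoeff).2 hunit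
    obtain ⟨u, hu⟩ := h1
    exact ⟨↑u⁻¹, by rw [← hu, Units.inv_mul]⟩
  have he1 : CoeffLe r (e - 1) := by
    have h1 : e - 1 = - (e * (l - 1)) := by linear_combination he
    rw [h1]
    have h2 := (CoeffLe.mul zero_le_one hr0 (coeffLe_one e) hl1)
    rw [one_mul] at h2
    exact h2.neg
  -- the polynomial
  have hlV : ∀ j, PowerSeries.coeff (j + M) (l * V) = if j = 0 then 1 else 0 := by
    intro j
    have h1 : V = P + PowerSeries.X ^ M := by rw [hP]; ring
    have h2 := congrArg (PowerSeries.coeff j) hfix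
    change PowerSeries.coeff j l = PowerSeries.coeff j (1 - shiftM M (l * P)) at h2
    rw [map_sub, coeff_shiftM, PowerSeries.coeff_one] at h2
    rw [h1, mul_add, map_add, PowerSeries.coeff_mul_X_pow, h2]
    ring
  let W : Polynomial (OK K) := Polynomial.X ^ M + PowerSeries.trunc M (l * V)
  have hWc : (W : PowerSeries (OK K)) = l * V := by
    ext m
    rw [Polynomial.coeff_coe, Polynomial.coeff_add, Polynomial.coeff_X_pow,
      PowerSeries.coeff_trunc]
    by_cases hm : m < M
    · rw [if_neg hm.ne, if_pos hm, zero_add]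
    · obtain ⟨j, rfl⟩ : ∃ j, m = j + M := ⟨m - M, by omega⟩
      rw [if_neg hm, add_zero, hlV]
      by_cases hj : j = 0
      · rw [if_pos (by omega), if_pos hj]
      · rw [if_neg (by omega), if_neg hj]
  have hdeg : (PowerSeries.trunc M (l * V)).degree < (M : WithBot ℕ) :=
    PowerSeries.degree_trunc_lt _ _
  have hmonic : W.Monic := Polynomial.monic_X_pow_add hdeg
  have hWdeg : W.natDegree = M := by
    change (Polynomial.X ^ M + PowerSeries.trunc M (l * V)).natDegree = M
    rw [Polynomial.natDegree_add_eq_left_of_degree_lt, Polynomial.natDegree_X_pow]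
    rw [Polynomial.degree_X_pow]
    exact hdeg
  refine ⟨W, e, hmonic, hWdeg, ?_, ?_, ?_⟩
  · intro j hj
    rw [Polynomial.coeff_add, Polynomial.coeff_X_pow, if_neg hj.ne, zero_add,
      PowerSeries.coeff_trunc, if_pos hj]
    have h1 : V = P + PowerSeries.X ^ M := by rw [hP]; ring
    rw [h1, mul_add, map_add, PowerSeries.coeff_mul_X_pow', if_neg (by omega), add_zero]
    have h2 := (CoeffLe.mul zero_le_one hr0 (coeffLe_one l) hPr)
    rw [one_mul] at h2
    exact h2 j
  · intro j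
    have h1 := he1 j
    rw [map_sub, PowerSeries.coeff_one] at h1
    exact h1
  · rw [hWc, ← mul_assoc, he, one_mul]

end Vale.Agent.P217
end
end

section

section

/-!
# P217: torsion points and the product formula
-/

namespace Vale.Agent.P217

open MvPowerSeries Filter Topology

variable {K : Type*} [NontriviallyNormedField K] [IsUltrametricDist K] [CompleteSpace K]
variable {p : ℕ} [Fact p.Prime] [CharP K p] [IsAlgClosed K]
variable {n h : ℕ} {Γ : FormalGroup (OK K)}

/-- Weierstrass factorization over `OK K` of a series congruent to `X^M` modulo elements of norm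
`≤ r < 1`, evaluated on points. -/
theorem exists_weierstrass (V : PowerSeries (OK K)) (M : ℕ) (r : ℝ) (hr : r < 1)
    (hV : ∀ j, ‖PowerSeries.coeff j V - if j = M then 1 else 0‖ ≤ r) :
    ∃ (W : Polynomial (OK K)) (e : PowerSeries (OK K)), W.Monic ∧ W.natDegree = M ∧
      (∀ j, j < M → ‖W.coeff j‖ ≤ r) ∧
      (∀ j, ‖PowerSeries.coeff j e - if j = 0 then 1 else 0‖ ≤ r) ∧
      V = e * (W : PowerSeries (OK K)) :=
  exists_weierstrass_aux V M r hr hV

omit [IsAlgClosed K] in
/-- evaluation of a polynomial at a point -/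
lemma ev_coe_poly (b : MK K) (W : Polynomial (OK K)) :
    ev (fun _ : Unit => b) (W : PowerSeries (OK K)) = W.eval (b : OK K) := by
  have h1 : (ev (fun _ : Unit => b)).comp
      (Polynomial.coeToPowerSeries.ringHom : Polynomial (OK K) →+* PowerSeries (OK K)) =
      Polynomial.evalRingHom (b : OK K) := by
    apply Polynomial.ringHom_ext
    · intro c
      rw [RingHom.comp_apply, Polynomial.coeToPowerSeries.ringHom_apply, Polynomial.coe_C,
        Polynomial.coe_evalRingHom, Polynomial.eval_C]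
      exact ev_C _ c
    · rw [RingHom.comp_apply, Polynomial.coeToPowerSeries.ringHom_apply, Polynomial.coe_X,
        Polynomial.coe_evalRingHom, Polynomial.eval_X]
      exact ev_X _ ()
  have h2 := DFunLike.congr_fun h1 W
  rw [RingHom.comp_apply, Polynomial.coeToPowerSeries.ringHom_apply,
    Polynomial.coe_evalRingHom] at h2
  exact h2

omit [CompleteSpace K] [CharP K p] [Fact p.Prime] in
/-- the roots of a distinguished polynomial are in the open unit ball -/
lemma exists_roots_ball (W : Polynomial (OK K)) (hW : W.Monic) (M : ℕ) (hM : W.natDegree = M)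
    (r : ℝ) (hr : r < 1) (hc : ∀ j, j < M → ‖W.coeff j‖ ≤ r) :
    ∃ s : Multiset (MK K), s.card = M ∧
      ∀ x : OK K, W.eval x = (s.map fun t : MK K => x - t.1).prod := by
  classical
  let W' : Polynomial K := W.map (OK K).subtype
  have hW' : W'.Monic := hW.map _
  have hdeg : W'.natDegree = M := by
    rw [← hM]
    exact hW.natDegree_map _
  have hcoef : ∀ j, W'.coeff j = (W.coeff j : K) := fun j => Polynomial.coeff_map _ _
  have hroot : ∀ t ∈ W'.roots, ‖t‖ < 1 := by
    intro t ht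
    by_contra hcon
    rw [not_lt] at hcon
    have h1 : W'.eval t = 0 := (Polynomial.mem_roots hW'.ne_zero).1 ht
    rw [Polynomial.eval_eq_sum_range, hdeg, Finset.sum_range_succ] at h1
    have h2 : W'.coeff M = 1 := by rw [← hdeg]; exact hW'.coeff_natDegree
    rw [h2, one_mul] at h1
    have hM0 : M ≠ 0 := by
      intro h0
      subst h0
      rw [Finset.sum_range_zero, zero_add, pow_zero] at h1
      exact one_ne_zero h1
    have hr0 : 0 ≤ r := (norm_nonneg _).trans (hc 0 (Nat.pos_of_ne_zero hM0))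
    have h3 : ‖∑ j ∈ Finset.range M, W'.coeff j * t ^ j‖ ≤ r * ‖t‖ ^ M := by
      apply IsUltrametricDist.norm_sum_le_of_forall_le_of_nonneg
      · (clear * - hr0 hcon; positivity)
      · intro j hj
        rw [Finset.mem_range] at hj
        rw [norm_mul, norm_pow, hcoef]
        exact mul_le_mul (hc j hj) (pow_le_pow_right₀ hcon hj.le) (by positivity) hr0
    have h4 : ∑ j ∈ Finset.range M, W'.coeff j * t ^ j = - t ^ M := by
      linear_combination h1
    rw [h4, norm_neg, norm_pow] at h3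
    have h5 : 0 < ‖t‖ ^ M := by positivity
    nlinarith only [h3, hr, h5]
  let f : K → MK K := fun t => if ht : ‖t‖ < 1 then ⟨⟨t, ht.le⟩, ht⟩ else ⟨0, by simp only [norm_zero, zero_lt_one]⟩
  have hf : ∀ t ∈ W'.roots, ((f t : OK K) : K) = t := by
    intro t ht
    change ((f t : OK K) : K) = t
    simp only [f, dif_pos (hroot t ht)]
  refine ⟨W'.roots.map f, ?_, ?_⟩
  · rw [Multiset.card_map, IsAlgClosed.card_roots_eq_natDegree, hdeg]
  · intro x
    have h1 := (IsAlgClosed.splits W').eval_eq_prod_roots_of_monic hW' (x : K)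
    have h2 : W'.eval (x : K) = ((W.eval x : OK K) : K) := by
      change (W.map (OK K).subtype).eval ((OK K).subtype x) = (OK K).subtype (W.eval x)
      rw [Polynomial.eval_map, Polynomial.eval₂_hom]
    apply Subtype.ext
    change ((W.eval x : OK K) : K) = (OK K).subtype (((W'.roots.map f).map
      fun t : MK K => x - t.1).prod)
    rw [← h2, h1, map_multiset_prod, Multiset.map_map, Multiset.map_map]
    congr 1
    refine Multiset.map_congr rfl fun t ht => ?_
    change (x : K) - t = (x : K) - (((f t).1 : OK K) : K)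
    rw [hf t ht]

omit [CompleteSpace K] [IsAlgClosed K] [CharP K p] [Fact p.Prime] in
lemma u1_norm {ε : OK K} (h : ‖ε - 1‖ < 1) : ‖ε‖ = 1 := by
  have h4 : ‖((ε - 1 : OK K) : K)‖ < ‖(1 : K)‖ := by
    rw [norm_one]; exact h
  have h5 : (ε : K) = ((ε - 1 : OK K) : K) + 1 := by push_cast; ring
  change ‖(ε : K)‖ = 1
  rw [h5, IsUltrametricDist.norm_add_eq_max_of_norm_ne_norm h4.ne, max_eq_right h4.le,
    norm_one]

omit [CompleteSpace K] [IsAlgClosed K] [CharP K p] [Fact p.Prime] in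
lemma u1_mul {ε δ : OK K} (h : ‖ε - 1‖ < 1) (h' : ‖δ - 1‖ < 1) : ‖ε * δ - 1‖ < 1 := by
  have h1 : ε * δ - 1 = ε * (δ - 1) + (ε - 1) := by ring
  rw [h1]
  refine (OK_norm_add_le _ _).trans_lt (max_lt ?_ h)
  rw [OK_norm_mul]
  exact lt_of_le_of_lt (mul_le_of_le_one_left (norm_nonneg _) (norm_le_one ε)) h'

omit [CompleteSpace K] [IsAlgClosed K] [CharP K p] [Fact p.Prime] in
lemma u1_pow {ε : OK K} (h : ‖ε - 1‖ < 1) (m : ℕ) : ‖ε ^ m - 1‖ < 1 := by
  induction m with
  | zero => simp only [pow_zero, sub_self, norm_zero, zero_lt_one]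
  | succ m ih => rw [pow_succ]; exact u1_mul ih h

omit [CompleteSpace K] [IsAlgClosed K] [CharP K p] [Fact p.Prime] in
lemma u1_prod {ι : Type*} (s : Finset ι) (ε : ι → OK K) (h : ∀ i ∈ s, ‖ε i - 1‖ < 1) :
    ‖∏ i ∈ s, ε i - 1‖ < 1 := by
  classical
  induction s using Finset.induction_on with
  | empty => simp only [Finset.prod_empty, sub_self, norm_zero, zero_lt_one]
  | insert a s ha ih =>
    rw [Finset.prod_insert ha]
    exact u1_mul (h a (Finset.mem_insert_self a s))
      (ih fun i hi => h i (Finset.mem_insert_of_mem hi))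

omit [IsAlgClosed K] in
lemma ev_u1 (b : MK K) (e : PowerSeries (OK K)) (r : ℝ) (hr : r < 1)
    (he : ∀ j, ‖PowerSeries.coeff j e - if j = 0 then 1 else 0‖ ≤ r) :
    ‖ev (fun _ : Unit => b) e - 1‖ < 1 := by
  have hr0 : 0 ≤ r := (norm_nonneg _).trans (he 0)
  have h1 : ev (fun _ : Unit => b) e - 1 = ev (fun _ : Unit => b) (e - 1) := by
    rw [map_sub, map_one]
  rw [h1]
  refine lt_of_le_of_lt (norm_ev_le _ _ r hr0 fun d => ?_) hr
  have h2 := he (d ())
  have h3 : MvPowerSeries.coeff d (e - 1 : PowerSeries (OK K)) =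
      PowerSeries.coeff (d ()) (e - 1) := by
    rw [PowerSeries.coeff_def (s := d) rfl]
  rw [h3, map_sub, PowerSeries.coeff_one]
  exact h2

namespace LocalFG

variable (D : LocalFG p n h Γ)

lemma pos_Q (p h : ℕ) [Fact p.Prime] : 0 < p ^ h := Nat.pow_pos (Fact.out : p.Prime).pos

omit [CompleteSpace K] [IsAlgClosed K] [CharP K p] in
lemma norm_pow_Q_lt (h : ℕ) {x : OK K} (hx : ‖x‖ < 1) : ‖x ^ (p ^ h)‖ < 1 := by
  rw [OK_norm_pow]
  exact pow_lt_one₀ (norm_nonneg _) hx (pos_Q p h).ne'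

/-- multiplication by `p` is surjective on the points of `F`. -/
theorem p_smul_surjective (b : FPt D.F) : ∃ a : FPt D.F, p • a = b := by
  set r' := max D.r ‖b.val‖ with hr'
  have hr'1 : r' < 1 := max_lt D.r_lt_one b.norm_val_lt
  have hr'0 : 0 ≤ r' := D.r_nonneg.trans (le_max_left _ _)
  have hV : ∀ j, ‖PowerSeries.coeff j (D.V - PowerSeries.C b.val) -
      if j = p ^ (n - h) then 1 else 0‖ ≤ r' := by
    intro j
    rw [map_sub, PowerSeries.coeff_C]
    have h1 : PowerSeries.coeff j D.V - (if j = 0 then b.val else 0) -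
        (if j = p ^ (n - h) then 1 else 0) = (PowerSeries.coeff j D.V -
          (if j = p ^ (n - h) then 1 else 0)) - (if j = 0 then b.val else 0) := by ring
    rw [h1]
    refine (OK_norm_sub_le _ _).trans (max_le_max (D.V_close j) ?_)
    split_ifs
    · exact le_rfl
    · rw [norm_zero]; exact norm_nonneg _
  obtain ⟨W, e, hW, hWd, hWc, _, hVe⟩ := exists_weierstrass _ _ _ hr'1 hV
  obtain ⟨s, hs, hev⟩ := exists_roots_ball W hW _ hWd r' hr'1 hWc
  have hpos : 0 < s.card := by rw [hs]; exact pos_Q p _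
  obtain ⟨t, ht⟩ := Multiset.card_pos_iff_exists_mem.1 hpos
  have hroot : W.eval t.1 = 0 := by
    rw [hev]
    apply Multiset.prod_eq_zero
    rw [Multiset.mem_map]
    exact ⟨t, ht, sub_self _⟩
  refine ⟨FPt.mk D.F (rt p h t.1) (norm_rt_lt _ _ t.2), ?_⟩
  apply FPt.ext
  rw [D.val_p_smul _ t (by rw [FPt.val_mk, rt_pow])]
  have h2 : ev (fun _ : Unit => t) (D.V - PowerSeries.C b.val) = 0 := by
    rw [hVe, map_mul, ev_coe_poly, hroot, mul_zero]
  rw [map_sub, sub_eq_zero] at h2
  rw [h2]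
  exact ev_C _ _

/-- ordinary and formal difference differ by a principal unit -/
lemma exists_unit_sub (T z : FPt D.F) : ∃ ε : OK K, ‖ε - 1‖ < 1 ∧
    T.val - z.val = ε * (T - z).val := by
  by_cases hTz : T = z
  · subst hTz
    exact ⟨1, by simp only [sub_self, norm_zero, zero_lt_one], by simp⟩
  · have h1 : (T.val - z.val : OK K) ≠ 0 := by
      intro h0
      exact hTz (FPt.ext (sub_eq_zero.1 h0))
    have h2 := FPt.norm_val_sub T z
    have h3 : ((T - z).val : OK K) ≠ 0 := by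
      rw [← norm_ne_zero_iff, h2, norm_ne_zero_iff]
      exact h1
    have h3K : (((T - z).val : OK K) : K) ≠ 0 := fun h0 => h3 (Subtype.ext h0)
    have hle : ‖((T.val - z.val : OK K) : K) / ((T - z).val : K)‖ ≤ 1 := by
      rw [norm_div]
      have h4 : ‖((T.val - z.val : OK K) : K)‖ = ‖((T - z).val : K)‖ := h2.symm
      rw [h4, div_self (norm_ne_zero_iff.2 h3K)]
    refine ⟨⟨((T.val - z.val : OK K) : K) / ((T - z).val : K), hle⟩, ?_, ?_⟩
    · have h5 := FPt.norm_val_sub_sub_le T z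
      have h6 : max ‖T.val‖ ‖z.val‖ < 1 := max_lt T.norm_val_lt z.norm_val_lt
      have h7 : ‖((T.val - z.val : OK K) : K) / ((T - z).val : K) - 1‖ < 1 := by
        have h8 : ((T.val - z.val : OK K) : K) / ((T - z).val : K) - 1 =
            - ((((T - z).val - (T.val - z.val) : OK K) : K) / ((T - z).val : K)) := by
          field_simp
          push_cast
          ring
        rw [h8, norm_neg, norm_div, div_lt_one (norm_pos_iff.2 h3K)]
        have h9 : ‖((T - z).val : K)‖ = ‖T.val - z.val‖ := h2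
        rw [h9]
        refine lt_of_le_of_lt h5 ?_
        have h10 : 0 < ‖T.val - z.val‖ := norm_pos_iff.2 h1
        (clear h2 h3 h3K hle h5 h8 h9; nlinarith)
      exact h7
    · apply Subtype.ext
      change ((T.val - z.val : OK K) : K) = ((T.val - z.val : OK K) : K) / ((T - z).val : K) *
        ((T - z).val : K)
      rw [div_mul_cancel₀ _ h3K]

/-- `F[p]` has `p^(n-h)` points, and the one step product formula. -/
theorem exists_ptorsion : ∃ S : Finset (FPt D.F), (∀ z, z ∈ S ↔ p • z = 0) ∧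
    S.card = p ^ (n - h) ∧
    ∀ T : FPt D.F, ∃ ε : OK K, ‖ε - 1‖ < 1 ∧
      (p • T).val = ε * ∏ z ∈ S, (T - z).val ^ (p ^ h) := by
  classical
  obtain ⟨W, e, hW, hWd, hWc, he, hVe⟩ := exists_weierstrass _ _ _ D.r_lt_one D.V_close
  obtain ⟨s, hs, hev⟩ := exists_roots_ball W hW _ hWd D.r D.r_lt_one hWc
  -- the point `a ^ Q`
  let aQ : FPt D.F → MK K := fun a => ⟨a.val ^ (p ^ h), norm_pow_Q_lt h a.norm_val_lt⟩
  have hval : ∀ a : FPt D.F, (p • a).val = ev (fun _ : Unit => aQ a) e *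
      (s.map fun t : MK K => a.val ^ (p ^ h) - t.1).prod := by
    intro a
    rw [D.val_p_smul a (aQ a) rfl, hVe, map_mul, ev_coe_poly, hev]
  have hu : ∀ a : FPt D.F, ‖ev (fun _ : Unit => aQ a) e - 1‖ < 1 := fun a =>
    ev_u1 _ _ _ D.r_lt_one he
  let f : MK K → FPt D.F := fun t => FPt.mk D.F (rt p h t.1) (norm_rt_lt _ _ t.2)
  have hfQ : ∀ t, (f t).val ^ (p ^ h) = t.1 := fun t => by
    change (rt p h t.1) ^ (p ^ h) = t.1
    rw [rt_pow]
  have hfinj : Function.Injective f := by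
    intro t t' htt
    apply Subtype.ext
    rw [← hfQ t, ← hfQ t', htt]
  -- simple roots
  have hnodup : s.Nodup := by
    by_contra hnd
    rw [Multiset.nodup_iff_count_le_one] at hnd
    push Not at hnd
    obtain ⟨t, ht⟩ := hnd
    have hts : t ∈ s := Multiset.count_pos.1 (by omega)
    obtain ⟨s', rfl⟩ := Multiset.exists_cons_of_mem hts
    have hts' : t ∈ s' := by
      rw [Multiset.count_cons_self] at ht
      exact Multiset.count_pos.1 (by omega)
    obtain ⟨s'', rfl⟩ := Multiset.exists_cons_of_mem hts'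
    have hz : p • f t = 0 := by
      apply FPt.ext
      rw [hval, hfQ, Multiset.map_cons, Multiset.prod_cons, sub_self, zero_mul, mul_zero]
      rfl
    -- the norm inequality
    have hineq : ∀ a : FPt D.F, ‖PowerSeries.coeff 1 D.V‖ * ‖a.val‖ ^ (p ^ h) ≤
        ‖a.val‖ ^ (2 * p ^ h) := by
      intro a
      have h1 : ‖(p • a).val‖ ≤ ‖a.val‖ ^ (2 * p ^ h) := by
        have h2 : p • a = p • (a + f t) := by rw [smul_add, hz, add_zero]
        rw [h2, hval, OK_norm_mul, u1_norm (hu _), one_mul, Multiset.map_cons,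
          Multiset.prod_cons, Multiset.map_cons, Multiset.prod_cons, ← mul_assoc, OK_norm_mul]
        have h3 : ‖(a + f t).val ^ (p ^ h) - t.1‖ = ‖a.val‖ ^ (p ^ h) := by
          rw [← hfQ t, ← sub_pow_char_pow (p := p), OK_norm_pow, ← FPt.norm_val_sub,
            add_sub_cancel_right]
        rw [OK_norm_mul, h3, two_mul, pow_add]
        exact mul_le_of_le_one_right (by (clear W e hW hWd hWc he hVe aQ hu f hfQ hfinj t s'' hs hev hval ht hts hts' hz h2 h3; positivity)) (norm_le_one _)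
      have h4 := D.norm_p_smul_sub_V_one_le a
      have h5 : PowerSeries.coeff 1 D.V * a.val ^ (p ^ h) = (p • a).val -
          ((p • a).val - PowerSeries.coeff 1 D.V * a.val ^ (p ^ h)) := by ring
      rw [← OK_norm_pow, ← OK_norm_mul, h5]
      exact (OK_norm_sub_le _ _).trans (max_le h1 h4)
    have hV1 : 0 < ‖PowerSeries.coeff 1 D.V‖ := norm_pos_iff.2 D.V_one
    obtain ⟨x, hx0, hx⟩ := NormedField.exists_norm_lt K (lt_min hV1 one_pos)
    have hx1 : ‖x‖ < 1 := hx.trans_le (min_le_right _ _)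
    have h6 := hineq (FPt.mk D.F ⟨x, hx1.le⟩ hx1)
    change ‖PowerSeries.coeff 1 D.V‖ * ‖x‖ ^ (p ^ h) ≤ ‖x‖ ^ (2 * p ^ h) at h6
    rw [two_mul, pow_add] at h6
    have h7 : 0 < ‖x‖ ^ (p ^ h) := by positivity
    have h8 : ‖PowerSeries.coeff 1 D.V‖ ≤ ‖x‖ ^ (p ^ h) := le_of_mul_le_mul_right h6 h7
    have h9 : ‖x‖ ^ (p ^ h) ≤ ‖x‖ := pow_le_of_le_one (norm_nonneg _) hx1.le (pos_Q p h).ne'
    exact absurd (h8.trans h9) (not_le.2 (hx.trans_le (min_le_left _ _)))
  let S : Finset (FPt D.F) := ⟨s.map f, hnodup.map hfinj⟩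
  have hSprod : ∀ g : FPt D.F → OK K, ∏ z ∈ S, g z = (s.map fun t => g (f t)).prod := by
    intro g
    change ((s.map f).map g).prod = _
    rw [Multiset.map_map]
    rfl
  refine ⟨S, ?_, ?_, ?_⟩
  · intro z
    change z ∈ s.map f ↔ _
    rw [Multiset.mem_map]
    constructor
    · rintro ⟨t, ht, rfl⟩
      apply FPt.ext
      rw [hval]
      have h1 : (s.map fun t' : MK K => (f t).val ^ (p ^ h) - t'.1).prod = 0 := by
        apply Multiset.prod_eq_zero
        rw [Multiset.mem_map]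
        exact ⟨t, ht, by rw [hfQ, sub_self]⟩
      rw [h1, mul_zero]
      rfl
    · intro hz
      have h1 := hval z
      rw [hz] at h1
      have h2 : (s.map fun t' : MK K => z.val ^ (p ^ h) - t'.1).prod = 0 := by
        have h3 : ev (fun _ : Unit => aQ z) e ≠ 0 := by
          intro h0
          have h4 := u1_norm (hu z)
          rw [h0, norm_zero] at h4
          exact zero_ne_one h4
        exact (mul_eq_zero.1 h1.symm).resolve_left h3
      rw [Multiset.prod_eq_zero_iff, Multiset.mem_map] at h2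
      obtain ⟨t, ht, h3⟩ := h2
      refine ⟨t, ht, ?_⟩
      apply FPt.ext
      change rt p h t.1 = z.val
      rw [← sub_eq_zero.1 h3, rt_of_pow]
  · change (s.map f).card = _
    rw [Multiset.card_map, hs]
  · intro T
    choose ε hε hε2 using fun z => D.exists_unit_sub T z
    refine ⟨ev (fun _ : Unit => aQ T) e * ∏ z ∈ S, ε z ^ (p ^ h), ?_, ?_⟩
    · exact u1_mul (hu T) (u1_prod _ _ fun z _ => u1_pow (hε z) _)
    · rw [hval, mul_assoc, ← Finset.prod_mul_distrib, hSprod]
      congr 2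
      refine Multiset.map_congr rfl fun t _ => ?_
      rw [← mul_pow, ← hε2, sub_pow_char_pow (p := p), hfQ]

/-- `F[p^N]` has `p^((n-h) N)` points, and the `N` step product formula. -/
theorem exists_torsion (N : ℕ) : ∃ S : Finset (FPt D.F), (∀ z, z ∈ S ↔ p ^ N • z = 0) ∧
    S.card = p ^ ((n - h) * N) ∧
    ∀ T : FPt D.F, ∃ ε : OK K, ‖ε - 1‖ < 1 ∧
      (p ^ N • T).val = ε * ∏ z ∈ S, (T - z).val ^ (p ^ (h * N)) := by
  classical
  obtain ⟨S1, hS1, hS1c, hS1p⟩ := D.exists_ptorsion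
  have hsurj : ∀ (N : ℕ) (b : FPt D.F), ∃ a : FPt D.F, p ^ N • a = b := by
    intro N
    induction N with
    | zero => intro b; exact ⟨b, by rw [pow_zero, one_smul]⟩
    | succ N ih =>
      intro b
      obtain ⟨a, ha⟩ := D.p_smul_surjective b
      obtain ⟨a', ha'⟩ := ih a
      exact ⟨a', by rw [pow_succ', mul_smul, ha', ha]⟩
  induction N with
  | zero =>
    refine ⟨{0}, ?_, ?_, ?_⟩
    · intro z
      rw [Finset.mem_singleton, pow_zero, one_smul]
    · simp
    · intro T
      exact ⟨1, by simp only [sub_self, norm_zero, zero_lt_one], by simp⟩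
  | succ N ih =>
    obtain ⟨S, hS, hSc, hSp⟩ := ih
    choose g hg using hsurj N
    let F : FPt D.F × FPt D.F → FPt D.F := fun x => g x.1 + x.2
    have hinj : Set.InjOn F ((S1 ×ˢ S : Finset _) : Set (FPt D.F × FPt D.F)) := by
      rintro ⟨a, b⟩ hab ⟨a', b'⟩ hab' heq
      rw [Finset.mem_coe, Finset.mem_product] at hab hab'
      have h1 : p ^ N • (g a + b) = p ^ N • (g a' + b') := congrArg (p ^ N • ·) heq
      rw [smul_add, smul_add, hg, hg, (hS b).1 hab.2, (hS b').1 hab'.2, add_zero,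
        add_zero] at h1
      subst h1
      have h2 : b = b' := add_left_cancel heq
      rw [h2]
    refine ⟨(S1 ×ˢ S).image F, ?_, ?_, ?_⟩
    · intro z
      rw [Finset.mem_image]
      constructor
      · rintro ⟨⟨a, b⟩, hab, rfl⟩
        rw [Finset.mem_product] at hab
        change p ^ (N + 1) • (g a + b) = 0
        rw [pow_succ', mul_smul, smul_add, hg, (hS b).1 hab.2, add_zero]
        exact (hS1 a).1 hab.1
      · intro hz
        refine ⟨(p ^ N • z, z - g (p ^ N • z)), ?_, ?_⟩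
        · rw [Finset.mem_product]
          refine ⟨(hS1 _).2 ?_, (hS _).2 ?_⟩
          · change p • p ^ N • z = 0
            rw [← mul_smul, ← pow_succ']
            exact hz
          · change p ^ N • (z - g (p ^ N • z)) = 0
            rw [smul_sub, hg, sub_self]
        · change g (p ^ N • z) + (z - g (p ^ N • z)) = z
          abel
    · rw [Finset.card_image_of_injOn hinj, Finset.card_product, hS1c, hSc, ← pow_add]
      congr 1
      ring
    · intro T
      obtain ⟨ε, hε, hεT⟩ := hS1p (p ^ N • T)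
      choose δ hδ hδT using hSp
      refine ⟨ε * ∏ a ∈ S1, δ (T - g a) ^ (p ^ h), u1_mul hε
        (u1_prod _ _ fun a _ => u1_pow (hδ _) _), ?_⟩
      rw [pow_succ', mul_smul, hεT, mul_assoc, Finset.prod_image hinj, Finset.prod_product,
        ← Finset.prod_mul_distrib]
      congr 1
      refine Finset.prod_congr rfl fun a _ => ?_
      have h1 : p ^ N • T - a = p ^ N • (T - g a) := by rw [smul_sub, hg]
      rw [h1, hδT, mul_pow, ← Finset.prod_pow]
      congr 1
      refine Finset.prod_congr rfl fun b _ => ?_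
      change ((T - g a - b).val ^ p ^ (h * N)) ^ p ^ h = (T - (g a + b)).val ^ p ^ (h * (N + 1))
      rw [sub_sub, ← pow_mul, ← pow_add]
      congr 2

end LocalFG

end Vale.Agent.P217
end
end

section

section

/-!
# P217: proof of the main local lemma (LT)
-/

namespace Vale.Agent.P217

open MvPowerSeries Filter Topology

section Pure

variable {K : Type*} [NontriviallyNormedField K] [IsUltrametricDist K]

theorem ltc_norm_sub_le (a b : K) : ‖a - b‖ ≤ max ‖a‖ ‖b‖ := by
  simpa only [sub_eq_add_neg, le_sup_iff, norm_neg] using IsUltrametricDist.norm_add_le_max a (-b)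

theorem ltc_norm_sub_comm_lt {a b c : K} {ρ : ℝ} (h1 : ‖a - b‖ < ρ) (h2 : ‖b - c‖ < ρ) :
    ‖a - c‖ < ρ := by
  have : a - c = (a - b) + (b - c) := by ring
  rw [this]
  exact (IsUltrametricDist.norm_add_le_max _ _).trans_lt (max_lt h1 h2)

/-- if `‖a - b‖ < 1` and `‖b‖ ≤ 1` then `‖a‖ ≤ 1`. -/
theorem ltc_norm_le_one {a b : K} (h : ‖a - b‖ < 1) (hb : ‖b‖ ≤ 1) : ‖a‖ ≤ 1 := by
  have : a = (a - b) + b := by ring
  rw [this]
  exact (IsUltrametricDist.norm_add_le_max _ _).trans (max_le h.le hb)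

/-- products of close families of integral elements are close -/
theorem ltc_prod_close {ι : Type*} (s : Finset ι) (a b : ι → K) (h : ∀ i ∈ s, ‖a i - b i‖ < 1)
    (hb : ∀ i ∈ s, ‖b i‖ ≤ 1) : ‖∏ i ∈ s, a i - ∏ i ∈ s, b i‖ < 1 ∧ ‖∏ i ∈ s, b i‖ ≤ 1 := by
  classical
  induction s using Finset.induction_on with
  | empty => simp only [Finset.prod_empty, sub_self, norm_zero, zero_lt_one, norm_one, Std.le_refl, and_self]
  | insert i s hi ih =>
    have ih' := ih (fun j hj => h j (Finset.mem_insert_of_mem hj))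
      (fun j hj => hb j (Finset.mem_insert_of_mem hj))
    rw [Finset.prod_insert hi, Finset.prod_insert hi]
    have h1 := h i (Finset.mem_insert_self i s)
    have h2 := hb i (Finset.mem_insert_self i s)
    have h3 := ltc_norm_le_one h1 h2
    constructor
    · have : a i * ∏ j ∈ s, a j - b i * ∏ j ∈ s, b j =
          a i * (∏ j ∈ s, a j - ∏ j ∈ s, b j) + (a i - b i) * ∏ j ∈ s, b j := by ring
      rw [this]
      refine (IsUltrametricDist.norm_add_le_max _ _).trans_lt (max_lt ?_ ?_)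
      · rw [norm_mul]
        exact lt_of_le_of_lt (mul_le_of_le_one_left (norm_nonneg _) h3) ih'.1
      · rw [norm_mul]
        exact lt_of_le_of_lt (mul_le_of_le_one_right (norm_nonneg _) ih'.2) h1
    · rw [norm_mul]
      exact mul_le_one₀ h2 (norm_nonneg _) ih'.2

/-- maximal separated subset -/
theorem ltc_exists_sep (L : Finset K) (h0 : (0 : K) ∈ L) (hL : ∀ l ∈ L, ‖l‖ ≤ 1) :
    ∃ S ⊆ L, (0 : K) ∈ S ∧ (∀ v ∈ S, ∀ w ∈ S, v ≠ w → ‖v - w‖ = 1) ∧
      ∀ l ∈ L, ∃ v ∈ S, ‖l - v‖ < 1 := by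
  classical
  let P : Finset K → Prop := fun S => (0 : K) ∈ S ∧ (∀ v ∈ S, ∀ w ∈ S, v ≠ w → ‖v - w‖ = 1)
  have hne : (L.powerset.filter P).Nonempty := by
    refine ⟨{0}, Finset.mem_filter.mpr ⟨?_, ?_, ?_⟩⟩
    · rw [Finset.mem_powerset, Finset.singleton_subset_iff]; exact h0
    · exact Finset.mem_singleton_self 0
    · intro v hv w hw hvw
      rw [Finset.mem_singleton] at hv hw
      exact absurd (hv.trans hw.symm) hvw
  obtain ⟨S, hS, hmax⟩ := Finset.exists_max_image _ Finset.card hne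
  obtain ⟨hSL, hS0, hSs⟩ := Finset.mem_filter.mp hS
  rw [Finset.mem_powerset] at hSL
  refine ⟨S, hSL, hS0, hSs, fun l hl => ?_⟩
  by_contra hcon
  push Not at hcon
  have hlS : l ∉ S := by
    intro h
    have := hcon l h
    rw [sub_self, norm_zero] at this
    linarith
  have hdist : ∀ v ∈ S, ‖l - v‖ = 1 := fun v hv =>
    le_antisymm ((ltc_norm_sub_le l v).trans (max_le (hL l hl) (hL v (hSL hv)))) (hcon v hv)
  have hins : insert l S ∈ L.powerset.filter P := by
    refine Finset.mem_filter.mpr ⟨?_, Finset.mem_insert_of_mem hS0, ?_⟩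
    · rw [Finset.mem_powerset]
      exact Finset.insert_subset hl hSL
    · intro v hv w hw hvw
      rcases Finset.mem_insert.mp hv with hv1 | hv1
      · rcases Finset.mem_insert.mp hw with hw1 | hw1
        · exact absurd (hv1.trans hw1.symm) hvw
        · rw [hv1]; exact hdist w hw1
      · rcases Finset.mem_insert.mp hw with hw1 | hw1
        · rw [hw1, norm_sub_rev]; exact hdist v hv1
        · exact hSs v hv1 w hw1 hvw
  have := hmax _ hins
  rw [Finset.card_insert_of_notMem hlS] at this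
  omega

end Pure

variable {K : Type*} [NontriviallyNormedField K] [IsUltrametricDist K] [CompleteSpace K]
variable {p : ℕ} [Fact p.Prime] [CharP K p] [IsAlgClosed K]
variable {n h : ℕ} {Γ : FormalGroup (OK K)}

namespace LocalFG

variable (D : LocalFG p n h Γ) [Γ.IsComm]

theorem ltc_pow_smul_inj (D : LocalFG p n h Γ) (N : ℕ) {A B : FPt Γ}
    (hAB : p ^ N • A = p ^ N • B) : A = B := by
  have h1 := congrArg FPt.val hAB
  rw [D.val_pow_smul, D.val_pow_smul] at h1
  have h2 := congrArg (rt p (n * N)) h1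
  rw [rt_of_pow, rt_of_pow] at h2
  exact FPt.ext h2

theorem ltc_divp_add (D : LocalFG p n h Γ) (N : ℕ) (A B : FPt Γ) :
    divp p n N (A + B) = divp p n N A + divp p n N B := by
  apply D.ltc_pow_smul_inj N
  rw [D.pow_smul_divp, smul_add, D.pow_smul_divp, D.pow_smul_divp]

/-- `Y ↦ E(p^{-N} Y)` as a homomorphism -/
noncomputable def ltcHom (N : ℕ) : FPt Γ →+ FPt D.F :=
  AddMonoidHom.mk' (fun Y => D.E (divp p n N Y))
    (fun A B => by rw [D.ltc_divp_add, map_add])

theorem ltcHom_apply (N : ℕ) (Y : FPt Γ) : D.ltcHom N Y = D.E (divp p n N Y) := rfl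

/-- the basic estimate: `E(p^{-N} W)^(p^(nN))` is `W` up to `r^(p^(nN))` -/
theorem ltc_approx (N : ℕ) (W : FPt Γ) :
    ‖(D.ltcHom N W).val ^ (p ^ (n * N)) - W.val‖ ≤ D.r ^ (p ^ (n * N)) := by
  have h1 : (divp p n N W).val ^ (p ^ (n * N)) = W.val := by
    rw [← D.val_pow_smul, D.pow_smul_divp]
  rw [ltcHom_apply]
  conv_lhs => rw [← h1]
  have : CharP (OK K) p := inferInstance
  rw [← sub_pow_char_pow, OK_norm_pow]
  exact pow_le_pow_left₀ (norm_nonneg _) (D.norm_E_sub_le _) _

/-- **core of (LT)** with the torsion facts as hypotheses -/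
theorem LT_core (Y0 : FPt Γ) (N : ℕ) (hN : D.r ^ (p ^ (n * N)) < ‖Y0.val‖)
    (T : Finset (FPt D.F)) (hT : ∀ z, z ∈ T ↔ p ^ N • z = 0) (hTc : T.card = p ^ ((n - h) * N))
    (hprod : ∀ U : FPt D.F, ∃ ε : OK K, ‖ε - 1‖ < 1 ∧
      (p ^ N • U).val = ε * ∏ z ∈ T, (U - z).val ^ (p ^ (h * N)))
    (T1 : Finset (FPt D.F)) (hT1 : ∀ z, z ∈ T1 ↔ p • z = 0) (hT1c : T1.card = p ^ (n - h))
    (hlift : ∀ z : FPt D.F, p ^ N • z = 0 → ∃ Y ∈ D.Lam, D.E (divp p n N Y) = z)
    (hker : ∀ Y : FPt Γ, D.E (divp p n N Y) = 0 → ∃ Y' ∈ D.Lam, Y = p ^ N • Y')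
    (Lt : AddSubgroup (FPt Γ))
    (hLt : ∀ Y, Y ∈ Lt ↔ ((Y ∈ D.Lam ∧ ‖Y.val‖ < ‖Y0.val‖) ∨ Y = 0))
    (σ : ℕ) (hσ : Lt.relIndex D.Lam = p ^ σ) :
    ∃ (C : K) (S : Finset K), C ≠ 0 ∧ (0 : K) ∈ S ∧
    S.card ≤ p ^ (n - h) ∧ (∀ v ∈ S, ‖v‖ ≤ 1) ∧ (∀ v ∈ S, ∀ w ∈ S, v ≠ w → ‖v - w‖ = 1) ∧
    (S.card = 1 → ∀ Y ∈ D.Lam, ‖Y.val‖ ≠ ‖Y0.val‖) ∧
    ((∀ Y ∈ D.Lam, ‖Y.val‖ ≠ ‖Y0.val‖) → S = {0}) ∧
    ∀ Y : FPt Γ, ‖Y.val‖ ≤ ‖Y0.val‖ →
      ‖(((D.E Y).val : K) / C) ^ (p ^ σ) -
        ∏ v ∈ S, ((Y.val : K) / (Y0.val : K) - v)‖ < 1 := by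
  classical
  have hp : p.Prime := Fact.out
  set q0 : ℝ := ‖Y0.val‖ with hq0
  have hr0 : 0 ≤ D.r ^ (p ^ (n * N)) := pow_nonneg D.r_nonneg _
  have hq0pos : 0 < q0 := lt_of_le_of_lt hr0 hN
  have hq0lt : q0 < 1 := Y0.norm_val_lt
  have hn2 : 2 ≤ p ^ n := by
    have h1 := D.one_le_h
    have h2 := D.h_lt_n
    calc 2 ≤ p := hp.two_le
      _ = p ^ 1 := (pow_one p).symm
      _ ≤ p ^ n := Nat.pow_le_pow_right hp.pos (by omega)
  -- kernel elements are small
  have hK0 : ∀ Y : FPt Γ, D.ltcHom N Y = 0 → Y ∈ D.Lam ∧ ‖Y.val‖ < q0 := by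
    intro Y hY
    obtain ⟨Y', hY', rfl⟩ := hker Y hY
    refine ⟨D.Lam.nsmul_mem hY' _, ?_⟩
    rw [D.val_pow_smul, OK_norm_pow]
    exact lt_of_le_of_lt (pow_le_pow_left₀ (norm_nonneg _) (D.norm_le_of_mem_Lam hY') _) hN
  have hK1 : ∀ Y Z : FPt Γ, D.ltcHom N Y = D.ltcHom N Z → ‖(Y.val : OK K) - Z.val‖ < q0 := by
    intro Y Z hYZ
    have := (hK0 (Y - Z) (by rw [map_sub, hYZ, sub_self])).2
    rwa [FPt.norm_val_sub] at this
  have hcmp : ∀ a b : OK K, ‖a - b‖ < q0 → (‖a‖ < q0 ↔ ‖b‖ < q0) := by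
    intro a b hab
    constructor
    · intro ha
      have : b = a - (a - b) := by ring
      rw [this]
      exact (OK_norm_sub_le _ _).trans_lt (max_lt ha hab)
    · intro hb
      have : a = (a - b) + b := by ring
      rw [this]
      exact (OK_norm_add_le _ _).trans_lt (max_lt hab hb)
  have hcmpeq : ∀ a b : OK K, ‖a - b‖ < q0 → (‖a‖ ≤ q0 ↔ ‖b‖ ≤ q0) := by
    intro a b hab
    constructor
    · intro ha
      have : b = a - (a - b) := by ring
      rw [this]
      exact (OK_norm_sub_le _ _).trans (max_le ha hab.le)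
    · intro hb
      have : a = (a - b) + b := by ring
      rw [this]
      exact (OK_norm_add_le _ _).trans (max_le hab.le hb)
  -- choose lifts
  have hlift' : ∀ z : FPt D.F, ∃ Y : FPt Γ, (z ∈ T → Y ∈ D.Lam ∧ D.ltcHom N Y = z) ∧
      (z = 0 → Y = 0) := by
    intro z
    by_cases hz : z = 0
    · subst hz
      exact ⟨0, fun _ => ⟨D.Lam.zero_mem, map_zero _⟩, fun _ => rfl⟩
    · by_cases hzT : z ∈ T
      · obtain ⟨Y, hY, hY'⟩ := hlift z ((hT z).mp hzT)
        exact ⟨Y, fun _ => ⟨hY, hY'⟩, fun h => absurd h hz⟩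
      · exact ⟨0, fun h => absurd h hzT, fun _ => rfl⟩
  choose lam hlamT hlam0 using hlift'
  have hlamL : ∀ z ∈ T, lam z ∈ D.Lam := fun z hz => (hlamT z hz).1
  have hlamE : ∀ z ∈ T, D.ltcHom N (lam z) = z := fun z hz => (hlamT z hz).2
  have h0T : (0 : FPt D.F) ∈ T := (hT 0).mpr (smul_zero _)
  have hsubT : ∀ z ∈ T, ∀ w ∈ T, z - w ∈ T := by
    intro z hz w hw
    rw [hT, smul_sub, (hT z).mp hz, (hT w).mp hw, sub_zero]
  -- the finite sets
  let B : Finset (FPt D.F) := T.filter fun z => ‖(lam z).val‖ ≤ q0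
  let H : Finset (FPt D.F) := T.filter fun z => ‖(lam z).val‖ < q0
  have h0B : (0 : FPt D.F) ∈ B := by
    refine Finset.mem_filter.mpr ⟨h0T, ?_⟩
    rw [hlam0 0 rfl, FPt.val_zero, norm_zero]
    exact hq0pos.le
  have h0H : (0 : FPt D.F) ∈ H := by
    refine Finset.mem_filter.mpr ⟨h0T, ?_⟩
    rw [hlam0 0 rfl, FPt.val_zero, norm_zero]
    exact hq0pos
  have hsubH : ∀ z ∈ T, ∀ w ∈ T, (z - w ∈ H ↔ ‖(lam z).val - (lam w).val‖ < q0) := by
    intro z hz w hw
    have h1 : ‖(lam (z - w)).val - (lam z - lam w).val‖ < q0 := by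
      apply hK1
      rw [hlamE _ (hsubT z hz w hw), map_sub, hlamE z hz, hlamE w hw]
    have h2 := hcmp _ _ h1
    rw [FPt.norm_val_sub] at h2
    rw [← h2]
    simp only [H, Finset.mem_filter]
    exact ⟨fun h => h.2, fun h => ⟨hsubT z hz w hw, h⟩⟩
  -- the quotient elements
  set y0 : K := (Y0.val : K) with hy0
  have hy0n : ‖y0‖ = q0 := rfl
  have hy0ne : y0 ≠ 0 := by
    intro h
    rw [← hy0n, h, norm_zero] at hq0pos
    exact lt_irrefl _ hq0pos
  let lq : FPt D.F → K := fun z => ((lam z).val : K) / y0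
  have hlq_le : ∀ z ∈ B, ‖lq z‖ ≤ 1 := by
    intro z hz
    show ‖((lam z).val : K) / y0‖ ≤ 1
    rw [norm_div, hy0n, div_le_one hq0pos]
    exact (Finset.mem_filter.mp hz).2
  have hlq_sub : ∀ z w, (‖lq z - lq w‖ < 1 ↔ ‖(lam z).val - (lam w).val‖ < q0) := by
    intro z w
    have : lq z - lq w = (((lam z).val - (lam w).val : OK K) : K) / y0 := by
      show ((lam z).val : K) / y0 - ((lam w).val : K) / y0 = _
      rw [← sub_div]; rfl
    rw [this, norm_div, hy0n, div_lt_one hq0pos]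
    rfl
  -- the separated set
  obtain ⟨S, hSL, hS0, hSs, hScov⟩ := ltc_exists_sep (B.image lq)
    (Finset.mem_image.mpr ⟨0, h0B, by
      show ((lam 0).val : K) / y0 = 0
      rw [hlam0 0 rfl, FPt.val_zero]
      simp only [ZeroMemClass.coe_zero, zero_div]⟩)
    (fun l hl => by
      obtain ⟨z, hz, rfl⟩ := Finset.mem_image.mp hl
      exact hlq_le z hz)
  have hSle : ∀ v ∈ S, ‖v‖ ≤ 1 := by
    intro v hv
    obtain ⟨z, hz, rfl⟩ := Finset.mem_image.mp (hSL hv)
    exact hlq_le z hz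
  -- the map from `B` to `S`
  have hvex : ∀ z : FPt D.F, ∃ v : K, z ∈ B → v ∈ S ∧ ‖lq z - v‖ < 1 := by
    intro z
    by_cases hz : z ∈ B
    · obtain ⟨v, hv, hv'⟩ := hScov (lq z) (Finset.mem_image_of_mem _ hz)
      exact ⟨v, fun _ => ⟨hv, hv'⟩⟩
    · exact ⟨0, fun h => absurd h hz⟩
  choose vv hvv using hvex
  have hvvS : ∀ z ∈ B, vv z ∈ S := fun z hz => (hvv z hz).1
  have hvv1 : ∀ z ∈ B, ‖lq z - vv z‖ < 1 := fun z hz => (hvv z hz).2
  -- fibres are cosets of `H`
  have hfib : ∀ v ∈ S, (B.filter fun z => vv z = v).card = H.card := by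
    intro v hv
    obtain ⟨z0, hz0, hz0v⟩ := Finset.mem_image.mp (hSL hv)
    have hz0T : z0 ∈ T := (Finset.mem_filter.mp hz0).1
    have hmem : ∀ z, z ∈ (B.filter fun z => vv z = v) ↔ (z ∈ T ∧ z - z0 ∈ H) := by
      intro z
      rw [Finset.mem_filter]
      constructor
      · rintro ⟨hzB, hzv⟩
        have hzT : z ∈ T := (Finset.mem_filter.mp hzB).1
        refine ⟨hzT, ?_⟩
        rw [hsubH z hzT z0 hz0T, ← hlq_sub]
        have := hvv1 z hzB
        rw [hzv, ← hz0v] at this
        exact this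
      · rintro ⟨hzT, hzH⟩
        rw [hsubH z hzT z0 hz0T] at hzH
        have hzB : z ∈ B := by
          refine Finset.mem_filter.mpr ⟨hzT, ?_⟩
          exact (hcmpeq _ _ hzH).mpr (Finset.mem_filter.mp hz0).2
        refine ⟨hzB, ?_⟩
        rw [← hlq_sub, hz0v] at hzH
        have h1 := hvv1 z hzB
        by_contra hne
        have h2 := hSs _ (hvvS z hzB) v hv hne
        have h3 : ‖vv z - v‖ < 1 := by
          refine ltc_norm_sub_comm_lt (b := lq z) ?_ hzH
          rw [norm_sub_rev]; exact h1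
        linarith only [h2, h3]
    refine Finset.card_bij' (fun z _ => z - z0) (fun w _ => w + z0) ?_ ?_ ?_ ?_
    · intro z hz
      exact ((hmem z).mp hz).2
    · intro w hw
      rw [hmem]
      have hwT : w ∈ T := (Finset.mem_filter.mp hw).1
      refine ⟨?_, by rw [add_sub_cancel_right]; exact hw⟩
      rw [hT, smul_add, (hT w).mp hwT, (hT z0).mp hz0T, add_zero]
    · intro z _
      rw [sub_add_cancel]
    · intro w _
      rw [add_sub_cancel_right]
  have hBcard : B.card = S.card * H.card := by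
    rw [Finset.card_eq_sum_card_fiberwise hvvS, Finset.sum_congr rfl hfib, Finset.sum_const,
      smul_eq_mul]
  -- the order of `H`
  obtain ⟨M, hM, hHcard⟩ : ∃ M, σ + M = (n - h) * N ∧ H.card = p ^ M := by
    let φ := D.ltcHom N
    have hkerLt : φ.ker ≤ Lt := by
      intro Y hY
      have := hK0 Y (AddMonoidHom.mem_ker.mp hY)
      exact (hLt Y).mpr (Or.inl this)
    have hLtLam : Lt ≤ D.Lam := by
      intro Y hY
      rcases (hLt Y).mp hY with h | rfl
      · exact h.1
      · exact D.Lam.zero_mem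
    have h1 := AddSubgroup.relIndex_map_map φ Lt D.Lam
    rw [sup_eq_left.mpr hkerLt, sup_eq_left.mpr (hkerLt.trans hLtLam), hσ] at h1
    have hG : ((D.Lam.map φ : AddSubgroup (FPt D.F)) : Set (FPt D.F)) = (T : Set (FPt D.F)) := by
      ext z
      constructor
      · rintro ⟨Y, hY, rfl⟩
        rw [Finset.mem_coe, hT]
        show p ^ N • D.E (divp p n N Y) = 0
        rw [← map_nsmul, D.pow_smul_divp]
        exact D.mem_Lam.mp hY
      · intro hz
        exact ⟨lam z, hlamL z hz, hlamE z hz⟩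
    have hHs : ((Lt.map φ : AddSubgroup (FPt D.F)) : Set (FPt D.F)) = (H : Set (FPt D.F)) := by
      ext z
      constructor
      · rintro ⟨Y, hY, rfl⟩
        have hYL : Y ∈ D.Lam := hLtLam hY
        have hzT : φ Y ∈ T := by
          rw [← Finset.mem_coe, ← hG]; exact ⟨Y, hYL, rfl⟩
        refine Finset.mem_coe.mpr (Finset.mem_filter.mpr ⟨hzT, ?_⟩)
        have h2 := hK1 (lam (φ Y)) Y (hlamE _ hzT)
        rw [hcmp _ _ h2]
        rcases (hLt Y).mp hY with h | rfl
        · exact h.2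
        · rw [FPt.val_zero, norm_zero]; exact hq0pos
      · intro hz
        obtain ⟨hzT, hz'⟩ := Finset.mem_filter.mp (Finset.mem_coe.mp hz)
        exact ⟨lam z, (hLt _).mpr (Or.inl ⟨hlamL z hzT, hz'⟩), hlamE z hzT⟩
    have hcG : Nat.card (D.Lam.map φ : AddSubgroup (FPt D.F)) = p ^ ((n - h) * N) := by
      rw [← hTc]
      have : Nat.card (D.Lam.map φ : AddSubgroup (FPt D.F)) =
          ((D.Lam.map φ : AddSubgroup (FPt D.F)) : Set (FPt D.F)).ncard := rfl
      rw [this, hG, Set.ncard_coe_finset]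
    have hcH : Nat.card (Lt.map φ : AddSubgroup (FPt D.F)) = H.card := by
      have : Nat.card (Lt.map φ : AddSubgroup (FPt D.F)) =
          ((Lt.map φ : AddSubgroup (FPt D.F)) : Set (FPt D.F)).ncard := rfl
      rw [this, hHs, Set.ncard_coe_finset]
    have hle : Lt.map φ ≤ D.Lam.map φ := AddSubgroup.map_mono hLtLam
    have h2 := AddSubgroup.relIndex_mul_relIndex ⊥ (Lt.map φ) (D.Lam.map φ) bot_le hle
    rw [AddSubgroup.relIndex_bot_left, AddSubgroup.relIndex_bot_left, h1, hcG, hcH] at h2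
    have hdvd : H.card ∣ p ^ ((n - h) * N) := ⟨_, h2.symm⟩
    obtain ⟨M, hM, hM'⟩ := (Nat.dvd_prime_pow hp).mp hdvd
    refine ⟨M, ?_, hM'⟩
    rw [hM', ← pow_add] at h2
    have := Nat.pow_right_injective hp.two_le h2
    omega
  -- `S.card ≤ p^(n-h)`
  have hScard : S.card ≤ p ^ (n - h) := by
    have hmaps : ∀ z ∈ B, p • z ∈ H := by
      intro z hz
      obtain ⟨hzT, hz'⟩ := Finset.mem_filter.mp hz
      have hpT : p • z ∈ T := by
        rw [hT, smul_comm, (hT z).mp hzT, smul_zero]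
      refine Finset.mem_filter.mpr ⟨hpT, ?_⟩
      have h1 : ‖(lam (p • z)).val - (p • lam z).val‖ < q0 := by
        apply hK1
        rw [hlamE _ hpT, map_nsmul, hlamE z hzT]
      rw [hcmp _ _ h1]
      have h2 := D.val_pow_smul 1 (lam z)
      rw [pow_one, mul_one] at h2
      rw [h2, OK_norm_pow]
      calc ‖(lam z).val‖ ^ (p ^ n) ≤ q0 ^ (p ^ n) := pow_le_pow_left₀ (norm_nonneg _) hz' _
        _ ≤ q0 ^ 2 := pow_le_pow_of_le_one hq0pos.le hq0lt.le hn2
        _ < q0 := by (clear T hT hTc hprod T1 hT1 hT1c hlift hker Lt σ hσ hp hLt hq0 hq0pos hn2 hK0 hK1 hcmp hcmpeq lam hlamT hlam0 hlamL hlamE h0T hsubT B H h0B h0H hsubH y0 hy0 hy0n hy0ne lq hlq_le hlq_sub S hSL hS0 hSs hScov hSle vv hvv hvvS hvv1 hfib hBcard M hM hHcard z hz hzT hz' hpT h1 h2; nlinarith)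
    have hfib1 : ∀ w ∈ H, (B.filter fun z => p • z = w).card ≤ p ^ (n - h) := by
      intro w hw
      rcases (B.filter fun z => p • z = w).eq_empty_or_nonempty with he | ⟨z1, hz1⟩
      · rw [he]; simp only [Finset.card_empty, zero_le]
      · rw [← hT1c]
        refine Finset.card_le_card_of_injOn (fun z => z - z1) ?_ ?_
        · intro z hz
          have hz2 := (Finset.mem_filter.mp (Finset.mem_coe.mp hz)).2
          have hz3 := (Finset.mem_filter.mp hz1).2
          rw [Finset.mem_coe, hT1, smul_sub, hz2, hz3, sub_self]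
        · intro z _ z' _ hzz
          exact sub_left_injective hzz
    have h1 : B.card ≤ p ^ (n - h) * H.card :=
      Finset.card_le_mul_card_image_of_maps_to hmaps _ hfib1
    rw [hBcard] at h1
    have hHpos : 0 < H.card := Finset.card_pos.mpr ⟨0, h0H⟩
    exact Nat.le_of_mul_le_mul_right h1 hHpos
  -- the constants
  let cz : FPt D.F → K := fun z => if ‖(lam z).val‖ ≤ q0 then y0 else -((lam z).val : K)
  have hcz : ∀ z ∈ T, cz z ≠ 0 := by
    intro z _
    show (if ‖(lam z).val‖ ≤ q0 then y0 else -((lam z).val : K)) ≠ 0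
    split_ifs with hs
    · exact hy0ne
    · push Not at hs
      rw [neg_ne_zero]
      intro h0
      have : ‖(lam z).val‖ = 0 := by
        show ‖((lam z).val : K)‖ = 0
        rw [h0, norm_zero]
      rw [this] at hs
      exact absurd hs (not_lt.mpr hq0pos.le)
  obtain ⟨C, hC⟩ := IsAlgClosed.exists_pow_nat_eq (∏ z ∈ T, cz z)
    (pow_pos hp.pos ((n - h) * N) : 0 < p ^ ((n - h) * N))
  have hCprod : ∏ z ∈ T, cz z ≠ 0 := Finset.prod_ne_zero_iff.mpr hcz
  have hC0 : C ≠ 0 := by
    rintro rfl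
    rw [zero_pow (pow_ne_zero _ hp.ne_zero)] at hC
    exact hCprod hC.symm
  refine ⟨C, S, hC0, hS0, hScard, hSle, hSs, ?_, ?_, ?_⟩
  · -- card one implies non-break
    intro hcard Y hY hYn
    have hS1 : S = {0} := by
      obtain ⟨a, ha⟩ := Finset.card_eq_one.mp hcard
      rw [ha] at hS0 ⊢
      rw [Finset.mem_singleton.mp hS0]
    have hzT : D.ltcHom N Y ∈ T := by
      rw [hT]
      show p ^ N • D.E (divp p n N Y) = 0
      rw [← map_nsmul, D.pow_smul_divp]
      exact D.mem_Lam.mp hY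
    have h1 := hK1 (lam (D.ltcHom N Y)) Y (hlamE _ hzT)
    have h2 : ‖(lam (D.ltcHom N Y)).val‖ ≤ q0 := (hcmpeq _ _ h1).mpr hYn.le
    have h3 : ¬ ‖(lam (D.ltcHom N Y)).val‖ < q0 := by
      rw [hcmp _ _ h1, hYn]; exact lt_irrefl _
    have hzB : D.ltcHom N Y ∈ B := Finset.mem_filter.mpr ⟨hzT, h2⟩
    obtain ⟨v, hv, hv'⟩ := hScov _ (Finset.mem_image_of_mem lq hzB)
    rw [hS1, Finset.mem_singleton] at hv
    rw [hv, sub_zero] at hv'
    apply h3
    have h4 : ‖lq (D.ltcHom N Y)‖ = ‖(lam (D.ltcHom N Y)).val‖ / q0 := by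
      show ‖((lam (D.ltcHom N Y)).val : K) / y0‖ = _
      rw [norm_div, hy0n]; rfl
    rw [h4, div_lt_one hq0pos] at hv'
    exact hv'
  · -- non-break implies S = {0}
    intro hnb
    rw [Finset.eq_singleton_iff_unique_mem]
    refine ⟨hS0, fun v hv => ?_⟩
    by_contra hne
    have h1 := hSs v hv 0 hS0 hne
    rw [sub_zero] at h1
    obtain ⟨z, hz, rfl⟩ := Finset.mem_image.mp (hSL hv)
    have hzT := (Finset.mem_filter.mp hz).1
    have h4 : ‖lq z‖ = ‖(lam z).val‖ / q0 := by
      show ‖((lam z).val : K) / y0‖ = _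
      rw [norm_div, hy0n]; rfl
    rw [h4, div_eq_one_iff_eq hq0pos.ne'] at h1
    exact hnb _ (hlamL z hzT) h1
  · -- the main estimate
    intro Y hY
    set y : K := (Y.val : K) / y0 with hy
    have hyle : ‖y‖ ≤ 1 := by
      rw [hy, norm_div, hy0n, div_le_one hq0pos]; exact hY
    set U : FPt D.F := D.ltcHom N Y with hU
    obtain ⟨ε, hε, hεprod⟩ := hprod U
    have hpU : p ^ N • U = D.E Y := by
      rw [hU, ltcHom_apply, ← map_nsmul, D.pow_smul_divp]
    rw [hpU] at hεprod
    -- factors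
    let az : FPt D.F → K := fun z => ((U - z).val : K) ^ (p ^ (n * N)) / cz z
    let bz : FPt D.F → K := fun z => if ‖(lam z).val‖ ≤ q0 then y - lq z else 1
    have hab : ∀ z ∈ T, ‖az z - bz z‖ < 1 := by
      intro z hz
      have hUz : U - z = D.ltcHom N (Y - lam z) := by
        rw [map_sub, hlamE z hz]
      have h1 := D.ltc_approx N (Y - lam z)
      rw [← hUz] at h1
      have h1' : ‖((U - z).val : K) ^ (p ^ (n * N)) - ((Y - lam z).val : K)‖ < q0 :=
        lt_of_le_of_lt h1 hN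
      have h2 := FPt.norm_val_sub_sub_le Y (lam z)
      have h2' : ‖((Y - lam z).val : K) - ((Y.val : K) - ((lam z).val : K))‖ ≤
          ‖(Y.val : K) - ((lam z).val : K)‖ * max ‖Y.val‖ ‖(lam z).val‖ := h2
      show ‖((U - z).val : K) ^ (p ^ (n * N)) / (if ‖(lam z).val‖ ≤ q0 then y0 else -((lam z).val : K)) -
        (if ‖(lam z).val‖ ≤ q0 then y - lq z else 1)‖ < 1
      split_ifs with hs
      · have h3 : ‖((Y - lam z).val : K) - ((Y.val : K) - ((lam z).val : K))‖ < q0 := by
          refine lt_of_le_of_lt h2' ?_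
          have h4 : ‖(Y.val : K) - ((lam z).val : K)‖ ≤ q0 :=
            (ltc_norm_sub_le _ _).trans (max_le hY hs)
          have h5 : max ‖Y.val‖ ‖(lam z).val‖ ≤ q0 := max_le hY hs
          calc ‖(Y.val : K) - ((lam z).val : K)‖ * max ‖Y.val‖ ‖(lam z).val‖ ≤ q0 * q0 :=
                mul_le_mul h4 h5 (le_max_of_le_left (norm_nonneg _)) hq0pos.le
            _ < q0 := by (clear T hT hTc hprod T1 hT1 hT1c hlift hker Lt σ hσ hp hLt hq0 hq0pos hn2 hK0 hK1 hcmp hcmpeq lam hlamT hlam0 hlamL hlamE h0T hsubT B H h0B h0H hsubH y0 hy0 hy0n hy0ne lq hlq_le hlq_sub S hSL hS0 hSs hScov hSle vv hvv hvvS hvv1 hfib hBcard M hM hHcard hScard cz hcz C hC hCprod hC0 Y hY y hy hyle U hU ε hε hεprod hpU az bz z hz hUz h1 h1' h2 h2' hs h4 h5; nlinarith)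
        have h6 := ltc_norm_sub_comm_lt h1' h3
        have h7 : ((U - z).val : K) ^ (p ^ (n * N)) / y0 - (y - lq z) =
            (((U - z).val : K) ^ (p ^ (n * N)) - ((Y.val : K) - ((lam z).val : K))) / y0 := by
          show _ - ((Y.val : K) / y0 - ((lam z).val : K) / y0) = _
          ring
        rw [h7, norm_div, hy0n, div_lt_one hq0pos]
        exact h6
      · push Not at hs
        have hlampos : 0 < ‖(lam z).val‖ := hq0pos.trans hs
        have hlamlt : ‖(lam z).val‖ < 1 := (lam z).norm_val_lt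
        have hlamK : ‖((lam z).val : K)‖ = ‖(lam z).val‖ := rfl
        have h3 : ‖((Y - lam z).val : K) - ((Y.val : K) - ((lam z).val : K))‖ < ‖(lam z).val‖ := by
          refine lt_of_le_of_lt h2' ?_
          have h4 : ‖(Y.val : K) - ((lam z).val : K)‖ ≤ ‖(lam z).val‖ :=
            (ltc_norm_sub_le _ _).trans (max_le (hY.trans hs.le) le_rfl)
          have h5 : max ‖Y.val‖ ‖(lam z).val‖ ≤ ‖(lam z).val‖ := max_le (hY.trans hs.le) le_rfl
          calc ‖(Y.val : K) - ((lam z).val : K)‖ * max ‖Y.val‖ ‖(lam z).val‖ ≤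
                ‖(lam z).val‖ * ‖(lam z).val‖ :=
                mul_le_mul h4 h5 (le_max_of_le_left (norm_nonneg _)) hlampos.le
            _ < ‖(lam z).val‖ := by (clear T hT hTc hprod T1 hT1 hT1c hlift hker Lt σ hσ hp hLt hq0 hq0pos hq0lt hn2 hK0 hK1 hcmp hcmpeq hlamT hlam0 hlamL hlamE h0T hsubT B H h0B h0H hsubH y0 hy0 hy0n hy0ne lq hlq_le hlq_sub S hSL hS0 hSs hScov hSle vv hvv hvvS hvv1 hfib hBcard M hM hHcard hScard cz hcz C hC hCprod hC0 Y hY y hy hyle U hU ε hε hεprod hpU az bz hz hUz h1 h1' h2 h2' hlampos hlamK h4 h5; nlinarith)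
        have h6 := ltc_norm_sub_comm_lt (h1'.trans hs) h3
        have h7 : ‖((U - z).val : K) ^ (p ^ (n * N)) - (-((lam z).val : K))‖ < ‖(lam z).val‖ := by
          refine ltc_norm_sub_comm_lt h6 ?_
          have : (Y.val : K) - ((lam z).val : K) - -((lam z).val : K) = (Y.val : K) := by ring
          rw [this]
          exact lt_of_le_of_lt hY hs
        have hne : -((lam z).val : K) ≠ 0 := by
          intro h0
          rw [neg_eq_zero] at h0
          rw [← hlamK, h0, norm_zero] at hlampos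
          exact lt_irrefl _ hlampos
        have h8 : ((U - z).val : K) ^ (p ^ (n * N)) / (-((lam z).val : K)) - 1 =
            (((U - z).val : K) ^ (p ^ (n * N)) - (-((lam z).val : K))) / (-((lam z).val : K)) := by
          rw [sub_div, div_self hne]
        rw [h8, norm_div, norm_neg, hlamK, div_lt_one hlampos]
        exact h7
    have hb1 : ∀ z ∈ T, ‖bz z‖ ≤ 1 := by
      intro z hz
      show ‖(if ‖(lam z).val‖ ≤ q0 then y - lq z else 1)‖ ≤ 1
      split_ifs with hs
      · exact (ltc_norm_sub_le _ _).trans (max_le hyle (hlq_le z (Finset.mem_filter.mpr ⟨hz, hs⟩)))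
      · rw [norm_one]
    obtain ⟨hprodab, hprodb⟩ := ltc_prod_close T az bz hab hb1
    -- left-hand side
    have hLHS : (((D.E Y).val : K) / C) ^ (p ^ ((n - h) * N)) =
        (ε : K) ^ (p ^ ((n - h) * N)) * ∏ z ∈ T, az z := by
      have h1 : ((D.E Y).val : K) = (ε : K) * ∏ z ∈ T, ((U - z).val : K) ^ (p ^ (h * N)) := by
        rw [hεprod]
        push_cast
        rfl
      rw [div_pow, hC, h1, mul_pow, ← Finset.prod_pow, mul_div_assoc, ← Finset.prod_div_distrib]
      congr 1
      refine Finset.prod_congr rfl fun z _ => ?_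
      show _ = ((U - z).val : K) ^ (p ^ (n * N)) / cz z
      rw [← pow_mul, ← pow_add]
      have : h * N + (n - h) * N = n * N := by
        rw [← add_mul, Nat.add_sub_cancel' D.h_lt_n.le]
      rw [this]
    have hεpow : ‖(ε : K) ^ (p ^ ((n - h) * N)) - 1‖ < 1 := by
      have h1 : (ε : K) ^ (p ^ ((n - h) * N)) - 1 = ((ε : K) - 1) ^ (p ^ ((n - h) * N)) := by
        rw [sub_pow_char_pow, one_pow]
      rw [h1, norm_pow]
      exact pow_lt_one₀ (norm_nonneg _) hε (pow_ne_zero _ hp.ne_zero)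
    have hazle : ‖∏ z ∈ T, az z‖ ≤ 1 := ltc_norm_le_one hprodab hprodb
    have hstep1 : ‖(((D.E Y).val : K) / C) ^ (p ^ ((n - h) * N)) - ∏ z ∈ T, az z‖ < 1 := by
      rw [hLHS]
      have : (ε : K) ^ (p ^ ((n - h) * N)) * ∏ z ∈ T, az z - ∏ z ∈ T, az z =
          ((ε : K) ^ (p ^ ((n - h) * N)) - 1) * ∏ z ∈ T, az z := by ring
      rw [this, norm_mul]
      exact lt_of_le_of_lt (mul_le_of_le_one_right (norm_nonneg _) hazle) hεpow
    -- right-hand side
    have hRHS : ∏ z ∈ T, bz z = ∏ z ∈ B, (y - lq z) := by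
      rw [Finset.prod_filter]
    have hclose2 := (ltc_prod_close B (fun z => y - lq z) (fun z => y - vv z)
      (fun z hz => by
        have : (y - lq z) - (y - vv z) = -(lq z - vv z) := by ring
        rw [this, norm_neg]; exact hvv1 z hz)
      (fun z hz => (ltc_norm_sub_le _ _).trans (max_le hyle (hSle _ (hvvS z hz))))).1
    have hgroup : ∏ z ∈ B, (y - vv z) = (∏ v ∈ S, (y - v)) ^ (p ^ M) := by
      rw [← Finset.prod_fiberwise_of_maps_to hvvS, ← Finset.prod_pow]
      refine Finset.prod_congr rfl fun v hv => ?_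
      rw [Finset.prod_congr rfl (g := fun _ => y - v)
        (fun z hz => by rw [(Finset.mem_filter.mp hz).2]), Finset.prod_const, hfib v hv, hHcard]
    have hfinal : ‖(((D.E Y).val : K) / C) ^ (p ^ ((n - h) * N)) -
        (∏ v ∈ S, (y - v)) ^ (p ^ M)‖ < 1 := by
      refine ltc_norm_sub_comm_lt hstep1 (ltc_norm_sub_comm_lt hprodab ?_)
      rw [hRHS, ← hgroup]
      exact hclose2
    rw [← hM, pow_add, pow_mul, ← sub_pow_char_pow, norm_pow] at hfinal
    by_contra hge
    push Not at hge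
    have := one_le_pow₀ (n := p ^ M) hge
    (clear N T hT hTc hprod T1 hT1 hT1c hlift hker Lt hσ hp q0 hN hLt hq0 hr0 hq0pos hq0lt hn2 hK0 hK1 hcmp hcmpeq lam hlamT hlam0 hlamL hlamE h0T hsubT B H h0B h0H hsubH hy0 hy0n hy0ne lq hlq_le hlq_sub hSL hS0 hSs hScov hSle vv hvv hvvS hvv1 hfib hBcard hM hHcard hScard cz hcz hC hCprod hC0 hY hy hyle U hU ε hε hεprod hpU az bz hab hb1 hprodab hprodb hLHS hεpow hazle hstep1 hRHS hclose2 hgroup; linarith)

end LocalFG

end Vale.Agent.P217
end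
end

section

section

/-!
# P217: torsion points, product formula, the lattice
-/

namespace Vale.Agent.P217

open MvPowerSeries Filter Topology

variable {K : Type*} [NontriviallyNormedField K] [IsUltrametricDist K] [CompleteSpace K]
variable {p : ℕ} [Fact p.Prime] [CharP K p] [IsAlgClosed K]
variable {n h : ℕ} {Γ : FormalGroup (OK K)}

namespace LocalFG

variable (D : LocalFG p n h Γ)

variable [Γ.IsComm]

theorem divp_pow_smul (N : ℕ) (Y : FPt Γ) (D : LocalFG p n h Γ) :
    divp p n N (p ^ N • Y) = Y := by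
  apply FPt.ext
  show rt p (n * N) (p ^ N • Y).val = Y.val
  rw [D.val_pow_smul, rt_of_pow]

theorem divp_zero_left (D : LocalFG p n h Γ) (Y : FPt Γ) : divp p n 0 Y = Y := by
  have := divp_pow_smul 0 Y D
  simpa using this

theorem divp_add_left (D : LocalFG p n h Γ) (N : ℕ) (Y Y' : FPt Γ) :
    divp p n N (Y + Y') = divp p n N Y + divp p n N Y' := by
  have h1 : Y + Y' = p ^ N • (divp p n N Y + divp p n N Y') := by
    rw [smul_add, D.pow_smul_divp, D.pow_smul_divp]
  rw [h1, divp_pow_smul N _ D]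

/-- every `p^N`-torsion point is `E(p^{-N} λ)` for some `λ ∈ Λ`. -/
theorem exists_mem_Lam_of_torsion (N : ℕ) (z : FPt D.F) (hz : p ^ N • z = 0) :
    ∃ Y ∈ D.Lam, D.E (divp p n N Y) = z := by
  -- preimages above `z`
  let up : ℕ → FPt D.F := fun M => Nat.rec z (fun _ w => (D.p_smul_surjective w).choose) M
  have hup : ∀ M, p • up (M + 1) = up M := fun M => (D.p_smul_surjective (up M)).choose_spec
  let w : ℕ → FPt D.F := fun M => if M ≤ N then p ^ (N - M) • z else up (M - N)
  have hw : ∀ M, p • w (M + 1) = w M := by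
    intro M
    by_cases h1 : M + 1 ≤ N
    · have h2 : M ≤ N := by omega
      simp only [w, h1, h2, if_true]
      rw [smul_smul, ← pow_succ']
      congr 2
      omega
    · by_cases h2 : M ≤ N
      · have h3 : M = N := by omega
        subst h3
        simp only [w, h1, if_false, le_refl, if_true, Nat.sub_self, pow_zero, one_smul,
          Nat.add_sub_cancel_left]
        exact hup 0
      · simp only [w, h1, h2, if_false]
        have h3 : M + 1 - N = (M - N) + 1 := by omega
        rw [h3]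
        exact hup _
  obtain ⟨Y, hY⟩ := D.exists_of_tower w hw
  refine ⟨Y, ?_, ?_⟩
  · rw [mem_Lam]
    have h0 := hY 0
    rw [divp_zero_left D] at h0
    rw [h0]
    simp only [w, Nat.zero_le, if_true, Nat.sub_zero, hz]
  · rw [hY N]
    simp only [w, le_refl, if_true, Nat.sub_self, pow_zero, one_smul]

theorem E_divp_eq_zero_iff (N : ℕ) (Y : FPt Γ) :
    D.E (divp p n N Y) = 0 ↔ ∃ Y' ∈ D.Lam, Y = p ^ N • Y' := by
  constructor
  · intro hE
    exact ⟨divp p n N Y, D.mem_Lam.2 hE, (D.pow_smul_divp N Y).symm⟩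
  · rintro ⟨Y', hY', rfl⟩
    rw [divp_pow_smul N Y' D]
    exact D.mem_Lam.1 hY'

theorem pow_smul_E_divp (N : ℕ) (Y : FPt Γ) : p ^ N • D.E (divp p n N Y) = D.E Y := by
  rw [← map_nsmul, D.pow_smul_divp]

theorem val_p_smul_Gam (D : LocalFG p n h Γ) (Y : FPt Γ) :
    (p • Y).val = Y.val ^ (p ^ n) := by
  have := D.val_pow_smul 1 Y
  simpa only [pow_one, mul_one] using this

/-- The norms of the elements of `Λ` not divisible by `p` are bounded below. -/
theorem exists_norm_lower_bound : ∃ c : ℝ, 0 < c ∧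
    ∀ Y ∈ D.Lam, (¬ ∃ Y' ∈ D.Lam, Y = p • Y') → c ≤ ‖Y.val‖ := by
  classical
  obtain ⟨S, hS, -, -⟩ := D.exists_torsion 1
  -- minimal norm of the nonzero torsion points
  obtain ⟨c0, hc0, hc0'⟩ : ∃ c0 : ℝ, 0 < c0 ∧ ∀ z ∈ S, z ≠ 0 → c0 ≤ ‖z.val‖ := by
    by_cases hne : (S.erase 0).Nonempty
    · refine ⟨(S.erase 0).inf' hne (fun z => ‖z.val‖), ?_, ?_⟩
      · rw [Finset.lt_inf'_iff]
        intro z hz
        rw [Finset.mem_erase] at hz
        rw [norm_pos_iff]
        intro h0
        exact hz.1 (FPt.ext h0)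
      · intro z hz hz0
        exact Finset.inf'_le (fun z => ‖z.val‖) (Finset.mem_erase.2 ⟨hz0, hz⟩)
    · refine ⟨1, one_pos, ?_⟩
      intro z hz hz0
      exact absurd ⟨z, Finset.mem_erase.2 ⟨hz0, hz⟩⟩ hne
  obtain ⟨δ, hδ, hδ'⟩ := D.exists_norm_E_lt c0 hc0
  refine ⟨δ ^ (p ^ n), pow_pos hδ _, ?_⟩
  intro Y hY hYp
  by_contra hlt
  push Not at hlt
  have h1 : ‖(divp p n 1 Y).val‖ < δ := by
    by_contra hge
    push Not at hge
    have h2 : ‖Y.val‖ = ‖(divp p n 1 Y).val‖ ^ (p ^ n) := by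
      have h3 := D.pow_smul_divp 1 Y
      conv_lhs => rw [← h3]
      rw [D.val_pow_smul, mul_one, OK_norm_pow]
    rw [h2] at hlt
    exact absurd (pow_le_pow_left₀ hδ.le hge (p ^ n)) (not_le.2 hlt)
  have h2 := hδ' _ h1
  have h3 : D.E (divp p n 1 Y) ≠ 0 := by
    intro h0
    rw [D.E_divp_eq_zero_iff] at h0
    obtain ⟨Y', hY', hYY'⟩ := h0
    exact hYp ⟨Y', hY', by simpa only [pow_one] using hYY'⟩
  have h4 : D.E (divp p n 1 Y) ∈ S := by
    rw [hS, D.pow_smul_E_divp]
    exact D.mem_Lam.1 hY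
  exact absurd (hc0' _ h4 h3) (not_le.2 h2)

theorem norm_pow_smul_Gam (D : LocalFG p n h Γ) (N : ℕ) (Y : FPt Γ) :
    ‖(p ^ N • Y).val‖ = ‖Y.val‖ ^ (p ^ (n * N)) := by
  rw [D.val_pow_smul, OK_norm_pow]

/-- elements of `p^N Λ` become small. -/
theorem exists_pow_smul_small (c : ℝ) (hc : 0 < c) : ∃ N : ℕ, ∀ Y ∈ D.Lam,
    ‖(p ^ N • Y).val‖ < c := by
  have hr := D.r_lt_one
  have hn : 0 < n := lt_of_le_of_lt (Nat.zero_le _) D.h_lt_n
  have hp : 1 < p := (Fact.out : p.Prime).one_lt
  obtain ⟨N, hN⟩ := exists_pow_lt_of_lt_one hc hr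
  refine ⟨N, fun Y hY => ?_⟩
  rw [norm_pow_smul_Gam D]
  have h1 : ‖Y.val‖ ^ (p ^ (n * N)) ≤ D.r ^ (p ^ (n * N)) :=
    pow_le_pow_left₀ (norm_nonneg _) (D.norm_le_of_mem_Lam hY) _
  have h2 : N ≤ p ^ (n * N) :=
    le_trans (Nat.le_mul_of_pos_left N hn) (Nat.lt_pow_self hp).le
  have h3 : D.r ^ (p ^ (n * N)) ≤ D.r ^ N := pow_le_pow_of_le_one D.r_nonneg hr.le h2
  linarith

/-- The set of norms of the elements of `Λ` not divisible by `p` is finite. -/
theorem finite_norms : Set.Finite {ρ : ℝ | ∃ Y ∈ D.Lam, (¬ ∃ Y' ∈ D.Lam, Y = p • Y') ∧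
    ρ = ‖Y.val‖} := by
  classical
  obtain ⟨c, hc, hc'⟩ := D.exists_norm_lower_bound
  obtain ⟨N, hN⟩ := D.exists_pow_smul_small c hc
  obtain ⟨S, hS, -, -⟩ := D.exists_torsion N
  -- a section
  have hsec : ∀ z : FPt D.F, z ∈ S → ∃ Y ∈ D.Lam, D.E (divp p n N Y) = z := fun z hz =>
    D.exists_mem_Lam_of_torsion N z ((hS z).1 hz)
  let f : FPt D.F → ℝ := fun z => if hz : z ∈ S then ‖(hsec z hz).choose.val‖ else 0
  refine Set.Finite.subset (S.image f).finite_toSet ?_
  rintro ρ ⟨Y, hY, hYp, rfl⟩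
  rw [Finset.mem_coe, Finset.mem_image]
  have hz : D.E (divp p n N Y) ∈ S := by
    rw [hS, D.pow_smul_E_divp]
    exact D.mem_Lam.1 hY
  refine ⟨_, hz, ?_⟩
  simp only [f, hz, dif_pos]
  obtain ⟨hZ, hZE⟩ := (hsec _ hz).choose_spec
  set Z := (hsec _ hz).choose with hZdef
  -- Y - Z in p^N Λ
  have h1 : D.E (divp p n N (Z - Y)) = 0 := by
    have h2 : divp p n N Z = divp p n N (Z - Y) + divp p n N Y := by
      rw [← divp_add_left D, sub_add_cancel]
    rw [h2, map_add] at hZE
    simpa only [add_eq_right] using hZE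
  obtain ⟨W, hW, hWZ⟩ := (D.E_divp_eq_zero_iff N _).1 h1
  have h3 : ‖(Z - Y).val‖ < c := by rw [hWZ]; exact hN W hW
  rw [FPt.norm_val_sub] at h3
  have h4 := hc' Y hY hYp
  have h5 : ‖Z.val - Y.val‖ < ‖Y.val‖ := lt_of_lt_of_le h3 h4
  have h6 : Z.val = (Z.val - Y.val) + Y.val := by ring
  rw [h6]
  exact IsUltrametricDist.norm_add_eq_max_of_norm_ne_norm h5.ne |>.trans (max_eq_right h5.le)

/-- every nonzero element of `Λ` is `p^N` times an element of `Λ` not divisible by `p`. -/
theorem exists_primitive (Z : FPt Γ) (hZ : Z ∈ D.Lam) (hZ0 : Z ≠ 0) :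
    ∃ N : ℕ, ∃ Y ∈ D.Lam, (¬ ∃ Y' ∈ D.Lam, Y = p • Y') ∧ Z = p ^ N • Y := by
  classical
  have hpos : 0 < ‖Z.val‖ := by
    rw [norm_pos_iff]
    intro h0
    exact hZ0 (FPt.ext h0)
  obtain ⟨N₀, hN₀⟩ := D.exists_pow_smul_small _ hpos
  have hex : ∃ N : ℕ, ¬ ∃ Y ∈ D.Lam, Z = p ^ N • Y := by
    refine ⟨N₀, ?_⟩
    rintro ⟨Y, hY, hZY⟩
    have := hN₀ Y hY
    rw [← hZY] at this
    exact lt_irrefl _ this
  obtain ⟨k, hk, hmin⟩ : ∃ k : ℕ, (¬ ∃ Y ∈ D.Lam, Z = p ^ k • Y) ∧
      ∀ m < k, ∃ Y ∈ D.Lam, Z = p ^ m • Y :=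
    ⟨Nat.find hex, Nat.find_spec hex, fun m hm => not_not.1 (Nat.find_min hex hm)⟩
  rcases Nat.eq_zero_or_pos k with h0 | h0
  · exfalso
    rw [h0] at hk
    exact hk ⟨Z, hZ, by simp⟩
  · obtain ⟨Y, hY, hZY⟩ := hmin (k - 1) (by omega)
    refine ⟨k - 1, Y, hY, ?_, hZY⟩
    rintro ⟨Y', hY', hYY'⟩
    apply hk
    refine ⟨Y', hY', ?_⟩
    have h2 : p ^ k = p ^ (k - 1) * p := by
      rw [← pow_succ]
      congr 1
      omega
    rw [h2, mul_smul, ← hYY']
    exact hZY

/-- `Λ` is nonzero and has an element of maximal norm `> 0`. -/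
theorem exists_max_norm : ∃ Y ∈ D.Lam, Y ≠ 0 ∧ ∀ Z ∈ D.Lam, ‖Z.val‖ ≤ ‖Y.val‖ := by
  classical
  have hfin := D.finite_norms
  have hp : 1 < p := (Fact.out : p.Prime).one_lt
  -- nonempty
  have hne : {ρ : ℝ | ∃ Y ∈ D.Lam, (¬ ∃ Y' ∈ D.Lam, Y = p • Y') ∧ ρ = ‖Y.val‖}.Nonempty := by
    obtain ⟨S, hS, hcard, -⟩ := D.exists_torsion 1
    have h1 : 1 < S.card := by
      rw [hcard, mul_one]
      exact Nat.one_lt_pow (by have := D.h_lt_n; omega) hp
    obtain ⟨z, hz, hz0⟩ := Finset.exists_mem_ne h1 (0 : FPt D.F)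
    obtain ⟨Y, hY, hYz⟩ := D.exists_mem_Lam_of_torsion 1 z ((hS z).1 hz)
    refine ⟨‖Y.val‖, Y, hY, ?_, rfl⟩
    rintro ⟨Y', hY', hYY'⟩
    apply hz0
    rw [← hYz, D.E_divp_eq_zero_iff]
    exact ⟨Y', hY', by simpa only [pow_one] using hYY'⟩
  obtain ⟨ρ, ⟨Y, hY, hYp, rfl⟩, hmax⟩ := Set.exists_max_image _ id hfin hne
  refine ⟨Y, hY, ?_, ?_⟩
  · rintro rfl
    exact hYp ⟨0, D.Lam.zero_mem, by simp⟩
  · intro Z hZ
    by_cases hZ0 : Z = 0
    · rw [hZ0]
      simp only [FPt.val_zero, norm_zero, AddSubgroupClass.coe_norm, norm_nonneg]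
    · obtain ⟨N, W, hW, hWp, hZW⟩ := D.exists_primitive Z hZ hZ0
      have h1 : ‖W.val‖ ≤ ‖Y.val‖ := hmax _ ⟨W, hW, hWp, rfl⟩
      have h2 : ‖Z.val‖ ≤ ‖W.val‖ := by
        rw [hZW, norm_pow_smul_Gam D]
        exact pow_le_of_le_one (norm_nonneg _) W.norm_val_lt.le (pow_pos (by omega) _).ne'
      exact h2.trans h1

/-- The subgroup of elements of `Λ` of norm `< ρ`. -/
def LamLt (ρ : ℝ) : AddSubgroup (FPt Γ) where
  carrier := {Y | Y ∈ D.Lam ∧ ‖Y.val‖ < ρ ∨ Y = 0}
  add_mem' := by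
    rintro a b (⟨ha, ha'⟩ | rfl) (⟨hb, hb'⟩ | rfl)
    · exact Or.inl ⟨D.Lam.add_mem ha hb,
        lt_of_le_of_lt (FPt.norm_val_add_le a b) (max_lt ha' hb')⟩
    · exact Or.inl ⟨by rwa [add_zero], by rwa [add_zero]⟩
    · exact Or.inl ⟨by rwa [zero_add], by rwa [zero_add]⟩
    · exact Or.inr (add_zero 0)
  zero_mem' := Or.inr rfl
  neg_mem' := by
    rintro a (⟨ha, ha'⟩ | rfl)
    · exact Or.inl ⟨D.Lam.neg_mem ha, by rwa [FPt.norm_val_neg]⟩
    · exact Or.inr neg_zero

/-- The index `[Λ : Λ_{<ρ}]`. -/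
noncomputable def idx (ρ : ℝ) : ℕ := (D.LamLt ρ).relIndex D.Lam

/-- `σ(ρ) = log_p [Λ : Λ_{<ρ}]`. -/
noncomputable def sig (ρ : ℝ) : ℕ := Nat.log p (D.idx ρ)

theorem mem_LamLt {ρ : ℝ} {Y : FPt Γ} : Y ∈ D.LamLt ρ ↔ Y ∈ D.Lam ∧ ‖Y.val‖ < ρ ∨ Y = 0 :=
  Iff.rfl

theorem mem_LamLt_of_pos {ρ : ℝ} (hρ : 0 < ρ) {Y : FPt Γ} :
    Y ∈ D.LamLt ρ ↔ Y ∈ D.Lam ∧ ‖Y.val‖ < ρ := by
  rw [mem_LamLt]
  constructor
  · rintro (h1 | rfl)
    · exact h1
    · exact ⟨D.Lam.zero_mem, by simpa only [FPt.val_zero, norm_zero] using hρ⟩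
  · exact Or.inl

theorem LamLt_le (ρ : ℝ) : D.LamLt ρ ≤ D.Lam := by
  rintro Y (⟨h1, -⟩ | rfl)
  · exact h1
  · exact D.Lam.zero_mem

theorem LamLt_mono {ρ ρ' : ℝ} (hle : ρ ≤ ρ') : D.LamLt ρ ≤ D.LamLt ρ' := by
  rintro Y (⟨h1, h2⟩ | rfl)
  · exact Or.inl ⟨h1, lt_of_lt_of_le h2 hle⟩
  · exact Or.inr rfl

/-- the subgroup `p^N Λ`. -/
noncomputable def pLam (N : ℕ) : AddSubgroup (FPt Γ) :=
  D.Lam.map (nsmulAddMonoidHom (p ^ N) : FPt Γ →+ FPt Γ)

theorem mem_pLam {N : ℕ} {Y : FPt Γ} : Y ∈ D.pLam N ↔ ∃ Y' ∈ D.Lam, Y = p ^ N • Y' := by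
  unfold pLam
  rw [AddSubgroup.mem_map]
  constructor
  · rintro ⟨Y', hY', rfl⟩
    exact ⟨Y', hY', rfl⟩
  · rintro ⟨Y', hY', rfl⟩
    exact ⟨Y', hY', rfl⟩

theorem pLam_le (N : ℕ) : D.pLam N ≤ D.Lam := by
  intro Y hY
  obtain ⟨Y', hY', rfl⟩ := D.mem_pLam.1 hY
  exact D.Lam.nsmul_mem hY' _

theorem relIndex_pLam (N : ℕ) : (D.pLam N).relIndex D.Lam = p ^ ((n - h) * N) := by
  classical
  obtain ⟨S, hS, hcard, -⟩ := D.exists_torsion N
  rw [← hcard]
  -- the hom Λ → F, Y ↦ E(divp N Y)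
  let f : D.Lam →+ FPt D.F :=
    { toFun := fun Y => D.E (divp p n N (Y : FPt Γ))
      map_zero' := by
        show D.E (divp p n N (0 : FPt Γ)) = 0
        rw [D.E_divp_eq_zero_iff]
        exact ⟨0, D.Lam.zero_mem, by simp⟩
      map_add' := by
        intro a b
        show D.E (divp p n N ((a : FPt Γ) + b)) = _
        rw [divp_add_left D, map_add] }
  have hker : (D.pLam N).addSubgroupOf D.Lam = f.ker := by
    ext Y
    rw [AddSubgroup.mem_addSubgroupOf, AddMonoidHom.mem_ker, mem_pLam]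
    exact (D.E_divp_eq_zero_iff N _).symm
  have hrange : (f.range : Set (FPt D.F)) = (S : Set (FPt D.F)) := by
    ext z
    rw [SetLike.mem_coe, AddMonoidHom.mem_range, Finset.mem_coe, hS]
    constructor
    · rintro ⟨Y, rfl⟩
      show p ^ N • D.E (divp p n N (Y : FPt Γ)) = 0
      rw [D.pow_smul_E_divp]
      exact D.mem_Lam.1 Y.2
    · intro hz
      obtain ⟨Y, hY, hYz⟩ := D.exists_mem_Lam_of_torsion N z hz
      exact ⟨⟨Y, hY⟩, hYz⟩
  unfold AddSubgroup.relIndex
  rw [hker, AddSubgroup.index_ker]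
  have h1 : Nat.card f.range = Nat.card (f.range : Set (FPt D.F)) := rfl
  rw [h1, hrange, Nat.card_coe_set_eq, Set.ncard_coe_finset]

theorem exists_pLam_le (ρ : ℝ) (hρ : 0 < ρ) : ∃ N, D.pLam N ≤ D.LamLt ρ := by
  obtain ⟨N, hN⟩ := D.exists_pow_smul_small ρ hρ
  refine ⟨N, fun Y hY => ?_⟩
  obtain ⟨Y', hY', rfl⟩ := D.mem_pLam.1 hY
  exact Or.inl ⟨D.Lam.nsmul_mem hY' _, hN Y' hY'⟩

theorem idx_eq (ρ : ℝ) (hρ : 0 < ρ) : D.idx ρ = p ^ D.sig ρ := by
  have hp : p.Prime := Fact.out
  obtain ⟨N, hN⟩ := D.exists_pLam_le ρ hρ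
  have h1 : D.idx ρ ∣ p ^ ((n - h) * N) := by
    rw [← D.relIndex_pLam N]
    exact AddSubgroup.relIndex_dvd_of_le_left D.Lam hN
  obtain ⟨k, -, hk⟩ := (Nat.dvd_prime_pow hp).1 h1
  unfold sig
  rw [hk, Nat.log_pow hp.one_lt]

theorem sig_anti {ρ ρ' : ℝ} (hρ : 0 < ρ) (h : ρ ≤ ρ') : D.sig ρ' ≤ D.sig ρ := by
  have hp : p.Prime := Fact.out
  have h1 : D.idx ρ' ∣ D.idx ρ := AddSubgroup.relIndex_dvd_of_le_left D.Lam (D.LamLt_mono h)
  rw [D.idx_eq ρ hρ, D.idx_eq ρ' (hρ.trans_le h)] at h1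
  exact (Nat.pow_dvd_pow_iff_le_right hp.one_lt).1 h1

/-- `ρ` is not the norm of an element of `Λ`. -/
def NonBreak (ρ : ℝ) : Prop := ∀ Y ∈ D.Lam, ‖Y.val‖ ≠ ρ

theorem smul_injective_Gam (D : LocalFG p n h Γ) (N : ℕ) :
    Function.Injective (fun Y : FPt Γ => p ^ N • Y) := by
  intro a b hab
  have h1 : divp p n N (p ^ N • a) = divp p n N (p ^ N • b) := by
    have : p ^ N • a = p ^ N • b := hab
    rw [this]
  rwa [divp_pow_smul N a D, divp_pow_smul N b D] at h1

/-- for small `ρ`: `σ(ρ^q) = σ(ρ) + (n-h)`, and non-breaks correspond. -/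
theorem exists_sig_periodic : ∃ ρ₀ : ℝ, 0 < ρ₀ ∧ ρ₀ < 1 ∧ ∀ ρ : ℝ, 0 < ρ → ρ ≤ ρ₀ →
    D.sig (ρ ^ (p ^ n)) = D.sig ρ + (n - h) ∧ (D.NonBreak (ρ ^ (p ^ n)) ↔ D.NonBreak ρ) := by
  classical
  have hp : p.Prime := Fact.out
  have hn : 0 < n := lt_of_le_of_lt (Nat.zero_le _) D.h_lt_n
  have hq : p ^ n ≠ 0 := (pow_pos hp.pos n).ne'
  obtain ⟨c, hc, hc'⟩ := D.exists_norm_lower_bound
  have hmin : 0 < min c 1 := lt_min hc one_pos
  refine ⟨min c 1 / 2, by positivity, ?_, ?_⟩
  · have : min c 1 ≤ 1 := min_le_right _ _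
    linarith only [this]
  intro ρ hρ hρle
  have hρc : ρ < c := by
    have : min c 1 ≤ c := min_le_left _ _
    linarith only [hρ, hρle, this]
  have hρ1 : ρ < 1 := by
    have : min c 1 ≤ 1 := min_le_right _ _
    linarith only [hρle, this]
  have hρq : ρ ^ (p ^ n) ≤ ρ := pow_le_of_le_one hρ.le hρ1.le hq
  have hρqpos : 0 < ρ ^ (p ^ n) := pow_pos hρ _
  -- elements of norm ≤ ρ^q are divisible
  have hdiv : ∀ Y ∈ D.Lam, ‖Y.val‖ ≤ ρ ^ (p ^ n) →
      ∃ Y' ∈ D.Lam, Y = p • Y' ∧ ‖Y.val‖ = ‖Y'.val‖ ^ (p ^ n) := by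
    intro Y hY hYn
    by_contra hcon
    have : ¬ ∃ Y' ∈ D.Lam, Y = p • Y' := by
      rintro ⟨Y', hY', hYY'⟩
      refine hcon ⟨Y', hY', hYY', ?_⟩
      rw [hYY', val_p_smul_Gam D, OK_norm_pow]
    have := hc' Y hY this
    (clear hn hc hmin hρqpos; linarith)
  constructor
  · -- index computation
    have h1 : D.LamLt (ρ ^ (p ^ n)) =
        (D.LamLt ρ).map (nsmulAddMonoidHom p : FPt Γ →+ FPt Γ) := by
      ext Y
      rw [AddSubgroup.mem_map, D.mem_LamLt_of_pos hρqpos]
      constructor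
      · rintro ⟨hY, hYn⟩
        obtain ⟨Y', hY', hYY', hn'⟩ := hdiv Y hY hYn.le
        refine ⟨Y', (D.mem_LamLt_of_pos hρ).2 ⟨hY', ?_⟩, hYY'.symm⟩
        rw [hn'] at hYn
        exact lt_of_pow_lt_pow_left₀ _ hρ.le hYn
      · rintro ⟨Y', hY', rfl⟩
        obtain ⟨hY'1, hY'2⟩ := (D.mem_LamLt_of_pos hρ).1 hY'
        refine ⟨D.Lam.nsmul_mem hY'1 _, ?_⟩
        show ‖(p • Y').val‖ < _
        rw [val_p_smul_Gam D, OK_norm_pow]
        exact pow_lt_pow_left₀ hY'2 (norm_nonneg _) hq
    have hinj : Function.Injective (nsmulAddMonoidHom p : FPt Γ →+ FPt Γ) := by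
      intro a b hab
      apply smul_injective_Gam D 1
      show p ^ 1 • a = p ^ 1 • b
      rw [pow_one]
      exact hab
    have h2 : D.idx (ρ ^ (p ^ n)) = D.idx ρ * p ^ (n - h) := by
      unfold idx
      have h3 : D.pLam 1 = D.Lam.map (nsmulAddMonoidHom p : FPt Γ →+ FPt Γ) := by
        unfold pLam
        rw [pow_one]
      have h4 : (D.LamLt (ρ ^ (p ^ n))).relIndex (D.pLam 1) = (D.LamLt ρ).relIndex D.Lam := by
        rw [h1, h3]
        exact AddSubgroup.relIndex_map_map_of_injective _ _ hinj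
      have h5 : (D.pLam 1).relIndex D.Lam = p ^ (n - h) := by
        rw [D.relIndex_pLam 1, mul_one]
      rw [← AddSubgroup.relIndex_mul_relIndex (D.LamLt (ρ ^ (p ^ n))) (D.pLam 1) D.Lam ?_
        (D.pLam_le 1), h4, h5]
      rw [h1, h3]
      exact AddSubgroup.map_mono (D.LamLt_le ρ)
    rw [D.idx_eq _ hρqpos, D.idx_eq _ hρ, ← pow_add] at h2
    exact Nat.pow_right_injective hp.two_le h2
  · constructor
    · intro hnb Y hY hYn
      apply hnb (p • Y) (D.Lam.nsmul_mem hY _)
      rw [val_p_smul_Gam D, OK_norm_pow, hYn]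
    · intro hnb Y hY hYn
      obtain ⟨Y', hY', -, hn'⟩ := hdiv Y hY hYn.le
      apply hnb Y' hY'
      rw [hYn] at hn'
      exact ((pow_left_inj₀ hρ.le (norm_nonneg _) hq).1 hn').symm

/-- between two thresholds without an element of `Λ` of norm exactly `ρ`... upper semicontinuity:
if `ρ' < ρ` and `σ(ρ') = σ(ρ)` then `ρ'` is a non-break (as `Λ_{≤ρ'} ⊆ Λ_{<ρ}`). -/
theorem nonBreak_of_sig_eq {ρ ρ' : ℝ} (hρ' : 0 < ρ') (hlt : ρ' < ρ)
    (hs : D.sig ρ' = D.sig ρ) : D.NonBreak ρ' := by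
  intro Y hY hYn
  have hp : p.Prime := Fact.out
  have hρ : 0 < ρ := hρ'.trans hlt
  have h1 : D.idx ρ' = D.idx ρ := by rw [D.idx_eq _ hρ', D.idx_eq _ hρ, hs]
  have h2 : (D.LamLt ρ').relIndex (D.LamLt ρ) * (D.LamLt ρ).relIndex D.Lam =
      (D.LamLt ρ').relIndex D.Lam :=
    AddSubgroup.relIndex_mul_relIndex _ _ _ (D.LamLt_mono hlt.le) (D.LamLt_le ρ)
  have h3 : (D.LamLt ρ').relIndex (D.LamLt ρ) = 1 := by
    have h4 : (D.LamLt ρ).relIndex D.Lam ≠ 0 := by
      have := D.idx_eq ρ hρ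
      unfold idx at this
      rw [this]
      exact (pow_pos hp.pos _).ne'
    have h5 : (D.LamLt ρ').relIndex D.Lam = (D.LamLt ρ).relIndex D.Lam := h1
    rw [h5] at h2
    exact Nat.eq_of_mul_eq_mul_right (Nat.pos_of_ne_zero h4) (by rw [h2, one_mul])
  have h6 : D.LamLt ρ ≤ D.LamLt ρ' := AddSubgroup.relIndex_eq_one.1 h3
  have h7 : Y ∈ D.LamLt ρ := Or.inl ⟨hY, by rw [hYn]; exact hlt⟩
  have h8 := h6 h7
  rw [D.mem_LamLt_of_pos hρ'] at h8
  exact absurd h8.2 (by rw [hYn]; exact lt_irrefl _)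

/-- **(LT)** main local lemma: behaviour of `E` on the disc of radius `‖Y0‖`.
`S` is a set of representatives in `K` of the residue classes of `λ / Y0`, `λ ∈ Λ`, `|λ| ≤ |Y0|`. -/
theorem LT (Y0 : FPt Γ) (hY0 : Y0 ≠ 0) : ∃ (C : K) (S : Finset K), C ≠ 0 ∧ (0 : K) ∈ S ∧
    S.card ≤ p ^ (n - h) ∧ (∀ v ∈ S, ‖v‖ ≤ 1) ∧ (∀ v ∈ S, ∀ w ∈ S, v ≠ w → ‖v - w‖ = 1) ∧
    (S.card = 1 → D.NonBreak ‖Y0.val‖) ∧ (D.NonBreak ‖Y0.val‖ → S = {0}) ∧
    ∀ Y : FPt Γ, ‖Y.val‖ ≤ ‖Y0.val‖ →
      ‖(((D.E Y).val : K) / C) ^ (p ^ D.sig ‖Y0.val‖) -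
        ∏ v ∈ S, ((Y.val : K) / (Y0.val : K) - v)‖ < 1 := by
  have hpos : 0 < ‖Y0.val‖ := by
    rcases (norm_nonneg Y0.val).lt_or_eq with h | h
    · exact h
    · exfalso
      apply hY0
      apply FPt.ext
      have h1 : ‖(Y0.val : K)‖ = 0 := h.symm
      exact Subtype.ext (norm_eq_zero.mp h1)
  obtain ⟨N, hN⟩ : ∃ N : ℕ, D.r ^ (p ^ (n * N)) < ‖Y0.val‖ := by
    obtain ⟨m, hm⟩ := exists_pow_lt_of_lt_one hpos D.r_lt_one
    refine ⟨m, lt_of_le_of_lt (pow_le_pow_of_le_one D.r_nonneg D.r_lt_one.le ?_) hm⟩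
    have h1 : 1 < p := (Fact.out : p.Prime).one_lt
    have h2 : 1 ≤ n := by have := D.h_lt_n; omega
    calc m ≤ p ^ m := (Nat.lt_pow_self h1).le
      _ ≤ p ^ (n * m) := Nat.pow_le_pow_right h1.le (Nat.le_mul_of_pos_left m h2)
  obtain ⟨T, hT, hTc, hprod⟩ := D.exists_torsion N
  obtain ⟨T1, hT1, hT1c, -⟩ := D.exists_ptorsion
  exact D.LT_core Y0 N hN T hT hTc hprod T1 hT1 hT1c (D.exists_mem_Lam_of_torsion N)
    (fun Y hY => (D.E_divp_eq_zero_iff N Y).mp hY) (D.LamLt ‖Y0.val‖) (fun Y => Iff.rfl)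
    (D.sig ‖Y0.val‖) (D.idx_eq _ hpos)

end LocalFG

end Vale.Agent.P217
end
end

section

section

/-!
# P217: asymptotic lemmas
-/

namespace Vale.Agent.P217

open MvPowerSeries Filter Topology

variable {K : Type*} [NontriviallyNormedField K] [IsUltrametricDist K] [CompleteSpace K]
variable {p : ℕ} [Fact p.Prime] [CharP K p] [IsAlgClosed K]
variable {n h : ℕ} {Γ : FormalGroup (OK K)}

theorem exists_intCast_of_pow_eq {K : Type*} [Field K] {p : ℕ} [Fact p.Prime] [CharP K p] {x : K}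
    (hx : x ^ p = x) : ∃ c : ℤ, (c : K) = x := by
  have h1 : x ∈ (⊥ : Subfield K) := (Subfield.mem_bot_iff_pow_eq_self K p).2 hx
  exact (mem_bot_iff_intCast p K).1 h1

/-- **(AD)** Artin-Dedekind type independence: if the residues of the `η i` are linearly
independent over `𝔽_p` and `∑ a_i η_i^(p^e) → 0` then all `a_i = 0`. -/
theorem artin_dedekind {ι : Type*} [Fintype ι] (η a : ι → K) (hη : ∀ i, ‖η i‖ ≤ 1)
    (hind : ∀ c : ι → ℤ, ‖∑ i, (c i : K) * η i‖ < 1 → ∀ i, (p : ℤ) ∣ c i)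
    (ha : Tendsto (fun e : ℕ => ∑ i, a i * η i ^ (p ^ e)) atTop (𝓝 0)) : ∀ i, a i = 0 := by
  classical
  have hp : p.Prime := Fact.out
  suffices H : ∀ m : ℕ, ∀ a : ι → K, (Finset.univ.filter (fun i => a i ≠ 0)).card ≤ m →
      Tendsto (fun e : ℕ => ∑ i, a i * η i ^ (p ^ e)) atTop (𝓝 0) → ∀ i, a i = 0 from
    H _ a le_rfl ha
  intro m
  induction m with
  | zero =>
    intro a hcard _ i
    by_contra hi
    have h1 : i ∈ Finset.univ.filter (fun i => a i ≠ 0) := by simp only [ne_eq, Finset.mem_filter, Finset.mem_univ, hi, not_false_eq_true, and_self]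
    have h2 := Finset.card_pos.2 ⟨i, h1⟩
    omega
  | succ m ih =>
    intro a hcard hlim i
    by_contra hi
    set a' : ι → K := fun j => a j / a i with ha'
    have ha'i : a' i = 1 := div_self hi
    have hlim' : Tendsto (fun e : ℕ => ∑ j, a' j * η j ^ (p ^ e)) atTop (𝓝 0) := by
      have h1 := hlim.mul_const (a i)⁻¹
      rw [zero_mul] at h1
      refine h1.congr fun e => ?_
      rw [Finset.sum_mul]
      refine Finset.sum_congr rfl fun j _ => ?_
      simp only [ha']
      ring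
    set b : ι → K := fun j => a' j ^ p - a' j with hb
    have hlimb : Tendsto (fun e : ℕ => ∑ j, b j * η j ^ (p ^ e)) atTop (𝓝 0) := by
      have h1 : Tendsto (fun e : ℕ => ∑ j, b j * η j ^ (p ^ (e + 1))) atTop (𝓝 0) := by
        have h2 := (hlim'.pow p).sub (hlim'.comp (tendsto_add_atTop_nat 1))
        rw [zero_pow hp.ne_zero, sub_zero] at h2
        refine h2.congr fun e => ?_
        have h3 : (∑ j, a' j * η j ^ p ^ e) ^ p = ∑ j, a' j ^ p * η j ^ (p ^ (e + 1)) := by
          rw [sum_pow_char p]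
          refine Finset.sum_congr rfl fun j _ => ?_
          rw [mul_pow, ← pow_mul, pow_succ]
        simp only [Function.comp_apply]
        rw [h3, ← Finset.sum_sub_distrib]
        refine Finset.sum_congr rfl fun j _ => ?_
        simp only [hb]
        ring
      exact (tendsto_add_atTop_iff_nat 1).1 h1
    have hbcard : (Finset.univ.filter (fun j => b j ≠ 0)).card ≤ m := by
      have hsub : Finset.univ.filter (fun j => b j ≠ 0) ⊆
          (Finset.univ.filter (fun j => a j ≠ 0)).erase i := by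
        intro j hj
        rw [Finset.mem_filter] at hj
        rw [Finset.mem_erase, Finset.mem_filter]
        refine ⟨?_, Finset.mem_univ _, ?_⟩
        · rintro rfl
          apply hj.2
          simp only [hb, ha'i, one_pow, sub_self]
        · intro h0
          apply hj.2
          simp only [hb, ha', h0, zero_div, zero_pow hp.ne_zero, sub_self]
      have h1 := Finset.card_le_card hsub
      rw [Finset.card_erase_of_mem (by simp only [ne_eq, Finset.mem_filter, Finset.mem_univ, hi, not_false_eq_true, and_self])] at h1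
      omega
    have hb0 := ih b hbcard hlimb
    have hc : ∀ j, ∃ c : ℤ, (c : K) = a' j := fun j =>
      exists_intCast_of_pow_eq (p := p) (sub_eq_zero.1 (hb0 j))
    choose c hc using hc
    have hpow : ∀ e : ℕ, ∑ j, a' j * η j ^ (p ^ e) = (∑ j, (c j : K) * η j) ^ (p ^ e) := by
      intro e
      rw [sum_pow_char_pow]
      refine Finset.sum_congr rfl fun j _ => ?_
      rw [mul_pow, hc j]
      congr 1
      have h4 : a' j ^ p = a' j := sub_eq_zero.1 (hb0 j)
      induction e with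
      | zero => simp
      | succ e ihe => rw [pow_succ, pow_mul, ← ihe, h4]
    have hlt : ‖∑ j, (c j : K) * η j‖ < 1 := by
      by_contra hge
      rw [not_lt] at hge
      have h5 : Tendsto (fun e : ℕ => ‖∑ j, a' j * η j ^ (p ^ e)‖) atTop (𝓝 0) := by
        simpa only [norm_zero] using hlim'.norm
      have h6 := (h5.eventually (gt_mem_nhds (zero_lt_one))).exists
      obtain ⟨e, he⟩ := h6
      rw [hpow e, norm_pow] at he
      exact absurd (one_le_pow₀ hge) (not_le.2 he)
    have hdvd := hind c hlt i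
    have h7 : (c i : K) = 0 := (CharP.intCast_eq_zero_iff K p (c i)).2 hdvd
    rw [hc i, ha'i] at h7
    exact one_ne_zero h7

/-- The point `ω Y^(p^l)` of `Γ`. -/
noncomputable def powPt (p : ℕ) [Fact p.Prime] {Γ : FormalGroup (OK K)} (ω : OK K) (l : ℕ)
    (Y : FPt Γ) : FPt Γ :=
  FPt.mk Γ (ω * Y.val ^ (p ^ l)) (by
    rw [OK_norm_mul, OK_norm_pow]
    calc ‖ω‖ * ‖Y.val‖ ^ p ^ l ≤ 1 * ‖Y.val‖ ^ p ^ l :=
          mul_le_mul_of_nonneg_right (norm_le_one ω) (by positivity)
      _ < 1 := by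
          rw [one_mul]
          exact pow_lt_one₀ (norm_nonneg _) Y.norm_val_lt
            (pow_ne_zero _ (Fact.out : p.Prime).ne_zero))

@[simp] theorem val_powPt (ω : OK K) (l : ℕ) (Y : FPt Γ) :
    (powPt p ω l Y).val = ω * Y.val ^ (p ^ l) := rfl

omit [CompleteSpace K] [IsAlgClosed K] in
theorem norm_eq_one_of_sub_one_lt {x : K} (hx : ‖x - 1‖ < 1) : ‖x‖ = 1 := by
  have h1 : ‖(1 : K)‖ = 1 := norm_one
  have h2 : ‖x - 1‖ ≠ ‖(1 : K)‖ := by rw [h1]; exact hx.ne
  have h3 := IsUltrametricDist.norm_add_eq_max_of_norm_ne_norm h2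
  rw [sub_add_cancel, h1] at h3
  rw [h3, max_eq_right hx.le]

theorem norm_powPt (ω : OK K) (l : ℕ) (X : FPt Γ) :
    ‖(powPt p ω l X).val‖ = ‖ω‖ * ‖X.val‖ ^ (p ^ l) := by
  rw [val_powPt, OK_norm_mul, OK_norm_pow]

theorem norm_powPt_one (l : ℕ) (X : FPt Γ) :
    ‖(powPt p 1 l X).val‖ = ‖X.val‖ ^ (p ^ l) := by
  rw [val_powPt, one_mul, OK_norm_pow]

namespace LocalFG

variable (D : LocalFG p n h Γ) [Γ.IsComm]

theorem norm_val_pos {F : FormalGroup (OK K)} {Y : FPt F} (hY : Y ≠ 0) : 0 < ‖Y.val‖ := by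
  rw [norm_pos_iff]
  intro h0
  apply hY
  apply FPt.ext
  rw [h0, FPt.val_zero]

/-- `σ(ρ^(q^k)) = σ(ρ) + k (n - h)` for small `ρ`. -/
theorem exists_sig_iterate : ∃ ρ₀ : ℝ, 0 < ρ₀ ∧ ρ₀ < 1 ∧ ∀ ρ : ℝ, 0 < ρ → ρ ≤ ρ₀ → ∀ k : ℕ,
    D.sig (ρ ^ (p ^ (n * k))) = D.sig ρ + k * (n - h) := by
  obtain ⟨ρ₀, h0, h1, hρ₀⟩ := D.exists_sig_periodic
  refine ⟨ρ₀, h0, h1, fun ρ hρ hle k => ?_⟩
  have hp : 0 < p := (Fact.out : p.Prime).pos
  induction k with
  | zero => simp
  | succ k ih =>
    have h2 : 0 < ρ ^ (p ^ (n * k)) := pow_pos hρ _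
    have h3 : ρ ^ (p ^ (n * k)) ≤ ρ₀ :=
      (pow_le_of_le_one hρ.le (hle.trans h1.le) (pow_ne_zero _ hp.ne')).trans hle
    have h4 := (hρ₀ _ h2 h3).1
    rw [← pow_mul, ← pow_add] at h4
    rw [Nat.mul_succ, h4, ih]
    ring

/-- `l - σ(‖X1‖^(p^l)) → ∞`. -/
theorem tendsto_sub_sig (X1 : FPt Γ) (hX1 : X1 ≠ 0) (M : ℕ) :
    ∃ L : ℕ, ∀ l ≥ L, M + D.sig (‖X1.val‖ ^ (p ^ l)) ≤ l := by
  obtain ⟨ρ₀, h0, h1, hρ₀⟩ := D.exists_sig_iterate
  have hp : 1 < p := (Fact.out : p.Prime).one_lt
  have hpos : 0 < ‖X1.val‖ := norm_val_pos hX1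
  have hlt : ‖X1.val‖ < 1 := X1.norm_val_lt
  obtain ⟨l₀, hl₀⟩ := exists_pow_lt_of_lt_one h0 hlt
  have hle : ‖X1.val‖ ^ (p ^ l₀) ≤ ρ₀ :=
    (pow_le_pow_of_le_one hpos.le hlt.le (Nat.lt_pow_self hp).le).trans hl₀.le
  have hn : 0 < n := lt_of_le_of_lt (Nat.zero_le _) D.h_lt_n
  -- bound for the base values
  set B : ℕ := ∑ j ∈ Finset.range n, D.sig (‖X1.val‖ ^ (p ^ (l₀ + j))) with hB
  refine ⟨l₀ + n * (M + B) + n, fun l hl => ?_⟩
  obtain ⟨t, rfl⟩ : ∃ t, l = l₀ + t := ⟨l - l₀, by omega⟩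
  set k := t / n with hk
  set j := t % n with hj
  have ht : t = n * k + j := (Nat.div_add_mod t n).symm
  have hjn : j < n := Nat.mod_lt _ hn
  have hρj : 0 < ‖X1.val‖ ^ (p ^ (l₀ + j)) := pow_pos hpos _
  have hρj' : ‖X1.val‖ ^ (p ^ (l₀ + j)) ≤ ρ₀ :=
    (pow_le_pow_of_le_one hpos.le hlt.le
      (Nat.pow_le_pow_right hp.le (Nat.le_add_right _ _))).trans hle
  have h2 := hρ₀ _ hρj hρj' k
  rw [← pow_mul, ← pow_add] at h2
  have h3 : l₀ + j + n * k = l₀ + t := by omega
  rw [h3] at h2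
  rw [h2]
  have h4 : D.sig (‖X1.val‖ ^ (p ^ (l₀ + j))) ≤ B :=
    Finset.single_le_sum (f := fun j => D.sig (‖X1.val‖ ^ (p ^ (l₀ + j))))
      (fun _ _ => Nat.zero_le _) (Finset.mem_range.2 hjn)
  have h5 : M + B ≤ k := by
    have h6 : n * (M + B) < n * (k + 1) := by
      have : n * (k + 1) = n * k + n := by ring
      omega
    have := Nat.lt_of_mul_lt_mul_left h6
    omega
  have h7 : k * (n - h) + k ≤ n * k := by
    have h8 : n - h + 1 ≤ n := by
      have := D.one_le_h
      have := D.h_lt_n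
      omega
    calc k * (n - h) + k = k * (n - h + 1) := by ring
      _ ≤ k * n := Nat.mul_le_mul_left _ h8
      _ = n * k := Nat.mul_comm _ _
  omega

/-- **(EL)** every large integer `e` is of the form `l - σ(‖X1‖^(p^l))` with a non-break `l`. -/
theorem exists_nonBreak (X1 : FPt Γ) (hX1 : X1 ≠ 0) : ∃ e₀ : ℕ, ∀ e ≥ e₀, ∃ l : ℕ,
    D.NonBreak (‖X1.val‖ ^ (p ^ l)) ∧ l = e + D.sig (‖X1.val‖ ^ (p ^ l)) := by
  classical
  have hp : 1 < p := (Fact.out : p.Prime).one_lt
  have hpos : 0 < ‖X1.val‖ := norm_val_pos hX1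
  have hlt : ‖X1.val‖ < 1 := X1.norm_val_lt
  refine ⟨1, fun e he => ?_⟩
  -- the set of `l` with `e ≤ l - σ`
  obtain ⟨L, hL⟩ := D.tendsto_sub_sig X1 hX1 e
  have hex : ∃ l, ∀ l' ≥ l, e + D.sig (‖X1.val‖ ^ (p ^ l')) ≤ l' := ⟨L, hL⟩
  set l := Nat.find hex with hldef
  have hl := Nat.find_spec hex
  rw [← hldef] at hl
  have hl0 : l ≠ 0 := by
    intro h0
    have := hl 0 (by omega)
    omega
  obtain ⟨m, hm⟩ : ∃ m, l = m + 1 := ⟨l - 1, by omega⟩
  have hmin : ¬ ∀ l' ≥ m, e + D.sig (‖X1.val‖ ^ (p ^ l')) ≤ l' :=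
    Nat.find_min hex (by omega)
  have hm' : m < e + D.sig (‖X1.val‖ ^ (p ^ m)) := by
    by_contra hge
    apply hmin
    intro l' hl'
    rcases Nat.eq_or_lt_of_le hl' with rfl | hlt'
    · omega
    · exact hl l' (by omega)
  have h1 := hl (m + 1) (by omega)
  have hlt2 : ‖X1.val‖ ^ (p ^ (m + 1)) < ‖X1.val‖ ^ (p ^ m) :=
    pow_lt_pow_right_of_lt_one₀ hpos hlt (Nat.pow_lt_pow_right hp (Nat.lt_succ_self m))
  have hanti := D.sig_anti (pow_pos hpos (p ^ (m + 1))) hlt2.le
  have hseq : D.sig (‖X1.val‖ ^ (p ^ (m + 1))) = D.sig (‖X1.val‖ ^ (p ^ m)) := by omega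
  exact ⟨m + 1, D.nonBreak_of_sig_eq (pow_pos hpos _) hlt2 hseq, by omega⟩

/-- The constants `c_N = V'(0)^((Q^N - 1)/(Q - 1))`. -/
noncomputable def cN (N : ℕ) : OK K :=
  (fun c : OK K => PowerSeries.coeff 1 D.V * c ^ (p ^ h))^[N] 1

omit [Γ.IsComm] [IsAlgClosed K] in
theorem cN_succ (N : ℕ) : D.cN (N + 1) = PowerSeries.coeff 1 D.V * D.cN N ^ (p ^ h) := by
  unfold cN
  rw [Function.iterate_succ_apply']

theorem cN_ne_zero (N : ℕ) : D.cN N ≠ 0 := by
  induction N with
  | zero => exact one_ne_zero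
  | succ N ih =>
    rw [cN_succ]
    exact mul_ne_zero D.V_one (pow_ne_zero _ ih)

/-- `[p^N](a) = c_N a^(Q^N) (1 + o(1))` as `a → 0`. -/
theorem norm_pow_smul_sub_cN_le (N : ℕ) (ε : ℝ) (hε : 0 < ε) : ∃ δ : ℝ, 0 < δ ∧
    ∀ a : FPt D.F, ‖a.val‖ < δ →
      ‖(p ^ N • a).val - D.cN N * a.val ^ (p ^ (h * N))‖ ≤ ε * ‖a.val‖ ^ (p ^ (h * N)) := by
  have hp : p.Prime := Fact.out
  induction N generalizing ε with
  | zero =>
    refine ⟨1, one_pos, fun a _ => ?_⟩
    have h1 : (p ^ 0 • a).val - D.cN 0 * a.val ^ (p ^ (h * 0)) = 0 := by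
      simp [cN]
    rw [h1, norm_zero]
    (clear hp h1; positivity)
  | succ N ih =>
    obtain ⟨δ, hδ, hδ'⟩ := ih (min ε 1) (lt_min hε one_pos)
    refine ⟨min δ ε, lt_min hδ hε, fun a ha => ?_⟩
    have ha1 : ‖a.val‖ < δ := lt_of_lt_of_le ha (min_le_left _ _)
    have ha2 : ‖a.val‖ < ε := lt_of_lt_of_le ha (min_le_right _ _)
    have ha3 : ‖a.val‖ ≤ 1 := a.norm_val_lt.le
    have h1 := hδ' a ha1
    set b : FPt D.F := p ^ N • a with hb
    set c : OK K := D.cN N with hc
    set x : OK K := a.val ^ (p ^ (h * N)) with hx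
    have hnx : ‖x‖ = ‖a.val‖ ^ (p ^ (h * N)) := OK_norm_pow _ _
    rw [← hnx] at h1
    -- norm of b
    have hbn : ‖b.val‖ ≤ ‖x‖ := by
      have h2 : b.val = (b.val - c * x) + c * x := by ring
      rw [h2]
      refine (OK_norm_add_le _ _).trans (max_le (h1.trans ?_) ?_)
      · exact mul_le_of_le_one_left (norm_nonneg _) (min_le_right _ _)
      · rw [OK_norm_mul]
        exact mul_le_of_le_one_left (norm_nonneg _) (norm_le_one c)
    have h3 : p ^ (N + 1) • a = p • b := by
      rw [hb, smul_smul, pow_succ']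
    have h4 := D.norm_p_smul_sub_V_one_le b
    have h5 : a.val ^ (p ^ (h * (N + 1))) = x ^ (p ^ h) := by
      rw [hx, ← pow_mul, ← pow_add, Nat.mul_succ]
    have hxq : ‖x‖ ^ (p ^ h) = ‖a.val‖ ^ (p ^ (h * (N + 1))) := by
      rw [hnx, ← pow_mul, ← pow_add, Nat.mul_succ]
    have h6 : (b.val - c * x) ^ (p ^ h) = b.val ^ (p ^ h) - (c * x) ^ (p ^ h) :=
      sub_pow_char_pow b.val (c * x) h
    have h7 : (p ^ (N + 1) • a).val - D.cN (N + 1) * a.val ^ (p ^ (h * (N + 1))) =
        ((p • b).val - PowerSeries.coeff 1 D.V * b.val ^ (p ^ h)) +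
          PowerSeries.coeff 1 D.V * (b.val - c * x) ^ (p ^ h) := by
      rw [h3, h5, cN_succ, h6, ← hc, mul_pow]
      ring
    rw [h7, ← hxq]
    have hxpos : 0 ≤ ‖x‖ := norm_nonneg x
    have hx1 : ‖x‖ ^ (p ^ h) ≤ ε := by
      rw [hxq]
      exact (pow_le_of_le_one (norm_nonneg _) ha3 (pow_ne_zero _ hp.ne_zero)).trans ha2.le
    refine (OK_norm_add_le _ _).trans (max_le ?_ ?_)
    · refine h4.trans ?_
      calc ‖b.val‖ ^ (2 * p ^ h) ≤ ‖x‖ ^ (2 * p ^ h) := pow_le_pow_left₀ (norm_nonneg _) hbn _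
        _ = ‖x‖ ^ (p ^ h) * ‖x‖ ^ (p ^ h) := by rw [two_mul, pow_add]
        _ ≤ ε * ‖x‖ ^ (p ^ h) := mul_le_mul_of_nonneg_right hx1 (by (clear hp ε hε δ hδ ha ha1 ha2 ha3 b hb c ih hδ' hc h1 hx hnx hbn h3 h4 h5 hxq h6 h7 hxpos hx1; positivity))
    · rw [OK_norm_mul, OK_norm_pow]
      calc ‖PowerSeries.coeff 1 D.V‖ * ‖b.val - c * x‖ ^ p ^ h
          ≤ 1 * (min ε 1 * ‖x‖) ^ p ^ h :=
            mul_le_mul (norm_le_one _) (pow_le_pow_left₀ (norm_nonneg _) h1 _)
              (by (clear hp ε hε δ hδ ha ha1 ha2 ha3 hb ih hδ' hc h1 hx hnx hbn h3 h4 h5 hxq h6 h7 hxpos hx1; positivity)) zero_le_one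
        _ = (min ε 1) ^ p ^ h * ‖x‖ ^ p ^ h := by rw [one_mul, mul_pow]
        _ ≤ ε * ‖x‖ ^ (p ^ h) := by
            refine mul_le_mul_of_nonneg_right ?_ (by (clear hp ε hε δ hδ ha ha1 ha2 ha3 b hb c ih hδ' hc h1 hx hnx hbn h3 h4 h5 hxq h6 h7 hxpos hx1; positivity))
            exact (pow_le_of_le_one (lt_min hε one_pos).le (min_le_right _ _)
              (pow_ne_zero _ hp.ne_zero)).trans (min_le_left _ _)

/-- at a non-break, `|E(Y0)| = |C|` and the other values are controlled. -/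
theorem exists_const_of_nonBreak (Y0 : FPt Γ) (hY0 : Y0 ≠ 0) (hb : D.NonBreak ‖Y0.val‖) :
    ∃ C : K, C ≠ 0 ∧ ∀ Y : FPt Γ, ‖Y.val‖ ≤ ‖Y0.val‖ →
      ‖(((D.E Y).val : K) / C) ^ (p ^ D.sig ‖Y0.val‖) - (Y.val : K) / (Y0.val : K)‖ < 1 := by
  obtain ⟨C, S, hC, -, -, -, -, -, hS, hE⟩ := D.LT Y0 hY0
  have hS' := hS hb
  subst hS'
  refine ⟨C, hC, fun Y hY => ?_⟩
  have := hE Y hY
  rwa [Finset.prod_singleton, sub_zero] at this

theorem norm_E_eq_of_nonBreak (Y0 : FPt Γ) (hY0 : Y0 ≠ 0) (hb : D.NonBreak ‖Y0.val‖) :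
    ∃ C : K, C ≠ 0 ∧ ‖(D.E Y0).val‖ = ‖C‖ ∧
      (∀ Y : FPt Γ, ‖Y.val‖ ≤ ‖Y0.val‖ → ‖(D.E Y).val‖ ≤ ‖C‖) ∧
      (∀ Y : FPt Γ, ‖Y.val‖ < ‖Y0.val‖ → ‖(D.E Y).val‖ < ‖C‖) := by
  obtain ⟨C, hC, hE⟩ := D.exists_const_of_nonBreak Y0 hY0 hb
  have hp : p.Prime := Fact.out
  set s := p ^ D.sig ‖Y0.val‖ with hs
  have hs0 : s ≠ 0 := pow_ne_zero _ hp.ne_zero
  have hCpos : 0 < ‖C‖ := norm_pos_iff.2 hC
  have hYpos : 0 < ‖(Y0.val : K)‖ := norm_val_pos hY0
  have key : ∀ Y : FPt Γ, ‖Y.val‖ ≤ ‖Y0.val‖ →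
      (‖(D.E Y).val‖ / ‖C‖) ^ s ≤ 1 := by
    intro Y hY
    have h1 := hE Y hY
    have h2 : ‖(Y.val : K) / (Y0.val : K)‖ ≤ 1 := by
      rw [norm_div]
      exact div_le_one_of_le₀ hY hYpos.le
    have h3 : (((D.E Y).val : K) / C) ^ s =
        ((((D.E Y).val : K) / C) ^ s - (Y.val : K) / (Y0.val : K)) + (Y.val : K) / (Y0.val : K) := by
      ring
    have h4 : ‖(((D.E Y).val : K) / C) ^ s‖ ≤ 1 := by
      rw [h3]
      exact (IsUltrametricDist.norm_add_le_max _ _).trans (max_le h1.le h2)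
    rwa [norm_pow, norm_div] at h4
  have keylt : ∀ Y : FPt Γ, ‖Y.val‖ < ‖Y0.val‖ →
      (‖(D.E Y).val‖ / ‖C‖) ^ s < 1 := by
    intro Y hY
    have h1 := hE Y hY.le
    have h2 : ‖(Y.val : K) / (Y0.val : K)‖ < 1 := by
      rw [norm_div]
      exact (div_lt_one hYpos).2 hY
    have h3 : (((D.E Y).val : K) / C) ^ s =
        ((((D.E Y).val : K) / C) ^ s - (Y.val : K) / (Y0.val : K)) + (Y.val : K) / (Y0.val : K) := by
      ring
    have h4 : ‖(((D.E Y).val : K) / C) ^ s‖ < 1 := by
      rw [h3]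
      exact (IsUltrametricDist.norm_add_le_max _ _).trans_lt (max_lt h1 h2)
    rwa [norm_pow, norm_div] at h4
  refine ⟨C, hC, ?_, ?_, ?_⟩
  · have h1 := hE Y0 le_rfl
    rw [div_self (norm_pos_iff.1 hYpos)] at h1
    have h2 : ‖(((D.E Y0).val : K) / C) ^ s‖ = 1 := by
      have h3 : (((D.E Y0).val : K) / C) ^ s = ((((D.E Y0).val : K) / C) ^ s - 1) + 1 := by ring
      rw [h3, IsUltrametricDist.norm_add_eq_max_of_norm_ne_norm (by rw [norm_one]; exact h1.ne),
        norm_one, max_eq_right h1.le]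
    rw [norm_pow, norm_div] at h2
    have h5 := (pow_eq_one_iff_of_nonneg (by (clear hY0 hb hp s hE hs hs0 hCpos hYpos key keylt h1 h2; positivity)) hs0).1 h2
    exact (div_eq_one_iff_eq hCpos.ne').1 h5
  · intro Y hY
    have h1 := key Y hY
    have h2 := (pow_le_one_iff_of_nonneg (by (clear Y0 hY0 hb hp s hE hs hs0 hCpos hYpos key keylt hY h1; positivity)) hs0).1 h1
    exact (div_le_one hCpos).1 h2
  · intro Y hY
    have h1 := keylt Y hY
    have h2 := (pow_lt_one_iff_of_nonneg (by (clear Y0 hY0 hb hp s hE hs hs0 hCpos hYpos key keylt hY h1; positivity)) hs0).1 h1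
    exact (div_lt_one hCpos).1 h2

/-- at a non-break, `E` has maximal norm. -/
theorem norm_E_le_of_nonBreak (Y0 Y : FPt Γ) (hY0 : Y0 ≠ 0) (hb : D.NonBreak ‖Y0.val‖)
    (hY : ‖Y.val‖ ≤ ‖Y0.val‖) : (D.E Y0) ≠ 0 ∧ ‖(D.E Y).val‖ ≤ ‖(D.E Y0).val‖ := by
  obtain ⟨C, hC, h1, h2, -⟩ := D.norm_E_eq_of_nonBreak Y0 hY0 hb
  refine ⟨fun h0 => ?_, by rw [h1]; exact h2 Y hY⟩
  rw [h0, FPt.val_zero, norm_zero] at h1
  exact hC (norm_eq_zero.1 h1.symm)

omit [Γ.IsComm] in
theorem powPt_one_ne_zero (l : ℕ) {X : FPt Γ} (hX : X ≠ 0) : powPt p 1 l X ≠ 0 := by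
  intro h0
  have h1 := norm_val_pos hX
  have h2 := norm_powPt_one (p := p) l X
  rw [h0, FPt.val_zero, norm_zero] at h2
  exact (pow_pos h1 (p ^ l)).ne h2

include D in
theorem p_smul_powPt (ω : OK K) (hω : ω ^ (p ^ n) = ω) (l : ℕ) (X : FPt Γ) :
    p • powPt p ω l X = powPt p ω (l + n) X := by
  ext
  have h1 := D.val_pow_smul 1 (powPt p ω l X)
  rw [pow_one, mul_one] at h1
  rw [h1, val_powPt, val_powPt, mul_pow, hω, ← pow_mul, ← pow_add]

/-- one step of the recursion -/
theorem norm_E_powPt_add_le (ω : OK K) (hω : ω ^ (p ^ n) = ω) (l : ℕ) (X : FPt Γ) :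
    ‖((D.E (powPt p ω (l + n) X)).val : K) -
      ((PowerSeries.coeff 1 D.V : OK K) : K) * ((D.E (powPt p ω l X)).val : K) ^ (p ^ h)‖ ≤
      ‖((D.E (powPt p ω l X)).val : K)‖ ^ (2 * p ^ h) := by
  rw [← D.p_smul_powPt ω hω, map_nsmul]
  exact D.norm_p_smul_sub_V_one_le _

/-- the initial congruence at a non-break -/
theorem norm_ratio_sub_lt_one (X1 X : FPt Γ) (hX1 : X1 ≠ 0) (hX : ‖X.val‖ ≤ ‖X1.val‖) (ω : OK K)
    (hω : ω ^ (p ^ n) = ω) (l : ℕ) (hb : D.NonBreak (‖X1.val‖ ^ (p ^ l))) (e : ℕ)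
    (he : l = e + D.sig (‖X1.val‖ ^ (p ^ l))) :
    ‖((D.E (powPt p ω l X)).val : K) / ((D.E (powPt p 1 l X1)).val : K) -
        (ω : K) ^ (p ^ ((n - 1) * D.sig (‖X1.val‖ ^ (p ^ l)))) *
          ((X.val : K) / (X1.val : K)) ^ (p ^ e)‖ < 1 := by
  have hp : 1 < p := (Fact.out : p.Prime).one_lt
  have hn : 1 ≤ n := by have := D.h_lt_n; omega
  set σ := D.sig (‖X1.val‖ ^ (p ^ l)) with hσ
  obtain ⟨C, hC, hE⟩ := D.exists_const_of_nonBreak (powPt p 1 l X1) (powPt_one_ne_zero l hX1)
    (by rw [norm_powPt_one]; exact hb)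
  rw [norm_powPt_one, ← hσ] at hE
  have hpos : 0 < ‖X1.val‖ := norm_val_pos hX1
  have hx1 : (X1.val : K) ≠ 0 := norm_pos_iff.1 hpos
  set T : K := (ω : K) * ((X.val : K) / (X1.val : K)) ^ (p ^ l) with hT
  have hTle : ‖T‖ ≤ 1 := by
    rw [hT, norm_mul, norm_pow, norm_div]
    refine mul_le_one₀ (norm_le_one ω) (by positivity) (pow_le_one₀ (by positivity) ?_)
    exact div_le_one_of_le₀ hX hpos.le
  have hA := hE (powPt p ω l X) (by
    rw [norm_powPt]
    calc ‖ω‖ * ‖X.val‖ ^ p ^ l ≤ 1 * ‖X1.val‖ ^ p ^ l :=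
          mul_le_mul (norm_le_one ω) (pow_le_pow_left₀ (norm_nonneg _) hX _) (by positivity)
            zero_le_one
      _ = _ := one_mul _)
  have hB := hE (powPt p 1 l X1) (norm_powPt_one l X1).le
  have e1 : ((powPt p ω l X).val : K) / ((powPt p 1 l X1).val : K) = T := by
    rw [val_powPt, val_powPt, hT, one_mul]
    push_cast
    rw [div_pow]
    ring
  have e2 : ((powPt p 1 l X1).val : K) / ((powPt p 1 l X1).val : K) = 1 := by
    rw [val_powPt, one_mul]
    push_cast
    exact div_self (pow_ne_zero _ hx1)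
  rw [e1] at hA
  rw [e2] at hB
  set a : K := ((D.E (powPt p ω l X)).val : K) with ha
  set b : K := ((D.E (powPt p 1 l X1)).val : K) with hbdef
  set s := p ^ σ with hs
  have hs0 : s ≠ 0 := (pow_pos (zero_lt_one.trans hp) _).ne'
  have hBn : ‖(b / C) ^ s‖ = 1 := norm_eq_one_of_sub_one_lt hB
  have hB0 : (b / C) ^ s ≠ 0 := by
    rw [← norm_pos_iff, hBn]; exact one_pos
  have hb0 : b ≠ 0 := by
    intro h0
    apply hB0
    rw [h0, zero_div, zero_pow hs0]
  set t : K := (ω : K) ^ (p ^ ((n - 1) * σ)) * ((X.val : K) / (X1.val : K)) ^ (p ^ e) with ht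
  have hωK : (ω : K) ^ (p ^ n) = ω := by
    have := congrArg (fun x : OK K => (x : K)) hω
    simpa using this
  have hωk : ∀ k : ℕ, (ω : K) ^ (p ^ (n * k)) = ω := by
    intro k
    induction k with
    | zero => simp
    | succ k ih => rw [Nat.mul_succ, pow_add, pow_mul, ih, hωK]
  have hts : t ^ s = T := by
    rw [ht, hT, mul_pow, ← pow_mul, ← pow_mul, hs, ← pow_add, ← pow_add, ← he]
    congr 1
    have e3 : (n - 1) * σ + σ = n * σ := by
      obtain ⟨m, rfl⟩ : ∃ m, n = m + 1 := ⟨n - 1, by omega⟩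
      simp only [Nat.add_sub_cancel]
      ring
    rw [e3, hωk]
  have hpow : ‖(a / b - t) ^ s‖ < 1 := by
    have e4 : (a / b - t) ^ s = (((a / C) ^ s - T) - T * ((b / C) ^ s - 1)) / (b / C) ^ s := by
      rw [hs, sub_pow_char_pow, ← hs, hts, eq_div_iff hB0]
      have e5 : (a / b) ^ s * (b / C) ^ s = (a / C) ^ s := by
        rw [← mul_pow]
        congr 1
        field_simp
      calc ((a / b) ^ s - T) * (b / C) ^ s = (a / b) ^ s * (b / C) ^ s - T * (b / C) ^ s := by ring
        _ = _ := by rw [e5]; ring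
    rw [e4, norm_div, hBn, div_one, sub_eq_add_neg]
    refine (IsUltrametricDist.norm_add_le_max _ _).trans_lt (max_lt hA ?_)
    rw [norm_neg, norm_mul]
    exact mul_lt_one_of_nonneg_of_lt_one_right hTle (norm_nonneg _) hB
  rw [norm_pow] at hpow
  exact (pow_lt_one_iff_of_nonneg (norm_nonneg _) hs0).1 hpow

/-- **(AL)** asymptotics of `E(ω X^(p^l)) / E(X1^(p^l))` along non-breaks. -/
theorem tendsto_ratio (X1 X : FPt Γ) (hX1 : X1 ≠ 0) (hX : ‖X.val‖ ≤ ‖X1.val‖) (ω : OK K)
    (hω : ω ^ (p ^ n) = ω) (ε : ℝ) (hε : 0 < ε) : ∃ L : ℕ, ∀ l ≥ L,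
    D.NonBreak (‖X1.val‖ ^ (p ^ l)) → ∀ e : ℕ, l = e + D.sig (‖X1.val‖ ^ (p ^ l)) →
      ‖((D.E (powPt p ω l X)).val : K) / ((D.E (powPt p 1 l X1)).val : K) -
        (ω : K) ^ (p ^ ((n - 1) * D.sig (‖X1.val‖ ^ (p ^ l)))) *
          ((X.val : K) / (X1.val : K)) ^ (p ^ e)‖ < ε := by
  classical
  have hp : 1 < p := (Fact.out : p.Prime).one_lt
  have hn : 1 ≤ n := by have := D.h_lt_n; omega
  have hpos : 0 < ‖X1.val‖ := norm_val_pos hX1
  have hlt1 : ‖X1.val‖ < 1 := X1.norm_val_lt
  have hQ : 1 < p ^ h := Nat.one_lt_pow (by have := D.one_le_h; omega) hp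
  set v1 : OK K := PowerSeries.coeff 1 D.V with hv1def
  have hv1 : 0 < ‖v1‖ := by
    rw [norm_pos_iff]; exact D.V_one
  have hv1le : ‖v1‖ ≤ 1 := norm_le_one _
  set s : ℕ → ℕ := fun l => D.sig (‖X1.val‖ ^ (p ^ l)) with hs
  set a : ℕ → K := fun l => ((D.E (powPt p ω l X)).val : K) with ha
  set b : ℕ → K := fun l => ((D.E (powPt p 1 l X1)).val : K) with hb
  set t : ℕ → K := fun l => (ω : K) ^ (p ^ ((n - 1) * s l)) *
    ((X.val : K) / (X1.val : K)) ^ (p ^ (l - s l)) with ht
  set NB : ℕ → Prop := fun l => D.NonBreak (‖X1.val‖ ^ (p ^ l)) with hNB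
  -- the target accuracy
  set ε' : ℝ := min ε 1 / 2 with hε'
  have hε'0 : 0 < ε' := by rw [hε']; exact half_pos (lt_min hε one_pos)
  have hε'1 : ε' < 1 := by
    have : min ε 1 ≤ 1 := min_le_right _ _
    rw [hε']; linarith
  have hε'ε : ε' < ε := by
    have h1 : min ε 1 ≤ ε := min_le_left _ _
    have h2 : 0 < min ε 1 := lt_min hε one_pos
    rw [hε']; linarith only [hε, h1]
  -- thresholds
  obtain ⟨ρ₀, hρ0, hρ1, hper⟩ := D.exists_sig_periodic
  obtain ⟨δE, hδE, hEδ⟩ := D.exists_norm_E_lt (ε' * ‖v1‖) (mul_pos hε'0 hv1)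
  obtain ⟨L1, hL1⟩ := exists_pow_lt_of_lt_one (lt_min hρ0 hδE) hlt1
  obtain ⟨L2, hL2⟩ := D.tendsto_sub_sig X1 hX1 0
  set L0 := max L1 L2 with hL0
  have hsmall : ∀ l ≥ L0, ‖X1.val‖ ^ (p ^ l) < min ρ₀ δE := by
    intro l hl
    refine lt_of_le_of_lt (pow_le_pow_of_le_one hpos.le hlt1.le ?_) hL1
    exact ((le_max_left _ _).trans hl).trans (Nat.lt_pow_self hp).le
  have hsle : ∀ l ≥ L0, s l ≤ l := by
    intro l hl
    have := hL2 l ((le_max_right _ _).trans hl)
    rwa [zero_add] at this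
  have hblt : ∀ l ≥ L0, ‖b l‖ < ε' * ‖v1‖ := by
    intro l hl
    refine hEδ _ ?_
    rw [norm_powPt_one]
    exact (hsmall l hl).trans_le (min_le_right _ _)
  have hsper : ∀ l ≥ L0, s (l + n) = s l + (n - h) ∧ (NB (l + n) ↔ NB l) := by
    intro l hl
    have h1 := hper (‖X1.val‖ ^ (p ^ l)) (pow_pos hpos _)
      ((hsmall l hl).le.trans (min_le_left _ _))
    rw [← pow_mul, ← pow_add] at h1
    exact h1
  have hb0 : ∀ l, NB l → b l ≠ 0 ∧ ‖a l‖ ≤ ‖b l‖ := by
    intro l hl
    have h1 := D.norm_E_le_of_nonBreak (powPt p 1 l X1) (powPt p ω l X)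
      (powPt_one_ne_zero l hX1) (by rw [norm_powPt_one]; exact hl) (by
        rw [norm_powPt, norm_powPt_one]
        calc ‖ω‖ * ‖X.val‖ ^ p ^ l ≤ 1 * ‖X1.val‖ ^ p ^ l :=
              mul_le_mul (norm_le_one ω) (pow_le_pow_left₀ (norm_nonneg _) hX _) (by positivity)
                zero_le_one
          _ = _ := one_mul _)
    refine ⟨?_, h1.2⟩
    rw [← norm_pos_iff]
    exact norm_val_pos h1.1
  have hωK : (ω : K) ^ (p ^ n) = ω := by
    have := congrArg (fun x : OK K => (x : K)) hω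
    simpa using this
  have hωk : ∀ k : ℕ, (ω : K) ^ (p ^ (n * k)) = ω := by
    intro k
    induction k with
    | zero => simp
    | succ k ih => rw [Nat.mul_succ, pow_add, pow_mul, ih, hωK]
  -- recursion for `t`
  have htrec : ∀ l ≥ L0, t (l + n) = t l ^ (p ^ h) := by
    intro l hl
    have h1 := (hsper l hl).1
    have h2 := hsle l hl
    have h3 := D.h_lt_n
    simp only [ht]
    rw [h1, mul_pow, ← pow_mul, ← pow_mul, ← pow_add, ← pow_add]
    have e1 : l + n - (s l + (n - h)) = l - s l + h := by omega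
    have e2 : (n - 1) * (s l + (n - h)) = n * (n - h - 1) + ((n - 1) * s l + h) := by
      obtain ⟨m, hm⟩ : ∃ m, n = h + (m + 1) := ⟨n - h - 1, by omega⟩
      have e3 : n - h = m + 1 := by omega
      have e4 : n - h - 1 = m := by omega
      have e5 : n - 1 = h + m := by omega
      rw [e4, e3, e5, hm]
      ring
    rw [e1, e2, pow_add p (n * (n - h - 1)), pow_mul (ω : K), hωk]
  -- recursion for the error
  have hrec : ∀ l ≥ L0, NB l → ‖a (l + n) / b (l + n) - t (l + n)‖ ≤
      max ε' (‖a l / b l - t l‖ ^ (p ^ h)) := by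
    intro l hl hnb
    obtain ⟨hbl, hale⟩ := hb0 l hnb
    have hbpos : 0 < ‖b l‖ := norm_pos_iff.2 hbl
    have hb1 : ‖b l‖ ≤ 1 := norm_le_one _
    have hB := D.norm_E_powPt_add_le 1 (one_pow _) l X1
    have hA := D.norm_E_powPt_add_le ω hω l X
    change ‖b (l + n) - (v1 : K) * b l ^ (p ^ h)‖ ≤ ‖b l‖ ^ (2 * p ^ h) at hB
    change ‖a (l + n) - (v1 : K) * a l ^ (p ^ h)‖ ≤ ‖a l‖ ^ (2 * p ^ h) at hA
    have hv1K : ‖(v1 : K)‖ = ‖v1‖ := rfl
    have hbQ : ‖b l‖ ^ (p ^ h) ≤ ε' * ‖v1‖ :=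
      (pow_le_of_le_one (norm_nonneg _) hb1 (by omega)).trans (hblt l hl).le
    have hsq : ‖b l‖ ^ (2 * p ^ h) = ‖b l‖ ^ (p ^ h) * ‖b l‖ ^ (p ^ h) := by
      rw [two_mul, pow_add]
    have hBn : ‖b (l + n)‖ = ‖v1‖ * ‖b l‖ ^ (p ^ h) := by
      have h1 : ‖(v1 : K) * b l ^ (p ^ h)‖ = ‖v1‖ * ‖b l‖ ^ (p ^ h) := by
        rw [norm_mul, norm_pow, hv1K]
      have h2 : ‖b (l + n) - (v1 : K) * b l ^ (p ^ h)‖ < ‖(v1 : K) * b l ^ (p ^ h)‖ := by
        refine hB.trans_lt ?_
        rw [h1, hsq]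
        refine mul_lt_mul_of_pos_right ?_ (pow_pos hbpos _)
        refine hbQ.trans_lt ?_
        calc ε' * ‖v1‖ < 1 * ‖v1‖ := mul_lt_mul_of_pos_right hε'1 hv1
          _ = ‖v1‖ := one_mul _
      have h3 : b (l + n) = (b (l + n) - (v1 : K) * b l ^ (p ^ h)) + (v1 : K) * b l ^ (p ^ h) := by
        ring
      rw [h3, IsUltrametricDist.norm_add_eq_max_of_norm_ne_norm h2.ne, max_eq_right h2.le, h1]
    have hbn0 : b (l + n) ≠ 0 := by
      rw [← norm_pos_iff, hBn]
      exact mul_pos hv1 (pow_pos hbpos _)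
    have hR1 : ‖a l / b l‖ ≤ 1 := by
      rw [norm_div]
      exact div_le_one_of_le₀ hale hbpos.le
    have hstep : ‖a (l + n) / b (l + n) - (a l / b l) ^ (p ^ h)‖ ≤ ε' := by
      have e1 : a (l + n) / b (l + n) - (a l / b l) ^ (p ^ h) =
          ((a (l + n) - (v1 : K) * a l ^ (p ^ h)) -
            (a l / b l) ^ (p ^ h) * (b (l + n) - (v1 : K) * b l ^ (p ^ h))) / b (l + n) := by
        rw [eq_div_iff hbn0, sub_mul, div_mul_cancel₀ _ hbn0]
        have e2 : (a l / b l) ^ (p ^ h) * b l ^ (p ^ h) = a l ^ (p ^ h) := by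
          rw [← mul_pow, div_mul_cancel₀ _ hbl]
        calc a (l + n) - (a l / b l) ^ (p ^ h) * b (l + n)
            = a (l + n) - (a l / b l) ^ (p ^ h) * b (l + n) +
              (v1 : K) * ((a l / b l) ^ (p ^ h) * b l ^ (p ^ h) - a l ^ (p ^ h)) := by
              rw [e2]; ring
          _ = _ := by ring
      rw [e1, norm_div, hBn, div_le_iff₀ (mul_pos hv1 (pow_pos hbpos _)), sub_eq_add_neg]
      have hbd : ‖b l‖ ^ (2 * p ^ h) ≤ ε' * (‖v1‖ * ‖b l‖ ^ (p ^ h)) := by
        rw [hsq, ← mul_assoc]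
        exact mul_le_mul_of_nonneg_right hbQ (by (clear * - hbl; positivity))
      refine (IsUltrametricDist.norm_add_le_max _ _).trans (max_le ?_ ?_)
      · exact (hA.trans (pow_le_pow_left₀ (norm_nonneg _) hale _)).trans hbd
      · rw [norm_neg, norm_mul, norm_pow]
        refine le_trans ?_ hbd
        calc ‖a l / b l‖ ^ (p ^ h) * ‖b (l + n) - (v1 : K) * b l ^ (p ^ h)‖
            ≤ 1 * ‖b l‖ ^ (2 * p ^ h) :=
              mul_le_mul (pow_le_one₀ (norm_nonneg _) hR1) hB (norm_nonneg _) zero_le_one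
          _ = _ := one_mul _
    have e3 : a (l + n) / b (l + n) - t (l + n) =
        (a (l + n) / b (l + n) - (a l / b l) ^ (p ^ h)) + (a l / b l - t l) ^ (p ^ h) := by
      rw [sub_pow_char_pow, htrec l hl]
      ring
    rw [e3]
    refine (IsUltrametricDist.norm_add_le_max _ _).trans (max_le_max hstep ?_)
    rw [norm_pow]
  -- uniform bound on a window
  have hwin : ∃ δ : ℝ, 0 ≤ δ ∧ δ < 1 ∧ ∀ j < n, NB (L0 + j) →
      ‖a (L0 + j) / b (L0 + j) - t (L0 + j)‖ ≤ δ := by
    obtain ⟨δ, h0, h1, h2⟩ := exists_bound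
      (fun j : Fin n => if NB (L0 + j) then ‖a (L0 + j) / b (L0 + j) - t (L0 + j)‖ else 0)
      (fun j => by
        by_cases hnb : NB (L0 + j)
        · rw [if_pos hnb]
          refine D.norm_ratio_sub_lt_one X1 X hX1 hX ω hω (L0 + j) hnb (L0 + j - s (L0 + j)) ?_
          exact (Nat.sub_add_cancel (hsle _ (Nat.le_add_right _ _))).symm
        · rw [if_neg hnb]; exact one_pos)
    refine ⟨δ, h0, h1, fun j hj hnb => ?_⟩
    have := h2 ⟨j, hj⟩
    rwa [if_pos hnb] at this
  obtain ⟨δ, hδ0, hδ1, hδ⟩ := hwin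
  have hiter : ∀ k : ℕ, ∀ j < n, NB (L0 + j + n * k) →
      ‖a (L0 + j + n * k) / b (L0 + j + n * k) - t (L0 + j + n * k)‖ ≤
        max ε' (δ ^ ((p ^ h) ^ k)) := by
    intro k
    induction k with
    | zero =>
      intro j hj hnb
      rw [Nat.mul_zero, Nat.add_zero] at hnb ⊢
      rw [pow_zero, pow_one]
      exact (hδ j hj hnb).trans (le_max_right _ _)
    | succ k ih =>
      intro j hj hnb
      have hl : L0 ≤ L0 + j + n * k := by rw [add_assoc]; exact Nat.le_add_right _ _
      have e1 : L0 + j + n * (k + 1) = (L0 + j + n * k) + n := by ring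
      rw [e1] at hnb ⊢
      have hnb' := ((hsper _ hl).2).1 hnb
      refine (hrec _ hl hnb').trans (max_le (le_max_left _ _) ?_)
      have h1 := ih j hj hnb'
      rcases le_total ε' (δ ^ ((p ^ h) ^ k)) with hle | hle
      · rw [max_eq_right hle] at h1
        refine (pow_le_pow_left₀ (norm_nonneg _) h1 _).trans ?_
        rw [← pow_mul, ← pow_succ]
        exact le_max_right _ _
      · rw [max_eq_left hle] at h1
        refine (pow_le_pow_left₀ (norm_nonneg _) h1 _).trans ?_
        exact (pow_le_of_le_one hε'0.le hε'1.le (by omega)).trans (le_max_left _ _)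
  obtain ⟨J, hJ⟩ := exists_pow_lt_of_lt_one hε'0 hδ1
  refine ⟨L0 + n * (J + 1), fun l hl hnb e he => ?_⟩
  obtain ⟨u, rfl⟩ : ∃ u, l = L0 + u := ⟨l - L0, by
    have : L0 ≤ L0 + n * (J + 1) := Nat.le_add_right _ _
    omega⟩
  set k := u / n with hk
  set j := u % n with hj
  have hu : j + n * k = u := Nat.mod_add_div u n
  have hjn : j < n := Nat.mod_lt _ hn
  have hkJ : J ≤ k := by
    rw [hk, Nat.le_div_iff_mul_le hn]
    have : n * (J + 1) ≤ u := by omega
    calc J * n ≤ n * (J + 1) := by rw [Nat.mul_comm]; exact Nat.mul_le_mul_left _ (Nat.le_succ _)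
      _ ≤ u := this
  have e1 : L0 + j + n * k = L0 + u := by omega
  have h1 := hiter k j hjn (by rw [e1]; exact hnb)
  rw [e1] at h1
  have e2 : e = L0 + u - s (L0 + u) := by
    have : L0 + u = e + s (L0 + u) := he
    omega
  have h2 : δ ^ ((p ^ h) ^ k) ≤ ε' := by
    refine le_trans (pow_le_pow_of_le_one hδ0 hδ1.le ?_) hJ.le
    exact hkJ.trans (Nat.lt_pow_self hQ).le
  rw [e2]
  exact (h1.trans (max_le le_rfl h2)).trans_lt hε'ε

end LocalFG

end Vale.Agent.P217
end
end

section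

section

/-!
# P217: power series rings over a field: linear substitutions, separating the last variable
-/

namespace Vale.Agent.P217

open MvPowerSeries Finsupp

section MaxIdeal

variable {κ : Type*} [Field κ] {σ : Type*} [Finite σ]

theorem mem_span_range_X {f : MvPowerSeries σ κ} (hf : constantCoeff f = 0) :
    f ∈ Ideal.span (Set.range (X : σ → MvPowerSeries σ κ)) := by
  classical
  cases nonempty_fintype σ
  have hex : ∀ d : σ →₀ ℕ, d ≠ 0 → ∃ i, d i ≠ 0 := fun d hd => by
    by_contra! h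
    exact hd (Finsupp.ext h)
  let idx : ∀ d : σ →₀ ℕ, d ≠ 0 → σ := fun d hd => (hex d hd).choose
  have hidx : ∀ (d : σ →₀ ℕ) (hd : d ≠ 0), d (idx d hd) ≠ 0 := fun d hd => (hex d hd).choose_spec
  let g : σ → MvPowerSeries σ κ := fun i d =>
    if h : d + single i 1 ≠ 0 then (if idx (d + single i 1) h = i then coeff (d + single i 1) f else 0)
    else 0
  have key : f = ∑ i, X i * g i := by
    ext d
    rw [map_sum]
    have h1 : ∀ i, coeff d (X i * g i) =
        if h : d ≠ 0 then (if idx d h = i then coeff d f else 0) else 0 := by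
      intro i
      rw [X, coeff_monomial_mul]
      by_cases hd : d = 0
      · subst hd
        simp
      · rw [dif_pos hd]
        by_cases hi : single i 1 ≤ d
        · rw [if_pos hi, one_mul]
          have h2 : d - single i 1 + single i 1 = d := tsub_add_cancel_of_le hi
          change (if h : (d - single i 1) + single i 1 ≠ 0 then _ else _) = _
          have h3 : ∀ e : σ →₀ ℕ, e = d →
              (if h : e ≠ 0 then (if idx e h = i then coeff e f else 0) else 0) =
              (if idx d hd = i then coeff d f else 0) := by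
            intro e he
            subst he
            rw [dif_pos hd]
          exact h3 _ h2
        · rw [if_neg hi]
          have : idx d hd ≠ i := by
            rintro rfl
            apply hi
            rw [Finsupp.single_le_iff]
            exact Nat.one_le_iff_ne_zero.mpr (hidx d hd)
          rw [if_neg this]
    simp_rw [h1]
    by_cases hd : d = 0
    · subst hd
      simpa only [coeff_zero_eq_constantCoeff, ne_eq, not_true_eq_false, ↓reduceDIte, Finset.sum_const_zero] using     hf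
    · simp [hd]
  rw [key]
  exact Ideal.sum_mem _ fun i _ => Ideal.mul_mem_right _ _ (Ideal.subset_span ⟨i, rfl⟩)

omit [Finite σ] in
theorem mem_maximalIdeal_iff {f : MvPowerSeries σ κ} :
    f ∈ IsLocalRing.maximalIdeal (MvPowerSeries σ κ) ↔ constantCoeff f = 0 := by
  rw [IsLocalRing.mem_maximalIdeal, mem_nonunits_iff, MvPowerSeries.isUnit_iff_constantCoeff,
    isUnit_iff_ne_zero, not_not]

theorem maximalIdeal_eq_span :
    IsLocalRing.maximalIdeal (MvPowerSeries σ κ) = Ideal.span (Set.range X) := by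
  apply le_antisymm
  · intro f hf
    exact mem_span_range_X (mem_maximalIdeal_iff.mp hf)
  · rw [Ideal.span_le]
    rintro _ ⟨i, rfl⟩
    exact mem_maximalIdeal_iff.mpr (constantCoeff_X i)

instance isAdicComplete_maximalIdeal :
    IsAdicComplete (IsLocalRing.maximalIdeal (MvPowerSeries σ κ)) (MvPowerSeries σ κ) := by
  rw [maximalIdeal_eq_span]
  infer_instance

end MaxIdeal


section Lin

variable {κ : Type*} [Field κ] {σ τ υ : Type*} [Fintype σ] [Fintype τ] [Fintype υ]

/-- the linear forms with coefficient matrix `B` -/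
noncomputable def linForm (B : Matrix σ τ κ) (i : σ) : MvPowerSeries τ κ :=
  ∑ j, C (B i j) * X j

omit [Fintype σ] in
theorem hasSubst_linForm [Finite σ] (B : Matrix σ τ κ) : HasSubst (linForm B) :=
  hasSubst_of_constantCoeff_zero fun i => by simp only [linForm, map_sum, map_mul, constantCoeff_C, constantCoeff_X, mul_zero, Finset.sum_const_zero]

/-- the linear substitution `X_i ↦ ∑ j, B i j X_j`. -/
noncomputable def linSubst (B : Matrix σ τ κ) : MvPowerSeries σ κ →ₐ[κ] MvPowerSeries τ κ :=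
  substAlgHom (hasSubst_linForm B)

theorem linSubst_apply (B : Matrix σ τ κ) (f : MvPowerSeries σ κ) :
    linSubst B f = subst (linForm B) f := by
  rw [linSubst, coe_substAlgHom]

@[simp] theorem linSubst_X (B : Matrix σ τ κ) (i : σ) : linSubst B (X i) = linForm B i := by
  rw [linSubst_apply, subst_X (hasSubst_linForm B)]

@[simp] theorem linSubst_C (B : Matrix σ τ κ) (c : κ) : linSubst B (C c) = C c := by
  have := (linSubst B).commutes c
  simpa [MvPowerSeries.algebraMap_apply] using this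

theorem linSubst_linForm (B : Matrix τ υ κ) (B' : Matrix σ τ κ) (i : σ) :
    linSubst B (linForm B' i) = linForm (B' * B) i := by
  simp only [linForm, map_sum, map_mul, linSubst_C, linSubst_X, Matrix.mul_apply]
  simp_rw [Finset.mul_sum, Finset.sum_mul]
  rw [Finset.sum_comm]
  refine Finset.sum_congr rfl fun j _ => Finset.sum_congr rfl fun k _ => ?_
  ring

theorem linSubst_linSubst (B : Matrix τ υ κ) (B' : Matrix σ τ κ) (f : MvPowerSeries σ κ) :
    linSubst B (linSubst B' f) = linSubst (B' * B) f := by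
  rw [linSubst_apply, linSubst_apply, subst_comp_subst_apply (hasSubst_linForm B')
    (hasSubst_linForm B), linSubst_apply]
  congr 1
  funext i
  rw [← linSubst_apply, linSubst_linForm]

theorem linSubst_one [DecidableEq σ] (f : MvPowerSeries σ κ) :
    linSubst (1 : Matrix σ σ κ) f = f := by
  rw [linSubst_apply]
  have : linForm (1 : Matrix σ σ κ) = X := by
    funext i
    simp only [linForm, Matrix.one_apply, apply_ite, map_one, map_zero, ite_mul, one_mul, zero_mul, Finset.sum_ite_eq, Finset.mem_univ, ↓reduceIte]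
  rw [this, subst_self]
  rfl

theorem order_le_linSubst (B : Matrix σ τ κ) (f : MvPowerSeries σ κ) :
    f.order ≤ (linSubst B f).order := by
  rw [linSubst_apply]
  refine le_trans ?_ (le_order_subst (hasSubst_linForm B) f)
  have h1 : ∀ i, 1 ≤ (linForm B i).order := fun i => by
    rw [one_le_order_iff_constCoeff_eq_zero]; simp only [linForm, map_sum, map_mul, constantCoeff_C, constantCoeff_X, mul_zero, Finset.sum_const_zero]
  calc f.order = 1 * f.order := (one_mul _).symm
    _ ≤ _ := mul_le_mul' (le_iInf h1) le_rfl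

theorem rename_eq_linSubst [DecidableEq τ] (g : σ → τ) [Filter.TendstoCofinite g] (f : MvPowerSeries σ κ) :
    rename g f = linSubst (Matrix.of fun i j => if g i = j then (1 : κ) else 0) f := by
  rw [rename_eq_subst, linSubst_apply]
  congr 1
  funext i
  simp only [Function.comp_apply, linForm, Matrix.of_apply, apply_ite, map_one, map_zero, ite_mul, one_mul, zero_mul, Finset.sum_ite_eq, Finset.mem_univ, ↓reduceIte]

/-- coefficients of the restriction to a line -/
theorem coeff_line (c : Matrix σ Unit κ) (F : MvPowerSeries σ κ) (r : ℕ) :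
    coeff (single () r) (linSubst c F) =
      ∑ᶠ d : σ →₀ ℕ, coeff d F * (if degree d = r then ∏ i, c i () ^ d i else 0) := by
  rw [linSubst_apply, coeff_subst (hasSubst_linForm c)]
  refine finsum_congr fun d => ?_
  rw [smul_eq_mul]
  congr 1
  have : (d.prod fun s e => linForm c s ^ e) =
      C (∏ i, c i () ^ d i) * (X () : MvPowerSeries Unit κ) ^ (degree d) := by
    rw [Finsupp.prod_fintype _ _ (by simp)]
    simp only [linForm, Finset.univ_unique, Finset.sum_singleton, mul_pow, Finset.prod_mul_distrib]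
    rw [Finset.prod_pow_eq_pow_sum, degree_eq_sum, map_prod]
    simp only [PUnit.default_eq_unit, map_pow]
  rw [this, coeff_C_mul, coeff_X_pow]
  by_cases h : degree d = r
  · simp only [h, ↓reduceIte, mul_one]
  · rw [if_neg, if_neg h, mul_zero]
    intro h'
    apply h
    have := congrArg (fun z => z ()) h'
    simpa using this.symm

theorem coeff_line_single [DecidableEq σ] (i : σ) (F : MvPowerSeries σ κ) (r : ℕ) :
    coeff (single () r) (linSubst (Matrix.of fun j (_ : Unit) => if j = i then (1 : κ) else 0) F) =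
      coeff (single i r) F := by
  rw [coeff_line, finsum_eq_single _ (single i r)]
  · have : (∏ x : σ, (Matrix.of fun j (_ : Unit) => if j = i then (1 : κ) else 0) x () ^
        (single i r) x) = 1 := by
      refine Finset.prod_eq_one fun x _ => ?_
      by_cases hx : x = i
      · simp [hx]
      · simp [hx]
    rw [this, if_pos (by simp), mul_one]
  · intro d hd
    by_cases h : degree d = r
    · rw [if_pos h]
      obtain ⟨x, hx, hdx⟩ : ∃ x, x ≠ i ∧ d x ≠ 0 := by
        by_contra! hcon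
        apply hd
        ext x
        by_cases hx : x = i
        · subst hx
          rw [single_eq_same, ← h, degree_eq_sum, Finset.sum_eq_single x]
          · intro b _ hb; exact hcon b hb
          · simp only [Finset.mem_univ, not_true_eq_false, IsEmpty.forall_iff]
        · rw [hcon x hx, single_eq_of_ne hx]
      rw [Finset.prod_eq_zero (Finset.mem_univ x)]
      · simp
      · simp [hx, hdx]
    · simp [h]

theorem exists_line [Infinite κ] (F : MvPowerSeries σ κ) (r : ℕ) (hr : F.order = r) (i₀ : σ) :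
    ∃ c : Matrix σ Unit κ, c i₀ () ≠ 0 ∧ coeff (single () r) (linSubst c F) ≠ 0 := by
  classical
  let q : MvPolynomial σ κ := truncTotal (r + 1) F
  obtain ⟨⟨d0, hd0, hdr⟩, hlt⟩ := order_eq_nat.mp hr
  have hq : q ≠ 0 := by
    intro h0
    apply hd0
    rw [← coeff_truncTotal (n := r + 1) F (by omega)]
    change MvPolynomial.coeff d0 q = 0
    rw [h0]; simp
  have hq2 : q * MvPolynomial.X i₀ ≠ 0 := mul_ne_zero hq (MvPolynomial.X_ne_zero i₀)
  obtain ⟨c, hc⟩ : ∃ c : σ → κ, MvPolynomial.eval c (q * MvPolynomial.X i₀) ≠ 0 := by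
    by_contra! hcon
    exact hq2 (MvPolynomial.funext fun x => by simpa using hcon x)
  rw [map_mul, MvPolynomial.eval_X] at hc
  refine ⟨Matrix.of fun i _ => c i, right_ne_zero_of_mul hc, ?_⟩
  rw [coeff_line]
  have hc1 := left_ne_zero_of_mul hc
  rw [MvPolynomial.eval_eq'] at hc1
  convert hc1 using 1
  rw [finsum_eq_sum_of_support_subset (s := q.support)]
  · refine Finset.sum_congr rfl fun d hd => ?_
    have hd1 : degree d < r + 1 := by
      by_contra hcon
      rw [MvPolynomial.mem_support_iff] at hd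
      exact hd (coeff_truncTotal_eq_zero F (by omega))
    have hd2 : MvPolynomial.coeff d q = coeff d F := coeff_truncTotal F hd1
    rw [hd2]
    by_cases hd3 : degree d = r
    · simp only [hd3, ↓reduceIte, Matrix.of_apply]
    · rw [hlt d (by omega)]
      simp only [Matrix.of_apply, mul_ite, zero_mul, mul_zero, ite_self]
  · intro d hd
    rw [Function.mem_support] at hd
    have hd1 : degree d = r := by
      by_contra hcon
      exact hd (by simp [hcon])
    have hd2 : coeff d F ≠ 0 := left_ne_zero_of_mul hd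
    rw [Finset.mem_coe, MvPolynomial.mem_support_iff]
    change MvPolynomial.coeff d (truncTotal (r + 1) F) ≠ 0
    rwa [coeff_truncTotal F (by omega)]

end Lin

section LastVar

variable (κ : Type*) [Field κ] (n : ℕ)

/-- separate the last variable. -/
noncomputable def lastEquiv :
    MvPowerSeries (Fin (n + 1)) κ ≃ₐ[κ] PowerSeries (MvPowerSeries (Fin n) κ) :=
  (renameEquiv κ (_root_.finSuccEquivLast (n := n))).trans (optionEquivLeft (Fin n) κ)

/-- exponent vector with given last entry -/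
noncomputable def snocExp (x : Fin n →₀ ℕ) (k : ℕ) : Fin (n + 1) →₀ ℕ :=
  (x.optionElim k).embDomain (_root_.finSuccEquivLast (n := n)).symm.toEmbedding

variable {κ n}

theorem coeff_coeff_lastEquiv (p : MvPowerSeries (Fin (n + 1)) κ) (k : ℕ) (x : Fin n →₀ ℕ) :
    coeff x (PowerSeries.coeff k (lastEquiv κ n p)) = coeff (snocExp n x k) p := by
  simp only [lastEquiv, AlgEquiv.trans_apply, coeff_coeff_optionEquivLeft]
  have h : (x.optionElim k) = (snocExp n x k).embDomain (_root_.finSuccEquivLast (n := n)).toEmbedding := by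
    ext a
    obtain ⟨b, rfl⟩ := (_root_.finSuccEquivLast (n := n)).surjective a
    rw [← Equiv.coe_toEmbedding, Finsupp.embDomain_apply_self, snocExp]
    have := Finsupp.embDomain_apply_self (_root_.finSuccEquivLast (n := n)).symm.toEmbedding (x.optionElim k) ((_root_.finSuccEquivLast (n := n)) b)
    simpa using this.symm
  rw [h]
  exact coeff_embDomain_rename _ _ _

theorem snocExp_castSucc (x : Fin n →₀ ℕ) (k : ℕ) (i : Fin n) :
    snocExp n x k (Fin.castSucc i) = x i := by
  have := Finsupp.embDomain_apply_self (_root_.finSuccEquivLast (n := n)).symm.toEmbedding (x.optionElim k) (some i)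
  simpa [snocExp] using this

theorem snocExp_last (x : Fin n →₀ ℕ) (k : ℕ) : snocExp n x k (Fin.last n) = k := by
  have := Finsupp.embDomain_apply_self (_root_.finSuccEquivLast (n := n)).symm.toEmbedding (x.optionElim k) none
  simpa [snocExp] using this

theorem degree_snocExp (x : Fin n →₀ ℕ) (k : ℕ) : degree (snocExp n x k) = degree x + k := by
  simp only [degree_eq_sum, Fin.sum_univ_castSucc, snocExp_castSucc, snocExp_last, Nat.add_left_cancel_iff]

@[simp] theorem lastEquiv_X_last : lastEquiv κ n (X (Fin.last n)) = PowerSeries.X := by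
  simp [lastEquiv, renameEquiv_apply]

theorem lastEquiv_rename (f : MvPowerSeries (Fin n) κ) :
    lastEquiv κ n (rename Fin.castSucc f) = PowerSeries.C f := by
  ext k x
  rw [coeff_coeff_lastEquiv, PowerSeries.coeff_C]
  split_ifs with hk
  · subst hk
    have : snocExp n x 0 = x.embDomain Fin.castSuccEmb := by
      ext i
      refine Fin.lastCases ?_ (fun i => ?_) i
      · rw [snocExp_last, Finsupp.embDomain_of_notMem_range]
        simp
      · rw [snocExp_castSucc]
        exact (Finsupp.embDomain_apply_self _ _ _).symm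
    rw [this]
    exact coeff_embDomain_rename _ _ _
  · rw [coeff_rename_eq_zero]
    · simp
    · rintro ⟨y, hy⟩
      apply hk
      have := congrArg (fun z => z (Fin.last n)) hy
      simp only [snocExp_last] at this
      rw [← this, Finsupp.mapDomain_of_notMem_range]
      simp

end LastVar

end Vale.Agent.P217
end
end

section

section

/-!
# P217: Noether normalization of power series rings over an infinite field
-/

namespace Vale.Agent.P217

open MvPowerSeries Finsupp

section Weier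

variable {κ : Type*} [Field κ] {n : ℕ}

theorem le_order_coeff_lastEquiv (F : MvPowerSeries (Fin (n + 1)) κ) (r i : ℕ)
    (h : (r : ℕ∞) ≤ F.order) :
    ((r - i : ℕ) : ℕ∞) ≤ (PowerSeries.coeff i (lastEquiv κ n F)).order := by
  apply le_order
  intro e he
  rw [coeff_coeff_lastEquiv]
  apply coeff_of_lt_order
  refine lt_of_lt_of_le ?_ h
  rw [degree_snocExp]
  have : degree e < r - i := by exact_mod_cast he
  exact_mod_cast (by omega : degree e + i < r)

theorem snocExp_zero (r : ℕ) : snocExp n 0 r = single (Fin.last n) r := by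
  ext i
  refine Fin.lastCases ?_ (fun i => ?_) i
  · rw [snocExp_last, single_eq_same]
  · rw [snocExp_castSucc, single_eq_of_ne (Fin.castSucc_ne_last i)]
    rfl

theorem map_residue_ne_zero_iff (A : Type*) [CommRing A] [IsLocalRing A] (a : A) :
    IsLocalRing.residue A a ≠ 0 ↔ IsUnit a := by
  rw [ne_eq, IsLocalRing.residue_eq_zero_iff, IsLocalRing.mem_maximalIdeal, mem_nonunits_iff,
    not_not]

theorem exists_weier_poly (F : MvPowerSeries (Fin (n + 1)) κ) (r : ℕ) (hr : F.order = r)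
    (hc : coeff (single (Fin.last n) r) F ≠ 0) :
    ∃ P : Polynomial (MvPowerSeries (Fin n) κ), P.Monic ∧ P.natDegree = r ∧
      (∀ i, ((r - i : ℕ) : ℕ∞) ≤ (P.coeff i).order) ∧
      ∃ u, (lastEquiv κ n).symm (P : PowerSeries (MvPowerSeries (Fin n) κ)) = F * u := by
  set g := lastEquiv κ n F with hg
  have hcoef : ∀ i, constantCoeff (PowerSeries.coeff i g) = coeff (single (Fin.last n) i) F := by
    intro i
    rw [← coeff_zero_eq_constantCoeff_apply, hg, coeff_coeff_lastEquiv, snocExp_zero]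
  have hr1 : PowerSeries.coeff r (g.map (IsLocalRing.residue _)) ≠ 0 := by
    rw [PowerSeries.coeff_map, map_residue_ne_zero_iff, MvPowerSeries.isUnit_iff_constantCoeff,
      hcoef]
    exact isUnit_iff_ne_zero.mpr hc
  have hne : g.map (IsLocalRing.residue _) ≠ 0 := fun h0 => hr1 (by rw [h0, map_zero])
  obtain ⟨P, h, H⟩ := g.exists_isWeierstrassFactorization hne
  have hdeg : P.natDegree = r := by
    rw [H.natDegree_eq_toNat_order_map]
    have : (g.map (IsLocalRing.residue _)).order = r := by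
      rw [PowerSeries.order_eq_nat]
      refine ⟨hr1, fun i hi => ?_⟩
      rw [PowerSeries.coeff_map, IsLocalRing.residue_eq_zero_iff, mem_maximalIdeal_iff, hcoef]
      apply coeff_of_lt_order
      rw [hr, degree_single]
      exact_mod_cast hi
    rw [this]; rfl
  obtain ⟨u, hu⟩ := H.isUnit
  have hP : (P : PowerSeries (MvPowerSeries (Fin n) κ)) = g * (↑u⁻¹ : PowerSeries _) := by
    have := H.eq_mul
    rw [← hu] at this
    rw [this, mul_assoc, Units.mul_inv, mul_one]
  have hP2 : (lastEquiv κ n).symm (P : PowerSeries (MvPowerSeries (Fin n) κ)) =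
      F * (lastEquiv κ n).symm (↑u⁻¹ : PowerSeries _) := by
    rw [hP, map_mul, hg, AlgEquiv.symm_apply_apply]
  refine ⟨P, H.isDistinguishedAt.monic, hdeg, fun i => ?_, _, hP2⟩
  have h1 : (r : ℕ∞) ≤ ((lastEquiv κ n).symm (P : PowerSeries (MvPowerSeries (Fin n) κ))).order := by
    rw [hP2]
    refine le_trans ?_ le_order_mul
    rw [hr]
    exact le_self_add
  have h2 := le_order_coeff_lastEquiv _ r i h1
  rwa [AlgEquiv.apply_symm_apply, Polynomial.coeff_coe] at h2

/-- integrality from a distinguished polynomial -/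
theorem isIntegral_of_distinguished (P : Polynomial (MvPowerSeries (Fin n) κ)) (hP : P.Monic)
    (hlow : ∀ i < P.natDegree, constantCoeff (P.coeff i) = 0)
    (J : Ideal (MvPowerSeries (Fin (n + 1)) κ))
    (hJ : (lastEquiv κ n).symm (P : PowerSeries (MvPowerSeries (Fin n) κ)) ∈ J) :
    ((Ideal.Quotient.mk J).comp
      ((lastEquiv κ n).symm.toRingEquiv.toRingHom.comp PowerSeries.C)).IsIntegral := by
  have hD : P.IsDistinguishedAt (IsLocalRing.maximalIdeal (MvPowerSeries (Fin n) κ)) :=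
    { mem := fun {i} hi => mem_maximalIdeal_iff.mpr (hlow i hi), monic := hP }
  have hfin : Module.Finite (MvPowerSeries (Fin n) κ)
      (Polynomial (MvPowerSeries (Fin n) κ) ⧸ Ideal.span {P}) := hP.finite_quotient
  have hfin2 : Module.Finite (MvPowerSeries (Fin n) κ)
      (PowerSeries (MvPowerSeries (Fin n) κ) ⧸
        Ideal.span {(P : PowerSeries (MvPowerSeries (Fin n) κ))}) :=
    Module.Finite.equiv hD.algEquivQuotient.toLinearEquiv
  have hint : Algebra.IsIntegral (MvPowerSeries (Fin n) κ)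
      (PowerSeries (MvPowerSeries (Fin n) κ) ⧸
        Ideal.span {(P : PowerSeries (MvPowerSeries (Fin n) κ))}) := inferInstance
  intro x
  obtain ⟨y, rfl⟩ := Ideal.Quotient.mk_surjective x
  obtain ⟨p, hp, hpe⟩ := hint.isIntegral (Ideal.Quotient.mk _ (lastEquiv κ n y))
  refine ⟨p, hp, ?_⟩
  have h1 : p.eval₂ (PowerSeries.C (R := MvPowerSeries (Fin n) κ)) (lastEquiv κ n y) ∈
      Ideal.span {(P : PowerSeries (MvPowerSeries (Fin n) κ))} := by
    rw [← Ideal.Quotient.eq_zero_iff_mem, Polynomial.hom_eval₂]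
    exact hpe
  rw [← Polynomial.hom_eval₂, Ideal.Quotient.eq_zero_iff_mem]
  obtain ⟨q, hq⟩ := Ideal.mem_span_singleton'.mp h1
  have h2 := Polynomial.hom_eval₂ p (PowerSeries.C (R := MvPowerSeries (Fin n) κ))
    (lastEquiv κ n).symm.toRingEquiv.toRingHom (lastEquiv κ n y)
  have h3 : (lastEquiv κ n).symm.toRingEquiv.toRingHom (lastEquiv κ n y) = y :=
    (lastEquiv κ n).symm_apply_apply y
  rw [h3] at h2
  rw [← h2, ← hq, map_mul]
  exact Ideal.mul_mem_left _ _ hJ

end Weier

end Vale.Agent.P217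
end
end

section

section

/-!
# P217: linear Noether normalization, induction
-/

namespace Vale.Agent.P217

open MvPowerSeries Finsupp

section Normal

variable {κ : Type*} [Field κ]

theorem exists_matrix_col {σ : Type*} [Fintype σ] [DecidableEq σ] (c : σ → κ) (i₀ : σ)
    (h : c i₀ ≠ 0) : ∃ M N : Matrix σ σ κ, M * N = 1 ∧ N * M = 1 ∧ ∀ i, M i i₀ = c i := by
  let M : Matrix σ σ κ := (1 : Matrix σ σ κ).updateCol i₀ c
  have hdet : M.det = c i₀ := by
    have := Matrix.cramer_apply (1 : Matrix σ σ κ) c i₀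
    rw [Matrix.cramer_one] at this
    exact this.symm
  have hu : IsUnit M.det := by rw [hdet]; exact isUnit_iff_ne_zero.mpr h
  refine ⟨M, M⁻¹, Matrix.mul_nonsing_inv _ hu, Matrix.nonsing_inv_mul _ hu, fun i => ?_⟩
  simp [M]

/-- extend a square matrix by `1` in the last place. -/
def extMat {n : ℕ} (B : Matrix (Fin n) (Fin n) κ) : Matrix (Fin (n + 1)) (Fin (n + 1)) κ :=
  fun i j => Fin.lastCases (motive := fun _ => κ)
    (Fin.lastCases (motive := fun _ => κ) 1 (fun _ => 0) j)
    (fun i' => Fin.lastCases (motive := fun _ => κ) 0 (fun j' => B i' j') j) i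

@[simp] theorem extMat_last_last {n : ℕ} (B : Matrix (Fin n) (Fin n) κ) :
    extMat B (Fin.last n) (Fin.last n) = 1 := by simp [extMat]

@[simp] theorem extMat_last_castSucc {n : ℕ} (B : Matrix (Fin n) (Fin n) κ) (j : Fin n) :
    extMat B (Fin.last n) (Fin.castSucc j) = 0 := by simp [extMat]

@[simp] theorem extMat_castSucc_last {n : ℕ} (B : Matrix (Fin n) (Fin n) κ) (j : Fin n) :
    extMat B (Fin.castSucc j) (Fin.last n) = 0 := by simp [extMat]

@[simp] theorem extMat_castSucc_castSucc {n : ℕ} (B : Matrix (Fin n) (Fin n) κ) (i j : Fin n) :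
    extMat B (Fin.castSucc i) (Fin.castSucc j) = B i j := by simp [extMat]

theorem extMat_mul {n : ℕ} (B B' : Matrix (Fin n) (Fin n) κ) :
    extMat B * extMat B' = extMat (B * B') := by
  ext i j
  rw [Matrix.mul_apply, Fin.sum_univ_castSucc]
  refine Fin.lastCases ?_ (fun i => ?_) i <;> refine Fin.lastCases ?_ (fun j => ?_) j <;>
    simp [Matrix.mul_apply]

theorem extMat_one {n : ℕ} : extMat (1 : Matrix (Fin n) (Fin n) κ) = 1 := by
  ext i j
  refine Fin.lastCases ?_ (fun i => ?_) i <;> refine Fin.lastCases ?_ (fun j => ?_) j <;>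
    simp [Matrix.one_apply, Fin.castSucc_ne_last, (Fin.castSucc_ne_last _).symm]

theorem extMat_mul_castSucc {n : ℕ} (B : Matrix (Fin n) (Fin n) κ)
    (M : Matrix (Fin (n + 1)) (Fin (n + 1)) κ) (i : Fin n) (j : Fin (n + 1)) :
    (extMat B * M) (Fin.castSucc i) j = (B * M.submatrix Fin.castSucc id) i j := by
  rw [Matrix.mul_apply, Fin.sum_univ_castSucc]
  simp only [extMat_castSucc_castSucc, extMat_castSucc_last, zero_mul, add_zero, Matrix.mul_apply, Matrix.submatrix_apply, id_eq]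

theorem extMat_mul_last {n : ℕ} (B : Matrix (Fin n) (Fin n) κ)
    (M : Matrix (Fin (n + 1)) (Fin (n + 1)) κ) (j : Fin (n + 1)) :
    (extMat B * M) (Fin.last n) j = M (Fin.last n) j := by
  rw [Matrix.mul_apply, Fin.sum_univ_castSucc]
  simp only [extMat_last_castSucc, zero_mul, Finset.sum_const_zero, extMat_last_last, one_mul, zero_add]

/-- the first `d` rows -/
def rows {m : ℕ} (B : Matrix (Fin m) (Fin m) κ) (d : ℕ) (hd : d ≤ m) : Matrix (Fin d) (Fin m) κ :=
  B.submatrix (Fin.castLE hd) id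

theorem rows_extMat_mul {n d : ℕ} (B : Matrix (Fin n) (Fin n) κ)
    (M : Matrix (Fin (n + 1)) (Fin (n + 1)) κ) (hd : d ≤ n) :
    rows (extMat B * M) d (hd.trans n.le_succ) = rows B d hd * M.submatrix Fin.castSucc id := by
  ext i j
  have h1 : Fin.castLE (hd.trans n.le_succ) i = Fin.castSucc (Fin.castLE hd i) := rfl
  simp only [rows, Matrix.submatrix_apply, id]
  rw [h1, extMat_mul_castSucc]
  rfl

theorem linForm_extMat_mul_castSucc {n : ℕ} (B : Matrix (Fin n) (Fin n) κ)
    (M : Matrix (Fin (n + 1)) (Fin (n + 1)) κ) (i : Fin n) :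
    linForm (extMat B * M) (Fin.castSucc i) = linForm (B * M.submatrix Fin.castSucc id) i := by
  simp only [linForm, extMat_mul_castSucc]

theorem linForm_extMat_mul_last {n : ℕ} (B : Matrix (Fin n) (Fin n) κ)
    (M : Matrix (Fin (n + 1)) (Fin (n + 1)) κ) :
    linForm (extMat B * M) (Fin.last n) = linForm M (Fin.last n) := by
  simp only [linForm, extMat_mul_last]

/-- The normal form data. -/
structure NNData {m : ℕ} (J : Ideal (MvPowerSeries (Fin m) κ)) (d : ℕ) (hd : d ≤ m)
    (B : Matrix (Fin m) (Fin m) κ) : Prop where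
  inj : ∀ f : MvPowerSeries (Fin d) κ, linSubst (rows B d hd) f ∈ J → f = 0
  poly : ∀ (j : ℕ) (hj : j < m), d ≤ j → ∃ P : Polynomial (MvPowerSeries (Fin j) κ), P.Monic ∧
    (∀ i, ((P.natDegree - i : ℕ) : ℕ∞) ≤ (P.coeff i).order) ∧
    P.eval₂ (linSubst (rows B j hj.le)).toRingHom (linForm B ⟨j, hj⟩) ∈ J
  int : ((Ideal.Quotient.mk J).comp (linSubst (rows B d hd)).toRingHom).IsIntegral

theorem lastEquiv_symm_poly {n : ℕ} (P : Polynomial (MvPowerSeries (Fin n) κ)) :
    (lastEquiv κ n).symm (P : PowerSeries (MvPowerSeries (Fin n) κ)) =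
      P.eval₂ (rename Fin.castSucc : MvPowerSeries (Fin n) κ →ₐ[κ] _).toRingHom
        (X (Fin.last n)) := by
  rw [AlgEquiv.symm_apply_eq]
  have h := Polynomial.hom_eval₂ P (rename Fin.castSucc : MvPowerSeries (Fin n) κ →ₐ[κ] _).toRingHom
    (lastEquiv κ n).toRingEquiv.toRingHom (X (Fin.last n))
  have h1 : (lastEquiv κ n).toRingEquiv.toRingHom (X (Fin.last n)) = PowerSeries.X :=
    lastEquiv_X_last
  have h2 : (lastEquiv κ n).toRingEquiv.toRingHom.comp
      (rename Fin.castSucc : MvPowerSeries (Fin n) κ →ₐ[κ] _).toRingHom = PowerSeries.C := by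
    ext1 f
    exact lastEquiv_rename f
  rw [h1, h2] at h
  refine Eq.trans ?_ h.symm
  have h3 := Polynomial.hom_eval₂ P (Polynomial.C) (Polynomial.coeToPowerSeries.ringHom)
    (Polynomial.X)
  rw [Polynomial.eval₂_C_X] at h3
  refine Eq.trans h3 ?_
  congr 1
  · ext1 a
    simp
  · simp

theorem linSubst_rows_rename {n : ℕ} (M : Matrix (Fin (n + 1)) (Fin (n + 1)) κ)
    (f : MvPowerSeries (Fin n) κ) :
    linSubst M (rename Fin.castSucc f) = linSubst (M.submatrix Fin.castSucc id) f := by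
  classical
  rw [rename_eq_linSubst, linSubst_linSubst]
  congr 2
  ext i j
  simp [Matrix.mul_apply]

theorem eq_bot_of_isEmpty {σ : Type*} [IsEmpty σ] (J : Ideal (MvPowerSeries σ κ)) (hJ : J ≠ ⊤) :
    J = ⊥ := by
  rw [eq_bot_iff]
  intro f hf
  rw [Ideal.mem_bot]
  by_contra h0
  apply hJ
  refine Ideal.eq_top_of_isUnit_mem _ hf ?_
  rw [MvPowerSeries.isUnit_iff_constantCoeff, isUnit_iff_ne_zero]
  intro h1
  apply h0
  ext d
  have : d = 0 := Subsingleton.elim _ _
  subst this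
  simpa only [coeff_zero_eq_constantCoeff, coeff_zero] using h1

theorem exists_NNData_bot {m : ℕ} : NNData (⊥ : Ideal (MvPowerSeries (Fin m) κ)) m le_rfl 1 where
  inj f hf := by
    have h1 : rows (1 : Matrix (Fin m) (Fin m) κ) m le_rfl = 1 := by
      ext i j; rfl
    rw [h1, linSubst_one, Ideal.mem_bot] at hf
    exact hf
  poly j hj hd := by omega
  int := by
    have h1 : rows (1 : Matrix (Fin m) (Fin m) κ) m le_rfl = 1 := by
      ext i j; rfl
    apply RingHom.isIntegral_of_surjective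
    intro x
    obtain ⟨y, rfl⟩ := Ideal.Quotient.mk_surjective x
    refine ⟨y, ?_⟩
    change Ideal.Quotient.mk _ (linSubst _ y) = _
    rw [h1, linSubst_one]

theorem exists_NNData [Infinite κ] : ∀ (m : ℕ) (J : Ideal (MvPowerSeries (Fin m) κ)), J ≠ ⊤ →
    ∃ (d : ℕ) (hd : d ≤ m) (B B' : Matrix (Fin m) (Fin m) κ), B * B' = 1 ∧ B' * B = 1 ∧
      (J ≠ ⊥ → d < m) ∧ NNData J d hd B := by
  intro m
  induction m with
  | zero =>
    intro J hJ
    obtain rfl := eq_bot_of_isEmpty J hJ
    exact ⟨0, le_rfl, 1, 1, by simp, by simp, fun h => absurd rfl h, exists_NNData_bot⟩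
  | succ n ih =>
    intro J hJ
    by_cases hJ0 : J = ⊥
    · subst hJ0
      exact ⟨n + 1, le_rfl, 1, 1, by simp, by simp, fun h => absurd rfl h, exists_NNData_bot⟩
    obtain ⟨f, hfJ, hf0⟩ := Submodule.exists_mem_ne_zero_of_ne_bot hJ0
    obtain ⟨r, hr⟩ : ∃ r : ℕ, f.order = r :=
      ⟨f.order.toNat, (ne_zero_iff_order_finite.mp hf0).symm⟩
    obtain ⟨c, hc1, hc2⟩ := exists_line f r hr (Fin.last n)
    obtain ⟨M, N, hMN, hNM, hMc⟩ := exists_matrix_col (fun i => c i ()) (Fin.last n) hc1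
    set F1 := linSubst M f with hF1
    have hcoef : coeff (single (Fin.last n) r) F1 ≠ 0 := by
      rw [← coeff_line_single, hF1, linSubst_linSubst]
      convert hc2 using 4
      ext i j
      simp [Matrix.mul_apply, hMc]
    have hord : F1.order = r := by
      apply le_antisymm
      · have := order_le hcoef
        rwa [degree_single] at this
      · rw [← hr]; exact order_le_linSubst M f
    obtain ⟨P1, hP1m, hP1d, hP1o, u, hP1u⟩ := exists_weier_poly F1 r hord hcoef
    -- the matrix `N`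
    have hP1J : linSubst N ((lastEquiv κ n).symm (P1 : PowerSeries (MvPowerSeries (Fin n) κ))) ∈ J := by
      rw [hP1u, map_mul, hF1, linSubst_linSubst, hMN, linSubst_one]
      exact Ideal.mul_mem_right _ _ hfJ
    set Ns : Matrix (Fin n) (Fin (n + 1)) κ := N.submatrix Fin.castSucc id with hNs
    set J' : Ideal (MvPowerSeries (Fin n) κ) := J.comap (linSubst Ns).toRingHom with hJ'
    have hJ'top : J' ≠ ⊤ := by
      rw [Ideal.ne_top_iff_one] at hJ ⊢
      intro h1
      apply hJ
      simpa only [hJ', AlgHom.toRingHom_eq_coe, Ideal.mem_comap, RingHom.coe_coe, map_one] using h1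
    obtain ⟨d, hd, B, B', hBB', hB'B, -, hN⟩ := ih J' hJ'top
    have hdn : d < n + 1 := Nat.lt_succ_of_le hd
    refine ⟨d, hdn.le, extMat B * N, M * extMat B', ?_, ?_, fun _ => hdn, ?_⟩
    · rw [Matrix.mul_assoc, ← Matrix.mul_assoc N, hNM, Matrix.one_mul, extMat_mul, hBB', extMat_one]
    · rw [Matrix.mul_assoc, ← Matrix.mul_assoc _ _ N, extMat_mul, hB'B, extMat_one, Matrix.one_mul,
        hMN]
    have hrows : ∀ (e : ℕ) (he : e ≤ n) (he' : e ≤ n + 1) (g : MvPowerSeries (Fin e) κ),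
        linSubst (rows (extMat B * N) e he') g = linSubst Ns (linSubst (rows B e he) g) := by
      intro e he he' g
      rw [linSubst_linSubst]
      congr 2
      exact rows_extMat_mul B N he
    -- integrality of `κ[[s_1..s_n]] → κ[[y]]/J`
    have hint1 : ((Ideal.Quotient.mk J).comp (linSubst Ns).toRingHom).IsIntegral := by
      have h1 := isIntegral_of_distinguished P1 hP1m (fun i hi => by
        have h2 := hP1o i
        rw [← one_le_order_iff_constCoeff_eq_zero]
        refine le_trans ?_ h2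
        rw [hP1d] at hi
        exact_mod_cast (by omega : 1 ≤ r - i)) (J.comap (linSubst N).toRingHom) hP1J
      intro x
      obtain ⟨y, rfl⟩ := Ideal.Quotient.mk_surjective x
      obtain ⟨p, hp, hpe⟩ := h1 (Ideal.Quotient.mk _ (linSubst M y))
      refine ⟨p, hp, ?_⟩
      rw [← Polynomial.hom_eval₂, Ideal.Quotient.eq_zero_iff_mem] at hpe ⊢
      have h3 := Polynomial.hom_eval₂ p
        ((lastEquiv κ n).symm.toRingEquiv.toRingHom.comp PowerSeries.C) (linSubst N).toRingHom
        (linSubst M y)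
      have h4 : (linSubst N).toRingHom (linSubst M y) = y := by
        change linSubst N (linSubst M y) = y
        rw [linSubst_linSubst, hMN, linSubst_one]
      have h5 : (linSubst N).toRingHom.comp
          ((lastEquiv κ n).symm.toRingEquiv.toRingHom.comp PowerSeries.C) =
          (linSubst Ns).toRingHom := by
        ext1 g
        change linSubst N ((lastEquiv κ n).symm (PowerSeries.C g)) = linSubst Ns g
        rw [← lastEquiv_rename, AlgEquiv.symm_apply_apply, linSubst_rows_rename]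
      rw [h4, h5] at h3
      rw [← h3]
      exact hpe
    refine ⟨fun g hg => ?_, fun j hj hdj => ?_, ?_⟩
    · rw [hrows d hd] at hg
      exact hN.inj g hg
    · by_cases hjn : j < n
      · obtain ⟨P, hPm, hPo, hPJ⟩ := hN.poly j hjn hdj
        refine ⟨P, hPm, hPo, ?_⟩
        have h1 : (linSubst Ns).toRingHom
            (P.eval₂ (linSubst (rows B j hjn.le)).toRingHom (linForm B ⟨j, hjn⟩)) ∈ J := hPJ
        rw [Polynomial.hom_eval₂] at h1
        have h2 : (linSubst Ns).toRingHom (linForm B ⟨j, hjn⟩) =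
            linForm (extMat B * N) ⟨j, hj⟩ := by
          change linSubst Ns (linForm B ⟨j, hjn⟩) = _
          rw [linSubst_linForm]
          exact (linForm_extMat_mul_castSucc B N ⟨j, hjn⟩).symm
        have h3 : (linSubst Ns).toRingHom.comp (linSubst (rows B j hjn.le)).toRingHom =
            (linSubst (rows (extMat B * N) j hj.le)).toRingHom := by
          ext1 g
          exact (hrows j hjn.le hj.le g).symm
        rwa [h2, h3] at h1
      · obtain rfl : j = n := by omega
        refine ⟨P1.map (linSubst B').toRingHom, hP1m.map _, fun i => ?_, ?_⟩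
        · rw [hP1m.natDegree_map, Polynomial.coeff_map, hP1d]
          exact (hP1o i).trans (order_le_linSubst B' _)
        · rw [Polynomial.eval₂_map]
          have h1 : (linSubst (rows (extMat B * N) j hj.le)).toRingHom.comp
              (linSubst B').toRingHom = (linSubst Ns).toRingHom := by
            ext1 g
            change linSubst _ (linSubst B' g) = linSubst Ns g
            rw [hrows j le_rfl]
            have h2 : rows B j le_rfl = B := by ext a b; simp [rows]
            rw [h2, linSubst_linSubst B B', hB'B, linSubst_one]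
          have h3 : linForm (extMat B * N) ⟨j, hj⟩ = linForm N (Fin.last j) :=
            linForm_extMat_mul_last B N
          rw [h1, h3]
          rw [lastEquiv_symm_poly] at hP1J
          have h4 := Polynomial.hom_eval₂ P1
            (rename Fin.castSucc : MvPowerSeries (Fin j) κ →ₐ[κ] _).toRingHom
            (linSubst N).toRingHom (X (Fin.last j))
          have h5 : (linSubst N).toRingHom.comp
            (rename Fin.castSucc : MvPowerSeries (Fin j) κ →ₐ[κ] _).toRingHom =
              (linSubst Ns).toRingHom := by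
            ext1 g
            exact linSubst_rows_rename N g
          have h6 : (linSubst N).toRingHom (X (Fin.last j)) = linForm N (Fin.last j) :=
            linSubst_X N _
          rw [h5, h6] at h4
          rw [← h4]
          exact hP1J
    · have h1 : (Ideal.Quotient.mk J).comp (linSubst (rows (extMat B * N) d hdn.le)).toRingHom =
          (Ideal.quotientMap J (linSubst Ns).toRingHom (le_refl _)).comp
            ((Ideal.Quotient.mk J').comp (linSubst (rows B d hd)).toRingHom) := by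
        ext1 g
        change Ideal.Quotient.mk J (linSubst _ g) = Ideal.Quotient.mk J (linSubst Ns (linSubst _ g))
        rw [hrows d hd]
      rw [h1]
      refine RingHom.IsIntegral.trans _ _ hN.int ?_
      refine RingHom.IsIntegral.tower_top (Ideal.Quotient.mk J') _ ?_
      exact hint1

end Normal

end Vale.Agent.P217
end
end

section

section

/-!
# P217: linear forms, special points
-/

namespace Vale.Agent.P217

open MvPowerSeries Filter Topology

variable {K : Type*} [NontriviallyNormedField K] [IsUltrametricDist K] [CompleteSpace K]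
variable {κ : Type*} [Field κ] [Algebra κ (OK K)]

/-- The point with coordinates `s_i = ∑_j B_ij y_j`. -/
noncomputable def linPt {d m : ℕ} (B : Fin d → Fin m → κ) (y : Fin m → MK K) : Fin d → MK K :=
  fun i => ⟨∑ j, algebraMap κ (OK K) (B i j) * (y j : OK K), by
    obtain ⟨ρ, hρ0, hρ1, hρ⟩ := exists_bound (fun i => ‖(y i : OK K)‖) fun i => (y i).2
    refine lt_of_le_of_lt (norm_sum_le _ _ hρ0 fun j _ => ?_) hρ1
    rw [OK_norm_mul]
    exact (mul_le_of_le_one_left (norm_nonneg _) (norm_le_one _)).trans (hρ j)⟩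

@[simp] theorem val_linPt {d m : ℕ} (B : Fin d → Fin m → κ) (y : Fin m → MK K) (i : Fin d) :
    (linPt B y i : OK K) = ∑ j, algebraMap κ (OK K) (B i j) * (y j : OK K) := rfl

/-- The substitution `κ[[s_1..s_d]] → κ[[y_1..y_m]]`, `s_i ↦ ∑_j B_ij y_j`. -/
noncomputable def linHom {d m : ℕ} (B : Fin d → Fin m → κ) :
    MvPowerSeries (Fin d) κ →+* MvPowerSeries (Fin m) κ :=
  (MvPowerSeries.substAlgHom (R := κ) (a := fun i : Fin d =>
    (∑ j : Fin m, C (B i j) * X j : MvPowerSeries (Fin m) κ))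
    (MvPowerSeries.hasSubst_of_constantCoeff_zero (by intro i; simp))).toRingHom

theorem evk_linHom {d m : ℕ} (B : Fin d → Fin m → κ) (y : Fin m → MK K)
    (f : MvPowerSeries (Fin d) κ) : evk κ y (linHom B f) = evk κ (linPt B y) f := by
  have h1 : linHom B f = f.subst (fun i : Fin d =>
      (∑ j : Fin m, C (B i j) * X j : MvPowerSeries (Fin m) κ)) := by
    rw [← coe_substAlgHom (hasSubst_of_constantCoeff_zero (by intro i; simp only [map_sum, map_mul, constantCoeff_C, constantCoeff_X, mul_zero, Finset.sum_const_zero]))]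
    rfl
  rw [h1]
  exact evk_subst y f _ (by intro i; simp only [map_sum, map_mul, constantCoeff_C, constantCoeff_X, mul_zero, Finset.sum_const_zero]) (linPt B y) (fun i => by simp only [AddSubgroupClass.coe_norm, val_linPt, map_sum, map_mul, evk_C, evk_X])

theorem linHom_eq_linSubst {d m : ℕ} (B : Fin d → Fin m → κ) :
    linHom B = (linSubst (Matrix.of B)).toRingHom := rfl

omit [Algebra κ (OK K)] [CompleteSpace K] in
theorem norm_prod_pow_le {σ : Type*} (a : σ → MK K) (r : ℝ) (hr0 : 0 ≤ r)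
    (ha : ∀ i, ‖(a i : OK K)‖ ≤ r) (d : σ →₀ ℕ) :
    ‖d.prod (fun s e => (a s : OK K) ^ e)‖ ≤ r ^ d.degree := by
  rw [Finsupp.prod, Finsupp.degree_apply, ← Finset.prod_pow_eq_pow_sum]
  have h1 : ∀ s : Finset σ, ‖∏ x ∈ s, (a x : OK K) ^ d x‖ ≤ ∏ x ∈ s, r ^ d x := by
    classical
    intro s
    induction s using Finset.induction_on with
    | empty => simp only [AddSubgroupClass.coe_norm, Finset.prod_empty, norm_one, Std.le_refl]
    | insert x s hx ih =>
      rw [Finset.prod_insert hx, Finset.prod_insert hx, OK_norm_mul, OK_norm_pow]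
      exact mul_le_mul (pow_le_pow_left₀ (norm_nonneg _) (ha x) _) ih (norm_nonneg _)
        (pow_nonneg hr0 _)
  exact h1 _

/-- a power series of order `≥ k` is bounded by `r ^ k` on the ball of radius `r`. -/
theorem norm_evk_le_pow {σ : Type*} [Finite σ] (a : σ → MK K) (f : MvPowerSeries σ κ) (k : ℕ)
    (hk : (k : ℕ∞) ≤ f.order) (r : ℝ) (hr0 : 0 ≤ r) (hr1 : r ≤ 1)
    (ha : ∀ i, ‖(a i : OK K)‖ ≤ r) : ‖evk κ a f‖ ≤ r ^ k := by
  refine le_of_tendsto' (hasSum_ev a (MvPowerSeries.map (algebraMap κ (OK K)) f)).norm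
    fun s => norm_sum_le _ _ (pow_nonneg hr0 k) fun d _ => ?_
  rw [coeff_map]
  by_cases hd : ((Finsupp.degree d : ℕ) : ℕ∞) < f.order
  · rw [coeff_of_lt_order hd, map_zero, zero_mul]
    simpa only [norm_zero] using pow_nonneg hr0 k
  · rw [not_lt] at hd
    have hkd : k ≤ Finsupp.degree d := by exact_mod_cast hk.trans hd
    rw [OK_norm_mul]
    refine (mul_le_of_le_one_left (norm_nonneg _) (norm_le_one _)).trans ?_
    exact (norm_prod_pow_le a r hr0 ha d).trans (pow_le_pow_of_le_one hr0 hr1 hkd)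

omit [CompleteSpace K] in
/-- norms of roots of monic polynomials with small coefficients. -/
theorem norm_root_le (P : Polynomial (OK K)) (hP : P.Monic) (T : OK K) (hT : P.eval T = 0)
    (r : ℝ) (hr0 : 0 ≤ r) (hc : ∀ i < P.natDegree, ‖P.coeff i‖ ≤ r ^ (P.natDegree - i)) :
    ‖T‖ ≤ r := by
  by_contra hcon
  push Not at hcon
  have hT0 : 0 < ‖T‖ := lt_of_le_of_lt hr0 hcon
  rw [Polynomial.eval_eq_sum_range, Finset.sum_range_succ, hP.coeff_natDegree, one_mul] at hT
  have h1 : T ^ P.natDegree = -∑ i ∈ Finset.range P.natDegree, P.coeff i * T ^ i := by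
    linear_combination hT
  have hlt : ∀ i ∈ Finset.range P.natDegree, ‖P.coeff i * T ^ i‖ < ‖T‖ ^ P.natDegree := by
    intro i hi
    rw [Finset.mem_range] at hi
    rw [OK_norm_mul, OK_norm_pow]
    have h2 : r ^ (P.natDegree - i) < ‖T‖ ^ (P.natDegree - i) :=
      pow_lt_pow_left₀ hcon hr0 (by omega)
    have h3 : ‖T‖ ^ P.natDegree = ‖T‖ ^ (P.natDegree - i) * ‖T‖ ^ i := by
      rw [← pow_add]; congr 1; omega
    rw [h3]
    exact mul_lt_mul_of_pos_right ((hc i hi).trans_lt h2) (pow_pos hT0 i)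
  have h4 : ‖T‖ ^ P.natDegree < ‖T‖ ^ P.natDegree := by
    calc ‖T‖ ^ P.natDegree = ‖∑ i ∈ Finset.range P.natDegree, P.coeff i * T ^ i‖ := by
          rw [← OK_norm_pow, h1, norm_neg]
      _ < ‖T‖ ^ P.natDegree := by
          have key : ∀ s : Finset ℕ, (∀ i ∈ s, ‖P.coeff i * T ^ i‖ < ‖T‖ ^ P.natDegree) →
              ‖∑ i ∈ s, P.coeff i * T ^ i‖ < ‖T‖ ^ P.natDegree := by
            intro s
            classical
            induction s using Finset.induction_on with
            | empty => intro _; simpa only [Finset.sum_empty, norm_zero, AddSubgroupClass.coe_norm] using pow_pos hT0 _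
            | insert x s hx ih =>
              intro h
              rw [Finset.sum_insert hx]
              refine (OK_norm_add_le _ _).trans_lt (max_lt (h x (by simp)) (ih fun i hi => ?_))
              exact h i (by simp [hi])
          exact key _ hlt
  exact lt_irrefl _ h4

/-- generic points of all dimensions exist in `K`. -/
def HasGenericPoints (κ : Type*) [Field κ] (K : Type*) [NontriviallyNormedField K]
    [IsUltrametricDist K] [CompleteSpace K] [Algebra κ (OK K)] : Prop :=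
  ∀ d : ℕ, ∃ (a : Fin d → MK K) (ρ : ℝ), 0 < ρ ∧ ρ < 1 ∧
    ∀ f : MvPowerSeries (Fin d) κ, f ≠ 0 → ‖evk κ a f‖ = ρ ^ (MvPowerSeries.order f).toNat

/-- **Linear Noether normalization** for a nonzero proper ideal `J` of `κ[[y_1..y_m]]`,
`κ` infinite: there are linear forms `s_1..s_d`, `d < m`, such that `κ[[s_1..s_d]] ∩ J = 0`,
`κ[[y]]/J` is integral over `κ[[s]]`, and for every homomorphism killing `J` the norms of
the `y_j` are bounded by the norms of the `s_i`. -/
theorem noether_normalization [Infinite κ] [IsAlgClosed K] {m : ℕ}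
    (J : Ideal (MvPowerSeries (Fin m) κ)) (hJ0 : J ≠ ⊥) (hJ1 : J ≠ ⊤) :
    ∃ (d : ℕ) (_ : d < m) (B : Fin d → Fin m → κ),
      (∀ f, linHom B f ∈ J → f = 0) ∧
      ((Ideal.Quotient.mk J).comp (linHom B)).IsIntegral ∧
      (∀ (y : Fin m → MK K) (r : ℝ), (∀ f ∈ J, evk κ y f = 0) → 0 ≤ r →
        (∀ i, ‖(linPt B y i : OK K)‖ ≤ r) → ∀ j, ‖(y j : OK K)‖ ≤ r) := by
  obtain ⟨d, hd, B, B', hBB', hB'B, hlt, hN⟩ := exists_NNData m J hJ1
  refine ⟨d, hlt hJ0, rows B d hd, hN.inj, hN.int, fun y r hy hr0 hs => ?_⟩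
  by_cases hr1 : 1 ≤ r
  · exact fun j => ((y j).2.le).trans hr1
  push Not at hr1
  -- the norms of all `s_i`
  have hall : ∀ i : ℕ, ∀ hi : i < m, ‖(linPt B y ⟨i, hi⟩ : OK K)‖ ≤ r := by
    intro i
    induction i using Nat.strong_induction_on with
    | _ i ih =>
      intro hi
      by_cases hid : i < d
      · exact hs ⟨i, hid⟩
      obtain ⟨P, hPm, hPo, hPJ⟩ := hN.poly i hi (by omega)
      have h1 := hy _ hPJ
      rw [Polynomial.hom_eval₂] at h1
      have h2 : (evk κ y).comp (linSubst (rows B i hi.le)).toRingHom =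
          evk κ (linPt (rows B i hi.le) y) := by
        ext1 g
        exact evk_linHom (rows B i hi.le) y g
      have h3 : evk κ y (linForm B ⟨i, hi⟩) = (linPt B y ⟨i, hi⟩ : OK K) := by
        rw [linForm, map_sum]
        simp only [map_mul, evk_C, evk_X]
        rfl
      rw [h2, h3, ← Polynomial.eval_map] at h1
      refine norm_root_le _ (hPm.map _) _ h1 r hr0 fun k hk => ?_
      rw [hPm.natDegree_map] at hk ⊢
      rw [Polynomial.coeff_map]
      refine norm_evk_le_pow _ _ _ (hPo k) r hr0 hr1.le fun l => ?_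
      exact ih l l.2 _
  intro j
  have h1 : (y j : OK K) = ∑ i, algebraMap κ (OK K) (B' j i) * (linPt B y i : OK K) := by
    have hval : ∀ i, (linPt B y i : OK K) = ∑ j, algebraMap κ (OK K) (B i j) * (y j : OK K) :=
      fun i => rfl
    simp_rw [hval, Finset.mul_sum]
    rw [Finset.sum_comm]
    have h2 : ∀ l, ∑ i, algebraMap κ (OK K) (B' j i) * (algebraMap κ (OK K) (B i l) * (y l : OK K)) =
        algebraMap κ (OK K) ((B' * B) j l) * (y l : OK K) := by
      intro l
      rw [Matrix.mul_apply, map_sum, Finset.sum_mul]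
      refine Finset.sum_congr rfl fun i _ => ?_
      rw [map_mul]; ring
    simp_rw [h2, hB'B, Matrix.one_apply]
    simp only [AddSubgroupClass.coe_norm, MonoidWithZeroHom.map_ite_one_zero, ite_mul, one_mul, zero_mul, Finset.sum_ite_eq, Finset.mem_univ, ↓reduceIte]
  rw [h1]
  refine norm_sum_le _ _ hr0 fun i _ => ?_
  rw [OK_norm_mul]
  exact (mul_le_of_le_one_left (norm_nonneg _) (norm_le_one _)).trans (hall i i.2)

omit [CompleteSpace K] in
/-- integral extension of the generic evaluation -/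
theorem exists_extension [IsAlgClosed K] {A S : Type*} [CommRing A] [CommRing S] [IsDomain A]
    (φ : A →+* S) (e : A →+* OK K) (he : Function.Injective e) (P : Ideal S) [P.IsPrime]
    (hφ : ((Ideal.Quotient.mk P).comp φ).IsIntegral) (hP : ∀ a, φ a ∈ P → a = 0) :
    ∃ ψ : S →+* OK K, (∀ a, ψ (φ a) = e a) ∧ RingHom.ker ψ = P := by
  let R' := S ⧸ P
  let φ' : A →+* R' := (Ideal.Quotient.mk P).comp φ
  let e' : A →+* K := (OK K).subtype.comp e
  have hφ'inj : Function.Injective φ' := by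
    rw [injective_iff_map_eq_zero]
    intro a ha
    exact hP a (Ideal.Quotient.eq_zero_iff_mem.mp ha)
  have he'inj : Function.Injective e' := Subtype.val_injective.comp he
  let : Algebra A R' := φ'.toAlgebra
  let : Algebra A K := e'.toAlgebra
  have : Algebra.IsIntegral A R' := ⟨hφ⟩
  have : FaithfulSMul A R' := (faithfulSMul_iff_algebraMap_injective A R').mpr hφ'inj
  have : FaithfulSMul A K := (faithfulSMul_iff_algebraMap_injective A K).mpr he'inj
  have : Algebra.IsAlgebraic A R' := inferInstance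
  let ψ0 : R' →ₐ[A] K := IsAlgClosed.lift
  have hψ0 : ∀ a, ψ0 (φ' a) = e' a := fun a => ψ0.commutes a
  have hker : RingHom.ker ψ0.toRingHom = ⊥ := by
    apply Ideal.eq_bot_of_comap_eq_bot (R := A)
    rw [eq_bot_iff]
    intro a ha
    rw [Ideal.mem_comap, RingHom.mem_ker] at ha
    have : e' a = 0 := by rw [← hψ0]; exact ha
    exact he'inj (by rw [this, map_zero])
  have hnorm : ∀ x : R', ‖ψ0 x‖ ≤ 1 := by
    intro x
    obtain ⟨p, hp, hpx⟩ := hφ x
    by_contra hcon
    push Not at hcon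
    have h1 : p.eval₂ e' (ψ0 x) = 0 := by
      have h2 := Polynomial.hom_eval₂ p φ' ψ0.toRingHom x
      have h3 : ψ0.toRingHom.comp φ' = e' := by ext1 a; exact hψ0 a
      rw [h3] at h2
      rw [show ψ0 x = ψ0.toRingHom x from rfl, ← h2, show p.eval₂ φ' x = 0 from hpx, map_zero]
    rw [Polynomial.eval₂_eq_sum_range, Finset.sum_range_succ, hp.coeff_natDegree, map_one,
      one_mul] at h1
    have h4 : (ψ0 x) ^ p.natDegree = -∑ i ∈ Finset.range p.natDegree, e' (p.coeff i) * (ψ0 x) ^ i := by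
      linear_combination h1
    have hpos : 0 < ‖ψ0 x‖ := lt_trans one_pos hcon
    have hlt : ∀ i ∈ Finset.range p.natDegree, ‖e' (p.coeff i) * (ψ0 x) ^ i‖ <
        ‖ψ0 x‖ ^ p.natDegree := by
      intro i hi
      rw [Finset.mem_range] at hi
      rw [norm_mul, norm_pow]
      have h5 : ‖e' (p.coeff i)‖ ≤ 1 := (e (p.coeff i)).2
      refine (mul_le_of_le_one_left (by positivity) h5).trans_lt ?_
      exact pow_lt_pow_right₀ hcon hi
    have key : ∀ s : Finset ℕ, (∀ i ∈ s, ‖e' (p.coeff i) * (ψ0 x) ^ i‖ < ‖ψ0 x‖ ^ p.natDegree) →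
        ‖∑ i ∈ s, e' (p.coeff i) * (ψ0 x) ^ i‖ < ‖ψ0 x‖ ^ p.natDegree := by
      intro s
      classical
      induction s using Finset.induction_on with
      | empty => intro _; simpa only [Finset.sum_empty, norm_zero] using pow_pos hpos _
      | insert x s hx ih =>
        intro h
        rw [Finset.sum_insert hx]
        refine (IsUltrametricDist.norm_add_le_max _ _).trans_lt
          (max_lt (h x (by simp)) (ih fun i hi => ?_))
        exact h i (by simp [hi])
    have h6 := key _ hlt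
    rw [← norm_neg, ← h4, norm_pow] at h6
    exact lt_irrefl _ h6
  let ψ : S →+* OK K := (ψ0.toRingHom.comp (Ideal.Quotient.mk P)).codRestrict (OK K)
    (fun x => hnorm _)
  refine ⟨ψ, fun a => Subtype.ext (hψ0 a), ?_⟩
  ext x
  rw [RingHom.mem_ker]
  constructor
  · intro hx
    have h1 : Ideal.Quotient.mk P x ∈ RingHom.ker ψ0.toRingHom := by
      rw [RingHom.mem_ker]
      exact congrArg Subtype.val hx
    rw [hker, Ideal.mem_bot] at h1
    exact Ideal.Quotient.eq_zero_iff_mem.mp h1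
  · intro hx
    apply Subtype.ext
    change ψ0 (Ideal.Quotient.mk P x) = 0
    rw [Ideal.Quotient.eq_zero_iff_mem.mpr hx, map_zero]

theorem order_X {σ : Type*} (i : σ) : (X i : MvPowerSeries σ κ).order = 1 := by
  classical
  rw [X, order_monomial_of_ne_zero one_ne_zero]
  simp

/-- **Special points.** -/
theorem exists_special_point [Infinite κ] [IsAlgClosed K] (hgen : HasGenericPoints κ K) {m : ℕ}
    (Ys : Set (Fin m → MK K)) (hne : Ys.Nonempty) (J : Ideal (MvPowerSeries (Fin m) κ))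
    (hJ : ∀ f, f ∈ J ↔ ∀ y ∈ Ys, evk κ y f = 0) (hJ0 : J ≠ ⊥)
    (D0 : MvPowerSeries (Fin m) κ) (hD0 : ∀ y ∈ Ys, evk κ y D0 ≠ 0) :
    ∃ (d : ℕ) (_ : d < m) (B : Fin d → Fin m → κ) (y : Fin m → MK K) (ρ : ℝ),
      0 < ρ ∧ ρ < 1 ∧ (∀ j, ‖(y j : OK K)‖ ≤ ρ) ∧ (∀ f ∈ J, evk κ y f = 0) ∧
      evk κ y D0 ≠ 0 ∧
      (∀ f : MvPowerSeries (Fin d) κ, f ≠ 0 →
        ‖evk κ (linPt B y) f‖ = ρ ^ (MvPowerSeries.order f).toNat) ∧
      ((Ideal.Quotient.mk J).comp (linHom B)).IsIntegral := by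
  have hJ1 : J ≠ ⊤ := by
    rw [Ideal.ne_top_iff_one]
    intro h1
    obtain ⟨y, hy⟩ := hne
    have := (hJ 1).mp h1 y hy
    rw [map_one] at this
    exact one_ne_zero this
  obtain ⟨d, hd, B, hB1, hB2, hB3⟩ := noether_normalization (K := K) J hJ0 hJ1
  obtain ⟨a, ρ, hρ0, hρ1, ha⟩ := hgen d
  -- a minimal prime over `J` lying over `0`
  have hdisj : Disjoint (J : Set (MvPowerSeries (Fin m) κ))
      ((nonZeroDivisors (MvPowerSeries (Fin d) κ)).map (linHom B)) := by
    rw [Set.disjoint_left]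
    rintro _ hx ⟨g, hg, rfl⟩
    exact nonZeroDivisors.ne_zero hg (hB1 g hx)
  obtain ⟨P0, hP0prime, hJP0, hP0disj⟩ := Ideal.exists_le_prime_disjoint J _ hdisj
  obtain ⟨P, hPmin, hPP0⟩ := Ideal.exists_minimalPrimes_le hJP0
  have hPprime : P.IsPrime := hPmin.isPrime
  have hJP : J ≤ P := hPmin.1.2
  have hP : ∀ g, linHom B g ∈ P → g = 0 := by
    intro g hg
    by_contra hg0
    exact Set.disjoint_left.mp hP0disj (hPP0 hg)
      ⟨g, mem_nonZeroDivisors_of_ne_zero hg0, rfl⟩
  have hD0P : D0 ∉ P := by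
    intro hD
    obtain ⟨z, hz, hDz⟩ := Ideal.exists_mul_mem_of_mem_minimalPrimes hPmin hD
    apply hz
    rw [hJ] at hDz ⊢
    intro y hy
    have := hDz y hy
    rw [map_mul] at this
    exact (mul_eq_zero.mp this).resolve_left (hD0 y hy)
  have hPint : ((Ideal.Quotient.mk P).comp (linHom B)).IsIntegral := by
    have h1 : (Ideal.Quotient.mk P).comp (linHom B) =
        (Ideal.Quotient.factor hJP).comp ((Ideal.Quotient.mk J).comp (linHom B)) := by
      ext1 g; rfl
    rw [h1]
    exact RingHom.IsIntegral.trans _ _ hB2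
      (RingHom.isIntegral_of_surjective _ (Ideal.Quotient.factor_surjective hJP))
  have hainj : Function.Injective (evk κ a) := by
    rw [injective_iff_map_eq_zero]
    intro f hf
    by_contra hf0
    have := ha f hf0
    rw [hf, norm_zero] at this
    exact (pow_pos hρ0 _).ne this
  have hdom : IsDomain (MvPowerSeries (Fin d) κ) := NoZeroDivisors.to_isDomain _
  obtain ⟨ψ, hψ1, hψ2⟩ := exists_extension (linHom B) (evk κ a) hainj P hPint hP
  -- the values of the variables are small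
  have hsmall : ∀ j, ‖ψ (X j)‖ < 1 := by
    let M : Ideal (OK K) := ballIdeal K 1
    have hM : ∀ x : OK K, x ∈ M ↔ ‖x‖ < 1 := by
      intro x
      constructor
      · rintro (h | rfl)
        · exact h
        · simp only [norm_zero, zero_lt_one]
      · intro h; exact Or.inl h
    have hMprime : M.IsPrime := by
      refine ⟨?_, ?_⟩
      · rw [Ideal.ne_top_iff_one, hM]
        have : ‖(1 : OK K)‖ = 1 := norm_one (α := K)
        rw [this]
        exact lt_irrefl _
      · intro x y hxy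
        rw [hM, OK_norm_mul] at hxy
        by_contra! hcon
        rw [hM, hM, not_lt, not_lt] at hcon
        have h1 := one_le_mul_of_one_le_of_one_le hcon.1 hcon.2
        exact absurd hxy (not_lt.mpr h1)
    let q : Ideal (MvPowerSeries (Fin m) κ) := M.comap ψ
    have hPq : P ≤ q := by
      intro x hx
      rw [← hψ2, RingHom.mem_ker] at hx
      rw [Ideal.mem_comap, hx]
      exact M.zero_mem
    have hqmap : (q.map (Ideal.Quotient.mk P)).comap (Ideal.Quotient.mk P) = q := by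
      rw [Ideal.comap_map_of_surjective _ Ideal.Quotient.mk_surjective, ← RingHom.ker_eq_comap_bot,
        Ideal.mk_ker]
      exact sup_eq_left.mpr hPq
    have hqprime : (q.map (Ideal.Quotient.mk P)).IsPrime := by
      apply Ideal.map_isPrime_of_surjective Ideal.Quotient.mk_surjective
      rw [Ideal.mk_ker]; exact hPq
    have hmax : (q.map (Ideal.Quotient.mk P)).IsMaximal := by
      refine Ideal.isMaximal_of_isIntegral_of_isMaximal_comap' _ hPint _ ?_
      have h1 : (q.map (Ideal.Quotient.mk P)).comap ((Ideal.Quotient.mk P).comp (linHom B)) =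
          IsLocalRing.maximalIdeal (MvPowerSeries (Fin d) κ) := by
        rw [← Ideal.comap_comap, hqmap]
        ext g
        rw [Ideal.mem_comap, Ideal.mem_comap, hψ1, hM, norm_evk_lt, mem_maximalIdeal_iff]
      rw [h1]
      infer_instance
    have hqmax : q.IsMaximal := by
      have := Ideal.comap_isMaximal_of_surjective (Ideal.Quotient.mk P)
        Ideal.Quotient.mk_surjective (K := q.map (Ideal.Quotient.mk P))
      rwa [hqmap] at this
    have hq : q = IsLocalRing.maximalIdeal _ := IsLocalRing.eq_maximalIdeal hqmax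
    intro j
    rw [← hM, ← Ideal.mem_comap]
    change X j ∈ q
    rw [hq, mem_maximalIdeal_iff]
    exact constantCoeff_X j
  let y : Fin m → MK K := fun j => ⟨ψ (X j), hsmall j⟩
  have hψy : evk κ y = ψ := by
    refine ringHom_ext (fun c => ?_) (fun j => ?_) (fun j => ?_)
    · have h1 : (C c : MvPowerSeries (Fin m) κ) = linHom B (C c) := by
        rw [linHom_eq_linSubst]
        exact (linSubst_C _ c).symm
      rw [evk_C, h1, hψ1, evk_C]
    · rw [evk_X]
    · rw [evk_X]; exact hsmall j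
  have hlin : linPt B y = a := by
    funext i
    apply Subtype.ext
    have h1 := evk_linHom B y (X i)
    rw [evk_X, hψy, hψ1, evk_X] at h1
    exact h1.symm
  have hJy : ∀ f ∈ J, evk κ y f = 0 := by
    intro f hf
    rw [hψy, ← RingHom.mem_ker, hψ2]
    exact hJP hf
  refine ⟨d, hd, B, y, ρ, hρ0, hρ1, ?_, hJy, ?_, ?_, hB2⟩
  · refine hB3 y ρ hJy hρ0.le fun i => ?_
    rw [hlin]
    have h1 := ha (X i) (by
      intro h0
      have := order_X (κ := κ) i
      rw [h0, order_zero] at this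
      exact absurd this (by simp))
    rw [evk_X, order_X] at h1
    rw [h1]
    simp
  · rw [hψy]
    intro h0
    apply hD0P
    rw [← hψ2, RingHom.mem_ker]
    exact h0
  · intro f hf
    rw [hlin]
    exact ha f hf

/-- Integrality of roots of a monic polynomial over `κ[[y]]`, functorially on the zero set of `J`. -/
theorem exists_monic_of_root {d m : ℕ} (B : Fin d → Fin m → κ)
    (J : Ideal (MvPowerSeries (Fin m) κ))
    (hint : ((Ideal.Quotient.mk J).comp (linHom B)).IsIntegral)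
    (W : Polynomial (MvPowerSeries (Fin m) κ)) (hW : W.Monic) :
    ∃ P : Polynomial (MvPowerSeries (Fin d) κ), P.Monic ∧
      ∀ (y : Fin m → MK K), (∀ f ∈ J, evk κ y f = 0) → ∀ T : OK K,
        (W.map (evk κ y)).eval T = 0 → (P.map (evk κ (linPt B y))).eval T = 0 := by
  let φ := (Ideal.Quotient.mk J).comp (linHom B)
  let Wb := W.map (Ideal.Quotient.mk J)
  have hWb : Wb.Monic := hW.map _
  have h1 : (AdjoinRoot.of Wb).IsIntegral := by
    have := hWb.finite_adjoinRoot
    exact fun x => (Algebra.IsIntegral.isIntegral (R := MvPowerSeries (Fin m) κ ⧸ J) x)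
  have h2 : ((AdjoinRoot.of Wb).comp φ).IsIntegral := RingHom.IsIntegral.trans _ _ hint h1
  obtain ⟨P, hP, hPr⟩ := h2 (AdjoinRoot.root Wb)
  refine ⟨P, hP, fun y hy T hT => ?_⟩
  let e : MvPowerSeries (Fin m) κ ⧸ J →+* OK K := Ideal.Quotient.lift J (evk κ y) hy
  have he : e.comp (Ideal.Quotient.mk J) = evk κ y := by ext1 g; rfl
  have hTb : Wb.eval₂ e T = 0 := by
    rw [Polynomial.eval₂_map, he, ← Polynomial.eval_map]
    exact hT
  let ψ : AdjoinRoot Wb →+* OK K := AdjoinRoot.lift e T hTb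
  have h3 := congrArg ψ hPr
  rw [Polynomial.hom_eval₂, map_zero] at h3
  have h4 : ψ (AdjoinRoot.root Wb) = T := AdjoinRoot.lift_root hTb
  have h5 : ψ.comp ((AdjoinRoot.of Wb).comp φ) = evk κ (linPt B y) := by
    ext1 g
    change ψ (AdjoinRoot.of Wb (φ g)) = _
    rw [AdjoinRoot.lift_of]
    exact evk_linHom B y g
  rw [h4, h5] at h3
  rw [Polynomial.eval_map]
  exact h3

end Vale.Agent.P217
end
end

section

section

/-!
# P217: the final contradiction at a special point
-/

namespace Vale.Agent.P217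

open MvPowerSeries Filter Topology

variable {K : Type*} [NontriviallyNormedField K] [IsUltrametricDist K] [CompleteSpace K]
variable {p : ℕ} [Fact p.Prime] [CharP K p] [IsAlgClosed K]
variable {n h : ℕ} {Γ : FormalGroup (OK K)}

/-- An `𝔽_p`-basis of the `p`-torsion of `F`. -/
structure IsLevel (D : LocalFG p n h Γ) (x : Fin (n - h) → FPt D.F) : Prop where
  tors : ∀ j, p • x j = 0
  indep : ∀ c : Fin (n - h) → ℤ, ∑ j, c j • x j = 0 → ∀ j, (p : ℤ) ∣ c j

/-- The point with coordinates `y_j = x_j^Q`. -/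
noncomputable def ypt (h : ℕ) {m : ℕ} {F : FormalGroup (OK K)} (x : Fin m → FPt F) :
    Fin m → MK K :=
  fun j => ⟨(x j).val ^ (p ^ h), by
    rw [OK_norm_pow]
    exact pow_lt_one₀ (norm_nonneg _) (x j).norm_val_lt
      (pow_ne_zero _ (Fact.out : p.Prime).ne_zero)⟩

@[simp] theorem val_ypt (h : ℕ) {m : ℕ} {F : FormalGroup (OK K)} (x : Fin m → FPt F) (j : Fin m) :
    (ypt (p := p) h x j : OK K) = (x j).val ^ (p ^ h) := rfl

/-- All the data at a special point used in the final argument. -/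
structure FinalData (p n h : ℕ) [Fact p.Prime] [CharP K p] (Γ : FormalGroup (OK K)) [Γ.IsComm]
    (κ : Type*) [Field κ] [Algebra κ (OK K)] where
  /-- the formal group at the special point -/
  D : LocalFG p n h Γ
  /-- level structure -/
  x : Fin (n - h) → FPt D.F
  level : IsLevel D x
  d : ℕ
  d_lt : d < n - h
  B : Fin d → Fin (n - h) → κ
  ρ : ℝ
  ρ_pos : 0 < ρ
  ρ_lt_one : ρ < 1
  norm_le : ∀ j, ‖(x j).val ^ (p ^ h)‖ ≤ ρ
  /-- genericity of the special point -/
  generic : ∀ f : MvPowerSeries (Fin d) κ, f ≠ 0 →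
    ‖evk κ (linPt B (ypt (p := p) h x)) f‖ = ρ ^ (MvPowerSeries.order f).toNat
  /-- the orbit of the special point under `g_{ω,l} = X +_Γ ω X^(p^l)` -/
  D' : κ → ℕ → LocalFG p n h Γ
  /-- the isomorphisms from `F` to the formal groups at the points of the orbit -/
  τ : ∀ (ω : κ) (l : ℕ), FPt D.F →+ FPt (D' ω l).F
  τE : ∀ (ω : κ), ω ^ (p ^ n) = ω → ∀ l : ℕ, 1 ≤ l → ∀ Y : FPt Γ,
    τ ω l (D.E Y) = (D' ω l).E (Y + powPt p (algebraMap κ (OK K) ω) l Y)
  /-- Level lemma: the formal group at the point of the orbit is close to `F` -/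
  δ : κ → ℕ → ℝ
  δ_lt_one : ∀ (ω : κ), ω ^ (p ^ n) = ω → ∀ l : ℕ, 1 ≤ l → δ ω l < 1
  δ_nonneg : ∀ (ω : κ), ω ^ (p ^ n) = ω → ∀ l : ℕ, 1 ≤ l → 0 ≤ δ ω l
  δ_le : ∀ (ω : κ), ω ^ (p ^ n) = ω → ∀ l : ℕ, 1 ≤ l → ∀ b : ℝ, 0 ≤ b →
    (∀ j, ‖(τ ω l (x j)).val ^ (p ^ h) - (x j).val ^ (p ^ h)‖ ≤ b) → δ ω l ≤ b
  close : ∀ (ω : κ), ω ^ (p ^ n) = ω → ∀ l : ℕ, 1 ≤ l → ∀ e,
    ‖coeff e (D' ω l).F.toPowerSeries - coeff e D.F.toPowerSeries‖ ≤ δ ω l
  /-- functorial integral equations for all torsion points -/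
  poly : ∀ (N : ℕ) (z : FPt D.F), p ^ N • z = 0 →
    ∃ P : Polynomial (MvPowerSeries (Fin d) κ), P.Monic ∧
      (P.map (evk κ (linPt B (ypt (p := p) h x)))).eval (z.val ^ (p ^ (h * N))) = 0 ∧
      ∀ (ω : κ), ω ^ (p ^ n) = ω → ∀ l : ℕ, 1 ≤ l →
        (P.map (evk κ (linPt B (ypt (p := p) h (fun j => τ ω l (x j)))))).eval
          ((τ ω l z).val ^ (p ^ (h * N))) = 0

end Vale.Agent.P217
end
end

section

section

/-!
# P217: composition of power series and specialization of formal group laws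
-/

namespace Vale.Agent.P217

open MvPowerSeries Filter Topology

section Rep

variable {K : Type*} [NontriviallyNormedField K] [IsUltrametricDist K] [CompleteSpace K]
variable {κ : Type*} [Field κ] [Algebra κ (OK K)]
variable {σ τ ι : Type*} [Finite σ] [Finite τ] [Finite ι]

omit [Finite τ] in
open scoped MvPowerSeries.WithPiTopology in
/-- Substitution with power series coefficients: there is a ring homomorphism
`κ[[τ]][[ι]] → κ[[τ]]` which is the identity on coefficients and maps `X_i` to `A_i`. -/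
theorem exists_evalPS (A : ι → MvPowerSeries τ κ) (hA : ∀ i, constantCoeff (A i) = 0) :
    ∃ Φ : MvPowerSeries ι (MvPowerSeries τ κ) →+* MvPowerSeries τ κ,
      (∀ c, Φ (C c) = c) ∧ ∀ i, Φ (X i) = A i := by
  let _ : UniformSpace κ := ⊥
  have _ : DiscreteUniformity κ := ⟨rfl⟩
  have hev : MvPowerSeries.HasEval A :=
    (hasSubst_iff_hasEval_of_discreteTopology).1 (hasSubst_of_constantCoeff_zero hA)
  refine ⟨MvPowerSeries.eval₂Hom (φ := RingHom.id (MvPowerSeries τ κ)) continuous_id hev, ?_, ?_⟩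
  · intro c
    simp only [coe_eval₂Hom, eval₂_C, RingHom.id_apply]
  · intro i
    simp [coe_eval₂Hom]

/-- Composition lemma: if `H` is a power series over `κ[[σ]]`, and its coefficients and arguments
are specialized by power series in the variables `τ`, the result is represented by a power series
in the variables `τ`. -/
theorem exists_comp (U : σ → MvPowerSeries τ κ) (hU : ∀ i, constantCoeff (U i) = 0)
    (A : ι → MvPowerSeries τ κ) (hA : ∀ i, constantCoeff (A i) = 0)
    (H : MvPowerSeries ι (MvPowerSeries σ κ)) :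
    ∃ H' : MvPowerSeries τ κ, ∀ (y : τ → MK K) (u : σ → MK K) (a : ι → MK K),
      (∀ i, (u i : OK K) = evk κ y (U i)) → (∀ i, (a i : OK K) = evk κ y (A i)) →
      evk κ y H' = ev a (H.map (evk κ u)) := by
  obtain ⟨Φ, hΦC, hΦX⟩ := exists_evalPS A hA
  have hs : HasSubst U := hasSubst_of_constantCoeff_zero hU
  refine ⟨Φ (H.map (substAlgHom (R := κ) hs : MvPowerSeries σ κ →+* MvPowerSeries τ κ)), ?_⟩
  intro y u a hu ha
  have key : ((evk κ y).comp Φ).comp
      (MvPowerSeries.map (substAlgHom (R := κ) hs : MvPowerSeries σ κ →+* MvPowerSeries τ κ)) =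
      (ev a).comp (MvPowerSeries.map (evk κ u) : MvPowerSeries ι (MvPowerSeries σ κ) →+* _) := by
    symm
    refine ringHom_ext (fun c => ?_) (fun i => ?_) (fun i => ?_)
    · simp only [RingHom.comp_apply, map_C, ev_C, hΦC, RingHom.coe_coe, substAlgHom_apply]
      exact (evk_subst y c U hU u hu).symm
    · simp only [RingHom.comp_apply, map_X, ev_X, hΦX]
      exact ha i
    · simp only [RingHom.comp_apply, map_X, ev_X]
      exact (a i).2
  exact RingHom.congr_fun key H

end Rep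

section Map

variable {R S : Type*} [CommRing R] [CommRing S]

theorem isComm_map (F : FormalGroup R) (hF : F.IsComm) (f : R →+* S) : (F.map f).IsComm := by
  refine ⟨?_⟩
  have h := congrArg (MvPowerSeries.map f) hF.comm
  rw [map_subst HasSubst.X_X] at h
  change MvPowerSeries.map f F.toPowerSeries = _
  rw [h]
  congr 1
  ext1 i
  fin_cases i <;> simp

theorem multSeries_map (F : FormalGroup R) (f : R →+* S) (m : ℕ) :
    multSeries (F.map f) m = PowerSeries.map f (multSeries F m) := by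
  induction m with
  | zero => simp [multSeries]
  | succ m ih =>
    rw [FPt.multSeries_succ, FPt.multSeries_succ, ih]
    have hs : HasSubst (![multSeries F m, PowerSeries.X] : Fin 2 → MvPowerSeries Unit R) := by
      refine hasSubst_of_constantCoeff_zero fun i => ?_
      fin_cases i
      · exact FPt.constantCoeff_multSeries F m
      · exact PowerSeries.constantCoeff_X
    have h := map_subst (h := f) hs F.toPowerSeries
    refine Eq.trans ?_ h.symm
    change _ = subst _ (F.map f).toPowerSeries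
    congr 1
    ext1 i
    fin_cases i
    · rfl
    · exact (PowerSeries.map_X f).symm

end Map

section Special

variable {K : Type*} [NontriviallyNormedField K] [IsUltrametricDist K] [CompleteSpace K]
variable {κ : Type*} [Field κ] [Algebra κ (OK K)]
variable {σ : Type*} [Finite σ]

/-- The value at a point is close to the constant coefficient. -/
theorem norm_evk_sub_algebraMap_le (u : σ → MK K) (c : MvPowerSeries σ κ) (r : ℝ) (hr : 0 ≤ r)
    (h : ∀ i, ‖(u i : OK K)‖ ≤ r) :
    ‖evk κ u c - algebraMap κ (OK K) (constantCoeff c)‖ ≤ r := by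
  have h1 : evk κ u c - algebraMap κ (OK K) (constantCoeff c) =
      evk κ u (c - C (constantCoeff c)) := by
    rw [map_sub, evk_C]
  rw [h1, evk, RingHom.comp_apply]
  refine norm_ev_le_of_constantCoeff u _ r hr ?_ h
  rw [constantCoeff_map]
  simp only [map_sub, constantCoeff_C, sub_self, map_zero]

theorem evk_ne_zero_of_isUnit (u : σ → MK K) {e : MvPowerSeries σ κ} (he : IsUnit e) :
    evk κ u e ≠ 0 := by
  have h := he.map (evk κ u)
  exact h.ne_zero

end Special

end Vale.Agent.P217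
end
end

section

section

/-!
# P217: formal implicit functions
-/

namespace Vale.Agent.P217

open MvPowerSeries Filter Topology

section Formal

variable {κ : Type*} [Field κ] {σ τ : Type*} [Finite σ] [Finite τ]

/-- Substitution is Lipschitz for the maximal-adic topology. -/
theorem subst_sub_subst_mem (a b : σ → MvPowerSeries τ κ) (ha : ∀ i, constantCoeff (a i) = 0)
    (hb : ∀ i, constantCoeff (b i) = 0) (N : ℕ) (hab : ∀ i, a i - b i ∈ IsLocalRing.maximalIdeal (MvPowerSeries τ κ) ^ N)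
    (f : MvPowerSeries σ κ) : subst a f - subst b f ∈ IsLocalRing.maximalIdeal (MvPowerSeries τ κ) ^ N := by
  have := Fintype.ofFinite σ
  have has : HasSubst a := hasSubst_of_constantCoeff_zero ha
  have hbs : HasSubst b := hasSubst_of_constantCoeff_zero hb
  have key : ∀ k ≤ N, ∀ f : MvPowerSeries σ κ, subst a f - subst b f ∈ IsLocalRing.maximalIdeal (MvPowerSeries τ κ) ^ k := by
    intro k
    induction k with
    | zero => intro _ f; simp
    | succ k ih =>
      intro hk f
      obtain ⟨g, hg⟩ := exists_decomp f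
      have hsub : ∀ (c : σ → MvPowerSeries τ κ) (hc : HasSubst c),
          subst c f = C (constantCoeff f) + ∑ i, c i * subst c (g i) := by
        intro c hc
        conv_lhs => rw [hg]
        rw [← substAlgHom_apply hc, map_add, map_sum, substAlgHom_apply, subst_C]
        congr 1
        refine Finset.sum_congr rfl fun i _ => ?_
        rw [map_mul, substAlgHom_apply, subst_X hc, substAlgHom_apply]
      have h1 : subst a f - subst b f = ∑ i, (a i * (subst a (g i) - subst b (g i)) +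
          (a i - b i) * subst b (g i)) := by
        rw [hsub a has, hsub b hbs, add_sub_add_left_eq_sub, ← Finset.sum_sub_distrib]
        refine Finset.sum_congr rfl fun i _ => ?_
        ring
      rw [h1]
      refine Ideal.sum_mem _ fun i _ => Ideal.add_mem _ ?_ ?_
      · rw [pow_succ']
        exact Ideal.mul_mem_mul (mem_maximalIdeal_iff.mpr (ha i)) (ih (by omega) (g i))
      · exact Ideal.mul_mem_right _ _ (Ideal.pow_le_pow_right hk (hab i))
  exact key N le_rfl f

theorem hasSubst_elim {U : σ → MvPowerSeries τ κ} (hU : ∀ i, constantCoeff (U i) = 0) :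
    ∀ i, constantCoeff ((Sum.elim U X : σ ⊕ τ → MvPowerSeries τ κ) i) = 0 := by
  rintro (i | i)
  · exact hU i
  · simp

/-- **Formal implicit function theorem** (contracting case). -/
theorem exists_implicit (Ψ : σ → MvPowerSeries (σ ⊕ τ) κ)
    (g : σ → τ → MvPowerSeries (σ ⊕ τ) κ) [Fintype τ]
    (hΨ : ∀ i, Ψ i = ∑ j, X (Sum.inr j) * g i j) :
    ∃ U : σ → MvPowerSeries τ κ, (∀ i, constantCoeff (U i) = 0) ∧
      ∀ i, U i = subst (Sum.elim U X : σ ⊕ τ → MvPowerSeries τ κ) (Ψ i) := by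
  classical
  -- the iteration
  let T : (σ → MvPowerSeries τ κ) → σ → MvPowerSeries τ κ := fun U i =>
    subst (Sum.elim U X : σ ⊕ τ → MvPowerSeries τ κ) (Ψ i)
  have hT : ∀ U : σ → MvPowerSeries τ κ, (∀ i, constantCoeff (U i) = 0) → ∀ i,
      T U i = ∑ j, X j * subst (Sum.elim U X : σ ⊕ τ → MvPowerSeries τ κ) (g i j) := by
    intro U hU i
    have hs : HasSubst (Sum.elim U X : σ ⊕ τ → MvPowerSeries τ κ) :=
      hasSubst_of_constantCoeff_zero (hasSubst_elim hU)
    change subst _ (Ψ i) = _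
    rw [hΨ, ← substAlgHom_apply hs, map_sum]
    refine Finset.sum_congr rfl fun j _ => ?_
    rw [map_mul, substAlgHom_apply, subst_X hs, substAlgHom_apply]
    rfl
  have hT0 : ∀ U : σ → MvPowerSeries τ κ, (∀ i, constantCoeff (U i) = 0) → ∀ i,
      constantCoeff (T U i) = 0 := by
    intro U hU i
    rw [hT U hU, map_sum]
    refine Finset.sum_eq_zero fun j _ => by simp only [map_mul, constantCoeff_X, zero_mul]
  have hcontr : ∀ (U U' : σ → MvPowerSeries τ κ) (hU : ∀ i, constantCoeff (U i) = 0)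
      (hU' : ∀ i, constantCoeff (U' i) = 0) (N : ℕ), (∀ i, U i - U' i ∈ IsLocalRing.maximalIdeal (MvPowerSeries τ κ) ^ N) →
      ∀ i, T U i - T U' i ∈ IsLocalRing.maximalIdeal (MvPowerSeries τ κ) ^ (N + 1) := by
    intro U U' hU hU' N h i
    rw [hT U hU, hT U' hU', ← Finset.sum_sub_distrib]
    refine Ideal.sum_mem _ fun j _ => ?_
    rw [← mul_sub, pow_succ']
    refine Ideal.mul_mem_mul (mem_maximalIdeal_iff.mpr (by simp)) ?_
    refine subst_sub_subst_mem _ _ (hasSubst_elim hU) (hasSubst_elim hU') N ?_ _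
    rintro (k | k)
    · exact h k
    · simp
  let W : ℕ → σ → MvPowerSeries τ κ := fun N => T^[N] 0
  have hWs : ∀ N, W (N + 1) = T (W N) := fun N => Function.iterate_succ_apply' T N 0
  have hW0 : ∀ N i, constantCoeff (W N i) = 0 := by
    intro N
    induction N with
    | zero => intro i; exact map_zero _
    | succ N ih => intro i; rw [hWs]; exact hT0 _ ih i
  have hWsucc : ∀ N i, W (N + 1) i - W N i ∈ IsLocalRing.maximalIdeal (MvPowerSeries τ κ) ^ N := by
    intro N
    induction N with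
    | zero => intro i; simp
    | succ N ih =>
      intro i
      rw [hWs (N + 1), hWs N]
      exact hcontr _ _ (by rw [← hWs]; exact hW0 (N + 1)) (hW0 N) N (by rw [← hWs]; exact ih) i
  have hWle : ∀ i, ∀ {m n : ℕ}, m ≤ n → W m i ≡ W n i [SMOD (IsLocalRing.maximalIdeal (MvPowerSeries τ κ) ^ m • ⊤ :
      Submodule (MvPowerSeries τ κ) (MvPowerSeries τ κ))] := by
    intro i m n hmn
    induction n, hmn using Nat.le_induction with
    | base => exact SModEq.refl _
    | succ n hmn ih =>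
      refine ih.trans ?_
      rw [SModEq.sub_mem, smul_eq_mul, Ideal.mul_top, ← Submodule.neg_mem_iff, neg_sub]
      exact Ideal.pow_le_pow_right hmn (hWsucc n i)
  choose U hU using fun i => IsPrecomplete.prec
    (inferInstance : IsPrecomplete (IsLocalRing.maximalIdeal (MvPowerSeries τ κ)) (MvPowerSeries τ κ)) (f := fun N => W N i) (hWle i)
  have hUW : ∀ i N, U i - W N i ∈ IsLocalRing.maximalIdeal (MvPowerSeries τ κ) ^ N := by
    intro i N
    have := (hU i N).symm
    rwa [SModEq.sub_mem, smul_eq_mul, Ideal.mul_top] at this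
  have hU0 : ∀ i, constantCoeff (U i) = 0 := by
    intro i
    have h1 := hUW i 1
    rw [pow_one, mem_maximalIdeal_iff, map_sub, hW0, sub_zero] at h1
    exact h1
  refine ⟨U, hU0, fun i => ?_⟩
  refine sub_eq_zero.mp (IsHausdorff.haus (inferInstance : IsHausdorff (IsLocalRing.maximalIdeal (MvPowerSeries τ κ)) (MvPowerSeries τ κ)) _
    fun N => ?_)
  rw [SModEq.zero, smul_eq_mul, Ideal.mul_top]
  have h1 : T U i - T (W N) i ∈ IsLocalRing.maximalIdeal (MvPowerSeries τ κ) ^ (N + 1) := hcontr U (W N) hU0 (hW0 N) N (fun j => hUW j N) i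
  have h2 : U i - T (W N) i ∈ IsLocalRing.maximalIdeal (MvPowerSeries τ κ) ^ (N + 1) := by
    rw [← hWs]
    exact hUW i (N + 1)
  have h3 : U i - subst (Sum.elim U X : σ ⊕ τ → MvPowerSeries τ κ) (Ψ i) =
      (U i - T (W N) i) - (T U i - T (W N) i) := by
    change _ = (U i - T (W N) i) - (subst (Sum.elim U X : σ ⊕ τ → MvPowerSeries τ κ) (Ψ i) -
      T (W N) i)
    ring
  rw [h3]
  exact Ideal.pow_le_pow_right (Nat.le_succ N) (Ideal.sub_mem _ h2 h1)

end Formal

section Points

variable {K : Type*} [NontriviallyNormedField K] [IsUltrametricDist K] [CompleteSpace K]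
variable {κ : Type*} [Field κ] [Algebra κ (OK K)]
variable {σ τ : Type*} [Finite σ] [Fintype τ]

/-- At points the solution of `u = Ψ(u, y)` is unique. -/
theorem eq_of_implicit (Ψ : σ → MvPowerSeries (σ ⊕ τ) κ)
    (g : σ → τ → MvPowerSeries (σ ⊕ τ) κ)
    (hΨ : ∀ i, Ψ i = ∑ j, X (Sum.inr j) * g i j)
    (u w : σ → MK K) (y : τ → MK K)
    (hu : ∀ i, (u i : OK K) = evk κ (Sum.elim u y) (Ψ i))
    (hw : ∀ i, (w i : OK K) = evk κ (Sum.elim w y) (Ψ i)) (i : σ) : (u i : OK K) = w i := by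
  classical
  have := Fintype.ofFinite σ
  obtain ⟨ρ, hρ0, hρ1, hρ⟩ := exists_bound (fun j => ‖(y j : OK K)‖) fun j => (y j).2
  -- the maximal difference
  obtain ⟨i0, -, hi0⟩ := Finset.exists_max_image (Finset.univ : Finset σ)
    (fun i => ‖(u i : OK K) - w i‖) ⟨i, Finset.mem_univ i⟩
  have hmax : ∀ i, ‖(u i : OK K) - w i‖ ≤ ‖(u i0 : OK K) - w i0‖ := fun i =>
    hi0 i (Finset.mem_univ i)
  have hcon : ‖(u i0 : OK K) - w i0‖ ≤ ρ * ‖(u i0 : OK K) - w i0‖ := by
    conv_lhs => rw [hu i0, hw i0, hΨ]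
    simp only [map_sum, map_mul, evk_X, Sum.elim_inr]
    rw [← Finset.sum_sub_distrib]
    refine norm_sum_le _ _ (mul_nonneg hρ0 (norm_nonneg _)) fun j _ => ?_
    rw [← mul_sub, OK_norm_mul]
    refine mul_le_mul (hρ j) ?_ (norm_nonneg _) hρ0
    refine norm_ev_sub_le _ _ _ _ (norm_nonneg _) ?_
    rintro (k | k)
    · exact hmax k
    · simp only [AddSubgroupClass.coe_norm, Sum.elim_inr, sub_self, norm_zero, AddSubgroupClass.coe_sub, norm_nonneg]
  have h0 : ‖(u i0 : OK K) - w i0‖ ≤ 0 := by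
    by_contra h
    push Not at h
    have := mul_lt_mul_of_pos_right hρ1 h
    rw [one_mul] at this
    exact absurd hcon (not_le.mpr this)
  exact sub_eq_zero.mp (norm_le_zero_iff.mp ((hmax i).trans h0))

/-- Analytic implicit functions. -/
theorem exists_analytic_implicit (Ψ : σ → MvPowerSeries (σ ⊕ τ) κ)
    (hΨ : ∀ i, Ψ i ∈ Ideal.span (Set.range (fun j : τ => (X (Sum.inr j) :
      MvPowerSeries (σ ⊕ τ) κ)))) :
    ∃ U : σ → MvPowerSeries τ κ, (∀ i, constantCoeff (U i) = 0) ∧
      ∀ (u : σ → MK K) (y : τ → MK K), (∀ i, (u i : OK K) = evk κ (Sum.elim u y) (Ψ i)) →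
        ∀ i, (u i : OK K) = evk κ y (U i) := by
  have hg : ∀ i, ∃ g : τ → MvPowerSeries (σ ⊕ τ) κ, Ψ i = ∑ j, X (Sum.inr j) * g j := by
    intro i
    obtain ⟨g, hg⟩ := (Ideal.mem_span_range_iff_exists_fun).mp (hΨ i)
    exact ⟨g, by rw [← hg]; exact Finset.sum_congr rfl fun j _ => mul_comm _ _⟩
  choose g hg using hg
  obtain ⟨U, hU0, hU⟩ := exists_implicit Ψ g hg
  refine ⟨U, hU0, fun u y hu i => ?_⟩
  let w : σ → MK K := fun i => ⟨evk κ y (U i), (norm_evk_lt y (U i)).mpr (hU0 i)⟩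
  refine eq_of_implicit Ψ g hg u w y hu (fun i => ?_) i
  change evk κ y (U i) = _
  conv_lhs => rw [hU i]
  refine evk_subst y (Ψ i) _ (hasSubst_elim hU0) _ ?_
  rintro (k | k)
  · rfl
  · simp only [AddSubgroupClass.coe_norm, Sum.elim_inr, evk_X]

end Points

end Vale.Agent.P217
end
end

section

section

/-!
# P217: chain rule, homomorphisms with vanishing linear coefficient, heights
-/

namespace Vale.Agent.P217

open MvPowerSeries

section Chain

variable {R : Type*} [CommRing R]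

/-- Chain rule for multivariate power series. -/
theorem HT_pderiv_subst {σ τ : Type*} [Fintype σ] (a : σ → MvPowerSeries τ R)
    (ha : ∀ i, constantCoeff (a i) = 0) (f : MvPowerSeries σ R) (t : τ) :
    pderiv R t (subst a f) = ∑ j, subst a (pderiv R j f) * pderiv R t (a j) := by
  classical
  have hs : HasSubst a := hasSubst_of_constantCoeff_zero ha
  -- difference
  let E : MvPowerSeries σ R → MvPowerSeries τ R := fun f =>
    pderiv R t (subst a f) - ∑ j, subst a (pderiv R j f) * pderiv R t (a j)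
  have hE : ∀ f, E f = pderiv R t (subst a f) - ∑ j, subst a (pderiv R j f) * pderiv R t (a j) :=
    fun f => rfl
  have hstep : ∀ (c : R) (g : σ → MvPowerSeries σ R),
      E (C c + ∑ i, X i * g i) = ∑ i, a i * E (g i) := by
    intro c g
    have h1 : ∀ j, pderiv R j (C c + ∑ i, X i * g i) = g j + ∑ i, X i * pderiv R j (g i) := by
      intro j
      rw [map_add, pderiv_C, zero_add, map_sum]
      simp only [Derivation.leibniz, smul_eq_mul]
      rw [Finset.sum_add_distrib, add_comm]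
      congr 1
      rw [Finset.sum_eq_single j]
      · simp
      · intro i _ hij
        rw [pderiv_X_of_ne hij]
        simp
      · simp only [Finset.mem_univ, not_true_eq_false, pderiv_X_self, mul_one, IsEmpty.forall_iff]
    have h2 : subst a (C c + ∑ i, X i * g i) = C c + ∑ i, a i * subst a (g i) := by
      rw [← substAlgHom_apply hs, map_add, map_sum, substAlgHom_apply, subst_C]
      congr 1
      refine Finset.sum_congr rfl fun i _ => ?_
      rw [map_mul, substAlgHom_apply, subst_X hs, substAlgHom_apply]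
    have h3 : ∀ j, subst a (g j + ∑ i, X i * pderiv R j (g i)) =
        subst a (g j) + ∑ i, a i * subst a (pderiv R j (g i)) := by
      intro j
      rw [← substAlgHom_apply hs, map_add, map_sum, substAlgHom_apply]
      congr 1
      refine Finset.sum_congr rfl fun i _ => ?_
      rw [map_mul, substAlgHom_apply, subst_X hs, substAlgHom_apply]
    rw [hE, h2, map_add, pderiv_C, zero_add, map_sum]
    simp only [Derivation.leibniz, smul_eq_mul, h1, h3, hE, mul_sub, Finset.sum_sub_distrib,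
      Finset.sum_add_distrib, add_mul, Finset.sum_mul, Finset.mul_sum]
    rw [Finset.sum_comm (f := fun (i j : σ) => a j * subst a (pderiv R i (g j)) *
      pderiv R t (a i))]
    simp only [mul_assoc]
    ring
  have key : ∀ N : ℕ, ∀ f, (N : ℕ∞) ≤ (E f).order := by
    intro N
    induction N with
    | zero => intro f; simp
    | succ N ih =>
      intro f
      obtain ⟨g, hg⟩ := exists_decomp f
      rw [hg, hstep]
      refine le_order fun d hd => ?_
      rw [map_sum]
      refine Finset.sum_eq_zero fun i _ => ?_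
      refine coeff_of_lt_order (lt_of_lt_of_le hd ?_)
      refine le_trans ?_ (le_order_mul (f := a i) (g := E (g i)))
      push_cast
      rw [add_comm]
      refine add_le_add ?_ (ih (g i))
      refine le_order fun d hd => ?_
      have : d = 0 := by
        have : d.degree = 0 := by
          have : (d.degree : ℕ∞) < 1 := hd
          exact_mod_cast Nat.lt_one_iff.mp (by exact_mod_cast this)
        exact (Finsupp.degree_eq_zero_iff d).mp this
      rw [this, coeff_zero_eq_constantCoeff_apply, ha]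
  have h0 : E f = 0 := by
    rw [← order_eq_top_iff]
    refine ENat.eq_top_iff_forall_ge.mpr fun N => key N f
  exact sub_eq_zero.mp h0

end Chain

section Hom

variable {R : Type*} [CommRing R]

/-- Chain rule for a one-variable power series evaluated at a multivariate one. -/
theorem HT_pderiv_psubst {τ : Type*} (a : MvPowerSeries τ R) (ha : constantCoeff a = 0)
    (f : PowerSeries R) (t : τ) :
    pderiv R t (PowerSeries.subst a f) =
      PowerSeries.subst a (PowerSeries.derivative R f) * pderiv R t a := by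
  have := HT_pderiv_subst (fun _ : Unit => a) (fun _ => ha) f t
  rw [Fintype.sum_unique] at this
  exact this

theorem HT_constantCoeff_subst_of_zero {σ τ : Type*} [Finite σ] {c : σ → MvPowerSeries τ R}
    (hc : ∀ i, constantCoeff (c i) = 0) (g : MvPowerSeries σ R) :
    constantCoeff (subst c g) = constantCoeff g := by
  have hs : HasSubst c := hasSubst_of_constantCoeff_zero hc
  have h1 : constantCoeff (subst c (g - C (constantCoeff g))) = 0 :=
    constantCoeff_subst_eq_zero hs hc (by simp only [map_sub, constantCoeff_C, sub_self])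
  rw [subst_sub hs, subst_C, map_sub, constantCoeff_C, sub_eq_zero] at h1
  exact h1

theorem HT_hasSubst_pair {τ : Type*} {a b : MvPowerSeries τ R} (ha : constantCoeff a = 0)
    (hb : constantCoeff b = 0) : HasSubst ![a, b] :=
  hasSubst_of_constantCoeff_zero (by intro i; fin_cases i <;> simpa)

theorem HT_psubst_of_zero {τ : Type*} {a : MvPowerSeries τ R} (ha : constantCoeff a = 0) :
    PowerSeries.HasSubst a := PowerSeries.HasSubst.of_constantCoeff_zero ha

theorem HT_constantCoeff_psubst {τ : Type*} {a : MvPowerSeries τ R} (ha : constantCoeff a = 0)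
    {f : PowerSeries R} (hf : PowerSeries.constantCoeff f = 0) :
    constantCoeff (PowerSeries.subst a f : MvPowerSeries τ R) = 0 :=
  constantCoeff_subst_eq_zero (hasSubst_of_constantCoeff_zero (fun _ => ha)) (fun _ => ha) hf

/-- setting `Y = 0` in a substitution. -/
theorem HT_subst_pair_comp {τ υ : Type*} {a b : MvPowerSeries τ R} (ha : constantCoeff a = 0)
    (hb : constantCoeff b = 0) {c : τ → MvPowerSeries υ R} (hc : HasSubst c)
    (G : MvPowerSeries (Fin 2) R) :
    subst c (subst ![a, b] G) = subst ![subst c a, subst c b] G := by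
  rw [subst_comp_subst_apply (HT_hasSubst_pair ha hb) hc]
  congr! 2 with i
  fin_cases i <;> rfl

theorem HT_subst_psubst {τ υ : Type*} {a : MvPowerSeries τ R} (ha : constantCoeff a = 0)
    {c : τ → MvPowerSeries υ R} (hc : HasSubst c) (f : PowerSeries R) :
    subst c (PowerSeries.subst a f) = PowerSeries.subst (subst c a) f := by
  rw [PowerSeries.subst, PowerSeries.subst, subst_comp_subst_apply
    (hasSubst_of_constantCoeff_zero (fun _ => ha)) hc]

/-- A homomorphism with vanishing linear coefficient has vanishing derivative. -/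
theorem IsHom.derivative_eq_zero {F G : FormalGroup R} {f : PowerSeries R} (hf : IsHom F G f)
    (h1 : PowerSeries.coeff 1 f = 0) : PowerSeries.derivative R f = 0 := by
  have hX : ∀ i : Fin 2, constantCoeff (X i : MvPowerSeries (Fin 2) R) = 0 := by simp
  have hfX : ∀ i : Fin 2, constantCoeff
      (PowerSeries.subst (X i : MvPowerSeries (Fin 2) R) f : MvPowerSeries (Fin 2) R) = 0 :=
    fun i => HT_constantCoeff_psubst (hX i) hf.1
  have h := congrArg (pderiv R 1) hf.2
  rw [HT_pderiv_psubst _ F.zero_constantCoeff, HT_pderiv_subst _ (by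
    intro i; fin_cases i
    · exact hfX 0
    · exact hfX 1), Fin.sum_univ_two] at h
  simp only [Matrix.cons_val_zero, Matrix.cons_val_one] at h
  rw [HT_pderiv_psubst _ (hX 0), HT_pderiv_psubst _ (hX 1), pderiv_X_self,
    pderiv_X_of_ne (show (0 : Fin 2) ≠ 1 by decide), mul_zero, mul_zero, zero_add, mul_one] at h
  -- set `Y = 0`
  let c : Fin 2 → PowerSeries R := ![PowerSeries.X, 0]
  have hc : HasSubst c := HasSubst.X_zero
  have h2 := congrArg (subst c) h
  rw [← substAlgHom_apply hc, ← substAlgHom_apply hc, map_mul, map_mul, substAlgHom_apply,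
    substAlgHom_apply, substAlgHom_apply, substAlgHom_apply, HT_subst_psubst F.zero_constantCoeff hc,
    HT_subst_psubst (hX 1) hc, subst_X hc] at h2
  have e1 : subst c F.toPowerSeries = (PowerSeries.X : PowerSeries R) := F.Xzero_eq_X
  have e2 : (PowerSeries.subst (c 1) (PowerSeries.derivative R f) : PowerSeries R) = 0 := by
    change (PowerSeries.subst (0 : PowerSeries R) (PowerSeries.derivative R f) :
      PowerSeries R) = 0
    rw [PowerSeries.subst_zero_of_constantCoeff_zero]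
    rw [← PowerSeries.coeff_zero_eq_constantCoeff_apply, PowerSeries.coeff_derivative]
    simp only [zero_add, h1, Nat.cast_zero, mul_one]
  rw [e1, e2, mul_zero, PowerSeries.X_subst] at h2
  have hu : IsUnit (subst c (pderiv R 1 F.toPowerSeries) : PowerSeries R) := by
    rw [PowerSeries.isUnit_iff_constantCoeff]
    have : PowerSeries.constantCoeff (subst c (pderiv R 1 F.toPowerSeries) : PowerSeries R) =
        constantCoeff (pderiv R 1 F.toPowerSeries) := by
      refine HT_constantCoeff_subst_of_zero (fun i => ?_) _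
      fin_cases i
      · exact PowerSeries.constantCoeff_X
      · exact map_zero _
    rw [this, ← coeff_zero_eq_constantCoeff_apply, coeff_pderiv]
    simp only [Fin.isValue, zero_add, F.lin_coeff_Y, Finsupp.coe_zero, Pi.zero_apply, Nat.cast_zero, mul_one, isUnit_one]
  exact (hu.mul_left_eq_zero).mp h2

variable (p : ℕ) [Fact p.Prime] [CharP R p]

/-- In characteristic `p`, a power series with vanishing derivative is a series in `X^p`. -/
theorem exists_expand_of_derivative_eq_zero (f : PowerSeries R)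
    (h : PowerSeries.derivative R f = 0) :
    ∃ g : PowerSeries R, f = PowerSeries.expand p (Fact.out : p.Prime).ne_zero g := by
  refine ⟨PowerSeries.mk fun j => PowerSeries.coeff (p * j) f, ?_⟩
  ext j
  rw [PowerSeries.coeff_expand]
  split_ifs with hj
  · obtain ⟨i, rfl⟩ := hj
    rw [Nat.mul_div_cancel_left _ (Fact.out : p.Prime).pos, PowerSeries.coeff_mk]
  · have hj0 : j ≠ 0 := by rintro rfl; exact hj (dvd_zero p)
    obtain ⟨i, rfl⟩ := Nat.exists_eq_succ_of_ne_zero hj0
    have h1 := congrArg (PowerSeries.coeff i) h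
    rw [PowerSeries.coeff_derivative, map_zero] at h1
    have hu : IsUnit ((i.succ : ℕ) : R) := (CharP.isUnit_natCast_iff (Fact.out : p.Prime)).mpr hj
    have h2 : ((i.succ : ℕ) : R) = (i : R) + 1 := by push_cast; ring
    rw [h2] at hu
    exact (hu.mul_left_eq_zero).mp h1

theorem HT_expand_injective {k : ℕ} (hk : k ≠ 0) {σ : Type*} :
    Function.Injective (MvPowerSeries.expand (σ := σ) (R := R) k hk) := by
  intro f g h
  ext d
  rw [← coeff_expand_smul k hk f d, ← coeff_expand_smul k hk g d, h]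

/-- If `g(X^p)` is a homomorphism `F → G` then `g` is a homomorphism `F^(p) → G`. -/
theorem IsHom.of_expand {F G : FormalGroup R} {g : PowerSeries R} (hp : p ≠ 0)
    (hf : IsHom F G (PowerSeries.expand p hp g)) : IsHom (F.map (frobenius R p)) G g := by
  have hX : ∀ i : Fin 2, constantCoeff (X i : MvPowerSeries (Fin 2) R) = 0 := by simp
  have hg0 : PowerSeries.constantCoeff g = 0 := by
    have := hf.1
    rwa [PowerSeries.constantCoeff_expand] at this
  refine ⟨hg0, ?_⟩
  apply HT_expand_injective (k := p) hp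
  have h := hf.2
  have hXp : PowerSeries.HasSubst (PowerSeries.X ^ p : PowerSeries R) :=
    PowerSeries.HasSubst.X_pow hp
  have e0 : ∀ a : MvPowerSeries (Fin 2) R, constantCoeff a = 0 →
      PowerSeries.subst a (PowerSeries.expand p hp g) = PowerSeries.subst (a ^ p) g := by
    intro a ha
    rw [PowerSeries.expand_apply, PowerSeries.subst_comp_subst_apply hXp (HT_psubst_of_zero ha),
      PowerSeries.subst_pow (HT_psubst_of_zero ha), PowerSeries.subst_X (HT_psubst_of_zero ha)]
  rw [e0 _ F.zero_constantCoeff, e0 _ (hX 0), e0 _ (hX 1)] at h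
  have e1 : ∀ i : Fin 2, (PowerSeries.subst (X i ^ p : MvPowerSeries (Fin 2) R) g :
      MvPowerSeries (Fin 2) R) =
      MvPowerSeries.expand p hp (PowerSeries.subst (X i : MvPowerSeries (Fin 2) R) g) := by
    intro i
    rw [PowerSeries.expand_subst p hp (HT_psubst_of_zero (hX i)), MvPowerSeries.expand_X]
  have e2 : MvPowerSeries.expand p hp (F.map (frobenius R p)).toPowerSeries =
      F.toPowerSeries ^ p := by
    rw [← MvPowerSeries.map_frobenius_expand p hp, MvPowerSeries.map_expand]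
    rfl
  rw [PowerSeries.expand_subst p hp (HT_psubst_of_zero (F.map (frobenius R p)).zero_constantCoeff),
    e2, h, MvPowerSeries.expand_subst p hp (HT_hasSubst_pair (HT_constantCoeff_psubst (hX 0) hg0)
      (HT_constantCoeff_psubst (hX 1) hg0))]
  congr 1
  ext1 i
  fin_cases i
  · exact e1 0
  · exact e1 1

theorem HT_FormalGroup_map_map {S T : Type*} [CommRing S] [CommRing T] (F : FormalGroup R)
    (φ : R →+* S) (ψ : S →+* T) : (F.map φ).map ψ = F.map (ψ.comp φ) := by
  ext1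
  simp only [FormalGroup.map, map_map]

/-- A homomorphism of formal group laws in characteristic `p` whose coefficients of degree
`< p^h` vanish is a power series in `X^(p^h)`. -/
theorem IsHom.exists_height {F G : FormalGroup R} {f : PowerSeries R} (hf : IsHom F G f)
    (h : ℕ) (hlow : ∀ j < p ^ h, PowerSeries.coeff j f = 0) :
    ∃ V : PowerSeries R, f = PowerSeries.subst (PowerSeries.X ^ (p ^ h) : PowerSeries R) V ∧
      IsHom (F.map (iterateFrobenius R p h)) G V := by
  have hp : p ≠ 0 := (Fact.out : p.Prime).ne_zero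
  induction h with
  | zero =>
    refine ⟨f, by simp [PowerSeries.X_subst], ?_⟩
    have : F.map (iterateFrobenius R p 0) = F := by
      ext1
      simp [FormalGroup.map, MvPowerSeries.map_id]
    rwa [this]
  | succ h ih =>
    obtain ⟨V, hV, hVhom⟩ := ih fun j hj => hlow j (hj.trans_le
      (Nat.pow_le_pow_right (Fact.out : p.Prime).pos (Nat.le_succ h)))
    have h1 : PowerSeries.coeff 1 V = 0 := by
      have := hlow (p ^ h) (Nat.pow_lt_pow_right (Fact.out : p.Prime).one_lt (Nat.lt_succ_self h))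
      rw [hV, PowerSeries.coeff_subst_X_pow (pow_ne_zero h hp)] at this
      simpa only [dvd_refl, ↓reduceIte, Algebra.algebraMap_self, Nat.div_self (pow_pos (Fact.out : p.Prime).pos h),     RingHom.id_apply] using this
    obtain ⟨W, hW⟩ := exists_expand_of_derivative_eq_zero p V (hVhom.derivative_eq_zero h1)
    refine ⟨W, ?_, ?_⟩
    · rw [hV, hW, PowerSeries.expand_apply, PowerSeries.subst_comp_subst_apply
        (PowerSeries.HasSubst.X_pow hp) (PowerSeries.HasSubst.X_pow (pow_ne_zero h hp)),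
        PowerSeries.subst_pow (PowerSeries.HasSubst.X_pow (pow_ne_zero h hp)),
        PowerSeries.subst_X (PowerSeries.HasSubst.X_pow (pow_ne_zero h hp)), ← pow_mul, ← pow_succ]
    · rw [hW] at hVhom
      have := IsHom.of_expand p hp hVhom
      rw [HT_FormalGroup_map_map] at this
      have e : (frobenius R p).comp (iterateFrobenius R p h) = iterateFrobenius R p (h + 1) := by
        ext x
        simp [iterateFrobenius_def, frobenius_def, ← pow_mul, pow_succ]
      rwa [e] at this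

end Hom

section Mult

variable {R : Type*} [CommRing R]

/-- `[m]_F(g)` is the `m`-th multiple of the point `g`. -/
theorem HT_nsmul_point (F : FormalGroup R) {τ : Type*} (g : F.Point τ)
    (hg : constantCoeff g.val = 0) (m : ℕ) :
    (m • g).val = PowerSeries.subst g.val (multSeries F m) := by
  have hs : HasSubst (fun _ : Unit => g.val) := hasSubst_of_constantCoeff_zero (fun _ => hg)
  induction m with
  | zero =>
    rw [zero_nsmul, FormalGroup.zero_apply]
    change 0 = subst (fun _ : Unit => g.val) (0 : MvPowerSeries Unit R)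
    rw [← substAlgHom_apply hs, map_zero]
  | succ m ih =>
    rw [succ_nsmul, FormalGroup.add_apply, FPt.multSeries_succ, PowerSeries.subst,
      HT_subst_pair_comp (FPt.constantCoeff_multSeries F m) PowerSeries.constantCoeff_X hs, ih]
    congr 1
    ext1 i
    fin_cases i
    · rfl
    · exact (subst_X hs ()).symm

theorem isHom_multSeries (F : FormalGroup R) [F.IsComm] (m : ℕ) :
    IsHom F F (multSeries F m) := by
  refine ⟨FPt.constantCoeff_multSeries F m, ?_⟩
  have hX : ∀ i : Fin 2, constantCoeff (X i : MvPowerSeries (Fin 2) R) = 0 := by simp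
  let x : F.Point (Fin 2) := ⟨X 0, HT_psubst_of_zero (hX 0)⟩
  let y : F.Point (Fin 2) := ⟨X 1, HT_psubst_of_zero (hX 1)⟩
  have hxy : (x + y).val = F.toPowerSeries := by
    rw [FormalGroup.add_apply]
    have : ![x.val, y.val] = (X : Fin 2 → MvPowerSeries (Fin 2) R) := by
      ext1 i; fin_cases i <;> rfl
    rw [this, subst_self]
    rfl
  have h := congrArg Subtype.val (nsmul_add x y m)
  rw [FormalGroup.add_apply, HT_nsmul_point F (x + y) (by rw [hxy]; exact F.zero_constantCoeff),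
    HT_nsmul_point F x (hX 0), HT_nsmul_point F y (hX 1), hxy] at h
  exact h

theorem exists_V_of_coeff_eq_zero (p : ℕ) [Fact p.Prime] [CharP R p] (F : FormalGroup R)
    [F.IsComm] (h : ℕ) (hlow : ∀ j < p ^ h, PowerSeries.coeff j (multSeries F p) = 0) :
    ∃ V : PowerSeries R,
      multSeries F p = PowerSeries.subst (PowerSeries.X ^ (p ^ h) : PowerSeries R) V ∧
      IsHom (F.map (iterateFrobenius R p h)) F V :=
  (isHom_multSeries F p).exists_height p h hlow

end Mult

end Vale.Agent.P217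
end
end

section

section

/-!
# P217: the level lemma (independent of the structure `FamFG`)
-/

namespace Vale.Agent.P217

open MvPowerSeries Filter Topology

namespace LV

section Frob

variable {K : Type*} [NontriviallyNormedField K] [IsUltrametricDist K] [CompleteSpace K]
variable {p : ℕ} [Fact p.Prime] [CharP K p]

/-- Frobenius twist and evaluation. -/
theorem ev_map_frob {τ : Type*} [Finite τ] (h : ℕ) (b c : τ → MK K)
    (hc : ∀ i, (c i : OK K) = (b i : OK K) ^ (p ^ h)) (f : MvPowerSeries τ (OK K)) :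
    ev c (MvPowerSeries.map (iterateFrobenius (OK K) p h) f) = (ev b f) ^ (p ^ h) := by
  have key : (ev c).comp (MvPowerSeries.map (iterateFrobenius (OK K) p h)) =
      (iterateFrobenius (OK K) p h).comp (ev b) := by
    refine ringHom_ext (fun x => ?_) (fun i => ?_) (fun i => ?_)
    · rw [RingHom.comp_apply, RingHom.comp_apply, map_C, ev_C, ev_C]
    · rw [RingHom.comp_apply, RingHom.comp_apply, map_X, ev_X, ev_X, hc, iterateFrobenius_def]
    · rw [RingHom.comp_apply, map_X, ev_X]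
      exact (c i).2
  have := congrArg (fun φ => φ f) key
  simpa only [RingHom.coe_comp, Function.comp_apply, iterateFrobenius_def] using this

end Frob

section Rep

variable {K : Type*} [NontriviallyNormedField K] [IsUltrametricDist K] [CompleteSpace K]
variable {κ : Type*} [Field κ] [Algebra κ (OK K)] {m : ℕ}
variable {p : ℕ} [Fact p.Prime] [CharP K p]

/-- the ideal generated by the second set of variables. -/
noncomputable def Iy (κ : Type*) [Field κ] (m : ℕ) : Ideal (MvPowerSeries (Fin m ⊕ Fin m) κ) :=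
  Ideal.span (Set.range (fun j : Fin m => (X (Sum.inr j) : MvPowerSeries (Fin m ⊕ Fin m) κ)))

theorem constantCoeff_of_mem_Iy {f : MvPowerSeries (Fin m ⊕ Fin m) κ} (hf : f ∈ Iy κ m) :
    constantCoeff f = 0 := by
  have : Iy κ m ≤ RingHom.ker (constantCoeff : MvPowerSeries (Fin m ⊕ Fin m) κ →+* κ) := by
    rw [Iy, Ideal.span_le]
    rintro _ ⟨j, rfl⟩
    simp
  exact this hf

/-- inclusion of the first set of variables -/
noncomputable def inlHom (κ : Type*) [Field κ] (m : ℕ) :
    MvPowerSeries (Fin m) κ →+* MvPowerSeries (Fin m ⊕ Fin m) κ :=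
  (substAlgHom (R := κ) (a := fun i : Fin m => (X (Sum.inl i) : MvPowerSeries (Fin m ⊕ Fin m) κ))
    (hasSubst_of_constantCoeff_zero (by simp))).toRingHom

theorem evk_inlHom (u y : Fin m → MK K) (f : MvPowerSeries (Fin m) κ) :
    evk κ (Sum.elim u y) (inlHom κ m f) = evk κ u f := by
  change evk κ (Sum.elim u y) (substAlgHom _ f) = _
  rw [substAlgHom_apply]
  refine evk_subst _ f _ (by simp) u fun i => ?_
  simp only [AddSubgroupClass.coe_norm, evk_X, Sum.elim_inl]

/-- Composition with power series in `(u, y)` lying in the ideal `(y)`. -/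
theorem exists_comp_Iy {ι : Type*} [Finite ι] (A : ι → MvPowerSeries (Fin m ⊕ Fin m) κ)
    (hA : ∀ i, A i ∈ Iy κ m) :
    ∃ Φ : MvPowerSeries ι (MvPowerSeries (Fin m) κ) →+* MvPowerSeries (Fin m ⊕ Fin m) κ,
      (∀ i, Φ (X i) = A i) ∧ ∀ (u y : Fin m → MK K) (a : ι → MK K),
        (∀ i, (a i : OK K) = evk κ (Sum.elim u y) (A i)) → ∀ H,
        evk κ (Sum.elim u y) (Φ H) = ev a (H.map (evk κ u)) := by
  obtain ⟨Φ, hΦC, hΦX⟩ := exists_evalPS A fun i => constantCoeff_of_mem_Iy (hA i)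
  refine ⟨Φ.comp (MvPowerSeries.map (inlHom κ m)), fun i => ?_, ?_⟩
  · rw [RingHom.comp_apply, map_X, hΦX]
  · intro u y a ha H
    have key : ((evk κ (Sum.elim u y)).comp Φ).comp (MvPowerSeries.map (inlHom κ m)) =
        (ev a).comp (MvPowerSeries.map (evk κ u) : MvPowerSeries ι (MvPowerSeries (Fin m) κ) →+* _) := by
      symm
      refine ringHom_ext (fun c => ?_) (fun i => ?_) (fun i => ?_)
      · simp only [RingHom.comp_apply, map_C, ev_C, hΦC]
        exact (evk_inlHom u y c).symm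
      · simp only [RingHom.comp_apply, map_X, ev_X, hΦX]
        exact ha i
      · simp only [RingHom.comp_apply, map_X, ev_X]
        exact (a i).2
    exact RingHom.congr_fun key H

/-- a family of points of the groups `G_u`, whose `Q`-th power is a power series in `(u, y)`
lying in the ideal `(y)`. -/
def Repr2 (p h : ℕ) (K : Type*) [NontriviallyNormedField K] [IsUltrametricDist K] [CompleteSpace K]
    {κ : Type*} [Field κ] [Algebra κ (OK K)] {m : ℕ} (G : FormalGroup (MvPowerSeries (Fin m) κ))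
    (s : ∀ (u : Fin m → MK K), (Fin m → FPt (G.map (evk κ u))) → FPt (G.map (evk κ u))) :
    Prop :=
  ∃ Y ∈ Iy κ m, ∀ (u y : Fin m → MK K) (x : Fin m → FPt (G.map (evk κ u)))
    (_ : ∀ j, (y j : OK K) = (x j).val ^ (p ^ h)),
      (s u x).val ^ (p ^ h) = evk κ (Sum.elim u y) Y

variable {G : FormalGroup (MvPowerSeries (Fin m) κ)}

omit [CharP K p] in
theorem Repr2.zero (h : ℕ) : Repr2 p h K G (fun _ _ => 0) := by
  refine ⟨0, Ideal.zero_mem _, ?_⟩
  intro u y x hx
  rw [FPt.val_zero, zero_pow (pow_ne_zero _ (Fact.out : p.Prime).ne_zero), map_zero]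

omit [CharP K p] [Fact p.Prime] in
theorem Repr2.coord (h : ℕ) (j : Fin m) : Repr2 p h K G (fun _ x => x j) := by
  refine ⟨X (Sum.inr j), Ideal.subset_span ⟨j, rfl⟩, ?_⟩
  intro u y x hx
  rw [← hx, evk_X, Sum.elim_inr]

theorem Repr2.add (h : ℕ) [CharP κ p]
    {s t : ∀ (u : Fin m → MK K), (Fin m → FPt (G.map (evk κ u))) → FPt (G.map (evk κ u))}
    (hs : Repr2 p h K G s) (ht : Repr2 p h K G t) :
    Repr2 p h K G (fun u x => s u x + t u x) := by
  have hchar : CharP (MvPowerSeries (Fin m) κ) p :=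
    charP_of_injective_ringHom (f := (C : κ →+* MvPowerSeries (Fin m) κ)) C_injective p
  obtain ⟨A, hA0, hA⟩ := hs
  obtain ⟨B, hB0, hB⟩ := ht
  have hAB : ∀ i : Fin 2, (![A, B] : Fin 2 → MvPowerSeries (Fin m ⊕ Fin m) κ) i ∈ Iy κ m := by
    intro i; fin_cases i
    · exact hA0
    · exact hB0
  obtain ⟨Φ, hΦX, hΦ⟩ := exists_comp_Iy (K := K) ![A, B] hAB
  obtain ⟨H, hH⟩ := exists_FG_decomp
    (G.map (iterateFrobenius (MvPowerSeries (Fin m) κ) p h))
  refine ⟨Φ (G.map (iterateFrobenius (MvPowerSeries (Fin m) κ) p h)).toPowerSeries, ?_, ?_⟩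
  · rw [hH, map_add, map_add, map_mul, map_mul, hΦX, hΦX]
    refine Ideal.add_mem _ (Ideal.add_mem _ hA0 hB0) ?_
    exact Ideal.mul_mem_right _ _ (Ideal.mul_mem_right _ _ hA0)
  · intro u y x hx
    have hp0 : p ^ h ≠ 0 := pow_ne_zero _ (Fact.out : p.Prime).ne_zero
    have hlt : ∀ z : FPt (G.map (evk κ u)), ‖z.val ^ (p ^ h)‖ < 1 := fun z => by
      rw [OK_norm_pow]
      exact pow_lt_one₀ (norm_nonneg _) z.norm_val_lt hp0
    let c : Fin 2 → MK K := ![⟨(s u x).val ^ (p ^ h), hlt _⟩, ⟨(t u x).val ^ (p ^ h), hlt _⟩]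
    rw [hΦ u y c (by
      intro i
      fin_cases i
      · exact hA u y x hx
      · exact hB u y x hx)]
    show (s u x + t u x).val ^ (p ^ h) = _
    rw [FPt.val_add]
    have h1 : MvPowerSeries.map (evk κ u)
        (G.map (iterateFrobenius (MvPowerSeries (Fin m) κ) p h)).toPowerSeries =
        MvPowerSeries.map (iterateFrobenius (OK K) p h) (G.map (evk κ u)).toPowerSeries := by
      ext d
      rw [FormalGroup.map_toPowerSeries, FormalGroup.map_toPowerSeries, coeff_map, coeff_map,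
        coeff_map, coeff_map, iterateFrobenius_def, iterateFrobenius_def, map_pow]
    rw [h1, ev_map_frob h (![s u x, t u x] : Fin 2 → MK K) c]
    intro i
    fin_cases i <;> rfl

theorem Repr2.nsmul [∀ u : Fin m → MK K, (G.map (evk κ u)).IsComm] (h : ℕ) [CharP κ p]
    {s : ∀ (u : Fin m → MK K), (Fin m → FPt (G.map (evk κ u))) → FPt (G.map (evk κ u))}
    (hs : Repr2 p h K G s) (c : ℕ) : Repr2 p h K G (fun u x => c • s u x) := by
  induction c with
  | zero =>
    simp only [zero_smul]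
    exact Repr2.zero h
  | succ c ih =>
    simp only [succ_nsmul]
    exact Repr2.add h ih hs

theorem Repr2.sum [∀ u : Fin m → MK K, (G.map (evk κ u)).IsComm] (h : ℕ) [CharP κ p]
    (c : Fin m → ℕ) (S : Finset (Fin m)) :
    Repr2 p h K G (fun _ x => ∑ j ∈ S, c j • x j) := by
  classical
  induction S using Finset.induction_on with
  | empty =>
    simp only [Finset.sum_empty]
    exact Repr2.zero h
  | insert a S ha ih =>
    simp only [Finset.sum_insert ha]
    exact Repr2.add h (Repr2.nsmul h (Repr2.coord h a) (c a)) ih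

end Rep

section Aux

variable {K : Type*} [NontriviallyNormedField K] [IsUltrametricDist K] [CompleteSpace K]
variable {κ : Type*} [Field κ] [Algebra κ (OK K)] {m : ℕ}
variable {p : ℕ} [Fact p.Prime]

theorem ev_coe_polynomial (b : MK K) (W : Polynomial (OK K)) :
    ev (fun _ : Unit => b) (W : PowerSeries (OK K)) = W.eval (b : OK K) := by
  have key : (ev (fun _ : Unit => b)).comp (Polynomial.coeToPowerSeries.ringHom :
      Polynomial (OK K) →+* PowerSeries (OK K)) = Polynomial.evalRingHom (b : OK K) := by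
    apply Polynomial.ringHom_ext
    · intro a
      rw [RingHom.comp_apply, Polynomial.coeToPowerSeries.ringHom_apply, Polynomial.coe_C,
        Polynomial.coe_evalRingHom, Polynomial.eval_C]
      exact ev_C _ a
    · rw [RingHom.comp_apply, Polynomial.coeToPowerSeries.ringHom_apply, Polynomial.coe_X,
        Polynomial.coe_evalRingHom, Polynomial.eval_X]
      exact ev_X _ ()
  exact RingHom.congr_fun key W

/-- On points: `p • a = V(a^Q)`. -/
theorem val_p_smul_map {h : ℕ} (G : FormalGroup (MvPowerSeries (Fin m) κ))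
    (V : PowerSeries (MvPowerSeries (Fin m) κ))
    (series : multSeries G p =
      PowerSeries.subst (PowerSeries.X ^ (p ^ h) : PowerSeries (MvPowerSeries (Fin m) κ)) V)
    (u : Fin m → MK K) [(G.map (evk κ u)).IsComm] (a : FPt (G.map (evk κ u))) (b : MK K)
    (hb : (b : OK K) = a.val ^ (p ^ h)) :
    (p • a).val = ev (fun _ : Unit => b) (V.map (evk κ u)) := by
  have hp : p ^ h ≠ 0 := pow_ne_zero _ (Fact.out : p.Prime).ne_zero
  have h1 : multSeries (G.map (evk κ u)) p =
      PowerSeries.subst (PowerSeries.X ^ (p ^ h) : PowerSeries (OK K)) (V.map (evk κ u)) := by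
    rw [multSeries_map, series, ← PowerSeries.expand_apply _ hp, ← PowerSeries.expand_apply _ hp,
      PowerSeries.map_expand]
  rw [FPt.val_nsmul, h1, PowerSeries.subst_def]
  apply ev_subst
  · intro _
    have : MvPowerSeries.constantCoeff (PowerSeries.X ^ (p ^ h) : PowerSeries (OK K)) = 0 := by
      rw [map_pow]
      have : MvPowerSeries.constantCoeff (PowerSeries.X : PowerSeries (OK K)) = 0 :=
        MvPowerSeries.constantCoeff_X _
      rw [this, zero_pow hp]
    exact this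
  · intro _
    have : ev (fun _ : Unit => (a : MK K)) (PowerSeries.X : PowerSeries (OK K)) = a.val :=
      ev_X _ _
    rw [hb, map_pow, this]

omit [Fact p.Prime] in
/-- Weierstrass preparation of `V`. -/
theorem exists_weier (V : PowerSeries (MvPowerSeries (Fin m) κ))
    (V_red : V.map MvPowerSeries.constantCoeff = PowerSeries.X ^ (p ^ m))
    (V_span : Ideal.span {c | ∃ j < p ^ m, c = PowerSeries.coeff j V} =
      Ideal.span (Set.range X)) :
    ∃ (f : Polynomial (MvPowerSeries (Fin m) κ)) (e : PowerSeries (MvPowerSeries (Fin m) κ))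
      (c : Fin m → Fin (p ^ m) → MvPowerSeries (Fin m) κ),
      f.Monic ∧ f.natDegree = p ^ m ∧ IsUnit e ∧
      V = (f : PowerSeries (MvPowerSeries (Fin m) κ)) * e ∧
      ∀ i, (X i : MvPowerSeries (Fin m) κ) = ∑ j, c i j * f.coeff j := by
  have hcoef : ∀ j, constantCoeff (PowerSeries.coeff j V) = if j = p ^ m then 1 else 0 := by
    intro j
    have := congrArg (PowerSeries.coeff j) V_red
    rwa [PowerSeries.coeff_map, PowerSeries.coeff_X_pow] at this
  have hres : ∀ j, PowerSeries.coeff j (V.map (IsLocalRing.residue (MvPowerSeries (Fin m) κ))) = 0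
      ↔ j ≠ p ^ m := by
    intro j
    rw [PowerSeries.coeff_map, IsLocalRing.residue_eq_zero_iff, mem_maximalIdeal_iff, hcoef]
    split_ifs with h <;> simp [h]
  have horder : (V.map (IsLocalRing.residue (MvPowerSeries (Fin m) κ))).order = (p ^ m : ℕ) := by
    rw [PowerSeries.order_eq_nat]
    refine ⟨?_, fun i hi => ?_⟩
    · rw [Ne, hres]
      simp
    · rw [hres]
      exact hi.ne
  have hne : V.map (IsLocalRing.residue (MvPowerSeries (Fin m) κ)) ≠ 0 := by
    intro h0
    rw [h0, PowerSeries.order_zero] at horder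
    exact (ENat.natCast_ne_top _).symm horder
  obtain ⟨f, e, H⟩ := V.exists_isWeierstrassFactorization hne
  have hdeg : f.natDegree = p ^ m := by
    rw [H.natDegree_eq_toNat_order_map, horder]
    rfl
  have hspan : ∀ i, (X i : MvPowerSeries (Fin m) κ) ∈
      Ideal.span (Set.range (fun j : Fin (p ^ m) => f.coeff j)) := by
    intro i
    have h1 : (X i : MvPowerSeries (Fin m) κ) ∈
        Ideal.span {c | ∃ j < p ^ m, c = PowerSeries.coeff j V} := by
      rw [V_span]
      exact Ideal.subset_span ⟨i, rfl⟩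
    refine (Ideal.span_le.mpr ?_ : _ ≤ Ideal.span (Set.range
      (fun j : Fin (p ^ m) => f.coeff j))) h1
    rintro _ ⟨j, hj, rfl⟩
    rw [SetLike.mem_coe, H.eq_mul, PowerSeries.coeff_mul]
    refine Ideal.sum_mem _ fun ab hab => Ideal.mul_mem_right _ _ ?_
    rw [Polynomial.coeff_coe]
    have := Finset.HasAntidiagonal.mem_antidiagonal.mp hab
    exact Ideal.subset_span ⟨⟨ab.1, by omega⟩, rfl⟩
  choose c hc using fun i => (Ideal.mem_span_range_iff_exists_fun).mp (hspan i)
  exact ⟨f, e, c, H.isDistinguishedAt.monic, hdeg, H.isUnit, H.eq_mul, fun i => (hc i).symm⟩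

/-- **Level lemma** without the structure `FamFG`. -/
theorem level_lemma_aux [CharP K p] [CharP κ p] {h : ℕ}
    (G : FormalGroup (MvPowerSeries (Fin m) κ))
    [∀ u : Fin m → MK K, (G.map (evk κ u)).IsComm]
    (V : PowerSeries (MvPowerSeries (Fin m) κ))
    (series : multSeries G p =
      PowerSeries.subst (PowerSeries.X ^ (p ^ h) : PowerSeries (MvPowerSeries (Fin m) κ)) V)
    (V_red : V.map MvPowerSeries.constantCoeff = PowerSeries.X ^ (p ^ m))
    (V_span : Ideal.span {c | ∃ j < p ^ m, c = PowerSeries.coeff j V} =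
      Ideal.span (Set.range X)) :
    ∃ U : Fin m → MvPowerSeries (Fin m) κ, (∀ i, constantCoeff (U i) = 0) ∧
      ∀ (u y : Fin m → MK K) (x : Fin m → FPt (G.map (evk κ u))),
        (∀ j, (y j : OK K) = (x j).val ^ (p ^ h)) → (∀ j, p • x j = 0) →
        (∀ c : Fin m → ℤ, ∑ j, c j • x j = 0 → ∀ j, (p : ℤ) ∣ c j) →
        ∀ i, (u i : OK K) = evk κ y (U i) := by
  classical
  obtain ⟨f, e, c, hmonic, hdeg, hunit, hV, hX⟩ := exists_weier V V_red V_span
  have hppos : 0 < p := (Fact.out : p.Prime).pos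
  -- the power series of the sums
  have hsum : ∀ c : Fin m → ℕ, Repr2 p h K G (fun _ x => ∑ j, c j • x j) :=
    fun c => Repr2.sum h c Finset.univ
  choose Y hYI hY using hsum
  let P : Polynomial (MvPowerSeries (Fin m ⊕ Fin m) κ) :=
    ∏ a : Fin m → Fin p, (Polynomial.X - Polynomial.C (Y (fun j => (a j : ℕ))))
  have hcard : (Finset.univ : Finset (Fin m → Fin p)).card = p ^ m := by simp only [Finset.card_univ, Fintype.card_pi, Fintype.card_fin, Finset.prod_const]
  have hPI : ∀ j, j < p ^ m → P.coeff j ∈ Iy κ m := by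
    intro j hj
    rw [← Ideal.Quotient.eq_zero_iff_mem, ← Polynomial.coeff_map]
    have h1 : P.map (Ideal.Quotient.mk (Iy κ m)) = Polynomial.X ^ (p ^ m) := by
      rw [Polynomial.map_prod]
      have : ∀ a : Fin m → Fin p, (Polynomial.X - Polynomial.C (Y (fun j => (a j : ℕ)))).map
          (Ideal.Quotient.mk (Iy κ m)) = Polynomial.X := by
        intro a
        rw [Polynomial.map_sub, Polynomial.map_X, Polynomial.map_C,
          Ideal.Quotient.eq_zero_iff_mem.mpr (hYI _), map_zero, sub_zero]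
      simp_rw [this]
      rw [Finset.prod_const, hcard]
    rw [h1, Polynomial.coeff_X_pow, if_neg hj.ne]
  obtain ⟨U, hU0, hU⟩ := exists_analytic_implicit (K := K)
    (fun i => ∑ j : Fin (p ^ m), inlHom κ m (c i j) * P.coeff j) (fun i =>
      Ideal.sum_mem _ fun j _ => Ideal.mul_mem_left _ _ (hPI j j.2))
  refine ⟨U, hU0, ?_⟩
  intro u y x hyx htors hindep
  refine hU u y fun i => ?_
  -- the Weierstrass polynomial at the point `u` is the product over the torsion points
  have key : f.map (evk κ u) = P.map (evk κ (Sum.elim u y)) := by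
    let a : (Fin m → Fin p) → OK K := fun c => (∑ j, (c j : ℕ) • x j).val ^ (p ^ h)
    have hPmap : P.map (evk κ (Sum.elim u y)) = ∏ c, (Polynomial.X - Polynomial.C (a c)) := by
      rw [Polynomial.map_prod]
      refine Finset.prod_congr rfl fun c _ => ?_
      rw [Polynomial.map_sub, Polynomial.map_X, Polynomial.map_C, ← hY _ u y x hyx]
    have hinj : Function.Injective a := by
      intro c c' hcc
      have h1 : (∑ j, (c j : ℕ) • x j).val = (∑ j, (c' j : ℕ) • x j).val :=
        OK_injective_pow h hcc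
      have h2 : ∑ j, (c j : ℕ) • x j = ∑ j, (c' j : ℕ) • x j := FPt.ext h1
      have h3 := hindep (fun j => ((c j : ℕ) : ℤ) - ((c' j : ℕ) : ℤ)) (by
        simp only [sub_smul, natCast_zsmul, Finset.sum_sub_distrib]
        rw [h2, sub_self])
      ext j
      have h4 := h3 j
      have h5 := (c j).2
      have h6 := (c' j).2
      rcases h4 with ⟨k, hk⟩
      have hk0 : k = 0 := by
        by_contra hk0
        rcases lt_or_gt_of_ne hk0 with hlt | hgt
        · nlinarith only [h6, hk, hlt]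
        · nlinarith only [h5, hk, hgt]
      rw [hk0] at hk
      omega
    have hroot : ∀ c, (f.map (evk κ u)).IsRoot (a c) := by
      intro c
      have hlt : ‖a c‖ < 1 := by
        change ‖(∑ j, (c j : ℕ) • x j).val ^ (p ^ h)‖ < 1
        rw [OK_norm_pow]
        exact pow_lt_one₀ (norm_nonneg _) (FPt.norm_val_lt _) (pow_ne_zero _ hppos.ne')
      have h1 := val_p_smul_map G V series u (∑ j, (c j : ℕ) • x j) ⟨a c, hlt⟩ rfl
      have h2 : p • (∑ j, (c j : ℕ) • x j) = 0 := by
        rw [← Finset.sum_nsmul]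
        refine Finset.sum_eq_zero fun j _ => ?_
        rw [smul_comm, htors, smul_zero]
      rw [h2, FPt.val_zero, hV, map_mul] at h1
      have h3 : ∀ A B : PowerSeries (OK K), ev (fun _ : Unit => (⟨a c, hlt⟩ : MK K)) (A * B) =
        ev (fun _ : Unit => (⟨a c, hlt⟩ : MK K)) A *
          ev (fun _ : Unit => (⟨a c, hlt⟩ : MK K)) B := fun A B => map_mul _ A B
      rw [h3, ← Polynomial.polynomial_map_coe, ev_coe_polynomial] at h1
      have h4 : IsUnit (ev (fun _ : Unit => (⟨a c, hlt⟩ : MK K))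
          (PowerSeries.map (evk κ u) e)) :=
        (hunit.map (PowerSeries.map (evk κ u))).map (ev (fun _ : Unit => (⟨a c, hlt⟩ : MK K)))
      exact (h4.mul_left_eq_zero).mp h1.symm
    have hmon1 : (f.map (evk κ u)).Monic := hmonic.map _
    have hdeg1 : (f.map (evk κ u)).natDegree = p ^ m := by
      rw [hmonic.natDegree_map, hdeg]
    have hmon2 : (∏ c, (Polynomial.X - Polynomial.C (a c)) : Polynomial (OK K)).Monic :=
      Polynomial.monic_prod_X_sub_C a Finset.univ
    have hdeg2 : (∏ c, (Polynomial.X - Polynomial.C (a c)) : Polynomial (OK K)).natDegree =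
        p ^ m := by
      rw [Polynomial.natDegree_prod_of_monic _ _ fun c _ => Polynomial.monic_X_sub_C _]
      simp only [Polynomial.natDegree_sub_C, Polynomial.natDegree_X, Finset.sum_const, Finset.card_univ, Fintype.card_pi, Fintype.card_fin, Finset.prod_const, smul_eq_mul, mul_one]
    have hdvd : (∏ c, (Polynomial.X - Polynomial.C (a c)) : Polynomial (OK K)) ∣
        f.map (evk κ u) := by
      have h1 : ((Finset.univ.val.map a).map fun b => Polynomial.X - Polynomial.C b).prod ∣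
          f.map (evk κ u) := by
        rw [Multiset.prod_X_sub_C_dvd_iff_le_roots hmon1.ne_zero,
          Multiset.le_iff_subset (Multiset.Nodup.map hinj Finset.univ.nodup)]
        intro b hb
        obtain ⟨c, -, rfl⟩ := Multiset.mem_map.mp hb
        exact (Polynomial.mem_roots hmon1.ne_zero).mpr (hroot c)
      rw [Multiset.map_map] at h1
      exact h1
    rw [hPmap]
    exact (Polynomial.eq_of_dvd_of_natDegree_le_of_leadingCoeff hdvd (by rw [hdeg1, hdeg2])
      (by rw [hmon1.leadingCoeff, hmon2.leadingCoeff])).symm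
  have h1 : (u i : OK K) = evk κ u (X i) := by rw [evk_X]
  rw [h1, hX i, map_sum, map_sum]
  refine Finset.sum_congr rfl fun j _ => ?_
  rw [map_mul, map_mul, evk_inlHom, ← Polynomial.coeff_map, ← Polynomial.coeff_map, key]

end Aux

end LV

end Vale.Agent.P217
end
end

section

section

/-!
# P217: functorial monic equations for torsion points
-/

namespace Vale.Agent.P217

open MvPowerSeries

section MapMult

variable {R S : Type*} [CommRing R] [CommRing S]

theorem hasSubst_multPair (F : FormalGroup R) (m : ℕ) :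
    HasSubst (![multSeries F m, (PowerSeries.X : PowerSeries R)] :
      Fin 2 → MvPowerSeries Unit R) := by
  refine hasSubst_of_constantCoeff_zero fun i => ?_
  fin_cases i
  · exact FPt.constantCoeff_multSeries F m
  · exact PowerSeries.constantCoeff_X

theorem multSeries_map_TP (φ : R →+* S) (F : FormalGroup R) (m : ℕ) :
    multSeries (F.map φ) m = (multSeries F m).map φ := by
  induction m with
  | zero =>
    have h1 : multSeries (F.map φ) 0 = 0 := rfl
    have h2 : multSeries F 0 = 0 := rfl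
    rw [h1, h2, map_zero]
  | succ m ih =>
    rw [FPt.multSeries_succ, FPt.multSeries_succ, ih]
    have h1 := MvPowerSeries.map_subst (hasSubst_multPair F m) (h := φ) F.toPowerSeries
    refine Eq.trans ?_ h1.symm
    rw [FormalGroup.map_toPowerSeries]
    congr 1
    funext i
    fin_cases i
    · rfl
    · exact (PowerSeries.map_X φ).symm

theorem hasSubst_of_cc_zero {f : PowerSeries R} (hf : PowerSeries.constantCoeff f = 0) :
    PowerSeries.HasSubst f := PowerSeries.HasSubst.of_constantCoeff_zero' hf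

theorem map_subst_uni (φ : R →+* S) (V f : PowerSeries R)
    (hf : PowerSeries.constantCoeff f = 0) :
    PowerSeries.map φ (PowerSeries.subst f V) =
      PowerSeries.subst (PowerSeries.map φ f) (PowerSeries.map φ V) :=
  PowerSeries.map_subst (hasSubst_of_cc_zero hf) V

theorem map_subst_X_pow (φ : R →+* S) (V : PowerSeries R) {m : ℕ} (hm : m ≠ 0) :
    PowerSeries.map φ (PowerSeries.subst (PowerSeries.X ^ m : PowerSeries R) V) =
      PowerSeries.subst (PowerSeries.X ^ m : PowerSeries S) (PowerSeries.map φ V) := by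
  rw [map_subst_uni φ V _ (by simp [hm]), map_pow, PowerSeries.map_X]

end MapMult

section Frob

variable {K : Type*} [NontriviallyNormedField K] [IsUltrametricDist K] [CompleteSpace K]
variable {p : ℕ} [Fact p.Prime] [CharP K p]

/-- Frobenius twist and evaluation. -/
theorem ev_map_frob {τ : Type*} [Finite τ] (h : ℕ) (b c : τ → MK K)
    (hc : ∀ i, (c i : OK K) = (b i : OK K) ^ (p ^ h)) (f : MvPowerSeries τ (OK K)) :
    ev c (MvPowerSeries.map (iterateFrobenius (OK K) p h) f) = (ev b f) ^ (p ^ h) := by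
  have key : (ev c).comp (MvPowerSeries.map (iterateFrobenius (OK K) p h)) =
      (iterateFrobenius (OK K) p h).comp (ev b) := by
    refine ringHom_ext (fun x => ?_) (fun i => ?_) (fun i => ?_)
    · rw [RingHom.comp_apply, RingHom.comp_apply, map_C, ev_C, ev_C]
    · rw [RingHom.comp_apply, RingHom.comp_apply, map_X, ev_X, ev_X, hc, iterateFrobenius_def]
    · rw [RingHom.comp_apply, map_X, ev_X]
      exact (c i).2
  have := congrArg (fun φ => φ f) key
  simpa only [RingHom.coe_comp, Function.comp_apply, iterateFrobenius_def] using this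

end Frob

section Iter

variable {K : Type*} [NontriviallyNormedField K] [IsUltrametricDist K] [CompleteSpace K]
variable {κ : Type*} [Field κ] [Algebra κ (OK K)] {σ : Type*} [Finite σ]
variable {p : ℕ} [Fact p.Prime] [CharP K p]

omit [CharP K p] in
/-- On points: `p • a = V(a^Q)`. -/
theorem val_p_smul_map {h : ℕ} (G : FormalGroup (MvPowerSeries σ κ))
    (V : PowerSeries (MvPowerSeries σ κ))
    (series : multSeries G p =
      PowerSeries.subst (PowerSeries.X ^ (p ^ h) : PowerSeries (MvPowerSeries σ κ)) V)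
    (u : σ → MK K) [(G.map (evk κ u)).IsComm] (a : FPt (G.map (evk κ u))) (b : MK K)
    (hb : (b : OK K) = a.val ^ (p ^ h)) :
    (p • a).val = ev (fun _ : Unit => b) (V.map (evk κ u)) := by
  have hp : p ^ h ≠ 0 := pow_ne_zero _ (Fact.out : p.Prime).ne_zero
  have h1 : multSeries (G.map (evk κ u)) p =
      PowerSeries.subst (PowerSeries.X ^ (p ^ h) : PowerSeries (OK K)) (V.map (evk κ u)) := by
    rw [multSeries_map_TP, series]
    exact map_subst_X_pow _ _ hp
  rw [FPt.val_nsmul, h1, PowerSeries.subst_def]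
  apply ev_subst
  · intro _
    have : MvPowerSeries.constantCoeff (PowerSeries.X ^ (p ^ h) : PowerSeries (OK K)) = 0 := by
      rw [map_pow]
      have : MvPowerSeries.constantCoeff (PowerSeries.X : PowerSeries (OK K)) = 0 :=
        MvPowerSeries.constantCoeff_X _
      rw [this, zero_pow hp]
    exact this
  · intro _
    have : ev (fun _ : Unit => (a : MK K)) (PowerSeries.X : PowerSeries (OK K)) = a.val :=
      ev_X _ _
    rw [hb, map_pow, this]

theorem charP_kappa (K : Type*) [NontriviallyNormedField K] [IsUltrametricDist K]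
    (κ : Type*) [Field κ] [Algebra κ (OK K)] (p : ℕ) [CharP K p] : CharP κ p := by
  have h1 : CharP (OK K) p := inferInstance
  exact (RingHom.charP_iff_charP (algebraMap κ (OK K)) p).mpr h1

theorem charP_mvPowerSeries (κ σ : Type*) [Field κ] (p : ℕ) [CharP κ p] :
    CharP (MvPowerSeries σ κ) p :=
  charP_of_injective_ringHom (f := (C : κ →+* MvPowerSeries σ κ)) C_injective p

/-- The iterates `V^[N]` with `[p^N]_G(X) = V^[N](X^(Q^N))`. -/
theorem exists_iterate {h m : ℕ} (G : FormalGroup (MvPowerSeries σ κ))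
    (V : PowerSeries (MvPowerSeries σ κ)) (V_zero : PowerSeries.constantCoeff V = 0)
    (series : multSeries G p =
      PowerSeries.subst (PowerSeries.X ^ (p ^ h) : PowerSeries (MvPowerSeries σ κ)) V)
    (V_red : V.map MvPowerSeries.constantCoeff = PowerSeries.X ^ (p ^ m)) (N : ℕ) :
    ∃ VN : PowerSeries (MvPowerSeries σ κ), PowerSeries.constantCoeff VN = 0 ∧
      VN.map MvPowerSeries.constantCoeff = PowerSeries.X ^ (p ^ (m * N)) ∧
      ∀ (u : σ → MK K) [(G.map (evk κ u)).IsComm] (z : FPt (G.map (evk κ u))) (b : MK K),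
        (b : OK K) = z.val ^ (p ^ (h * N)) →
        (p ^ N • z).val = ev (fun _ : Unit => b) (VN.map (evk κ u)) := by
  have : CharP κ p := charP_kappa K κ p
  have : CharP (MvPowerSeries σ κ) p := charP_mvPowerSeries κ σ p
  have hp0 : p ≠ 0 := (Fact.out : p.Prime).ne_zero
  induction N with
  | zero =>
    refine ⟨PowerSeries.X, by simp, by simp, ?_⟩
    intro u _ z b hb
    rw [PowerSeries.map_X]
    have : ev (fun _ : Unit => b) (PowerSeries.X : PowerSeries (OK K)) = b := ev_X _ _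
    rw [this, hb]
    simp
  | succ N ih =>
    obtain ⟨VN, h0, hred, hev⟩ := ih
    set VF : PowerSeries (MvPowerSeries σ κ) := VN.map (iterateFrobenius _ p h) with hVF
    have hVF0 : PowerSeries.constantCoeff VF = 0 := by
      have h1 : PowerSeries.coeff 0 VF = 0 := by
        rw [hVF, PowerSeries.coeff_map, PowerSeries.coeff_zero_eq_constantCoeff_apply, h0, map_zero]
      rwa [PowerSeries.coeff_zero_eq_constantCoeff_apply] at h1
    refine ⟨PowerSeries.subst VF V, ?_, ?_, ?_⟩
    · exact PowerSeries.constantCoeff_subst_eq_zero hVF0 V V_zero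
    · rw [map_subst_uni _ V VF hVF0, V_red]
      have h1 : PowerSeries.map (MvPowerSeries.constantCoeff (R := κ) (σ := σ)) VF =
          PowerSeries.X ^ (p ^ (m * N)) := by
        have h4 : PowerSeries.map (MvPowerSeries.constantCoeff (R := κ) (σ := σ)) VF =
            PowerSeries.map (iterateFrobenius κ p h)
              (PowerSeries.map (MvPowerSeries.constantCoeff (R := κ) (σ := σ)) VN) := by
          rw [hVF]
          ext j
          rw [PowerSeries.coeff_map, PowerSeries.coeff_map, PowerSeries.coeff_map,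
            PowerSeries.coeff_map, iterateFrobenius_def, iterateFrobenius_def, map_pow]
        rw [h4, hred, map_pow, PowerSeries.map_X]
      rw [h1]
      have h3 : PowerSeries.HasSubst (PowerSeries.X ^ (p ^ (m * N)) : PowerSeries κ) :=
        hasSubst_of_cc_zero (by simp [hp0])
      rw [PowerSeries.subst_pow h3, PowerSeries.subst_X h3, ← pow_mul, ← pow_add, Nat.mul_succ]
    · intro u _ z b hb
      have h1 : p ^ (N + 1) • z = p • (p ^ N • z) := by rw [smul_smul, pow_succ']
      have hbN : ‖z.val ^ (p ^ (h * N))‖ < 1 := by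
        rw [OK_norm_pow]
        exact pow_lt_one₀ (norm_nonneg _) z.norm_val_lt (pow_ne_zero _ hp0)
      have h2 := hev u z ⟨_, hbN⟩ rfl
      have hw : ‖(p ^ N • z).val ^ (p ^ h)‖ < 1 := by
        rw [OK_norm_pow]
        exact pow_lt_one₀ (norm_nonneg _) (p ^ N • z).norm_val_lt (pow_ne_zero _ hp0)
      rw [h1, val_p_smul_map G V series u (p ^ N • z) ⟨_, hw⟩ rfl, map_subst_uni _ V VF hVF0]
      symm
      rw [PowerSeries.subst_def]
      refine ev_subst _ _ _ ?_ _ ?_
      · intro _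
        have h3 : PowerSeries.coeff 0 (PowerSeries.map (evk κ u) VF) = 0 := by
          rw [PowerSeries.coeff_map, PowerSeries.coeff_zero_eq_constantCoeff_apply, hVF0, map_zero]
        rw [PowerSeries.coeff_zero_eq_constantCoeff_apply] at h3
        exact h3
      · intro _
        show (p ^ N • z).val ^ (p ^ h) = _
        rw [h2]
        have h4 : PowerSeries.map (evk κ u) VF =
            PowerSeries.map (iterateFrobenius (OK K) p h) (PowerSeries.map (evk κ u) VN) := by
          rw [hVF]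
          ext j
          rw [PowerSeries.coeff_map, PowerSeries.coeff_map, PowerSeries.coeff_map,
            PowerSeries.coeff_map, iterateFrobenius_def, iterateFrobenius_def, map_pow]
        rw [h4]
        symm
        refine ev_map_frob h _ _ ?_ _
        intro _
        show (b : OK K) = (z.val ^ (p ^ (h * N))) ^ (p ^ h)
        rw [hb, ← pow_mul, ← pow_add, Nat.mul_succ]

omit [CharP K p] [Fact p.Prime] in
/-- evaluation of a polynomial at a point -/
theorem ev_coe_polynomial (b : MK K) (W : Polynomial (OK K)) :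
    ev (fun _ : Unit => b) (W : PowerSeries (OK K)) = W.eval (b : OK K) := by
  have h1 : (ev (fun _ : Unit => b)).comp
      (Polynomial.coeToPowerSeries.ringHom : Polynomial (OK K) →+* PowerSeries (OK K)) =
      Polynomial.evalRingHom (b : OK K) := by
    apply Polynomial.ringHom_ext
    · intro c
      rw [RingHom.comp_apply, Polynomial.coeToPowerSeries.ringHom_apply, Polynomial.coe_C,
        Polynomial.coe_evalRingHom, Polynomial.eval_C]
      exact ev_C _ c
    · rw [RingHom.comp_apply, Polynomial.coeToPowerSeries.ringHom_apply, Polynomial.coe_X,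
        Polynomial.coe_evalRingHom, Polynomial.eval_X]
      exact ev_X _ ()
  have h2 := DFunLike.congr_fun h1 W
  rw [RingHom.comp_apply, Polynomial.coeToPowerSeries.ringHom_apply,
    Polynomial.coe_evalRingHom] at h2
  exact h2

/-- A monic equation for torsion points, functorial in the point `u`. -/
theorem exists_torsion_poly_aux {h m : ℕ} (G : FormalGroup (MvPowerSeries σ κ))
    (V : PowerSeries (MvPowerSeries σ κ)) (V_zero : PowerSeries.constantCoeff V = 0)
    (series : multSeries G p =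
      PowerSeries.subst (PowerSeries.X ^ (p ^ h) : PowerSeries (MvPowerSeries σ κ)) V)
    (V_red : V.map MvPowerSeries.constantCoeff = PowerSeries.X ^ (p ^ m)) (N : ℕ) :
    ∃ W : Polynomial (MvPowerSeries σ κ), W.Monic ∧
      ∀ (u : σ → MK K) [(G.map (evk κ u)).IsComm] (z : FPt (G.map (evk κ u))),
        p ^ N • z = 0 → (W.map (evk κ u)).eval (z.val ^ (p ^ (h * N))) = 0 := by
  have := Fintype.ofFinite σ
  obtain ⟨VN, h0, hred, hev⟩ := exists_iterate (K := K) G V V_zero series V_red N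
  have hne : VN.map (IsLocalRing.residue _) ≠ 0 := by
    intro hz
    have h1 := congrArg (PowerSeries.coeff (p ^ (m * N))) hz
    rw [PowerSeries.coeff_map, map_zero, IsLocalRing.residue_eq_zero_iff,
      mem_maximalIdeal_iff] at h1
    have h2 := congrArg (PowerSeries.coeff (p ^ (m * N))) hred
    rw [PowerSeries.coeff_map, h1, PowerSeries.coeff_X_pow, if_pos rfl] at h2
    exact zero_ne_one h2
  obtain ⟨P, e, H⟩ := VN.exists_isWeierstrassFactorization hne
  refine ⟨P, H.isDistinguishedAt.monic, ?_⟩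
  intro u _ z hz
  obtain ⟨v, hv⟩ := H.isUnit
  have hP : (P : PowerSeries (MvPowerSeries σ κ)) = VN * (↑v⁻¹ : PowerSeries _) := by
    have := H.eq_mul
    rw [← hv] at this
    rw [this, mul_assoc, Units.mul_inv, mul_one]
  have hbN : ‖z.val ^ (p ^ (h * N))‖ < 1 := by
    rw [OK_norm_pow]
    exact pow_lt_one₀ (norm_nonneg _) z.norm_val_lt
      (pow_ne_zero _ (Fact.out : p.Prime).ne_zero)
  have h3 := hev u z ⟨_, hbN⟩ rfl
  rw [hz, FPt.val_zero] at h3
  have h4 : (Polynomial.map (evk κ u) P : PowerSeries (OK K)) =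
      PowerSeries.map (evk κ u) (P : PowerSeries (MvPowerSeries σ κ)) :=
    Polynomial.polynomial_map_coe
  have h5 := ev_coe_polynomial (K := K) ⟨_, hbN⟩ (Polynomial.map (evk κ u) P)
  rw [h4, hP, map_mul] at h5
  have h6 : ∀ A B : PowerSeries (OK K), ev (fun _ : Unit => (⟨_, hbN⟩ : MK K)) (A * B) =
      ev (fun _ : Unit => (⟨_, hbN⟩ : MK K)) A * ev (fun _ : Unit => (⟨_, hbN⟩ : MK K)) B :=
    fun A B => map_mul _ A B
  rw [h6, ← h3, zero_mul] at h5
  exact h5.symm

end Iter

end Vale.Agent.P217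
end
end

section

section

/-!
# P217: equations for level structures
-/

namespace Vale.Agent.P217

open MvPowerSeries

section Conv

variable {K : Type*} [NontriviallyNormedField K] [IsUltrametricDist K] [CompleteSpace K]
variable {κ : Type*} [Field κ] [Algebra κ (OK K)] {m : ℕ}
variable {p : ℕ} [Fact p.Prime] [CharP K p]

/-- the composition lemma, as a hypothesis for fixed `U` -/
def CompHyp (K : Type*) [NontriviallyNormedField K] [IsUltrametricDist K] [CompleteSpace K]
    {κ : Type*} [Field κ] [Algebra κ (OK K)] {m : ℕ}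
    (U : Fin m → MvPowerSeries (Fin m) κ) : Prop :=
  ∀ (ι : Type) [Finite ι] (A : ι → MvPowerSeries (Fin m) κ) (_ : ∀ i, constantCoeff (A i) = 0)
    (H : MvPowerSeries ι (MvPowerSeries (Fin m) κ)),
    ∃ H' : MvPowerSeries (Fin m) κ, ∀ (y : Fin m → MK K) (u : Fin m → MK K) (a : ι → MK K),
      (∀ i, (u i : OK K) = evk κ y (U i)) → (∀ i, (a i : OK K) = evk κ y (A i)) →
      evk κ y H' = ev a (H.map (evk κ u))

variable (U : Fin m → MvPowerSeries (Fin m) κ) (G : FormalGroup (MvPowerSeries (Fin m) κ))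

/-- a family of points of the groups `G_u`, whose `Q`-th power is a power series in `y`. -/
def Repr (p h : ℕ) (K : Type*) [NontriviallyNormedField K] [IsUltrametricDist K] [CompleteSpace K]
    {κ : Type*} [Field κ] [Algebra κ (OK K)] {m : ℕ}
    (U : Fin m → MvPowerSeries (Fin m) κ) (G : FormalGroup (MvPowerSeries (Fin m) κ))
    (s : ∀ (u : Fin m → MK K), (Fin m → FPt (G.map (evk κ u))) → FPt (G.map (evk κ u))) :
    Prop :=
  ∃ Y : MvPowerSeries (Fin m) κ, constantCoeff Y = 0 ∧ ∀ (y u : Fin m → MK K)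
    (_ : ∀ i, (u i : OK K) = evk κ y (U i)) (x : Fin m → FPt (G.map (evk κ u)))
    (_ : ∀ j, (x j).val ^ (p ^ h) = (y j : OK K)), (s u x).val ^ (p ^ h) = evk κ y Y

variable {U G}

omit [CharP K p] in
theorem Repr.zero (h : ℕ) : Repr p h K U G (fun _ _ => 0) := by
  refine ⟨0, by simp, ?_⟩
  intro y u hu x hx
  rw [FPt.val_zero, zero_pow (pow_ne_zero _ (Fact.out : p.Prime).ne_zero), map_zero]

omit [CharP K p] [Fact p.Prime] in
theorem Repr.coord (h : ℕ) (j : Fin m) : Repr p h K U G (fun _ x => x j) := by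
  refine ⟨X j, by simp, ?_⟩
  intro y u hu x hx
  rw [hx, evk_X]

theorem Repr.add (h : ℕ) (hU0 : ∀ i, constantCoeff (U i) = 0) (hcomp : CompHyp K U)
    {s t : ∀ (u : Fin m → MK K), (Fin m → FPt (G.map (evk κ u))) → FPt (G.map (evk κ u))}
    (hs : Repr p h K U G s) (ht : Repr p h K U G t) :
    Repr p h K U G (fun u x => s u x + t u x) := by
  have : CharP κ p := charP_kappa K κ p
  have : CharP (MvPowerSeries (Fin m) κ) p := charP_mvPowerSeries κ (Fin m) p
  obtain ⟨A, hA0, hA⟩ := hs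
  obtain ⟨B, hB0, hB⟩ := ht
  obtain ⟨Y, hY⟩ := hcomp (Fin 2) ![A, B] (by intro i; fin_cases i <;> simp [hA0, hB0])
    (MvPowerSeries.map (iterateFrobenius (MvPowerSeries (Fin m) κ) p h) G.toPowerSeries)
  have hcc : ∀ (u : Fin m → MK K), constantCoeff (MvPowerSeries.map (evk κ u)
      (MvPowerSeries.map (iterateFrobenius (MvPowerSeries (Fin m) κ) p h) G.toPowerSeries)) =
      0 := by
    intro u
    rw [MvPowerSeries.constantCoeff_map, MvPowerSeries.constantCoeff_map, G.zero_constantCoeff,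
      map_zero, map_zero]
  refine ⟨Y, ?_, ?_⟩
  · let y : Fin m → MK K := fun _ => ⟨0, by simp only [norm_zero, zero_lt_one]⟩
    let u : Fin m → MK K := fun i => ⟨evk κ y (U i), (norm_evk_lt y _).mpr (hU0 i)⟩
    let a : Fin 2 → MK K := ![⟨evk κ y A, (norm_evk_lt y _).mpr hA0⟩,
      ⟨evk κ y B, (norm_evk_lt y _).mpr hB0⟩]
    rw [← norm_evk_lt y, hY y u a (fun i => rfl) (by intro i; fin_cases i <;> rfl)]
    obtain ⟨ρ, hρ0, hρ1, hρ⟩ := exists_bound (fun i => ‖(a i : OK K)‖) fun i => (a i).2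
    exact (norm_ev_le_of_constantCoeff a _ ρ hρ0 (hcc u) hρ).trans_lt hρ1
  · intro y u hu x hx
    have hp0 : p ^ h ≠ 0 := pow_ne_zero _ (Fact.out : p.Prime).ne_zero
    have hlt : ∀ z : FPt (G.map (evk κ u)), ‖z.val ^ (p ^ h)‖ < 1 := fun z => by
      rw [OK_norm_pow]
      exact pow_lt_one₀ (norm_nonneg _) z.norm_val_lt hp0
    let c : Fin 2 → MK K := ![⟨(s u x).val ^ (p ^ h), hlt _⟩, ⟨(t u x).val ^ (p ^ h), hlt _⟩]
    rw [hY y u c hu (by
      intro i
      fin_cases i
      · exact hA y u hu x hx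
      · exact hB y u hu x hx)]
    show (s u x + t u x).val ^ (p ^ h) = _
    rw [FPt.val_add]
    have h1 : MvPowerSeries.map (evk κ u)
        (MvPowerSeries.map (iterateFrobenius (MvPowerSeries (Fin m) κ) p h) G.toPowerSeries) =
        MvPowerSeries.map (iterateFrobenius (OK K) p h) (G.map (evk κ u)).toPowerSeries := by
      ext d
      rw [FormalGroup.map_toPowerSeries, coeff_map, coeff_map, coeff_map, coeff_map,
        iterateFrobenius_def, iterateFrobenius_def, map_pow]
    rw [h1, ev_map_frob h (![s u x, t u x] : Fin 2 → MK K) c]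
    intro i
    fin_cases i <;> rfl

theorem Repr.nsmul [∀ u : Fin m → MK K, (G.map (evk κ u)).IsComm] (h : ℕ)
    (hU0 : ∀ i, constantCoeff (U i) = 0) (hcomp : CompHyp K U)
    {s : ∀ (u : Fin m → MK K), (Fin m → FPt (G.map (evk κ u))) → FPt (G.map (evk κ u))}
    (hs : Repr p h K U G s) (c : ℕ) : Repr p h K U G (fun u x => c • s u x) := by
  induction c with
  | zero =>
    simp only [zero_smul]
    exact Repr.zero h
  | succ c ih =>
    simp only [succ_nsmul]
    exact Repr.add h hU0 hcomp ih hs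

theorem Repr.sum [∀ u : Fin m → MK K, (G.map (evk κ u)).IsComm] (h : ℕ)
    (hU0 : ∀ i, constantCoeff (U i) = 0) (hcomp : CompHyp K U) (c : Fin m → ℕ)
    (S : Finset (Fin m)) : Repr p h K U G (fun _ x => ∑ j ∈ S, c j • x j) := by
  classical
  induction S using Finset.induction_on with
  | empty =>
    simp only [Finset.sum_empty]
    exact Repr.zero h
  | insert a S ha ih =>
    simp only [Finset.sum_insert ha]
    exact Repr.add h hU0 hcomp (Repr.nsmul h hU0 hcomp (Repr.coord h a) (c a)) ih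

/-- Equations for level structures, without the structure `FamFG`. -/
theorem level_converse_aux [IsAlgClosed K] {h : ℕ} (i0 : Fin m)
    (G : FormalGroup (MvPowerSeries (Fin m) κ))
    [∀ u : Fin m → MK K, (G.map (evk κ u)).IsComm]
    (V : PowerSeries (MvPowerSeries (Fin m) κ))
    (series : multSeries G p =
      PowerSeries.subst (PowerSeries.X ^ (p ^ h) : PowerSeries (MvPowerSeries (Fin m) κ)) V)
    (U : Fin m → MvPowerSeries (Fin m) κ) (hU0 : ∀ i, constantCoeff (U i) = 0)
    (hcomp : CompHyp K U) :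
    ∃ (D0 : MvPowerSeries (Fin m) κ) (Rel : Fin m → MvPowerSeries (Fin m) κ),
      (∀ (y u : Fin m → MK K) (x : Fin m → FPt (G.map (evk κ u))), (u i0 : OK K) ≠ 0 →
        (∀ j, (y j : OK K) = (x j).val ^ (p ^ h)) → (∀ i, (u i : OK K) = evk κ y (U i)) →
        (∀ j, p • x j = 0) → (∀ c : Fin m → ℤ, ∑ j, c j • x j = 0 → ∀ j, (p : ℤ) ∣ c j) →
        evk κ y D0 ≠ 0 ∧ ∀ j, evk κ y (Rel j) = 0) ∧
      ∀ y : Fin m → MK K, evk κ y D0 ≠ 0 → (∀ j, evk κ y (Rel j) = 0) →
        ∃ u : Fin m → MK K, (u i0 : OK K) ≠ 0 ∧ ∃ x : Fin m → FPt (G.map (evk κ u)),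
          (∀ j, p • x j = 0) ∧ (∀ c : Fin m → ℤ, ∑ j, c j • x j = 0 → ∀ j, (p : ℤ) ∣ c j) ∧
          (∀ i, (u i : OK K) = evk κ y (U i)) ∧ ∀ j, (y j : OK K) = (x j).val ^ (p ^ h) := by
  classical
  have hp0 : p ^ h ≠ 0 := pow_ne_zero _ (Fact.out : p.Prime).ne_zero
  have hppos : 0 < p := (Fact.out : p.Prime).pos
  -- the power series of the sums
  have hsum : ∀ c : Fin m → ℕ, Repr p h K U G (fun _ x => ∑ j, c j • x j) :=
    fun c => Repr.sum h hU0 hcomp c Finset.univ
  choose Y hY0 hY using hsum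
  -- the relations
  have hrel : ∀ j : Fin m, ∃ H' : MvPowerSeries (Fin m) κ, ∀ (y : Fin m → MK K)
      (u : Fin m → MK K) (a : Unit → MK K), (∀ i, (u i : OK K) = evk κ y (U i)) →
      (∀ i, (a i : OK K) = evk κ y (X j)) →
      evk κ y H' = ev a (MvPowerSeries.map (evk κ u) V) := fun j =>
    hcomp Unit (fun _ => X j) (by simp) V
  choose Rel hRel using hrel
  set D0 : MvPowerSeries (Fin m) κ := U i0 *
    ∏ c ∈ (Finset.univ : Finset (Fin m → Fin p)).filter (fun c => ∃ j, (c j : ℕ) ≠ 0),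
      Y (fun j => (c j : ℕ)) with hD0
  have hRel' : ∀ (y u : Fin m → MK K) (x : Fin m → FPt (G.map (evk κ u))),
      (∀ j, (y j : OK K) = (x j).val ^ (p ^ h)) → (∀ i, (u i : OK K) = evk κ y (U i)) →
      ∀ j, evk κ y (Rel j) = (p • x j).val := by
    intro y u x hyx huU j
    rw [hRel j y u (fun _ => y j) huU (fun _ => by rw [evk_X]),
      val_p_smul_map G V series u (x j) (y j) (hyx j)]
    rfl
  refine ⟨D0, Rel, ?_, ?_⟩
  · intro y u x hu hyx huU htors hindep
    refine ⟨?_, fun j => ?_⟩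
    · rw [hD0, map_mul, map_prod, ← huU i0]
      refine mul_ne_zero hu (Finset.prod_ne_zero_iff.mpr fun c hc => ?_)
      rw [← hY (fun j => (c j : ℕ)) y u huU x (fun j => (hyx j).symm)]
      refine pow_ne_zero _ fun h0 => ?_
      have h1 : ∑ j, (c j : ℕ) • x j = 0 := FPt.ext h0
      have h2 := hindep (fun j => ((c j : ℕ) : ℤ)) (by simpa only [natCast_zsmul] using h1)
      obtain ⟨j, hj⟩ := (Finset.mem_filter.mp hc).2
      have h3 := h2 j
      rw [Int.natCast_dvd_natCast] at h3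
      exact hj (Nat.eq_zero_of_dvd_of_lt h3 (c j).2)
    · rw [hRel' y u x hyx huU j, htors j, FPt.val_zero]
  · intro y hD hR
    let u : Fin m → MK K := fun i => ⟨evk κ y (U i), (norm_evk_lt y _).mpr (hU0 i)⟩
    have huU : ∀ i, (u i : OK K) = evk κ y (U i) := fun i => rfl
    let x : Fin m → FPt (G.map (evk κ u)) := fun j =>
      FPt.mk _ (rt p h (y j)) (norm_rt_lt _ _ (y j).2)
    have hyx : ∀ j, (y j : OK K) = (x j).val ^ (p ^ h) := fun j => (rt_pow h (y j : OK K)).symm
    rw [hD0, map_mul, map_prod] at hD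
    have htors : ∀ j, p • x j = 0 := fun j => by
      apply FPt.ext
      rw [← hRel' y u x hyx huU j, hR j, FPt.val_zero]
    refine ⟨u, left_ne_zero_of_mul hD, x, htors, ?_, huU, hyx⟩
    intro c hc
    by_contra hcon
    push Not at hcon
    obtain ⟨j0, hj0⟩ := hcon
    have hpz : (0 : ℤ) < p := by exact_mod_cast hppos
    let r : Fin m → Fin p := fun j => ⟨(c j % p).toNat, by
      have h1 := Int.emod_nonneg (c j) hpz.ne'
      have h2 := Int.emod_lt_of_pos (c j) hpz
      omega⟩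
    have hr : ∀ j, ((r j : ℕ) : ℤ) = c j % p := fun j => by
      have h1 := Int.emod_nonneg (c j) hpz.ne'
      show (((c j % p).toNat : ℕ) : ℤ) = _
      omega
    have h1 : ∀ j, (r j : ℕ) • x j = c j • x j := fun j => by
      rw [← natCast_zsmul, hr]
      conv_rhs => rw [← Int.emod_add_mul_ediv (c j) p, add_smul, mul_comm, mul_smul, natCast_zsmul,
        htors j, smul_zero, add_zero]
    have h2 : ∑ j, (r j : ℕ) • x j = 0 := by
      rw [Finset.sum_congr rfl fun j _ => h1 j]
      exact hc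
    have h3 := (Finset.prod_ne_zero_iff.mp (right_ne_zero_of_mul hD)) r
      (Finset.mem_filter.mpr ⟨Finset.mem_univ _, j0, fun h0 => hj0 (by
        have := hr j0
        rw [h0] at this
        exact Int.dvd_of_emod_eq_zero (by simpa only [EuclideanDomain.mod_eq_zero, CharP.cast_eq_zero] using this.symm))⟩)
    rw [← hY (fun j => (r j : ℕ)) y u huU x (fun j => (hyx j).symm)] at h3
    have h4 : (∑ j, (r j : ℕ) • x j).val ^ (p ^ h) ≠ 0 := h3
    rw [h2, FPt.val_zero, zero_pow hp0] at h4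
    exact h4 rfl

end Conv

end Vale.Agent.P217
end
end

section

section

/-!
# P217: families over `κ[[u]]`, level structures
-/

namespace Vale.Agent.P217

open MvPowerSeries Filter Topology

/-- A formal group law `G` over `κ[[u_0, …, u_{n-h-1}]]` deforming `Γ₀`, of generic height `h`,
with coordinates adapted to the height. -/
structure FamFG (p n h : ℕ) (κ : Type*) [Field κ] (Γ₀ : FormalGroup κ) where
  one_le_h : 1 ≤ h
  h_lt_n : h < n
  G : FormalGroup (MvPowerSeries (Fin (n - h)) κ)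
  comm : G.IsComm
  reduction : G.map MvPowerSeries.constantCoeff = Γ₀
  V : PowerSeries (MvPowerSeries (Fin (n - h)) κ)
  V_zero : PowerSeries.constantCoeff V = 0
  series : multSeries G p =
    PowerSeries.subst (PowerSeries.X ^ (p ^ h) : PowerSeries (MvPowerSeries (Fin (n - h)) κ)) V
  V_red : V.map MvPowerSeries.constantCoeff = PowerSeries.X ^ (p ^ (n - h))
  V_one : ∃ e : MvPowerSeries (Fin (n - h)) κ, IsUnit e ∧
    PowerSeries.coeff 1 V = e * X (⟨0, Nat.sub_pos_of_lt h_lt_n⟩ : Fin (n - h))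
  V_span : Ideal.span {c | ∃ j < p ^ (n - h), c = PowerSeries.coeff j V} =
    Ideal.span (Set.range X)

/-- The properties of the Honda formal group law used in the proof (over a field `κ` of
characteristic `p`). -/
structure HondaLike (p n : ℕ) {κ : Type*} [Field κ] (Γ₀ : FormalGroup κ) : Prop where
  comm : Γ₀.IsComm
  series : multSeries Γ₀ p = PowerSeries.X ^ (p ^ n)
  prime_coeff : ∀ d, (coeff d Γ₀.toPowerSeries) ^ p = coeff d Γ₀.toPowerSeries
  homog : ∀ ω : κ, ω ^ (p ^ n) = ω → ∀ d : Fin 2 →₀ ℕ, coeff d Γ₀.toPowerSeries ≠ 0 →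
    ω ^ (d 0 + d 1) = ω

namespace FamFG

variable {K : Type*} [NontriviallyNormedField K] [IsUltrametricDist K] [CompleteSpace K]
variable {κ : Type*} [Field κ] [Algebra κ (OK K)]
variable {p : ℕ} [Fact p.Prime] {n h : ℕ} {Γ₀ : FormalGroup κ}

variable (A : FamFG p n h κ Γ₀)

/-- the index of the variable `u_h`. -/
def i0 : Fin (n - h) := ⟨0, Nat.sub_pos_of_lt A.h_lt_n⟩

/-- The formal group law at a point `u` of the open unit polydisc with `u_h ≠ 0`. -/
noncomputable def fib (hΓ₀ : HondaLike p n Γ₀) (u : Fin (n - h) → MK K)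
    (hu : (u A.i0 : OK K) ≠ 0) :
    LocalFG p n h (Γ₀.map (algebraMap κ (OK K))) where
  one_le_h := A.one_le_h
  h_lt_n := A.h_lt_n
  Γcomm := isComm_map _ hΓ₀.comm _
  Γseries := by
    rw [multSeries_map, hΓ₀.series, map_pow, PowerSeries.map_X]
  F := A.G.map (evk κ u)
  comm := isComm_map _ A.comm _
  r := (Finset.univ : Finset (Fin (n - h))).sup' ⟨A.i0, Finset.mem_univ _⟩
    (fun i => ‖(u i : OK K)‖)
  r_nonneg := (norm_nonneg (u A.i0 : OK K)).trans
    (Finset.le_sup' (fun i => ‖(u i : OK K)‖) (Finset.mem_univ A.i0))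
  r_lt_one := (Finset.sup'_lt_iff _).2 fun i _ => (u i).2
  close := by
    intro d
    have h1 : coeff d Γ₀.toPowerSeries = constantCoeff (coeff d A.G.toPowerSeries) := by
      have h2 := congrArg (fun F : FormalGroup κ => coeff d F.toPowerSeries) A.reduction
      exact h2.symm.trans (coeff_map _ _ _)
    change ‖coeff d (MvPowerSeries.map (evk κ u) A.G.toPowerSeries) -
      coeff d (MvPowerSeries.map (algebraMap κ (OK K)) Γ₀.toPowerSeries)‖ ≤ _
    rw [coeff_map, coeff_map, h1]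
    exact norm_evk_sub_algebraMap_le u _ _ ((norm_nonneg (u A.i0 : OK K)).trans
      (Finset.le_sup' (fun i => ‖(u i : OK K)‖) (Finset.mem_univ A.i0)))
      fun i => Finset.le_sup' (fun i => ‖(u i : OK K)‖) (Finset.mem_univ i)
  V := A.V.map (evk κ u)
  V_zero := by
    have h1 : PowerSeries.constantCoeff (A.V.map (evk κ u)) =
        evk κ u (PowerSeries.constantCoeff A.V) := constantCoeff_map _ _
    rw [h1, A.V_zero, map_zero]
  series := by
    rw [multSeries_map, A.series]
    have hp : p ^ h ≠ 0 := pow_ne_zero _ (Fact.out : p.Prime).ne_zero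
    have h1 := PowerSeries.map_subst (h := evk κ u) (PowerSeries.HasSubst.X_pow
      (R := MvPowerSeries (Fin (n - h)) κ) hp) A.V
    refine h1.trans ?_
    congr 1
    change PowerSeries.map (evk κ u) (PowerSeries.X ^ (p ^ h)) = _
    rw [map_pow, PowerSeries.map_X]
  V_close := by
    intro j
    have h1 : (if j = p ^ (n - h) then (1 : OK K) else 0) =
        algebraMap κ (OK K) (constantCoeff (PowerSeries.coeff j A.V)) := by
      have h2 := congrArg (PowerSeries.coeff j) A.V_red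
      rw [PowerSeries.coeff_map, PowerSeries.coeff_X_pow] at h2
      rw [h2]
      split_ifs <;> simp
    rw [PowerSeries.coeff_map, h1]
    exact norm_evk_sub_algebraMap_le u _ _ ((norm_nonneg (u A.i0 : OK K)).trans
      (Finset.le_sup' (fun i => ‖(u i : OK K)‖) (Finset.mem_univ A.i0)))
      fun i => Finset.le_sup' (fun i => ‖(u i : OK K)‖) (Finset.mem_univ i)
  V_one := by
    obtain ⟨e, he, hV⟩ := A.V_one
    rw [PowerSeries.coeff_map, hV, map_mul, evk_X]
    exact mul_ne_zero (evk_ne_zero_of_isUnit u he) hu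

/-- **Level lemma**: `u` is an analytic function of the coordinates `y_j = x_j^Q` of a level
structure. -/
theorem level_lemma [CharP K p] [IsAlgClosed K] (hΓ₀ : HondaLike p n Γ₀) :
    ∃ U : Fin (n - h) → MvPowerSeries (Fin (n - h)) κ,
      (∀ i, constantCoeff (U i) = 0) ∧
      ∀ (u : Fin (n - h) → MK K) (hu : (u A.i0 : OK K) ≠ 0)
        (x : Fin (n - h) → FPt (A.fib hΓ₀ u hu).F), IsLevel (A.fib hΓ₀ u hu) x →
        ∀ i, (u i : OK K) = evk κ (ypt (p := p) h x) (U i) := by
  have : CharP κ p := (RingHom.charP_iff_charP (algebraMap κ (OK K)) p).mpr inferInstance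
  have : ∀ u : Fin (n - h) → MK K, (A.G.map (evk κ u)).IsComm := fun u =>
    isComm_map _ A.comm _
  obtain ⟨U, hU0, hU⟩ := LV.level_lemma_aux (K := K) (h := h) A.G A.V A.series A.V_red A.V_span
  exact ⟨U, hU0, fun u hu x hx i => hU u (ypt (p := p) h x) x (fun j => rfl) hx.tors hx.indep i⟩

/-- Equations for level structures. -/
theorem level_converse [CharP K p] [IsAlgClosed K] (hΓ₀ : HondaLike p n Γ₀)
    (U : Fin (n - h) → MvPowerSeries (Fin (n - h)) κ) (hU0 : ∀ i, constantCoeff (U i) = 0)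
    (hU : ∀ (u : Fin (n - h) → MK K) (hu : (u A.i0 : OK K) ≠ 0)
        (x : Fin (n - h) → FPt (A.fib hΓ₀ u hu).F), IsLevel (A.fib hΓ₀ u hu) x →
        ∀ i, (u i : OK K) = evk κ (ypt (p := p) h x) (U i)) :
    ∃ (D0 : MvPowerSeries (Fin (n - h)) κ) (Rel : Fin (n - h) → MvPowerSeries (Fin (n - h)) κ),
      (∀ (u : Fin (n - h) → MK K) (hu : (u A.i0 : OK K) ≠ 0)
        (x : Fin (n - h) → FPt (A.fib hΓ₀ u hu).F), IsLevel (A.fib hΓ₀ u hu) x →
        evk κ (ypt (p := p) h x) D0 ≠ 0 ∧ ∀ j, evk κ (ypt (p := p) h x) (Rel j) = 0) ∧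
      ∀ y : Fin (n - h) → MK K, evk κ y D0 ≠ 0 → (∀ j, evk κ y (Rel j) = 0) →
        ∃ (u : Fin (n - h) → MK K) (hu : (u A.i0 : OK K) ≠ 0)
          (x : Fin (n - h) → FPt (A.fib hΓ₀ u hu).F), IsLevel (A.fib hΓ₀ u hu) x ∧
          (∀ i, (u i : OK K) = evk κ y (U i)) ∧ y = ypt (p := p) h x := by
  have hcommAll : ∀ u : Fin (n - h) → MK K, (A.G.map (evk κ u)).IsComm :=
    fun u => isComm_map A.G A.comm _
  have hcomp : CompHyp K U := fun ι _ B hB H => exists_comp U hU0 B hB H
  obtain ⟨D0, Rel, h1, h2⟩ := level_converse_aux (K := K) A.i0 A.G A.V A.series U hU0 hcomp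
  refine ⟨D0, Rel, ?_, ?_⟩
  · intro u hu x hx
    exact h1 (ypt (p := p) h x) u x hu (fun j => rfl) (hU u hu x hx) hx.tors hx.indep
  · intro y hD hR
    obtain ⟨u, hu, x, ht, hi, hUi, hy⟩ := h2 y hD hR
    refine ⟨u, hu, x, ⟨ht, hi⟩, hUi, ?_⟩
    funext j
    exact Subtype.ext (hy j)

/-- A functorial monic equation for the `p^N`-torsion points. -/
theorem exists_torsion_poly [CharP K p] [IsAlgClosed K] (hΓ₀ : HondaLike p n Γ₀) (N : ℕ) :
    ∃ W : Polynomial (MvPowerSeries (Fin (n - h)) κ), W.Monic ∧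
      ∀ (u : Fin (n - h) → MK K) (hu : (u A.i0 : OK K) ≠ 0) (z : FPt (A.fib hΓ₀ u hu).F),
        p ^ N • z = 0 → (W.map (evk κ u)).eval (z.val ^ (p ^ (h * N))) = 0 := by
  obtain ⟨W, hW, hev⟩ := exists_torsion_poly_aux (K := K) A.G A.V A.V_zero A.series A.V_red N
  exact ⟨W, hW, fun u hu z hz => @hev u (A.fib hΓ₀ u hu).comm z hz⟩

end FamFG

/-- The automorphism `g_{ω,l}(X) = X +_Γ ω X^(p^l)` as a power series. -/
noncomputable def gser {κ : Type*} [Field κ] (p : ℕ) (Γ₀ : FormalGroup κ) (ω : κ) (l : ℕ) :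
    PowerSeries κ :=
  MvPowerSeries.subst
    ![(PowerSeries.X : PowerSeries κ), PowerSeries.C ω * PowerSeries.X ^ (p ^ l)] Γ₀.toPowerSeries

/-- A lift of `g_{ω,l}` to the family: an endomorphism `φ` of `κ[[u]]` and an isomorphism
`g : G → φ_* G` reducing to `g_{ω,l}`. -/
structure Lift {p n h : ℕ} {κ : Type*} [Field κ] {Γ₀ : FormalGroup κ} (A : FamFG p n h κ Γ₀)
    (ω : κ) (l : ℕ) where
  φ : MvPowerSeries (Fin (n - h)) κ →ₐ[κ] MvPowerSeries (Fin (n - h)) κ
  hφ : ∀ i, constantCoeff (φ (X i)) = 0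
  g : PowerSeries (MvPowerSeries (Fin (n - h)) κ)
  iso : IsIso A.G (A.G.map (φ : MvPowerSeries (Fin (n - h)) κ →+* MvPowerSeries (Fin (n - h)) κ)) g
  red : g.map MvPowerSeries.constantCoeff = gser p Γ₀ ω l

end Vale.Agent.P217
end
end

section

section

/-!
# P217: lemmas on homomorphisms of formal group laws
-/

namespace Vale.Agent.P217

open MvPowerSeries

section HomLemmas

variable {R S : Type*} [CommRing R] [CommRing S]

theorem core_hasSubst_pair {τ : Type*} (a b : MvPowerSeries τ R) (ha : constantCoeff a = 0)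
    (hb : constantCoeff b = 0) : HasSubst (![a, b] : Fin 2 → MvPowerSeries τ R) := by
  refine hasSubst_of_constantCoeff_zero fun i => ?_
  fin_cases i
  · exact ha
  · exact hb

theorem core_isComm_map {F : FormalGroup R} [hF : F.IsComm] (φ : R →+* S) : (F.map φ).IsComm := by
  constructor
  have h1 := hF.comm
  have h2 : (F.map φ).toPowerSeries = MvPowerSeries.map φ F.toPowerSeries := rfl
  rw [h2]
  conv_lhs => rw [show F.toPowerSeries = MvPowerSeries.subst ![X 1, X 0] F.toPowerSeries from h1]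
  rw [map_subst HasSubst.X_X]
  congr 1
  funext i
  fin_cases i <;> simp

/-- homomorphisms are preserved by base change. -/
theorem IsHom.map {F G : FormalGroup R} {f : PowerSeries R} (hf : IsHom F G f) (φ : R →+* S) :
    IsHom (F.map φ) (G.map φ) (f.map φ) := by
  refine ⟨?_, ?_⟩
  · have h1 := congrArg φ hf.1
    rw [map_zero] at h1
    rw [← h1]
    rfl
  have h0 : ∀ i : Fin 2, HasSubst (fun _ : Unit => (X i : MvPowerSeries (Fin 2) R)) := fun i =>
    hasSubst_of_constantCoeff_zero fun _ => by simp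
  have h1 : ∀ i : Fin 2, MvPowerSeries.map φ
      (PowerSeries.subst (X i : MvPowerSeries (Fin 2) R) f : MvPowerSeries (Fin 2) R) =
      (PowerSeries.subst (X i : MvPowerSeries (Fin 2) S) (f.map φ) : MvPowerSeries (Fin 2) S) := by
    intro i
    have h3 := map_subst (h0 i) (h := φ) f
    rw [show (fun _ : Unit => MvPowerSeries.map φ (X i : MvPowerSeries (Fin 2) R)) =
      (fun _ : Unit => (X i : MvPowerSeries (Fin 2) S)) by funext _; simp] at h3
    exact h3
  have h2 : MvPowerSeries.map φ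
      (PowerSeries.subst F.toPowerSeries f : MvPowerSeries (Fin 2) R) =
      (PowerSeries.subst (F.map φ).toPowerSeries (f.map φ) : MvPowerSeries (Fin 2) S) := by
    exact map_subst (hasSubst_of_constantCoeff_zero (a := fun _ : Unit => F.toPowerSeries)
      fun _ => F.zero_constantCoeff) (h := φ) f
  have hc : ∀ i : Fin 2, constantCoeff
      (PowerSeries.subst (X i : MvPowerSeries (Fin 2) R) f : MvPowerSeries (Fin 2) R) = 0 :=
    fun i => constantCoeff_subst_eq_zero (h0 i) (fun _ => by simp) hf.1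
  rw [← h2, hf.2, map_subst (core_hasSubst_pair _ _ (hc 0) (hc 1))]
  congr 1
  funext i
  fin_cases i
  · exact h1 0
  · exact h1 1

/-- substitution of a homomorphism. -/
theorem IsHom.subst_subst {τ : Type*} {F G : FormalGroup R} {f : PowerSeries R}
    (hf : IsHom F G f) (a b : MvPowerSeries τ R) (ha : constantCoeff a = 0)
    (hb : constantCoeff b = 0) :
    (PowerSeries.subst (MvPowerSeries.subst ![a, b] F.toPowerSeries : MvPowerSeries τ R) f :
      MvPowerSeries τ R) =
      MvPowerSeries.subst ![(PowerSeries.subst a f : MvPowerSeries τ R),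
        (PowerSeries.subst b f : MvPowerSeries τ R)] G.toPowerSeries := by
  have hab := core_hasSubst_pair a b ha hb
  have hX : ∀ i : Fin 2, HasSubst (fun _ : Unit => (X i : MvPowerSeries (Fin 2) R)) := fun i =>
    hasSubst_of_constantCoeff_zero fun _ => by simp
  have hc : ∀ i : Fin 2, constantCoeff
      (PowerSeries.subst (X i : MvPowerSeries (Fin 2) R) f : MvPowerSeries (Fin 2) R) = 0 :=
    fun i => constantCoeff_subst_eq_zero (hX i) (fun _ => by simp) hf.1
  have h1 := congrArg (MvPowerSeries.subst ![a, b]) hf.2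
  have h2 : MvPowerSeries.subst ![a, b]
      (PowerSeries.subst F.toPowerSeries f : MvPowerSeries (Fin 2) R) =
      (PowerSeries.subst (MvPowerSeries.subst ![a, b] F.toPowerSeries : MvPowerSeries τ R) f :
      MvPowerSeries τ R) :=
    subst_comp_subst_apply (hasSubst_of_constantCoeff_zero (a := fun _ : Unit => F.toPowerSeries)
      fun _ => F.zero_constantCoeff) hab f
  rw [← h2, h1, subst_comp_subst_apply (core_hasSubst_pair _ _ (hc 0) (hc 1)) hab]
  congr 1
  funext i
  have h3 : ∀ i : Fin 2, MvPowerSeries.subst ![a, b]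
      (PowerSeries.subst (X i : MvPowerSeries (Fin 2) R) f : MvPowerSeries (Fin 2) R) =
      (PowerSeries.subst ((![a, b] : Fin 2 → MvPowerSeries τ R) i) f : MvPowerSeries τ R) := by
    intro i
    have h4 := subst_comp_subst_apply (hX i) hab f
    refine h4.trans ?_
    congr 1
    funext _
    exact subst_X hab i
  fin_cases i
  · exact h3 0
  · exact h3 1

/-- `f([m]_F(X)) = [m]_G(f(X))`. -/
theorem IsHom.subst_multSeries {F G : FormalGroup R} {f : PowerSeries R}
    (hf : IsHom F G f) (m : ℕ) :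
    (PowerSeries.subst (multSeries F m) f : PowerSeries R) =
      PowerSeries.subst f (multSeries G m) := by
  have hfs : PowerSeries.HasSubst f := PowerSeries.HasSubst.of_constantCoeff_zero' hf.1
  induction m with
  | zero =>
    have h1 : multSeries F 0 = 0 := rfl
    have h2 : multSeries G 0 = 0 := rfl
    rw [h1, h2]
    have h3 : (PowerSeries.subst f (0 : PowerSeries R) : PowerSeries R) = 0 := by
      rw [← PowerSeries.coe_substAlgHom hfs, map_zero]
    rw [h3]
    ext k
    rw [map_zero]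
    have h4 : (0 : PowerSeries R) = MvPowerSeries.C 0 := by simp
    have hz : PowerSeries.HasSubst (0 : PowerSeries R) := PowerSeries.HasSubst.zero
    obtain ⟨g, hg⟩ : ∃ g, f = PowerSeries.X * g := by
      have : PowerSeries.X ∣ f := PowerSeries.X_dvd_iff.2 hf.1
      exact this
    rw [hg, ← PowerSeries.coe_substAlgHom hz, map_mul, PowerSeries.coe_substAlgHom hz,
      PowerSeries.subst_X hz, zero_mul, map_zero]
  | succ m ih =>
    rw [FPt.multSeries_succ, FPt.multSeries_succ]
    have h1 := hf.subst_subst (multSeries F m) (PowerSeries.X : PowerSeries R)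
      (FPt.constantCoeff_multSeries F m) PowerSeries.constantCoeff_X
    rw [h1, ih]
    have h2 : (PowerSeries.subst (PowerSeries.X : PowerSeries R) f : PowerSeries R) = f := by
      exact PowerSeries.X_subst f
    have h3 : (PowerSeries.subst f (MvPowerSeries.subst
        (![multSeries G m, PowerSeries.X] : Fin 2 → PowerSeries R) G.toPowerSeries :
        PowerSeries R) : PowerSeries R) =
        MvPowerSeries.subst ![(PowerSeries.subst f (multSeries G m) : PowerSeries R), f]
          G.toPowerSeries := by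
      have h4 := subst_comp_subst_apply (core_hasSubst_pair (multSeries G m)
        (PowerSeries.X : PowerSeries R) (FPt.constantCoeff_multSeries G m)
        PowerSeries.constantCoeff_X) (hfs.const) G.toPowerSeries
      refine h4.trans ?_
      congr 1
      funext i
      fin_cases i
      · rfl
      · exact PowerSeries.subst_X hfs
    rw [h3]
    congr 1
    funext i
    fin_cases i
    · rfl
    · exact h2

/-- decomposition `f = f_1 X + X^2 g` of a power series without constant term. -/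
theorem core_exists_decomp_two (f : PowerSeries R) (h0 : PowerSeries.constantCoeff f = 0) :
    ∃ g : PowerSeries R, f = PowerSeries.C (PowerSeries.coeff 1 f) * PowerSeries.X +
      PowerSeries.X ^ 2 * g := by
  have h1 : (PowerSeries.X : PowerSeries R) ^ 2 ∣
      f - PowerSeries.C (PowerSeries.coeff 1 f) * PowerSeries.X := by
    rw [PowerSeries.X_pow_dvd_iff]
    intro m hm
    interval_cases m
    · simp only [PowerSeries.coeff_zero_eq_constantCoeff, map_sub, h0, map_mul, PowerSeries.constantCoeff_C, PowerSeries.constantCoeff_X, mul_zero, sub_self]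
    · simp
  obtain ⟨g, hg⟩ := h1
  exact ⟨g, by rw [← hg]; ring⟩

/-- The coefficient of `X^Q` of `f(W)` for `W` divisible by `X^Q`. -/
theorem core_coeff_subst_of_dvd (f W : PowerSeries R) (h0 : PowerSeries.constantCoeff f = 0)
    {Q : ℕ} (hQ : Q ≠ 0) (hW : PowerSeries.X ^ Q ∣ W) :
    PowerSeries.coeff Q (PowerSeries.subst W f : PowerSeries R) =
      PowerSeries.coeff 1 f * PowerSeries.coeff Q W := by
  obtain ⟨g, hg⟩ := core_exists_decomp_two f h0
  obtain ⟨W', hW'⟩ := hW
  have hWs : PowerSeries.HasSubst W := by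
    apply PowerSeries.HasSubst.of_constantCoeff_zero'
    rw [hW', map_mul, map_pow, PowerSeries.constantCoeff_X, zero_pow hQ, zero_mul]
  have h1 : (PowerSeries.subst W f : PowerSeries R) =
      PowerSeries.C (PowerSeries.coeff 1 f) * W + W ^ 2 * PowerSeries.subst W g := by
    conv_lhs => rw [hg]
    rw [← PowerSeries.coe_substAlgHom hWs, map_add, map_mul, map_mul, map_pow,
      PowerSeries.coe_substAlgHom hWs, PowerSeries.subst_X hWs]
    congr 2
    rw [← PowerSeries.coe_substAlgHom hWs]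
    exact (PowerSeries.substAlgHom hWs).commutes _
  rw [h1, map_add, PowerSeries.coeff_C_mul]
  have h2 : PowerSeries.coeff Q (W ^ 2 * PowerSeries.subst W g : PowerSeries R) = 0 := by
    rw [hW', mul_pow, mul_assoc, ← pow_mul]
    rw [PowerSeries.coeff_X_pow_mul']
    rw [if_neg (by omega)]
  rw [h2, add_zero]

theorem core_coeff_pow_self (f : PowerSeries R) (h0 : PowerSeries.constantCoeff f = 0) (Q : ℕ) :
    PowerSeries.coeff Q (f ^ Q) = (PowerSeries.coeff 1 f) ^ Q := by
  obtain ⟨g, rfl⟩ : ∃ g, f = PowerSeries.X * g := PowerSeries.X_dvd_iff.2 h0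
  have h1 : PowerSeries.coeff 1 (PowerSeries.X * g) = PowerSeries.constantCoeff g := by
    simp
  rw [h1, mul_pow]
  have h2 := PowerSeries.coeff_X_pow_mul (g ^ Q) Q 0
  rw [zero_add] at h2
  rw [h2, PowerSeries.coeff_zero_eq_constantCoeff_apply, map_pow]

/-- Comparison of the first coefficients of `V` under a homomorphism. -/
theorem IsHom.coeff_one_rel {F G : FormalGroup R} {f : PowerSeries R} (hf : IsHom F G f)
    {VF VG : PowerSeries R} {Q : ℕ} (hQ : Q ≠ 0) (p : ℕ)
    (h0F : PowerSeries.constantCoeff VF = 0) (h0G : PowerSeries.constantCoeff VG = 0)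
    (hF : multSeries F p = PowerSeries.subst (PowerSeries.X ^ Q : PowerSeries R) VF)
    (hG : multSeries G p = PowerSeries.subst (PowerSeries.X ^ Q : PowerSeries R) VG) :
    PowerSeries.coeff 1 f * PowerSeries.coeff 1 VF =
      PowerSeries.coeff 1 VG * (PowerSeries.coeff 1 f) ^ Q := by
  have hQs : PowerSeries.HasSubst (PowerSeries.X ^ Q : PowerSeries R) := by
    apply PowerSeries.HasSubst.of_constantCoeff_zero'
    rw [map_pow, PowerSeries.constantCoeff_X, zero_pow hQ]
  have hfs : PowerSeries.HasSubst f := PowerSeries.HasSubst.of_constantCoeff_zero' hf.1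
  have h1 := hf.subst_multSeries p
  rw [hF, hG] at h1
  have h2 : (PowerSeries.subst f (PowerSeries.subst (PowerSeries.X ^ Q : PowerSeries R) VG :
      PowerSeries R) : PowerSeries R) = PowerSeries.subst (f ^ Q) VG := by
    rw [PowerSeries.subst_comp_subst_apply hQs hfs]
    congr 1
    rw [← PowerSeries.coe_substAlgHom hfs, map_pow, PowerSeries.coe_substAlgHom hfs,
      PowerSeries.subst_X hfs]
  rw [h2] at h1
  have h3 := congrArg (PowerSeries.coeff Q) h1
  have hdvd : PowerSeries.X ^ Q ∣ (PowerSeries.subst (PowerSeries.X ^ Q : PowerSeries R) VF :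
      PowerSeries R) := by
    obtain ⟨g, hg⟩ : ∃ g, VF = PowerSeries.X * g := PowerSeries.X_dvd_iff.2 h0F
    refine ⟨PowerSeries.subst (PowerSeries.X ^ Q : PowerSeries R) g, ?_⟩
    rw [hg, ← PowerSeries.coe_substAlgHom hQs, map_mul, PowerSeries.coe_substAlgHom hQs,
      PowerSeries.subst_X hQs]
  have hdvd' : PowerSeries.X ^ Q ∣ f ^ Q :=
    pow_dvd_pow_of_dvd (PowerSeries.X_dvd_iff.2 hf.1) Q
  rw [core_coeff_subst_of_dvd f _ hf.1 hQ hdvd, core_coeff_subst_of_dvd VG _ h0G hQ hdvd',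
    core_coeff_pow_self f hf.1] at h3
  rw [← h3]
  congr 1
  have h4 := core_coeff_subst_of_dvd VF (PowerSeries.X ^ Q : PowerSeries R) h0F hQ dvd_rfl
  rw [h4, PowerSeries.coeff_X_pow_self, mul_one]

end HomLemmas

end Vale.Agent.P217
end
end

section

section

/-!
# P217: task T33, expansions along the orbit (versions without `FinalBasis`)
-/

namespace Vale.Agent.P217

open MvPowerSeries Filter Topology

variable {K : Type*} [NontriviallyNormedField K] [IsUltrametricDist K] [CompleteSpace K]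
variable {p : ℕ} [Fact p.Prime] [CharP K p] [IsAlgClosed K]
variable {n h : ℕ} {Γ : FormalGroup (OK K)} [Γ.IsComm]
variable {κ : Type*} [Field κ] [Algebra κ (OK K)]

omit [IsAlgClosed K] in
/-- `z + b = z + θ b + O(b²)` in a formal group, with `θ` depending only on `z`. -/
theorem FPt.exists_theta {F : FormalGroup (OK K)} (z : FPt F) : ∃ θ : OK K, ‖θ - 1‖ < 1 ∧
    ∀ b : FPt F, ‖(z + b).val - z.val - θ * b.val‖ ≤ ‖b.val‖ ^ 2 := by
  obtain ⟨H, hH⟩ := exists_FG_decomp F
  refine ⟨1 + z.val * ev (![z, (0 : FPt F)] : Fin 2 → MK K) H, ?_, fun b => ?_⟩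
  · rw [add_sub_cancel_left, OK_norm_mul]
    exact mul_lt_one_of_nonneg_of_lt_one_left (norm_nonneg _) z.norm_val_lt (norm_le_one _)
  · rw [FPt.val_add, FPt.ev_FG_eq hH]
    change ‖z.val + b.val + z.val * b.val * ev (![z, b] : Fin 2 → MK K) H - z.val -
      (1 + z.val * ev (![z, (0 : FPt F)] : Fin 2 → MK K) H) * b.val‖ ≤ _
    rw [show z.val + b.val + z.val * b.val * ev (![z, b] : Fin 2 → MK K) H - z.val -
      (1 + z.val * ev (![z, (0 : FPt F)] : Fin 2 → MK K) H) * b.val =
      z.val * (b.val * (ev (![z, b] : Fin 2 → MK K) H -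
        ev (![z, (0 : FPt F)] : Fin 2 → MK K) H)) by ring, OK_norm_mul, OK_norm_mul]
    have h1 : ‖ev (![z, b] : Fin 2 → MK K) H - ev (![z, (0 : FPt F)] : Fin 2 → MK K) H‖ ≤
        ‖b.val‖ := by
      apply norm_ev_sub_le _ _ _ _ (norm_nonneg _)
      intro i
      fin_cases i
      · show ‖z.val - z.val‖ ≤ _
        rw [sub_self, norm_zero]
        exact norm_nonneg _
      · show ‖b.val - (0 : FPt F).val‖ ≤ _
        rw [FPt.val_zero, sub_zero]
    calc ‖z.val‖ * (‖b.val‖ * ‖ev (![z, b] : Fin 2 → MK K) H -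
          ev (![z, (0 : FPt F)] : Fin 2 → MK K) H‖)
        ≤ 1 * (‖b.val‖ * ‖b.val‖) :=
          mul_le_mul (norm_le_one _) (mul_le_mul_of_nonneg_left h1 (norm_nonneg _))
            (by (clear hH h1; positivity)) zero_le_one
      _ = ‖b.val‖ ^ 2 := by ring

omit [CompleteSpace K] [Γ.IsComm] in
theorem powPt_divp (ω : OK K) (l N : ℕ) (Y : FPt Γ) :
    powPt p ω (l + n * N) (divp p n N Y) = powPt p ω l Y := by
  apply FPt.ext
  show ω * (rt p (n * N) Y.val) ^ (p ^ (l + n * N)) = ω * Y.val ^ (p ^ l)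
  rw [add_comm l, pow_add p (n * N), pow_mul, rt_pow]

omit [Fact p.Prime] in
theorem pow_pow_eq {ω : κ} (hω : ω ^ (p ^ n) = ω) (N : ℕ) : ω ^ (p ^ (n * N)) = ω := by
  induction N with
  | zero => simp
  | succ N ih => rw [Nat.mul_succ, pow_add, pow_mul, ih, hω]

theorem LocalFG.pow_smul_powPt (D : LocalFG p n h Γ) {ω : κ} (hω : ω ^ (p ^ n) = ω) (l N : ℕ)
    (Y : FPt Γ) : p ^ N • powPt p (algebraMap κ (OK K) ω) l Y =
      powPt p (algebraMap κ (OK K) ω) (l + n * N) Y := by
  apply FPt.ext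
  rw [D.val_pow_smul]
  show (algebraMap κ (OK K) ω * Y.val ^ (p ^ l)) ^ (p ^ (n * N)) =
    algebraMap κ (OK K) ω * Y.val ^ (p ^ (l + n * N))
  rw [mul_pow, ← map_pow, pow_pow_eq hω, ← pow_mul, ← pow_add]

omit [Γ.IsComm] in
theorem LocalFG.norm_pow_smul_le (D : LocalFG p n h Γ) (N : ℕ) (a : FPt D.F) :
    ‖(p ^ N • a).val‖ ≤ ‖a.val‖ ^ (p ^ (h * N)) := by
  have h1 := D.norm_pow_smul_sub_le N a 0
  rwa [smul_zero, FPt.val_zero, sub_zero, sub_zero] at h1

namespace FinalData

variable (A : FinalData p n h Γ κ)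

/-- The basic comparison. -/
theorem tau_close (N : ℕ) (Y : FPt Γ) (ω : κ) (hω : ω ^ (p ^ n) = ω) (l : ℕ)
    (hl : 1 ≤ l + n * N) :
    ‖(A.τ ω (l + n * N) (A.D.E (divp p n N Y))).val -
      (A.D.E (divp p n N Y) + A.D.E (powPt p (algebraMap κ (OK K) ω) l Y)).val‖ ≤
      A.δ ω (l + n * N) := by
  rw [A.τE ω hω _ hl, powPt_divp, ← map_add]
  exact A.D.norm_E_sub_E_le _ _ (A.δ_nonneg ω hω _ hl) (A.close ω hω _ hl) _

theorem tau_sub_le (N : ℕ) (Y : FPt Γ) (ω : κ) (hω : ω ^ (p ^ n) = ω) (l : ℕ)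
    (hl : 1 ≤ l + n * N) :
    ‖(A.τ ω (l + n * N) (A.D.E (divp p n N Y))).val - (A.D.E (divp p n N Y)).val‖ ≤
      max (‖(A.D.E (powPt p (algebraMap κ (OK K) ω) l Y)).val‖) (A.δ ω (l + n * N)) := by
  have h1 := A.tau_close N Y ω hω l hl
  have h2 := FPt.norm_val_add_sub_right (A.D.E (powPt p (algebraMap κ (OK K) ω) l Y))
    (A.D.E (divp p n N Y))
  rw [add_comm] at h2
  have h3 : (A.τ ω (l + n * N) (A.D.E (divp p n N Y))).val - (A.D.E (divp p n N Y)).val =
      ((A.D.E (divp p n N Y) + A.D.E (powPt p (algebraMap κ (OK K) ω) l Y)).val -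
        (A.D.E (divp p n N Y)).val) +
      ((A.τ ω (l + n * N) (A.D.E (divp p n N Y))).val -
      (A.D.E (divp p n N Y) + A.D.E (powPt p (algebraMap κ (OK K) ω) l Y)).val) := by ring
  rw [h3]
  exact (OK_norm_add_le _ _).trans (max_le_max h2.le h1)

/-- (F1), without the hypothesis `Y ∈ Λ`. -/
theorem norm_tau_sub_le' (N : ℕ) (Y : FPt Γ) : ∃ θ : OK K, ‖θ - 1‖ < 1 ∧
    ∀ ω : κ, ω ^ (p ^ n) = ω → ∀ l : ℕ, 1 ≤ l + n * N →
      ‖(A.τ ω (l + n * N) (A.D.E (divp p n N Y))).val - (A.D.E (divp p n N Y)).val -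
        θ * (A.D.E (powPt p (algebraMap κ (OK K) ω) l Y)).val‖ ≤
      max (‖(A.D.E (powPt p (algebraMap κ (OK K) ω) l Y)).val‖ ^ 2) (A.δ ω (l + n * N)) := by
  obtain ⟨θ, hθ, hθ'⟩ := FPt.exists_theta (A.D.E (divp p n N Y))
  refine ⟨θ, hθ, fun ω hω l hl => ?_⟩
  have h1 := A.tau_close N Y ω hω l hl
  have h2 := hθ' (A.D.E (powPt p (algebraMap κ (OK K) ω) l Y))
  have h3 : (A.τ ω (l + n * N) (A.D.E (divp p n N Y))).val - (A.D.E (divp p n N Y)).val -
        θ * (A.D.E (powPt p (algebraMap κ (OK K) ω) l Y)).val =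
      ((A.D.E (divp p n N Y) + A.D.E (powPt p (algebraMap κ (OK K) ω) l Y)).val -
        (A.D.E (divp p n N Y)).val - θ * (A.D.E (powPt p (algebraMap κ (OK K) ω) l Y)).val) +
      ((A.τ ω (l + n * N) (A.D.E (divp p n N Y))).val -
      (A.D.E (divp p n N Y) + A.D.E (powPt p (algebraMap κ (OK K) ω) l Y)).val) := by ring
  rw [h3]
  exact (OK_norm_add_le _ _).trans (max_le_max h2 h1)

/-- (F2), for any lifts `X` of the level structure. -/
theorem delta_le' (X : Fin (n - h) → FPt Γ) (hX : ∀ j, A.D.E (divp p n 1 (X j)) = A.x j)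
    (N : ℕ) (hN : 1 ≤ N) (ω : κ) (hω : ω ^ (p ^ n) = ω) (l : ℕ)
    (b : ℝ) (hb : 0 ≤ b)
    (hj : ∀ j, ‖(A.D.E (powPt p (algebraMap κ (OK K) ω) l (X j))).val‖ ≤ b) :
    A.δ ω (l + n * N) ≤ b ^ (p ^ (h * N)) := by
  have hp : p.Prime := Fact.out
  have hn : 1 ≤ n := A.D.one_le_h.trans A.D.h_lt_n.le
  obtain ⟨M, rfl⟩ : ∃ M, N = M + 1 := ⟨N - 1, by omega⟩
  have hnN : 1 ≤ n * (M + 1) := Nat.mul_pos hn (Nat.succ_pos M)
  have hl : 1 ≤ l + n * (M + 1) := by omega
  set δ := A.δ ω (l + n * (M + 1)) with hδ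
  have hδ0 : 0 ≤ δ := A.δ_nonneg ω hω _ hl
  have hδ1 : δ < 1 := A.δ_lt_one ω hω _ hl
  set c := b ^ (p ^ (h * M)) with hc
  have hc0 : 0 ≤ c := pow_nonneg hb _
  have hQ : p ^ h ≠ 0 := pow_ne_zero _ hp.ne_zero
  -- the step
  have hstep : δ ≤ (max c δ) ^ (p ^ h) := by
    apply A.δ_le ω hω _ hl _ (by (clear * - hb; positivity))
    intro j
    rw [← sub_pow_char_pow, OK_norm_pow]
    apply pow_le_pow_left₀ (norm_nonneg _)
    have h1 := A.tau_sub_le 1 (X j) ω hω (l + n * M) (by rw [mul_one, add_assoc, ← Nat.mul_succ]; exact hl)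
    have h2 : l + n * M + n * 1 = l + n * (M + 1) := by rw [mul_one, add_assoc, ← Nat.mul_succ]
    rw [h2, hX j] at h1
    refine h1.trans (max_le_max ?_ le_rfl)
    rw [← A.D.pow_smul_powPt hω, map_nsmul]
    exact (A.D.norm_pow_smul_le M _).trans (pow_le_pow_left₀ (norm_nonneg _) (hj j) _)
  have hle : δ ≤ c := by
    by_contra hlt
    push Not at hlt
    rw [max_eq_right hlt.le] at hstep
    have hδpos : 0 < δ := hc0.trans_lt hlt
    have hQ1 : 1 < p ^ h := Nat.one_lt_pow (by have := A.D.one_le_h; omega) hp.one_lt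
    have h3 : δ ^ (p ^ h) < δ ^ 1 := pow_lt_pow_right_of_lt_one₀ hδpos hδ1 hQ1
    rw [pow_one] at h3
    linarith only [hstep, h3]
  rw [max_eq_left hle] at hstep
  refine hstep.trans (le_of_eq ?_)
  rw [hc, ← pow_mul, ← pow_add, Nat.mul_succ]

omit [Γ.IsComm] in
theorem norm_powPt_le {Γ : FormalGroup (OK K)} (ω : OK K) (l : ℕ) (Y : FPt Γ) :
    ‖(powPt p ω l Y).val‖ ≤ ‖Y.val‖ ^ (p ^ l) := by
  rw [val_powPt, OK_norm_mul, OK_norm_pow]
  exact mul_le_of_le_one_left (by positivity) (norm_le_one ω)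

omit [Γ.IsComm] in
theorem norm_powPt_one {Γ : FormalGroup (OK K)} (l : ℕ) (Y : FPt Γ) :
    ‖(powPt p (1 : OK K) l Y).val‖ = ‖Y.val‖ ^ (p ^ l) := by
  rw [val_powPt, one_mul, OK_norm_pow]

omit [Γ.IsComm] in
theorem powPt_one_ne_zero {Γ : FormalGroup (OK K)} (l : ℕ) {Y : FPt Γ} (hY : Y ≠ 0) :
    powPt p (1 : OK K) l Y ≠ 0 := by
  intro h0
  have h1 := congrArg FPt.val h0
  rw [val_powPt, one_mul, FPt.val_zero] at h1
  exact hY (FPt.ext (pow_eq_zero_iff (pow_ne_zero _ (Fact.out : p.Prime).ne_zero) |>.1 h1))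

/-- (F2') at a non-break, for any lifts of the level structure. -/
theorem delta_le_Al' (X : Fin (n - h) → FPt Γ) (hX : ∀ j, A.D.E (divp p n 1 (X j)) = A.x j)
    (X0 : FPt Γ) (hX0 : X0 ≠ 0) (hle : ∀ j, ‖(X j).val‖ ≤ ‖X0.val‖)
    (N : ℕ) (hN : 1 ≤ N) (ω : κ) (hω : ω ^ (p ^ n) = ω) (l : ℕ)
    (hl : A.D.NonBreak (‖X0.val‖ ^ (p ^ l))) :
    A.δ ω (l + n * N) ≤ ‖(A.D.E (powPt p 1 l X0)).val‖ ^ (p ^ (h * N)) := by
  apply A.delta_le' X hX N hN ω hω l _ (norm_nonneg _)
  intro j
  apply (A.D.norm_E_le_of_nonBreak (powPt p 1 l X0) _ (powPt_one_ne_zero l hX0) ?_ ?_).2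
  · rw [norm_powPt_one]
    exact hl
  · rw [norm_powPt_one]
    exact (norm_powPt_le _ _ _).trans (pow_le_pow_left₀ (norm_nonneg _) (hle j) _)

end FinalData

end Vale.Agent.P217
end
end

section

section

/-!
# P217: existence of bases adapted to the final argument
-/

namespace Vale.Agent.P217

open MvPowerSeries Filter Topology

section Residue

variable {K : Type*} [NontriviallyNormedField K] [IsUltrametricDist K]

/-- A subfamily whose residues form a basis of the `𝔽_p`-span of the residues of a family. -/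
theorem exists_residue_basis {p : ℕ} [Fact p.Prime] [CharP K p] {m : ℕ} (η : Fin m → K) :
    ∃ (S : Finset (Fin m)) (γ : Fin m → Fin m → ℤ),
      (∀ c : Fin m → ℤ, ‖∑ u ∈ S, (c u : K) * η u‖ < 1 → ∀ u ∈ S, (p : ℤ) ∣ c u) ∧
      (∀ u ∈ S, ∀ u', γ u u' = if u' = u then 1 else 0) ∧
      (∀ j, ∀ u, u ∉ S → γ j u = 0) ∧
      (∀ j, ‖η j - ∑ u ∈ S, (γ j u : K) * η u‖ < 1) := by
  classical
  have hp : p.Prime := Fact.out
  let P : Finset (Fin m) → Prop := fun S =>
    ∀ c : Fin m → ℤ, ‖∑ u ∈ S, (c u : K) * η u‖ < 1 → ∀ u ∈ S, (p : ℤ) ∣ c u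
  have hne : ((Finset.univ : Finset (Finset (Fin m))).filter P).Nonempty := by
    refine ⟨∅, ?_⟩
    rw [Finset.mem_filter]
    refine ⟨Finset.mem_univ _, ?_⟩
    intro c _ u hu
    simp at hu
  obtain ⟨S, hS, hmax⟩ := Finset.exists_max_image _ Finset.card hne
  rw [Finset.mem_filter] at hS
  have hPS : P S := hS.2
  have key : ∀ j, j ∉ S → ∃ g : Fin m → ℤ, ‖η j - ∑ u ∈ S, (g u : K) * η u‖ < 1 := by
    intro j hj
    have h1 : ¬ P (insert j S) := by
      intro h2
      have h3 := hmax (insert j S) (by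
        rw [Finset.mem_filter]
        exact ⟨Finset.mem_univ _, h2⟩)
      rw [Finset.card_insert_of_notMem hj] at h3
      omega
    obtain ⟨c, hc, u0, hu0, hcu0⟩ : ∃ c : Fin m → ℤ,
        ‖∑ u ∈ insert j S, (c u : K) * η u‖ < 1 ∧ ∃ u ∈ insert j S, ¬ (p : ℤ) ∣ c u := by
      by_contra hcon
      push Not at hcon
      exact h1 hcon
    have hcj : ¬ (p : ℤ) ∣ c j := by
      intro hdvd
      have h2 : (c j : K) = 0 := (CharP.intCast_eq_zero_iff K p (c j)).2 hdvd
      rw [Finset.sum_insert hj, h2, zero_mul, zero_add] at hc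
      rw [Finset.mem_insert] at hu0
      rcases hu0 with rfl | hu0
      · exact hcu0 hdvd
      · exact hcu0 (hPS c hc u0 hu0)
    have hcj' : (c j : K) ≠ 0 := fun h2 => hcj ((CharP.intCast_eq_zero_iff K p (c j)).1 h2)
    -- an inverse of `-c j` modulo `p`
    have hcop : IsCoprime (c j) (p : ℤ) := by
      rw [isCoprime_comm]
      exact (Prime.coprime_iff_not_dvd (Nat.prime_iff_prime_int.1 hp)).2 hcj
    obtain ⟨a, b, hab⟩ := hcop
    have h3 : (a : K) * (c j : K) = 1 := by
      have h4 := congrArg (fun t : ℤ => (t : K)) hab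
      simp only [Int.cast_add, Int.cast_mul, Int.cast_natCast, CharP.cast_eq_zero, mul_zero,
        add_zero, Int.cast_one] at h4
      exact h4
    refine ⟨fun u => -a * c u, ?_⟩
    have h5 : η j - ∑ u ∈ S, ((-a * c u : ℤ) : K) * η u =
        (a : K) * ∑ u ∈ insert j S, (c u : K) * η u := by
      rw [Finset.sum_insert hj, mul_add, ← mul_assoc, h3, one_mul, Finset.mul_sum, sub_eq_add_neg,
        ← Finset.sum_neg_distrib]
      congr 1
      refine Finset.sum_congr rfl fun u _ => ?_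
      push_cast
      ring
    rw [h5, norm_mul]
    exact lt_of_le_of_lt (mul_le_of_le_one_left (norm_nonneg _)
      (IsUltrametricDist.norm_intCast_le_one K a)) hc
  choose g hg using key
  refine ⟨S, fun j u => if hj : j ∈ S then (if u = j then 1 else 0) else
    (if u ∈ S then g j hj u else 0), hPS, ?_, ?_, ?_⟩
  · intro u hu u'
    simp only [dif_pos hu]
  · intro j u hu
    by_cases hj : j ∈ S
    · simp only [dif_pos hj]
      rw [if_neg]
      rintro rfl
      exact hu hj
    · simp only [dif_neg hj, if_neg hu]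
  · intro j
    by_cases hj : j ∈ S
    · simp only [dif_pos hj]
      have h1 : ∑ u ∈ S, (((if u = j then 1 else 0 : ℤ)) : K) * η u = η j := by
        rw [Finset.sum_eq_single j]
        · simp
        · intro u _ huj
          simp [huj]
        · intro h2
          exact absurd hj h2
      rw [h1]
      simp only [sub_self, norm_zero, zero_lt_one]
    · simp only [dif_neg hj]
      have h1 : ∑ u ∈ S, (((if u ∈ S then g j hj u else 0 : ℤ)) : K) * η u =
          ∑ u ∈ S, (g j hj u : K) * η u := by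
        refine Finset.sum_congr rfl fun u hu => ?_
        rw [if_pos hu]
      rw [h1]
      exact hg j hj

end Residue

variable {K : Type*} [NontriviallyNormedField K] [IsUltrametricDist K] [CompleteSpace K]
variable {p : ℕ} [Fact p.Prime] [CharP K p] [IsAlgClosed K]
variable {n h : ℕ} {Γ : FormalGroup (OK K)}

/-- A level structure generates the `p`-torsion. -/
theorem IsLevel.exists_sum {D : LocalFG p n h Γ} {x : Fin (n - h) → FPt D.F} (hx : IsLevel D x)
    (z : FPt D.F) (hz : p • z = 0) : ∃ c : Fin (n - h) → ℤ, z = ∑ j, c j • x j := by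
  classical
  have hp : p.Prime := Fact.out
  obtain ⟨T, hT, hTc, -⟩ := D.exists_ptorsion
  let φ : (Fin (n - h) → Fin p) → FPt D.F := fun c => ∑ j, ((c j : ℕ) : ℤ) • x j
  have hφ : Function.Injective φ := by
    intro c c' hcc
    have h1 : ∑ j, (((c j : ℕ) : ℤ) - ((c' j : ℕ) : ℤ)) • x j = 0 := by
      simp only [sub_smul, Finset.sum_sub_distrib]
      exact sub_eq_zero.2 hcc
    have h2 := hx.indep _ h1
    funext j
    have h3 := h2 j
    have h4 := (c j).2
    have h5 := (c' j).2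
    apply Fin.ext
    have h6 : (((c j : ℕ) : ℤ) - ((c' j : ℕ) : ℤ)) = 0 := by
      apply Int.eq_zero_of_abs_lt_dvd h3
      rw [abs_lt]
      constructor <;> omega
    omega
  have himg : Finset.univ.image φ ⊆ T := by
    intro y hy
    rw [Finset.mem_image] at hy
    obtain ⟨c, -, rfl⟩ := hy
    rw [hT]
    show p • ∑ j, ((c j : ℕ) : ℤ) • x j = 0
    rw [Finset.smul_sum]
    refine Finset.sum_eq_zero fun j _ => ?_
    rw [smul_comm, hx.tors, smul_zero]
  have hcard : T.card ≤ (Finset.univ.image φ).card := by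
    rw [Finset.card_image_of_injective _ hφ, hTc, Finset.card_univ, Fintype.card_fun,
      Fintype.card_fin, Fintype.card_fin]
  have heq := Finset.eq_of_subset_of_card_le himg hcard
  have hz' : z ∈ T := (hT z).2 hz
  rw [← heq, Finset.mem_image] at hz'
  obtain ⟨c, -, hc⟩ := hz'
  exact ⟨fun j => ((c j : ℕ) : ℤ), hc.symm⟩

omit [Fact p.Prime] [CharP K p] [IsAlgClosed K] in
theorem FPt.norm_val_sum_lt {F : FormalGroup (OK K)} [F.IsComm] {ι : Type*} (s : Finset ι)
    (f : ι → FPt F) {r : ℝ} (hr : 0 < r) (hf : ∀ i ∈ s, ‖(f i).val‖ < r) :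
    ‖(∑ i ∈ s, f i).val‖ < r := by
  classical
  induction s using Finset.induction_on with
  | empty => simpa only [Finset.sum_empty, val_zero, norm_zero] using hr
  | insert a s ha ih =>
    rw [Finset.sum_insert ha]
    exact (FPt.norm_val_add_le _ _).trans_lt (max_lt (hf a (Finset.mem_insert_self a s))
      (ih fun i hi => hf i (Finset.mem_insert_of_mem hi)))

variable [Γ.IsComm]

/-- The maximal norm on `Λ` is attained at one of the lifts of a level structure. -/
theorem exists_max_lift (D : LocalFG p n h Γ) (x : Fin (n - h) → FPt D.F) (hx : IsLevel D x)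
    (X : Fin (n - h) → FPt Γ)
    (hXE : ∀ j, D.E (divp p n 1 (X j)) = x j) :
    ∃ j0, X j0 ≠ 0 ∧ ∀ Y ∈ D.Lam, ‖Y.val‖ ≤ ‖(X j0).val‖ := by
  classical
  have hp : p.Prime := Fact.out
  obtain ⟨Y0, hY0, hY0ne, hmax⟩ := D.exists_max_norm
  have hpos : 0 < ‖Y0.val‖ := by
    rw [norm_pos_iff]
    intro h0
    exact hY0ne (FPt.ext h0)
  have hn : 0 < n := lt_of_le_of_lt (Nat.zero_le _) D.h_lt_n
  have h1 : p • D.E (divp p n 1 Y0) = 0 := by
    have := D.pow_smul_E_divp 1 Y0
    rw [pow_one] at this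
    rw [this]
    exact D.mem_Lam.1 hY0
  obtain ⟨c, hc⟩ := hx.exists_sum _ h1
  have hdz : ∀ (a : ℤ) (Y : FPt Γ), D.E (divp p n 1 (a • Y)) = a • D.E (divp p n 1 Y) := by
    intro a Y
    rw [← D.ltcHom_apply, ← D.ltcHom_apply, map_zsmul]
  have h2 : D.E (divp p n 1 (Y0 - ∑ j, c j • X j)) = 0 := by
    rw [← D.ltcHom_apply, map_sub, map_sum]
    simp only [D.ltcHom_apply]
    rw [hc, sub_eq_zero]
    refine Finset.sum_congr rfl fun j _ => ?_
    rw [hdz, hXE]
  obtain ⟨Y', hY', hYY'⟩ := (D.E_divp_eq_zero_iff 1 _).1 h2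
  rw [pow_one] at hYY'
  by_contra hcon
  push Not at hcon
  have h3 : ∀ j, ‖(X j).val‖ < ‖Y0.val‖ := by
    intro j
    by_cases hj : X j = 0
    · rw [hj]
      simpa only [FPt.val_zero, norm_zero, AddSubgroupClass.coe_norm, norm_pos_iff, ne_eq,     ZeroMemClass.coe_eq_zero] using hpos
    · obtain ⟨Y, hY, hlt⟩ := hcon j hj
      exact hlt.trans_le (hmax Y hY)
  have h4 : Y0 = p • Y' + ∑ j, c j • X j := by
    rw [← hYY', sub_add_cancel]
  have h5 : ‖(p • Y').val‖ < ‖Y0.val‖ := by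
    rw [D.val_p_smul_Gam, OK_norm_pow]
    rcases (norm_nonneg Y'.val).lt_or_eq with h6 | h6
    · refine lt_of_lt_of_le ?_ (hmax Y' hY')
      exact pow_lt_self_of_lt_one₀ h6 Y'.norm_val_lt (Nat.one_lt_pow hn.ne' hp.one_lt)
    · rw [← h6, zero_pow (pow_ne_zero _ hp.ne_zero)]
      exact hpos
  have h6 : ‖(∑ j, c j • X j).val‖ < ‖Y0.val‖ :=
    FPt.norm_val_sum_lt _ _ hpos fun j _ => (FPt.norm_val_zsmul_le _ _).trans_lt (h3 j)
  have h7 : ‖Y0.val‖ < ‖Y0.val‖ := by
    conv_lhs => rw [h4]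
    exact (FPt.norm_val_add_le _ _).trans_lt (max_lt h5 h6)
  exact lt_irrefl _ h7

/-- Near the maximal norm, `x_j / C` is the `q`-th root of `X_j / X_{j0}` modulo elements of norm
`< 1`, up to a Frobenius power. -/
theorem exists_const_level (D : LocalFG p n h Γ) {m : ℕ} (X : Fin m → FPt Γ) (j0 : Fin m)
    (h0 : X j0 ≠ 0) (hXle : ∀ j, ‖(X j).val‖ ≤ ‖(X j0).val‖)
    (hmax : ∀ Y ∈ D.Lam, ‖Y.val‖ ≤ ‖(X j0).val‖) :
    ∃ (C : K) (s : ℕ), C ≠ 0 ∧ ‖(D.E (divp p n 1 (X j0))).val‖ = ‖C‖ ∧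
      ∀ j, ‖(((D.E (divp p n 1 (X j))).val : K) / C) ^ (p ^ (n + s)) -
        ((X j).val : K) / ((X j0).val : K)‖ < 1 := by
  have hp : p.Prime := Fact.out
  have hn : 0 < n := lt_of_le_of_lt (Nat.zero_le _) D.h_lt_n
  have hpos : 0 < ‖(X j0).val‖ := by
    rw [norm_pos_iff]
    intro h1
    exact h0 (FPt.ext h1)
  have hdv : ∀ j, (divp p n 1 (X j)).val ^ (p ^ n) = (X j).val := by
    intro j
    have h1 := D.pow_smul_divp 1 (X j)
    rw [pow_one] at h1
    rw [← D.val_p_smul_Gam, h1]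
  have hdn : ∀ j, ‖(divp p n 1 (X j)).val‖ ^ (p ^ n) = ‖(X j).val‖ := by
    intro j
    rw [← OK_norm_pow, hdv]
  have hY0 : divp p n 1 (X j0) ≠ 0 := by
    intro h1
    have h2 := hdn j0
    rw [h1, FPt.val_zero, norm_zero, zero_pow (pow_ne_zero _ hp.ne_zero)] at h2
    exact hpos.ne h2
  have hY0pos : 0 < ‖(divp p n 1 (X j0)).val‖ := by
    rw [norm_pos_iff]
    intro h1
    exact hY0 (FPt.ext h1)
  have hb : D.NonBreak ‖(divp p n 1 (X j0)).val‖ := by
    intro Y hY hYn
    have h1 := hmax Y hY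
    rw [hYn, ← hdn j0] at h1
    have h2 := pow_lt_self_of_lt_one₀ hY0pos (divp p n 1 (X j0)).norm_val_lt
      (Nat.one_lt_pow hn.ne' hp.one_lt)
    exact absurd h1 (not_le.2 h2)
  obtain ⟨C, hC, hE⟩ := D.exists_const_of_nonBreak _ hY0 hb
  set s := D.sig ‖(divp p n 1 (X j0)).val‖ with hs
  have hCpos : 0 < ‖C‖ := norm_pos_iff.2 hC
  have hYne : ((divp p n 1 (X j0)).val : K) ≠ 0 := norm_pos_iff.1 hY0pos
  refine ⟨C, s, hC, ?_, ?_⟩
  · have h1 := hE _ le_rfl
    rw [div_self hYne] at h1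
    have h2 : ‖(((D.E (divp p n 1 (X j0))).val : K) / C) ^ (p ^ s)‖ = 1 := by
      have h3 : (((D.E (divp p n 1 (X j0))).val : K) / C) ^ (p ^ s) =
        ((((D.E (divp p n 1 (X j0))).val : K) / C) ^ (p ^ s) - 1) + 1 := by ring
      rw [h3, IsUltrametricDist.norm_add_eq_max_of_norm_ne_norm (by rw [norm_one]; exact h1.ne),
        norm_one, max_eq_right h1.le]
    rw [norm_pow, norm_div] at h2
    have h5 := (pow_eq_one_iff_of_nonneg (by (clear h0 hXle hmax hp hn hpos hdv hdn hY0 hY0pos hb s hE hs hCpos hYne h1 h2; positivity)) (pow_ne_zero _ hp.ne_zero)).1 h2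
    exact (div_eq_one_iff_eq hCpos.ne').1 h5
  · intro j
    have h1 : ‖(divp p n 1 (X j)).val‖ ≤ ‖(divp p n 1 (X j0)).val‖ := by
      have h2 := hXle j
      rw [← hdn, ← hdn] at h2
      exact le_of_pow_le_pow_left₀ (pow_ne_zero _ hp.ne_zero) (norm_nonneg _) h2
    have h2 := hE _ h1
    have h3 : ((X j).val : K) / ((X j0).val : K) =
        (((divp p n 1 (X j)).val : K) / ((divp p n 1 (X j0)).val : K)) ^ (p ^ n) := by
      rw [div_pow, ← hdv j, ← hdv j0]
      push_cast
      rfl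
    rw [h3, add_comm n s, pow_add, pow_mul, ← sub_pow_char_pow, norm_pow]
    exact pow_lt_one₀ (norm_nonneg _) h2 (pow_ne_zero _ hp.ne_zero)

omit [CompleteSpace K] [CharP K p] [IsAlgClosed K] [Fact p.Prime] in
/-- a finite sum of elements of norm `< r` has norm `< r`. -/
theorem norm_fsum_lt {ι : Type*} (s : Finset ι) (f : ι → K) {r : ℝ} (hr : 0 < r)
    (hf : ∀ i ∈ s, ‖f i‖ < r) : ‖∑ i ∈ s, f i‖ < r := by
  classical
  induction s using Finset.induction_on with
  | empty => simpa using hr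
  | insert a s ha ih =>
    rw [Finset.sum_insert ha]
    exact (IsUltrametricDist.norm_add_le_max _ _).trans_lt
      (max_lt (hf a (Finset.mem_insert_self a s))
        (ih fun i hi => hf i (Finset.mem_insert_of_mem hi)))

variable {κ : Type*} [Field κ] [Algebra κ (OK K)]

omit [CompleteSpace K] [IsAlgClosed K] in
/-- a power of a sum, in characteristic `p`, modulo elements of norm `< 1`. -/
theorem norm_sum_lt_one_of_pow {m : ℕ} (b w η : Fin m → K) (M N : ℕ) (hb : ∀ j, ‖b j‖ ≤ 1)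
    (hw : ∀ j, ‖(w j) ^ (p ^ (M + N)) - η j‖ < 1)
    (hs : ‖∑ j, b j ^ (p ^ N) * η j‖ < 1) : ‖∑ j, b j * (w j) ^ (p ^ M)‖ < 1 := by
  have hp : p.Prime := Fact.out
  have h1 : (∑ j, b j * (w j) ^ (p ^ M)) ^ (p ^ N) = ∑ j, b j ^ (p ^ N) * η j +
      ∑ j, b j ^ (p ^ N) * ((w j) ^ (p ^ (M + N)) - η j) := by
    rw [sum_pow_char_pow, ← Finset.sum_add_distrib]
    refine Finset.sum_congr rfl fun j _ => ?_
    rw [mul_pow, ← pow_mul, ← pow_add]
    ring
  have h2 : ‖(∑ j, b j * (w j) ^ (p ^ M)) ^ (p ^ N)‖ < 1 := by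
    rw [h1]
    refine (IsUltrametricDist.norm_add_le_max _ _).trans_lt (max_lt hs ?_)
    refine norm_fsum_lt _ _ one_pos fun j _ => ?_
    rw [norm_mul, norm_pow]
    exact lt_of_le_of_lt (mul_le_of_le_one_left (norm_nonneg _)
      (pow_le_one₀ (norm_nonneg _) (hb j))) (hw j)
  rw [norm_pow] at h2
  exact (pow_lt_one_iff_of_nonneg (norm_nonneg _) (pow_ne_zero _ hp.ne_zero)).1 h2

/-- the rank condition. -/
theorem rank_of_generic [CharP κ p] (A : FinalData p n h Γ κ)
    (Y : Fin (n - h) → FPt Γ) (hYE : ∀ j, A.D.E (divp p n 1 (Y j)) = A.x j) (j0 : Fin (n - h))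
    (h0 : Y j0 ≠ 0) (hYle : ∀ j, ‖(Y j).val‖ ≤ ‖(Y j0).val‖)
    (hmax : ∀ Z ∈ A.D.Lam, ‖Z.val‖ ≤ ‖(Y j0).val‖) (S : Finset (Fin (n - h)))
    (γ : Fin (n - h) → Fin (n - h) → ℤ)
    (hγ : ∀ j, ‖((Y j).val : K) / ((Y j0).val : K) -
      ∑ u ∈ S, (γ j u : K) * (((Y u).val : K) / ((Y j0).val : K))‖ < 1)
    (c : Fin A.d → κ) (hc : ∀ u ∈ S, ∑ i, c i * ∑ j, A.B i j * (γ j u : κ) = 0) : c = 0 := by
  classical
  have hp : p.Prime := Fact.out
  by_contra hne
  obtain ⟨i0, hi0⟩ : ∃ i0, c i0 ≠ 0 := by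
    by_contra hcon
    push Not at hcon
    exact hne (funext hcon)
  obtain ⟨C0, s, hC, hCn, hE⟩ := exists_const_level A.D Y j0 h0 hYle hmax
  have hhn : h ≤ n := A.D.h_lt_n.le
  -- the linear form
  set f : MvPowerSeries (Fin A.d) κ := ∑ i, C (c i) * X i with hf
  have hcoef : coeff (Finsupp.single i0 1) f = c i0 := by
    rw [hf, map_sum, Finset.sum_eq_single i0]
    · rw [coeff_C_mul, coeff_index_single_self_X, mul_one]
    · intro i _ hi
      rw [coeff_C_mul, coeff_index_single_X, if_neg (Ne.symm hi), mul_zero]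
    · intro h1
      exact absurd (Finset.mem_univ _) h1
  have hf0 : f ≠ 0 := by
    intro h1
    rw [h1, map_zero] at hcoef
    exact hi0 hcoef.symm
  have hord : f.order.toNat ≤ 1 := by
    have h1 : f.order ≤ ((Finsupp.single i0 1 : Fin A.d →₀ ℕ).degree : ℕ) :=
      order_le (by rw [hcoef]; exact hi0)
    rw [Finsupp.degree_single] at h1
    exact ENat.toNat_le_of_le_natCast h1
  have hgen := A.generic f hf0
  have hge : A.ρ ≤ ‖evk κ (linPt A.B (ypt (p := p) h A.x)) f‖ := by
    rw [hgen]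
    calc A.ρ = A.ρ ^ 1 := (pow_one _).symm
      _ ≤ A.ρ ^ f.order.toNat := pow_le_pow_of_le_one A.ρ_pos.le A.ρ_lt_one.le hord
  -- the value of the linear form
  set b : Fin (n - h) → κ := fun j => ∑ i, c i * A.B i j with hb
  have hval : evk κ (linPt A.B (ypt (p := p) h A.x)) f =
      ∑ j, algebraMap κ (OK K) (b j) * (A.x j).val ^ (p ^ h) := by
    rw [hf, map_sum]
    simp only [map_mul, evk_C, evk_X, val_linPt, val_ypt, hb, map_sum]
    simp only [Finset.mul_sum, Finset.sum_mul]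
    rw [Finset.sum_comm]
    refine Finset.sum_congr rfl fun j _ => Finset.sum_congr rfl fun i _ => ?_
    ring
  let w : Fin (n - h) → K := fun j => ((A.x j).val : K) / C0
  let η : Fin (n - h) → K := fun j => ((Y j).val : K) / ((Y j0).val : K)
  let bK : Fin (n - h) → K := fun j => ((algebraMap κ (OK K) (b j) : OK K) : K)
  have hw : ∀ j, ‖(w j) ^ (p ^ (h + ((n - h) + s))) - η j‖ < 1 := by
    intro j
    have h1 := hE j
    rw [hYE j] at h1
    have h2 : h + ((n - h) + s) = n + s := by omega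
    rw [h2]
    exact h1
  have hsum : ‖∑ j, bK j ^ (p ^ ((n - h) + s)) * η j‖ < 1 := by
    have h1 : ∑ j, bK j ^ (p ^ ((n - h) + s)) * η j =
        ∑ j, bK j ^ (p ^ ((n - h) + s)) * (η j - ∑ u ∈ S, (γ j u : K) * η u) +
        ∑ u ∈ S, (∑ j, bK j ^ (p ^ ((n - h) + s)) * (γ j u : K)) * η u := by
      simp only [mul_sub, Finset.sum_sub_distrib, Finset.mul_sum, Finset.sum_mul]
      rw [Finset.sum_comm (s := S)]
      have h2 : ∑ j, ∑ u ∈ S, bK j ^ (p ^ ((n - h) + s)) * ((γ j u : K) * η u) =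
          ∑ j, ∑ u ∈ S, bK j ^ (p ^ ((n - h) + s)) * (γ j u : K) * η u := by
        refine Finset.sum_congr rfl fun j _ => Finset.sum_congr rfl fun u _ => ?_
        ring
      rw [h2]
      ring
    have h3 : ∀ u ∈ S, ∑ j, bK j ^ (p ^ ((n - h) + s)) * (γ j u : K) = 0 := by
      intro u hu
      have h4 : ∑ j, b j * (γ j u : κ) = 0 := by
        rw [← hc u hu]
        simp only [hb, Finset.sum_mul, Finset.mul_sum]
        rw [Finset.sum_comm]
        refine Finset.sum_congr rfl fun i _ => Finset.sum_congr rfl fun j _ => ?_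
        ring
      have h5 : ∑ j, b j ^ (p ^ ((n - h) + s)) * (γ j u : κ) = 0 := by
        have h6 : (∑ j, b j * (γ j u : κ)) ^ (p ^ ((n - h) + s)) = 0 ^ (p ^ ((n - h) + s)) :=
          congrArg (fun t : κ => t ^ (p ^ ((n - h) + s))) h4
        rw [sum_pow_char_pow, zero_pow (pow_ne_zero _ hp.ne_zero)] at h6
        rw [← h6]
        refine Finset.sum_congr rfl fun j _ => ?_
        rw [mul_pow]
        congr 1
        have h8 := map_intCast (iterateFrobenius κ p ((n - h) + s)) (γ j u)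
        rw [iterateFrobenius_def] at h8
        exact h8.symm
      have h7 := congrArg (fun t : κ => ((algebraMap κ (OK K) t : OK K) : K)) h5
      simpa only [map_sum, map_mul, map_pow, map_intCast, AddSubmonoidClass.coe_finsetSum, Subring.coe_mul,     SubmonoidClass.coe_pow, SubringClass.coe_intCast, map_zero, ZeroMemClass.coe_zero] using h7
    rw [h1]
    refine (IsUltrametricDist.norm_add_le_max _ _).trans_lt (max_lt ?_ ?_)
    · refine norm_fsum_lt _ _ one_pos fun j _ => ?_
      rw [norm_mul, norm_pow]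
      exact lt_of_le_of_lt (mul_le_of_le_one_left (norm_nonneg _)
        (pow_le_one₀ (norm_nonneg _) (norm_le_one _))) (hγ j)
    · rw [Finset.sum_eq_zero fun u hu => by rw [h3 u hu, zero_mul], norm_zero]
      exact one_pos
  have hlt : ‖∑ j, bK j * (w j) ^ (p ^ h)‖ < 1 :=
    norm_sum_lt_one_of_pow bK w η h ((n - h) + s) (fun j => norm_le_one _) hw hsum
  have hCQ : ‖C0‖ ^ (p ^ h) ≤ A.ρ := by
    rw [← hCn, hYE, ← OK_norm_pow]
    exact A.norm_le j0
  have hCpos : 0 < ‖C0‖ := norm_pos_iff.2 hC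
  have hfin : ‖evk κ (linPt A.B (ypt (p := p) h A.x)) f‖ < ‖C0‖ ^ (p ^ h) := by
    have h1 : ((evk κ (linPt A.B (ypt (p := p) h A.x)) f : OK K) : K) =
        C0 ^ (p ^ h) * ∑ j, bK j * (w j) ^ (p ^ h) := by
      rw [hval, Finset.mul_sum]
      push_cast
      refine Finset.sum_congr rfl fun j _ => ?_
      simp only [w, bK, div_pow]
      field_simp
    show ‖((evk κ (linPt A.B (ypt (p := p) h A.x)) f : OK K) : K)‖ < _
    rw [h1, norm_mul, norm_pow]
    exact mul_lt_of_lt_one_right (by positivity) hlt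
  exact absurd (hge.trans_lt hfin) (not_lt.2 hCQ)

end Vale.Agent.P217
end
end

section

section

/-!
# P217: preparations for Case II of the final argument
-/

namespace Vale.Agent.P217

open Filter Topology

section RP

open Polynomial in
/-- the residue polynomial lemma. -/
theorem c2_residue_poly {k : Type*} [Field k] {p : ℕ} [Fact p.Prime] [CharP k p] {n : ℕ}
    (hn : 0 < n) (Fq S : Finset k) (hcard : Fq.card = p ^ n) (hFq : ∀ ω ∈ Fq, ω ^ (p ^ n) = ω)
    (h1 : (1 : k) ∈ Fq) (h0S : (0 : k) ∈ S) (hS : S.card < p ^ n) (c : k) (t J : ℕ)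
    (hg : ∀ ω ∈ Fq, (∏ v ∈ S, (ω - v)) ^ (p ^ t) = c * ω ^ (p ^ J)) :
    S = {0} ∧ (n : ℤ) ∣ (J : ℤ) - t := by
  have hp : p.Prime := Fact.out
  set r : ℕ := (J + (n - 1) * t) % n with hr
  have hrn : r < n := Nat.mod_lt _ hn
  have hq : ∀ ω ∈ Fq, ∀ m : ℕ, ω ^ (p ^ (n * m)) = ω := by
    intro ω hω m
    induction m with
    | zero => simp
    | succ m ih => rw [Nat.mul_succ, pow_add, pow_mul, ih, hFq ω hω]
  have hrt : ∀ ω ∈ Fq, ω ^ (p ^ J) = (ω ^ (p ^ r)) ^ (p ^ t) := by
    intro ω hω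
    -- J + n t = (J + (n-1) t) + t = n * m + r + t
    have h2 : J + n * t = n * ((J + (n - 1) * t) / n) + (r + t) := by
      have h3 := Nat.div_add_mod (J + (n - 1) * t) n
      obtain ⟨n', rfl⟩ : ∃ n', n = n' + 1 := ⟨n - 1, by omega⟩
      simp only [Nat.add_sub_cancel] at h3 hr ⊢
      have h4 : (n' + 1) * t = n' * t + t := by ring
      omega
    calc ω ^ (p ^ J) = (ω ^ (p ^ (n * t))) ^ (p ^ J) := by rw [hq ω hω]
      _ = ω ^ (p ^ (J + n * t)) := by rw [← pow_mul, ← pow_add, Nat.add_comm]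
      _ = (ω ^ (p ^ (n * ((J + (n - 1) * t) / n)))) ^ (p ^ (r + t)) := by
          rw [h2, ← pow_mul, ← pow_add]
      _ = (ω ^ (p ^ r)) ^ (p ^ t) := by rw [hq ω hω, ← pow_mul, ← pow_add]
  set g : k[X] := ∏ v ∈ S, (X - C v) with hgdef
  have hgmon : g.Monic := monic_prod_of_monic _ _ fun v _ => monic_X_sub_C v
  have hgdeg : g.natDegree = S.card := by
    rw [hgdef, natDegree_prod_of_monic _ _ fun v _ => monic_X_sub_C v]
    simp
  have hgeval : ∀ ω, g.eval ω = ∏ v ∈ S, (ω - v) := fun ω => by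
    rw [hgdef, eval_prod]; simp
  have hinj : Function.Injective fun x : k => x ^ (p ^ t) := iterateFrobenius_inj k p t
  have hg1 : (g.eval 1) ^ (p ^ t) = c := by
    have := hg 1 h1
    rw [one_pow, mul_one, ← hgeval] at this
    exact this
  have hval : ∀ ω ∈ Fq, g.eval ω = g.eval 1 * ω ^ (p ^ r) := by
    intro ω hω
    apply hinj
    show (g.eval ω) ^ (p ^ t) = (g.eval 1 * ω ^ (p ^ r)) ^ (p ^ t)
    rw [hgeval, hg ω hω, mul_pow, ← hrt ω hω, hg1]
  have hpoly : g = C (g.eval 1) * X ^ (p ^ r) := by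
    rw [← sub_eq_zero]
    refine Polynomial.eq_zero_of_natDegree_lt_card_of_eval_eq_zero' _ Fq ?_ ?_
    · intro ω hω
      rw [eval_sub, hval ω hω]
      simp
    · rw [hcard]
      refine (natDegree_sub_le _ _).trans_lt (max_lt (by rwa [hgdeg]) ?_)
      refine (natDegree_C_mul_X_pow_le _ _).trans_lt ?_
      exact Nat.pow_lt_pow_right hp.one_lt hrn
  have hg1ne : g.eval 1 ≠ 0 := by
    intro h0
    rw [h0] at hpoly
    simp only [map_zero, zero_mul] at hpoly
    exact hgmon.ne_zero hpoly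
  have hS0 : S = {0} := by
    rw [Finset.eq_singleton_iff_unique_mem]
    refine ⟨h0S, fun v hv => ?_⟩
    have h5 : g.eval v = 0 := by
      rw [hgeval]
      exact Finset.prod_eq_zero hv (sub_self v)
    rw [hpoly] at h5
    simp only [eval_mul, eval_C, eval_pow, eval_X] at h5
    rcases mul_eq_zero.1 h5 with h6 | h6
    · exact absurd h6 hg1ne
    · exact pow_eq_zero_iff (pow_ne_zero _ hp.ne_zero) |>.1 h6
  refine ⟨hS0, ?_⟩
  have hr0 : r = 0 := by
    have h7 : g.natDegree = 1 := by rw [hgdeg, hS0]; simp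
    rw [hpoly, natDegree_C_mul_X_pow _ _ hg1ne] at h7
    by_contra hne
    have := Nat.one_lt_pow hne hp.one_lt
    omega
  have h8 : n ∣ J + (n - 1) * t := Nat.dvd_of_mod_eq_zero (by rw [← hr, hr0])
  have h9 : (n : ℤ) ∣ (J : ℤ) + ((n : ℤ) - 1) * t := by
    have := Int.natCast_dvd_natCast.2 h8
    push_cast [Nat.cast_sub (show 1 ≤ n by omega)] at this
    exact this
  have h10 : (J : ℤ) - t = ((J : ℤ) + ((n : ℤ) - 1) * t) - n * t := by ring
  rw [h10]
  exact dvd_sub h9 (dvd_mul_right _ _)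

end RP

section Residue

universe u

theorem c2_exists_residue (K : Type u) [NontriviallyNormedField K] [IsUltrametricDist K] :
    ∃ (k : Type u) (_ : Field k) (φ : OK K →+* k), ∀ a : OK K, φ a = 0 ↔ ‖a‖ < 1 := by
  have hmem : ∀ x : OK K, x ∈ ballIdeal K 1 ↔ ‖x‖ < 1 := by
    intro x
    constructor
    · rintro (hx | rfl)
      · exact hx
      · simp only [norm_zero, zero_lt_one]
    · exact fun hx => Or.inl hx
  have hmax : (ballIdeal K 1).IsMaximal := by
    rw [Ideal.isMaximal_iff]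
    refine ⟨fun h1 => ?_, fun J x hJ hx hxJ => ?_⟩
    · have := (hmem 1).1 h1
      simp at this
    · have hx1 : ‖x‖ = 1 := le_antisymm (norm_le_one x) (not_lt.1 fun h => hx ((hmem x).2 h))
      have hx0 : (x : K) ≠ 0 := by
        intro h0
        have : x = 0 := Subtype.ext h0
        rw [this] at hx1
        simp at hx1
      have hy : ‖((x : K))⁻¹‖ ≤ 1 := by
        rw [norm_inv]
        have : ‖(x : K)‖ = 1 := hx1
        rw [this]; simp
      let y : OK K := ⟨(x : K)⁻¹, hy⟩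
      have hxy : y * x = 1 := Subtype.ext (inv_mul_cancel₀ hx0)
      rw [← hxy]
      exact J.mul_mem_left y hxJ
  refine ⟨OK K ⧸ ballIdeal K 1, Ideal.Quotient.field _, Ideal.Quotient.mk _, fun a => ?_⟩
  rw [Ideal.Quotient.eq_zero_iff_mem, hmem]

end Residue


open MvPowerSeries

variable {K : Type*} [NontriviallyNormedField K] [IsUltrametricDist K] [CompleteSpace K]
variable {p : ℕ} [Fact p.Prime] [CharP K p] [IsAlgClosed K]
variable {n h : ℕ} {Γ : FormalGroup (OK K)}

section Gen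

omit [IsUltrametricDist K] [CompleteSpace K] [IsAlgClosed K] in
theorem c2_tendsto_mul_bdd {F : Filter ℕ} {f g : ℕ → K} (hf : Tendsto f F (𝓝 0)) (C : ℝ)
    (hg : ∀ᶠ l in F, ‖g l‖ ≤ C) : Tendsto (fun l => f l * g l) F (𝓝 0) := by
  rw [tendsto_zero_iff_norm_tendsto_zero] at hf ⊢
  have h1 : Tendsto (fun l => ‖f l‖ * C) F (𝓝 0) := by simpa only [zero_mul] using hf.mul_const C
  refine squeeze_zero' (Eventually.of_forall fun l => norm_nonneg _) ?_ h1
  filter_upwards [hg] with l hl
  rw [norm_mul]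
  exact mul_le_mul_of_nonneg_left hl (norm_nonneg _)

end Gen

namespace LocalFG

variable (D : LocalFG p n h Γ) [Γ.IsComm]

/-- `σ(‖X1‖^(p^l))` -/
noncomputable def sgl (X1 : FPt Γ) (l : ℕ) : ℕ := D.sig (‖X1.val‖ ^ (p ^ l))

/-- `l - σ(‖X1‖^(p^l))` -/
noncomputable def exl (X1 : FPt Γ) (l : ℕ) : ℕ := l - D.sgl X1 l

/-- non-break levels tending to infinity. -/
noncomputable def nbf (X1 : FPt Γ) : Filter ℕ :=
  atTop ⊓ 𝓟 {l | D.NonBreak (‖X1.val‖ ^ (p ^ l))}

/-- `E(w X1^(p^l))` -/
noncomputable def eX (X1 : FPt Γ) (w : OK K) (l : ℕ) : K := ((D.E (powPt p w l X1)).val : K)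

theorem nbf_le (X1 : FPt Γ) : D.nbf X1 ≤ atTop := inf_le_left

theorem eventually_nbf {X1 : FPt Γ} {P : ℕ → Prop} : (∀ᶠ l in D.nbf X1, P l) ↔
    ∃ L, ∀ l ≥ L, D.NonBreak (‖X1.val‖ ^ (p ^ l)) → P l := by
  unfold nbf
  rw [eventually_inf_principal, eventually_atTop]
  rfl

theorem eventually_nonBreak (X1 : FPt Γ) :
    ∀ᶠ l in D.nbf X1, D.NonBreak (‖X1.val‖ ^ (p ^ l)) :=
  D.eventually_nbf.2 ⟨0, fun _ _ h => h⟩

theorem eventually_exl {X1 : FPt Γ} (hX1 : X1 ≠ 0) (M : ℕ) :
    ∀ᶠ l in atTop, M ≤ D.exl X1 l ∧ l = D.exl X1 l + D.sgl X1 l := by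
  obtain ⟨L, hL⟩ := D.tendsto_sub_sig X1 hX1 M
  filter_upwards [eventually_ge_atTop L] with l hl
  have h1 := hL l hl
  unfold exl sgl
  omega

theorem tendsto_exl {X1 : FPt Γ} (hX1 : X1 ≠ 0) : Tendsto (D.exl X1) atTop atTop := by
  rw [tendsto_atTop]
  intro M
  filter_upwards [D.eventually_exl hX1 M] with l hl
  exact hl.1

theorem atTop_le_map {X1 : FPt Γ} (hX1 : X1 ≠ 0) : atTop ≤ map (D.exl X1) (D.nbf X1) := by
  intro s hs
  rw [mem_map] at hs
  obtain ⟨L, hL⟩ := (D.eventually_nbf (P := fun l => D.exl X1 l ∈ s)).1 hs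
  obtain ⟨e₀, he₀⟩ := D.exists_nonBreak X1 hX1
  rw [mem_atTop_sets]
  refine ⟨max e₀ L, fun e he => ?_⟩
  obtain ⟨l, hl1, hl2⟩ := he₀ e (le_of_max_le_left he)
  have h1 := hL l (by have := le_of_max_le_right he; omega) hl1
  have h2 : D.exl X1 l = e := by unfold exl sgl; omega
  rwa [h2] at h1

theorem nbf_neBot {X1 : FPt Γ} (hX1 : X1 ≠ 0) : (D.nbf X1).NeBot := by
  rw [neBot_iff]
  intro h0
  have h1 := D.atTop_le_map hX1
  rw [h0, Filter.map_bot, le_bot_iff] at h1
  exact atTop_neBot.ne h1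

theorem tendsto_of_nbf {E : Type*} [TopologicalSpace E] {X1 : FPt Γ} (hX1 : X1 ≠ 0) {g : ℕ → E}
    {x : E} (hg : Tendsto (fun l => g (D.exl X1 l)) (D.nbf X1) (𝓝 x)) : Tendsto g atTop (𝓝 x) :=
  (tendsto_map'_iff.2 hg).mono_left (D.atTop_le_map hX1)

theorem frequently_nbf {X1 : FPt Γ} (hX1 : X1 ≠ 0) {P : ℕ → Prop} (hP : ∃ᶠ e in atTop, P e) :
    ∃ᶠ l in D.nbf X1, P (D.exl X1 l) := by
  intro h1
  apply hP
  exact D.atTop_le_map hX1 h1

theorem norm_pow_shift (X1 : FPt Γ) (l k : ℕ) :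
    ‖X1.val‖ ^ (p ^ (l + n * k)) = (‖X1.val‖ ^ (p ^ l)) ^ (p ^ (n * k)) := by
  rw [← pow_mul, ← pow_add]

theorem eventually_small {X1 : FPt Γ} {ρ : ℝ} (hρ : 0 < ρ) :
    ∀ᶠ l in atTop, ‖X1.val‖ ^ (p ^ l) ≤ ρ := by
  have hp : 1 < p := (Fact.out : p.Prime).one_lt
  obtain ⟨l₀, hl₀⟩ := exists_pow_lt_of_lt_one hρ X1.norm_val_lt
  filter_upwards [eventually_ge_atTop l₀] with l hl
  exact (pow_le_pow_of_le_one (norm_nonneg _) X1.norm_val_lt.le
    (hl.trans (Nat.lt_pow_self hp).le)).trans hl₀.le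

theorem eventually_sgl_shift {X1 : FPt Γ} (hX1 : X1 ≠ 0) (k : ℕ) :
    ∀ᶠ l in atTop, D.sgl X1 (l + n * k) = D.sgl X1 l + k * (n - h) := by
  obtain ⟨ρ₀, h0, h1, hρ₀⟩ := D.exists_sig_iterate
  filter_upwards [eventually_small (X1 := X1) h0] with l hl
  have h2 := hρ₀ _ (pow_pos (norm_val_pos hX1) (p ^ l)) hl k
  unfold sgl
  rw [norm_pow_shift, h2]

theorem eventually_exl_shift {X1 : FPt Γ} (hX1 : X1 ≠ 0) (k : ℕ) :
    ∀ᶠ l in atTop, D.exl X1 (l + n * k) = D.exl X1 l + h * k := by
  filter_upwards [D.eventually_sgl_shift hX1 k, D.eventually_exl hX1 0] with l hl hl2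
  unfold exl at hl2 ⊢
  rw [hl]
  have hn := D.h_lt_n
  obtain ⟨m, hm⟩ : ∃ m, n = h + m := ⟨n - h, by omega⟩
  have h3 : n * k = h * k + k * (n - h) := by
    rw [hm, Nat.add_sub_cancel_left]; ring
  omega

theorem eventually_nonBreak_shift {X1 : FPt Γ} (hX1 : X1 ≠ 0) (k : ℕ) :
    ∀ᶠ l in atTop, (D.NonBreak (‖X1.val‖ ^ (p ^ (l + n * k))) ↔
      D.NonBreak (‖X1.val‖ ^ (p ^ l))) := by
  obtain ⟨ρ₀, h0, h1, hρ₀⟩ := D.exists_sig_periodic
  filter_upwards [eventually_small (X1 := X1) h0] with l hl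
  have hp : 0 < p := (Fact.out : p.Prime).pos
  induction k with
  | zero => rfl
  | succ k ih =>
    refine Iff.trans ?_ ih
    have h3 : ‖X1.val‖ ^ (p ^ (l + n * k)) ≤ ρ₀ :=
      (pow_le_pow_of_le_one (norm_nonneg _) X1.norm_val_lt.le
        (Nat.pow_le_pow_right hp (Nat.le_add_right _ _))).trans hl
    have h4 := (hρ₀ _ (pow_pos (norm_val_pos hX1) _) h3).2
    rw [← pow_mul, ← pow_add, Nat.add_assoc, ← Nat.mul_succ] at h4
    exact h4

theorem tendsto_shift {X1 : FPt Γ} (hX1 : X1 ≠ 0) (k : ℕ) :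
    Tendsto (fun l => l + n * k) (D.nbf X1) (D.nbf X1) := by
  have hnb := D.eventually_nonBreak_shift hX1 k
  unfold nbf
  rw [tendsto_inf]
  constructor
  · exact (tendsto_add_atTop_nat (n * k)).mono_left inf_le_left
  · rw [tendsto_principal]
    filter_upwards [inf_le_left (a := atTop) hnb,
      mem_inf_of_right (mem_principal_self _)] with l hl1 hl2
    exact hl1.2 hl2

theorem norm_smul_pow (D : LocalFG p n h Γ) (X1 : FPt Γ) (k l : ℕ) :
    ‖(p ^ k • X1).val‖ ^ (p ^ l) = ‖X1.val‖ ^ (p ^ (l + n * k)) := by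
  rw [D.val_pow_smul, OK_norm_pow, ← pow_mul, ← pow_add, Nat.add_comm]

theorem smul_ne_zero' (D : LocalFG p n h Γ) {X1 : FPt Γ} (hX1 : X1 ≠ 0) (k : ℕ) :
    p ^ k • X1 ≠ 0 := by
  intro h0
  have h1 : ‖(p ^ k • X1).val‖ = 0 := by rw [h0, FPt.val_zero, norm_zero]
  rw [D.val_pow_smul, OK_norm_pow] at h1
  exact (pow_pos (norm_val_pos hX1) _).ne' h1

theorem sgl_smul (X1 : FPt Γ) (k l : ℕ) : D.sgl (p ^ k • X1) l = D.sgl X1 (l + n * k) := by
  unfold sgl
  rw [D.norm_smul_pow]

theorem nbf_smul {X1 : FPt Γ} (hX1 : X1 ≠ 0) (k : ℕ) : D.nbf (p ^ k • X1) = D.nbf X1 := by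
  have hnb := D.eventually_nonBreak_shift hX1 k
  unfold nbf
  apply le_antisymm
  · refine le_inf inf_le_left ?_
    rw [le_principal_iff]
    filter_upwards [inf_le_left (a := atTop) hnb,
      mem_inf_of_right (mem_principal_self _)] with l hl1 hl2
    refine hl1.1 ?_
    have h3 : D.NonBreak (‖(p ^ k • X1).val‖ ^ (p ^ l)) := hl2
    rwa [D.norm_smul_pow] at h3
  · refine le_inf inf_le_left ?_
    rw [le_principal_iff]
    filter_upwards [inf_le_left (a := atTop) hnb,
      mem_inf_of_right (mem_principal_self _)] with l hl1 hl2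
    have h3 := hl1.2 hl2
    show D.NonBreak (‖(p ^ k • X1).val‖ ^ (p ^ l))
    rwa [D.norm_smul_pow]

theorem eventually_exl_smul {X1 : FPt Γ} (hX1 : X1 ≠ 0) (k : ℕ) :
    ∀ᶠ l in atTop, D.exl X1 l = D.exl (p ^ k • X1) l + k * (n - h) := by
  filter_upwards [D.eventually_sgl_shift hX1 k, D.eventually_exl hX1 0,
    D.eventually_exl (D.smul_ne_zero' hX1 k) 0] with l hl hl2 hl3
  rw [D.sgl_smul, hl] at hl3
  omega

theorem powPt_shift (D : LocalFG p n h Γ) (X1 : FPt Γ) (l k : ℕ) :
    powPt p 1 (l + n * k) X1 = p ^ k • powPt p 1 l X1 := by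
  apply FPt.ext
  rw [D.val_pow_smul, val_powPt, val_powPt, one_mul, one_mul, ← pow_mul, ← pow_add]

theorem powPt_smul (D : LocalFG p n h Γ) (X1 : FPt Γ) (l k : ℕ) :
    powPt p 1 l (p ^ k • X1) = powPt p 1 (l + n * k) X1 := by
  apply FPt.ext
  rw [val_powPt, val_powPt, D.val_pow_smul, one_mul, one_mul, ← pow_mul, ← pow_add, add_comm l]

theorem c2_norm_powPt_one (l : ℕ) (X1 : FPt Γ) : ‖(powPt p 1 l X1).val‖ = ‖X1.val‖ ^ (p ^ l) := by
  rw [val_powPt, one_mul, OK_norm_pow]

theorem c2_norm_powPt_le (w : OK K) (l : ℕ) (X1 : FPt Γ) :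
    ‖(powPt p w l X1).val‖ ≤ ‖X1.val‖ ^ (p ^ l) := by
  rw [val_powPt, OK_norm_mul, OK_norm_pow]
  exact mul_le_of_le_one_left (by positivity) (norm_le_one w)

theorem powPt_ne_zero (l : ℕ) {X1 : FPt Γ} (hX1 : X1 ≠ 0) : powPt p 1 l X1 ≠ 0 := by
  intro h0
  have h1 := c2_norm_powPt_one (p := p) l X1
  rw [h0, FPt.val_zero, norm_zero] at h1
  exact (pow_pos (norm_val_pos hX1) _).ne h1

theorem tendsto_eX_zero (X1 : FPt Γ) (w : OK K) : Tendsto (D.eX X1 w) atTop (𝓝 0) := by
  rw [tendsto_zero_iff_norm_tendsto_zero]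
  refine Metric.tendsto_atTop.2 fun ε hε => ?_
  obtain ⟨δ, hδ, hδ'⟩ := D.exists_norm_E_lt ε hε
  obtain ⟨L, hL⟩ := eventually_atTop.1 (eventually_small (p := p) (X1 := X1) (half_pos hδ))
  refine ⟨L, fun l hl => ?_⟩
  rw [Real.dist_eq, sub_zero, abs_norm]
  exact hδ' _ (((c2_norm_powPt_le w l X1).trans (hL l hl)).trans_lt (half_lt_self hδ))

theorem norm_eX_lt_one (X1 : FPt Γ) (w : OK K) (l : ℕ) : ‖D.eX X1 w l‖ < 1 :=
  (D.E (powPt p w l X1)).norm_val_lt

theorem eX_ne_zero {X1 : FPt Γ} (hX1 : X1 ≠ 0) {l : ℕ}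
    (hl : D.NonBreak (‖X1.val‖ ^ (p ^ l))) : D.eX X1 1 l ≠ 0 := by
  rw [← c2_norm_powPt_one (p := p) l X1] at hl
  have h1 := (D.norm_E_le_of_nonBreak _ _ (powPt_ne_zero l hX1) hl le_rfl).1
  intro h2
  apply h1
  apply FPt.ext
  exact Subtype.ext h2

theorem eventually_eX_ne_zero {X1 : FPt Γ} (hX1 : X1 ≠ 0) :
    ∀ᶠ l in D.nbf X1, D.eX X1 1 l ≠ 0 := by
  filter_upwards [D.eventually_nonBreak X1] with l hl
  exact D.eX_ne_zero hX1 hl

/-- `a(l + nk) / a(l)^(Q^k) → c_k`. -/
theorem tendsto_eX_shift {X1 : FPt Γ} (hX1 : X1 ≠ 0) (k : ℕ) :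
    Tendsto (fun l => D.eX X1 1 (l + n * k) / (D.eX X1 1 l) ^ (p ^ (h * k))) (D.nbf X1)
      (𝓝 (D.cN k : K)) := by
  rw [tendsto_iff_norm_sub_tendsto_zero]
  refine Metric.tendsto_nhds.2 fun ε hε => ?_
  obtain ⟨δ, hδ, hδ'⟩ := D.norm_pow_smul_sub_cN_le k (ε / 2) (half_pos hε)
  have h0 : ∀ᶠ l in D.nbf X1, ‖D.eX X1 1 l‖ < δ := by
    refine D.nbf_le X1 ?_
    have := (D.tendsto_eX_zero X1 1).norm
    rw [norm_zero] at this
    exact this.eventually (gt_mem_nhds hδ)
  filter_upwards [h0, D.eventually_eX_ne_zero hX1] with l hl1 hl2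
  rw [Real.dist_eq, sub_zero, abs_norm]
  have h2 := hδ' (D.E (powPt p 1 l X1)) hl1
  have h3 : D.eX X1 1 (l + n * k) = ((p ^ k • D.E (powPt p 1 l X1)).val : K) := by
    unfold eX
    rw [powPt_shift D, map_nsmul]
  have h4 : ‖D.eX X1 1 (l + n * k) - (D.cN k : K) * D.eX X1 1 l ^ (p ^ (h * k))‖ ≤
      ε / 2 * ‖D.eX X1 1 l‖ ^ (p ^ (h * k)) := by
    rw [h3]; exact h2
  have h5 : D.eX X1 1 l ^ (p ^ (h * k)) ≠ 0 := pow_ne_zero _ hl2
  have h6 : D.eX X1 1 (l + n * k) / (D.eX X1 1 l) ^ (p ^ (h * k)) - (D.cN k : K) =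
      (D.eX X1 1 (l + n * k) - (D.cN k : K) * D.eX X1 1 l ^ (p ^ (h * k))) /
        (D.eX X1 1 l) ^ (p ^ (h * k)) := by
    field_simp
  rw [h6, norm_div, norm_pow]
  have h7 : 0 < ‖D.eX X1 1 l‖ ^ (p ^ (h * k)) := by
    rw [← norm_pow]; exact norm_pos_iff.2 h5
  refine lt_of_le_of_lt ((div_le_iff₀ h7).2 h4) (half_lt_self hε)

theorem eX_smul (X1 : FPt Γ) (k l : ℕ) : D.eX (p ^ k • X1) 1 l = D.eX X1 1 (l + n * k) := by
  unfold eX
  rw [D.powPt_smul]

theorem norm_eX_pow_div_le (X1 : FPt Γ) {i j : ℕ} (hij : i ≤ j) (l : ℕ) :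
    ‖D.eX X1 1 l ^ (p ^ j) / D.eX X1 1 l ^ (p ^ i)‖ ≤ 1 := by
  rw [norm_div, norm_pow, norm_pow]
  refine div_le_one_of_le₀ ?_ (by positivity)
  exact pow_le_pow_of_le_one (norm_nonneg _) (D.norm_eX_lt_one X1 1 l).le
    (Nat.pow_le_pow_right (Fact.out : p.Prime).pos hij)

theorem tendsto_eX_pow_div {X1 : FPt Γ} {i j : ℕ} (hij : i < j) :
    Tendsto (fun l => D.eX X1 1 l ^ (p ^ j) / D.eX X1 1 l ^ (p ^ i)) (D.nbf X1) (𝓝 0) := by
  rw [tendsto_zero_iff_norm_tendsto_zero]
  have h0 := (D.tendsto_eX_zero X1 1).norm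
  rw [norm_zero] at h0
  refine squeeze_zero (fun l => norm_nonneg _) (fun l => ?_) (h0.mono_left (D.nbf_le X1))
  have hp : 1 < p := (Fact.out : p.Prime).one_lt
  rw [norm_div, norm_pow, norm_pow]
  have h1 : p ^ i + 1 ≤ p ^ j := Nat.pow_lt_pow_right hp hij
  have h2 : ‖D.eX X1 1 l‖ ^ (p ^ j) ≤ ‖D.eX X1 1 l‖ ^ (p ^ i + 1) :=
    pow_le_pow_of_le_one (norm_nonneg _) (D.norm_eX_lt_one X1 1 l).le h1
  rcases (norm_nonneg (D.eX X1 1 l)).eq_or_lt with h3 | h3
  · rw [← h3, zero_pow (pow_ne_zero _ (by omega)), zero_div]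
  · rw [div_le_iff₀ (pow_pos h3 _), ← pow_succ']
    exact h2

/-- `(AL)` as a limit -/
theorem tendsto_ratio' {X1 X : FPt Γ} (hX1 : X1 ≠ 0) (hX : ‖X.val‖ ≤ ‖X1.val‖) (w : OK K)
    (hw : w ^ (p ^ n) = w) :
    Tendsto (fun l => D.eX X w l / D.eX X1 1 l - (w : K) ^ (p ^ ((n - 1) * D.sgl X1 l)) *
      ((X.val : K) / (X1.val : K)) ^ (p ^ D.exl X1 l)) (D.nbf X1) (𝓝 0) := by
  refine Metric.tendsto_nhds.2 fun ε hε => ?_
  obtain ⟨L, hL⟩ := D.tendsto_ratio X1 X hX1 hX w hw ε hε
  have h1 : ∀ᶠ l in D.nbf X1, l ≥ L := D.nbf_le X1 (eventually_ge_atTop L)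
  have h2 : ∀ᶠ l in D.nbf X1, 0 ≤ D.exl X1 l ∧ l = D.exl X1 l + D.sgl X1 l :=
    D.nbf_le X1 (D.eventually_exl hX1 0)
  filter_upwards [h1, h2, D.eventually_nonBreak X1] with l hl1 hl2 hl3
  rw [dist_zero_right]
  exact hL l hl1 hl3 _ hl2.2

theorem tendsto_pow_exl {X1 : FPt Γ} (hX1 : X1 ≠ 0) {η : K} (hη : ‖η‖ < 1) :
    Tendsto (fun l => η ^ (p ^ D.exl X1 l)) (D.nbf X1) (𝓝 0) := by
  have hp : 1 < p := (Fact.out : p.Prime).one_lt
  have h1 : Tendsto (fun e : ℕ => η ^ (p ^ e)) atTop (𝓝 0) :=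
    (tendsto_pow_atTop_nhds_zero_of_norm_lt_one hη).comp
      (tendsto_pow_atTop_atTop_of_one_lt hp)
  exact (h1.comp (D.tendsto_exl hX1)).mono_left (D.nbf_le X1)

theorem tendsto_ratio_zero {X1 X : FPt Γ} (hX1 : X1 ≠ 0) (hX : ‖X.val‖ < ‖X1.val‖) :
    Tendsto (fun l => D.eX X 1 l / D.eX X1 1 l) (D.nbf X1) (𝓝 0) := by
  have h1 := D.tendsto_ratio' hX1 hX.le 1 (one_pow _)
  have h2 : ‖(X.val : K) / (X1.val : K)‖ < 1 := by
    rw [norm_div]
    exact (div_lt_one (norm_val_pos hX1)).2 hX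
  have h3 := h1.add (D.tendsto_pow_exl hX1 h2)
  rw [add_zero] at h3
  refine h3.congr fun l => ?_
  simp only [OneMemClass.coe_one, one_pow, one_mul, sub_add_cancel]

end LocalFG

section Linear

variable [Γ.IsComm]

theorem norm_val_nsmul_sub_le (c : ℕ) (Y : FPt Γ) :
    ‖(c • Y).val - (c : OK K) * Y.val‖ ≤ ‖Y.val‖ ^ 2 := by
  induction c with
  | zero => simp only [zero_nsmul, FPt.val_zero, Nat.cast_zero, zero_mul, sub_self, norm_zero, AddSubgroupClass.coe_norm, norm_nonneg, pow_succ_nonneg]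
  | succ c ih =>
    rw [succ_nsmul]
    have h1 := FPt.norm_val_add_sub_le (c • Y) Y
    have h2 := FPt.norm_val_nsmul_le c Y
    have h3 : (c • Y + Y).val - ((c + 1 : ℕ) : OK K) * Y.val =
        ((c • Y + Y).val - ((c • Y).val + Y.val)) + ((c • Y).val - (c : OK K) * Y.val) := by
      push_cast; ring
    rw [h3]
    refine (OK_norm_add_le _ _).trans (max_le (h1.trans ?_) ih)
    rw [sq]
    exact mul_le_mul_of_nonneg_right h2 (norm_nonneg _)

theorem norm_val_zsmul_sub_le (c : ℤ) (Y : FPt Γ) :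
    ‖(c • Y).val - (c : OK K) * Y.val‖ ≤ ‖Y.val‖ ^ 2 := by
  obtain ⟨c, rfl | rfl⟩ := c.eq_nat_or_neg
  · rw [natCast_zsmul, Int.cast_natCast]
    exact norm_val_nsmul_sub_le c Y
  · rw [neg_smul, natCast_zsmul]
    have h1 := FPt.norm_val_sub_sub_le 0 (c • Y)
    rw [zero_sub, FPt.val_zero, zero_sub, norm_neg, norm_zero, max_eq_right (norm_nonneg _)] at h1
    have h2 := norm_val_nsmul_sub_le c Y
    have h3 : (-(c • Y)).val - ((-(c : ℤ) : ℤ) : OK K) * Y.val =
        ((-(c • Y)).val - -(c • Y).val) - ((c • Y).val - (c : OK K) * Y.val) := by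
      push_cast; ring
    rw [h3]
    refine (OK_norm_sub_le _ _).trans (max_le (h1.trans ?_) h2)
    rw [sq]
    exact mul_le_mul (FPt.norm_val_nsmul_le c Y) (FPt.norm_val_nsmul_le c Y) (norm_nonneg _)
      (norm_nonneg _)

theorem norm_val_sum_zsmul_sub_le {ι : Type*} (s : Finset ι) (c : ι → ℤ) (Y : ι → FPt Γ) (R : ℝ)
    (hR : 0 ≤ R) (hY : ∀ i ∈ s, ‖(Y i).val‖ ≤ R) :
    ‖(∑ i ∈ s, c i • Y i).val‖ ≤ R ∧
      ‖(∑ i ∈ s, c i • Y i).val - ∑ i ∈ s, (c i : OK K) * (Y i).val‖ ≤ R ^ 2 := by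
  classical
  induction s using Finset.induction_on with
  | empty => simp only [Finset.sum_empty, FPt.val_zero, norm_zero, hR, sub_self, pow_succ_nonneg, and_self]
  | insert i s hi ih =>
    obtain ⟨ih1, ih2⟩ := ih fun j hj => hY j (Finset.mem_insert_of_mem hj)
    have hi1 := hY i (Finset.mem_insert_self _ _)
    rw [Finset.sum_insert hi, Finset.sum_insert hi]
    have h1 : ‖(c i • Y i).val‖ ≤ R := (FPt.norm_val_zsmul_le _ _).trans hi1
    refine ⟨(FPt.norm_val_add_le _ _).trans (max_le h1 ih1), ?_⟩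
    have h2 := FPt.norm_val_add_sub_le (c i • Y i) (∑ j ∈ s, c j • Y j)
    have h3 := norm_val_zsmul_sub_le (c i) (Y i)
    have h4 : (c i • Y i + ∑ j ∈ s, c j • Y j).val -
        ((c i : OK K) * (Y i).val + ∑ j ∈ s, (c j : OK K) * (Y j).val) =
        ((c i • Y i + ∑ j ∈ s, c j • Y j).val - ((c i • Y i).val + (∑ j ∈ s, c j • Y j).val)) +
        (((c i • Y i).val - (c i : OK K) * (Y i).val) +
          ((∑ j ∈ s, c j • Y j).val - ∑ j ∈ s, (c j : OK K) * (Y j).val)) := by ring
    rw [h4]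
    refine (OK_norm_add_le _ _).trans (max_le (h2.trans ?_)
      ((OK_norm_add_le _ _).trans (max_le (h3.trans ?_) ih2)))
    · rw [sq]; exact mul_le_mul h1 ih1 (norm_nonneg _) hR
    · exact pow_le_pow_left₀ (norm_nonneg _) hi1 _

/-- `‖(Z + ∑ c_i Y_i).val - (Z.val + ∑ c_i (Y_i).val)‖ ≤ R ^ 2`. -/
theorem norm_val_add_sum_zsmul_sub_le {ι : Type*} (s : Finset ι) (c : ι → ℤ) (Z : FPt Γ)
    (Y : ι → FPt Γ) (R : ℝ) (hR : 0 ≤ R) (hZ : ‖Z.val‖ ≤ R) (hY : ∀ i ∈ s, ‖(Y i).val‖ ≤ R) :
    ‖(Z + ∑ i ∈ s, c i • Y i).val - (Z.val + ∑ i ∈ s, (c i : OK K) * (Y i).val)‖ ≤ R ^ 2 := by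
  obtain ⟨h1, h2⟩ := norm_val_sum_zsmul_sub_le s c Y R hR hY
  have h3 := FPt.norm_val_add_sub_le Z (∑ i ∈ s, c i • Y i)
  have h4 : (Z + ∑ i ∈ s, c i • Y i).val - (Z.val + ∑ i ∈ s, (c i : OK K) * (Y i).val) =
      ((Z + ∑ i ∈ s, c i • Y i).val - (Z.val + (∑ i ∈ s, c i • Y i).val)) +
        ((∑ i ∈ s, c i • Y i).val - ∑ i ∈ s, (c i : OK K) * (Y i).val) := by ring
  rw [h4]
  refine (OK_norm_add_le _ _).trans (max_le (h3.trans ?_) h2)
  rw [sq]; exact mul_le_mul hZ h1 (norm_nonneg _) hR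

end Linear

section FqLemmas

omit [CompleteSpace K] [IsAlgClosed K] in
theorem c2_Fq_norm (hn : 0 < n) {x y : OK K} (hx : x ^ (p ^ n) = x) (hy : y ^ (p ^ n) = y)
    (hxy : x ≠ y) : ‖x - y‖ = 1 := by
  have hp : p.Prime := Fact.out
  have h1 : (x - y) ^ (p ^ n) = x - y := by rw [sub_pow_char_pow, hx, hy]
  have h2 : ‖x - y‖ ^ (p ^ n) = ‖x - y‖ := by rw [← OK_norm_pow, h1]
  have h3 : 0 < ‖x - y‖ := norm_pos_iff.2 (sub_ne_zero.2 hxy)
  have h4 : 1 < p ^ n := Nat.one_lt_pow hn.ne' hp.one_lt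
  obtain ⟨m, hm⟩ : ∃ m, p ^ n = m + 1 := ⟨p ^ n - 1, by omega⟩
  rw [hm, pow_succ] at h2
  have h5 : ‖x - y‖ ^ m = 1 := mul_right_cancel₀ h3.ne' (h2.trans (one_mul _).symm)
  exact (pow_eq_one_iff_of_nonneg h3.le (by omega)).1 h5

end FqLemmas

namespace LocalFG

variable (D : LocalFG p n h Γ) [Γ.IsComm]

/-- consequence of `(LT)` with enough test values. -/
theorem exists_LT_Fq (Fq : Finset (OK K)) (hcard : Fq.card = p ^ n)
    (hFq : ∀ ω ∈ Fq, ω ^ (p ^ n) = ω) {Xv : FPt Γ} (hXv : Xv ≠ 0) (l : ℕ) :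
    ∃ C0 : ℝ, 0 < C0 ∧ (∀ Y : FPt Γ, ‖Y.val‖ ≤ ‖Xv.val‖ ^ (p ^ l) → ‖(D.E Y).val‖ ≤ C0) ∧
      ∃ ω ∈ Fq, ‖D.eX Xv ω l‖ = C0 := by
  classical
  have hp : p.Prime := Fact.out
  have hn : 0 < n := lt_of_le_of_lt (Nat.zero_le _) D.h_lt_n
  have hY0 := powPt_ne_zero (p := p) l hXv
  obtain ⟨C, S, hC, h0S, hSc, hS1, hS2, -, -, hE⟩ := D.LT (powPt p 1 l Xv) hY0
  have hY0v : ((powPt p 1 l Xv).val : K) ≠ 0 := norm_pos_iff.1 (norm_val_pos hY0)
  have hCpos : 0 < ‖C‖ := norm_pos_iff.2 hC
  set s := p ^ D.sig ‖(powPt p 1 l Xv).val‖ with hs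
  have hs0 : s ≠ 0 := pow_ne_zero _ hp.ne_zero
  have hratio : ∀ ω : OK K, ((powPt p ω l Xv).val : K) / ((powPt p 1 l Xv).val : K) = (ω : K) := by
    intro ω
    rw [div_eq_iff hY0v, val_powPt, val_powPt, one_mul]
    rfl
  refine ⟨‖C‖, hCpos, ?_, ?_⟩
  · intro Y hY
    rw [← c2_norm_powPt_one (p := p) l Xv] at hY
    have h1 := hE Y hY
    have h2 : ‖(Y.val : K) / ((powPt p 1 l Xv).val : K)‖ ≤ 1 := by
      rw [norm_div]
      exact div_le_one_of_le₀ hY (norm_nonneg _)
    have h3 : ‖∏ v ∈ S, ((Y.val : K) / ((powPt p 1 l Xv).val : K) - v)‖ ≤ 1 := by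
      rw [norm_prod]
      refine Finset.prod_le_one (fun _ _ => norm_nonneg _) fun v hv => ?_
      exact (ltc_norm_sub_le _ _).trans (max_le h2 (hS1 v hv))
    have h4 := ltc_norm_le_one h1 h3
    rw [norm_pow, pow_le_one_iff_of_nonneg (norm_nonneg _) hs0, norm_div, div_le_one hCpos] at h4
    exact h4
  · -- choose ω away from S
    obtain ⟨ω, hω, hωS⟩ : ∃ ω ∈ Fq, ∀ v ∈ S, ¬ ‖(ω : K) - v‖ < 1 := by
      by_contra hcon
      push Not at hcon
      choose! f hfS hf using hcon
      have hlt : S.card < Fq.card := by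
        rw [hcard]
        refine lt_of_le_of_lt hSc (Nat.pow_lt_pow_right hp.one_lt ?_)
        have := D.one_le_h
        have := D.h_lt_n
        omega
      obtain ⟨x, hx, y, hy, hxy, hfxy⟩ := Finset.exists_ne_map_eq_of_card_lt_of_maps_to hlt
        (f := f) (fun ω hω => hfS ω hω)
      have h5 := c2_Fq_norm (p := p) hn (hFq x hx) (hFq y hy) hxy
      have h6 : ‖(x : K) - (y : K)‖ < 1 := by
        have h7 := hf y hy
        rw [← hfxy, norm_sub_rev] at h7
        exact ltc_norm_sub_comm_lt (hf x hx) h7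
      have h8 : ‖(x : K) - (y : K)‖ = 1 := h5
      rw [h8] at h6
      exact lt_irrefl _ h6
    refine ⟨ω, hω, ?_⟩
    have h9 : ‖(powPt p ω l Xv).val‖ ≤ ‖(powPt p 1 l Xv).val‖ := by
      rw [c2_norm_powPt_one]; exact c2_norm_powPt_le ω l Xv
    have h1 := hE (powPt p ω l Xv) h9
    rw [hratio] at h1
    have h2 : ‖∏ v ∈ S, ((ω : K) - v)‖ = 1 := by
      rw [norm_prod]
      refine Finset.prod_eq_one fun v hv => le_antisymm ?_ (not_lt.1 (hωS v hv))
      exact (ltc_norm_sub_le _ _).trans (max_le ω.2 (hS1 v hv))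
    have h3 : ‖(((D.E (powPt p ω l Xv)).val : K) / C) ^ s‖ = 1 := by
      have h4 : (((D.E (powPt p ω l Xv)).val : K) / C) ^ s =
          ((((D.E (powPt p ω l Xv)).val : K) / C) ^ s - ∏ v ∈ S, ((ω : K) - v)) +
            ∏ v ∈ S, ((ω : K) - v) := by ring
      rw [h4, IsUltrametricDist.norm_add_eq_max_of_norm_ne_norm (by rw [h2]; exact h1.ne), h2,
        max_eq_right h1.le]
    rw [norm_pow, pow_eq_one_iff_of_nonneg (norm_nonneg _) hs0, norm_div,
      div_eq_one_iff_eq hCpos.ne'] at h3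
    exact h3

end LocalFG

end Vale.Agent.P217
end
end

section

section

/-!
# P217: the final step of Case II
-/

namespace Vale.Agent.P217

open Filter Topology

variable {K : Type*} [NontriviallyNormedField K] [IsUltrametricDist K] [CompleteSpace K]
variable {p : ℕ} [Fact p.Prime] [CharP K p] [IsAlgClosed K]
variable {n h : ℕ} {Γ : FormalGroup (OK K)}

/-- `(AD)` for a finset, with shifted exponents. -/
theorem c2_ad_finset {ι : Type*} (S : Finset ι) (η a : ι → K) (hη : ∀ u ∈ S, ‖η u‖ ≤ 1)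
    (hind : ∀ c : ι → ℤ, ‖∑ u ∈ S, (c u : K) * η u‖ < 1 → ∀ u ∈ S, (p : ℤ) ∣ c u) (m : ℕ)
    (ha : Tendsto (fun e : ℕ => ∑ u ∈ S, a u * η u ^ (p ^ (m + e))) atTop (𝓝 0)) :
    ∀ u ∈ S, a u = 0 := by
  classical
  have h1 : Tendsto (fun e : ℕ => ∑ u : S, a u * η u ^ (p ^ e)) atTop (𝓝 0) := by
    rw [← tendsto_add_atTop_iff_nat m]
    refine ha.congr fun e => ?_
    rw [Finset.sum_coe_sort S (fun u => a u * η u ^ (p ^ (e + m))), Nat.add_comm]
  intro u hu
  refine artin_dedekind (p := p) (fun u : S => η u) (fun u : S => a u) (fun u => hη u u.2) ?_ h1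
    ⟨u, hu⟩
  intro c hc v
  have h2 := hind (fun u => if h : u ∈ S then c ⟨u, h⟩ else 0) (by
    have h3 : ∑ u ∈ S, (((if h : u ∈ S then c ⟨u, h⟩ else 0 : ℤ) : ℤ) : K) * η u =
        ∑ u : S, (c u : K) * η u := by
      rw [← Finset.sum_coe_sort S]
      refine Finset.sum_congr rfl fun u _ => ?_
      rw [dif_pos u.2]
    rw [h3]
    exact hc) v v.2
  simpa only [SetLike.coe_mem, ↓reduceDIte, Subtype.coe_eta] using h2

/-- The residue step. -/
theorem LocalFG.residue_step (D : LocalFG p n h Γ) [Γ.IsComm] (Fq : Finset (OK K))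
    (hcard : Fq.card = p ^ n) (hFq : ∀ ω ∈ Fq, ω ^ (p ^ n) = ω) (h1 : (1 : OK K) ∈ Fq)
    {Xv : FPt Γ} (hXv : Xv ≠ 0) (l t j : ℕ) (hne : D.eX Xv 1 l ≠ 0)
    (hω : ∀ ω ∈ Fq, ‖(D.eX Xv ω l / D.eX Xv 1 l) ^ (p ^ t) - (ω : K) ^ (p ^ j)‖ < 1) :
    D.NonBreak (‖Xv.val‖ ^ (p ^ l)) ∧ (n : ℤ) ∣ (j + D.sgl Xv l : ℤ) - t := by
  classical
  have hp : p.Prime := Fact.out
  have hn : 0 < n := lt_of_le_of_lt (Nat.zero_le _) D.h_lt_n
  have hY0 := powPt_ne_zero (p := p) l hXv
  obtain ⟨C, S, hC, h0S, hSc, hS1, hS2, hS3, -, hE⟩ := D.LT (powPt p 1 l Xv) hY0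
  have hY0v : ((powPt p 1 l Xv).val : K) ≠ 0 := norm_pos_iff.1 (norm_val_pos hY0)
  have hCpos : 0 < ‖C‖ := norm_pos_iff.2 hC
  have hsig : D.sig ‖(powPt p 1 l Xv).val‖ = D.sgl Xv l := by
    unfold LocalFG.sgl
    rw [c2_norm_powPt_one]
  rw [hsig] at hE
  set s := D.sgl Xv l with hs
  have hs0 : p ^ s ≠ 0 := pow_ne_zero _ hp.ne_zero
  have hratio : ∀ ω : OK K, ((powPt p ω l Xv).val : K) / ((powPt p 1 l Xv).val : K) = (ω : K) := by
    intro ω
    rw [div_eq_iff hY0v, val_powPt, val_powPt, one_mul]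
    rfl
  -- values
  have hE1 : ∀ ω : OK K, ‖(D.eX Xv ω l / C) ^ (p ^ s) - ∏ v ∈ S, ((ω : K) - v)‖ < 1 := by
    intro ω
    have h9 : ‖(powPt p ω l Xv).val‖ ≤ ‖(powPt p 1 l Xv).val‖ := by
      rw [c2_norm_powPt_one]; exact c2_norm_powPt_le ω l Xv
    have h1 := hE (powPt p ω l Xv) h9
    rw [hratio] at h1
    exact h1
  have hAle : ∀ ω : OK K, ‖D.eX Xv ω l / C‖ ≤ 1 := by
    intro ω
    have h2 : ‖∏ v ∈ S, ((ω : K) - v)‖ ≤ 1 := by
      rw [norm_prod]
      exact Finset.prod_le_one (fun _ _ => norm_nonneg _) fun v hv =>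
        (ltc_norm_sub_le _ _).trans (max_le ω.2 (hS1 v hv))
    have h3 := ltc_norm_le_one (hE1 ω) h2
    rwa [norm_pow, pow_le_one_iff_of_nonneg (norm_nonneg _) hs0] at h3
  let B : OK K → OK K := fun ω => ⟨D.eX Xv ω l / C, hAle ω⟩
  obtain ⟨k, _, φ, hφ⟩ := c2_exists_residue K
  have hchar : CharP k p := by
    rw [CharP.charP_iff_prime_eq_zero hp]
    have h2 : φ ((p : ℕ) : OK K) = 0 := by
      rw [CharP.cast_eq_zero, map_zero]
    rwa [map_natCast] at h2
  let S₂ : Finset (OK K) := S.subtype (fun x => x ∈ OK K)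
  have hS₂ : ∀ v : OK K, v ∈ S₂ ↔ (v : K) ∈ S := fun v => by simp [S₂]
  have hprod : ∀ ω : OK K, ((∏ v ∈ S₂, (ω - v) : OK K) : K) = ∏ v ∈ S, ((ω : K) - v) := by
    intro ω
    have h2 := Finset.prod_subtype_of_mem (s := S) (p := fun x => x ∈ OK K)
      (fun v => (ω : K) - v) (fun v hv => hS1 v hv)
    rw [← h2]
    push_cast
    rfl
  have hS₂card : S₂.card = S.card := by
    rw [Finset.card_subtype, Finset.filter_true_of_mem]
    exact fun v hv => hS1 v hv
  have hφinj : ∀ v ∈ S₂, ∀ w ∈ S₂, φ v = φ w → v = w := by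
    intro v hv w hw hvw
    by_contra hne
    have h2 : ‖v - w‖ < 1 := (hφ _).1 (by rw [map_sub, hvw, sub_self])
    have h3 := hS2 v ((hS₂ v).1 hv) w ((hS₂ w).1 hw) (fun h => hne (Subtype.ext h))
    have h4 : ‖v - w‖ = 1 := h3
    rw [h4] at h2
    exact lt_irrefl _ h2
  have hφFq : ∀ v ∈ Fq, ∀ w ∈ Fq, φ v = φ w → v = w := by
    intro v hv w hw hvw
    by_contra hne
    have h2 : ‖v - w‖ < 1 := (hφ _).1 (by rw [map_sub, hvw, sub_self])
    rw [c2_Fq_norm (p := p) hn (hFq v hv) (hFq w hw) hne] at h2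
    exact lt_irrefl _ h2
  have hB1 : ∀ ω : OK K, (φ (B ω)) ^ (p ^ s) = ∏ v ∈ S₂, (φ ω - φ v) := by
    intro ω
    have h2 : ‖(B ω) ^ (p ^ s) - ∏ v ∈ S₂, (ω - v)‖ < 1 := by
      have h3 := hE1 ω
      rw [← hprod] at h3
      exact h3
    have h4 := (hφ _).2 h2
    rw [map_sub, map_pow, map_prod, sub_eq_zero] at h4
    simpa only [map_sub] using h4
  have hB2 : ∀ ω ∈ Fq, (φ (B ω)) ^ (p ^ t) = (φ ω) ^ (p ^ j) * (φ (B 1)) ^ (p ^ t) := by
    intro ω hω'
    have h2 : ‖(B ω) ^ (p ^ t) - ω ^ (p ^ j) * (B 1) ^ (p ^ t)‖ < 1 := by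
      have h3 := hω ω hω'
      have h4 : ((B ω : OK K) : K) ^ (p ^ t) - (ω : K) ^ (p ^ j) * ((B 1 : OK K) : K) ^ (p ^ t) =
          ((D.eX Xv ω l / D.eX Xv 1 l) ^ (p ^ t) - (ω : K) ^ (p ^ j)) *
            (D.eX Xv 1 l / C) ^ (p ^ t) := by
        show (D.eX Xv ω l / C) ^ (p ^ t) - (ω : K) ^ (p ^ j) * (D.eX Xv 1 l / C) ^ (p ^ t) = _
        rw [sub_mul, ← mul_pow]
        congr 2
        field_simp
      show ‖((B ω : OK K) : K) ^ (p ^ t) - (ω : K) ^ (p ^ j) * ((B 1 : OK K) : K) ^ (p ^ t)‖ < 1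
      rw [h4, norm_mul]
      refine lt_of_le_of_lt (mul_le_of_le_one_right (norm_nonneg _) ?_) h3
      rw [norm_pow]
      exact pow_le_one₀ (norm_nonneg _) (hAle 1)
    have h4 := (hφ _).2 h2
    rw [map_sub, map_pow, map_mul, map_pow, map_pow, sub_eq_zero] at h4
    exact h4
  have key := c2_residue_poly (p := p) hn (Fq.image φ) (S₂.image φ) (n := n) ?_ ?_ ?_ ?_ ?_
    ((φ (B 1)) ^ (p ^ (t + s))) t (j + s) ?_
  · obtain ⟨k1, k2⟩ := key
    constructor
    · rw [← c2_norm_powPt_one (p := p) l Xv]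
      apply hS3
      have h2 : (S₂.image φ).card = 1 := by rw [k1]; simp
      rw [Finset.card_image_of_injOn (fun v hv w hw => hφinj v hv w hw), hS₂card] at h2
      exact h2
    · push_cast at k2
      exact k2
  · rw [Finset.card_image_of_injOn (fun v hv w hw => hφFq v hv w hw), hcard]
  · intro ω hω'
    obtain ⟨x, hx, rfl⟩ := Finset.mem_image.1 hω'
    rw [← map_pow, hFq x hx]
  · exact Finset.mem_image.2 ⟨1, h1, map_one φ⟩
  · exact Finset.mem_image.2 ⟨0, (hS₂ 0).2 h0S, map_zero φ⟩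
  · rw [Finset.card_image_of_injOn (fun v hv w hw => hφinj v hv w hw), hS₂card]
    refine lt_of_le_of_lt hSc (Nat.pow_lt_pow_right hp.one_lt ?_)
    have := D.one_le_h
    have := D.h_lt_n
    omega
  · intro ω hω'
    obtain ⟨x, hx, rfl⟩ := Finset.mem_image.1 hω'
    rw [Finset.prod_image (fun v hv w hw => hφinj v hv w hw), ← hB1, ← pow_mul, Nat.mul_comm,
      pow_mul, hB2 x hx, mul_pow, ← pow_mul, ← pow_mul, ← pow_add, ← pow_add, mul_comm]

/-- The data for the final step of Case II. -/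
structure C2Data (D : LocalFG p n h Γ) [Γ.IsComm] (ι : Type*) where
  S : Finset ι
  X : ι → FPt Γ
  X0 : FPt Γ
  Xv : FPt Γ
  hX0 : X0 ≠ 0
  hXle : ∀ u ∈ S, ‖(X u).val‖ ≤ ‖X0.val‖
  hindep : ∀ c : ι → ℤ, ‖∑ u ∈ S, (c u : K) * (((X u).val : K) / (X0.val : K))‖ < 1 →
    ∀ u ∈ S, (p : ℤ) ∣ c u
  hXv : Xv ≠ 0
  hlt : ‖Xv.val‖ < ‖X0.val‖
  hmin : ∀ c : ι → ℤ, ‖Xv.val‖ ≤ ‖(Xv + ∑ u ∈ S, c u • X u).val‖
  Fq : Finset (OK K)
  hcard : Fq.card = p ^ n
  hFq : ∀ ω ∈ Fq, ω ^ (p ^ n) = ω
  h1 : (1 : OK K) ∈ Fq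
  K0 : ℕ
  M : ℕ
  b : ℕ
  hK0 : ‖X0.val‖ ^ (p ^ (n * (K0 + 1))) < ‖Xv.val‖
  hK0' : ‖Xv.val‖ ≤ ‖X0.val‖ ^ (p ^ (n * K0))
  G : ι → K
  hG : ∃ u ∈ S, G u ≠ 0
  hkey : ∀ ω ∈ Fq, Tendsto (fun l =>
    (D.eX Xv ω l / (D.eX X0 1 l) ^ (p ^ b)) ^ (p ^ (h * (M + 1))) +
      (ω : K) ^ (p ^ (h + (n - 1) * (D.sgl X0 l + M * (n - h)) + b)) *
        ∑ u ∈ S, G u * (((X u).val : K) / (X0.val : K)) ^ (p ^ ((h * (M + 1) + b) + D.exl X0 l)))
      (D.nbf X0) (𝓝 0)

namespace C2Data

variable {D : LocalFG p n h Γ} [Γ.IsComm] {ι : Type*} (d : C2Data D ι)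

/-- `∑ G_u η_u^(p^(hN+b+e))` -/
noncomputable def Gs (e : ℕ) : K :=
  ∑ u ∈ d.S, d.G u * (((d.X u).val : K) / (d.X0.val : K)) ^ (p ^ ((h * (d.M + 1) + d.b) + e))

/-- `ε_v(ω)/a^(p^b)` -/
noncomputable def εh (ω : OK K) (l : ℕ) : K := D.eX d.Xv ω l / (D.eX d.X0 1 l) ^ (p ^ d.b)

/-- the exponent of `ω`. -/
noncomputable def jj (l : ℕ) : ℕ := h + (n - 1) * (D.sgl d.X0 l + d.M * (n - h)) + d.b

theorem key (ω : OK K) (hω : ω ∈ d.Fq) : Tendsto (fun l => (d.εh ω l) ^ (p ^ (h * (d.M + 1))) +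
    (ω : K) ^ (p ^ d.jj l) * d.Gs (D.exl d.X0 l)) (D.nbf d.X0) (𝓝 0) := d.hkey ω hω

theorem key1 : Tendsto (fun l => (d.εh 1 l) ^ (p ^ (h * (d.M + 1))) + d.Gs (D.exl d.X0 l))
    (D.nbf d.X0) (𝓝 0) := by
  refine (d.key 1 d.h1).congr fun l => ?_
  simp only [OneMemClass.coe_one, one_pow, one_mul]

theorem c2_norm_eta_le {u : ι} (hu : u ∈ d.S) : ‖((d.X u).val : K) / (d.X0.val : K)‖ ≤ 1 := by
  rw [norm_div]
  exact div_le_one_of_le₀ (d.hXle u hu) (norm_nonneg _)

theorem norm_Gs_le : ∃ CG : ℝ, 0 ≤ CG ∧ ∀ e, ‖d.Gs e‖ ≤ CG := by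
  refine ⟨∑ u ∈ d.S, ‖d.G u‖, Finset.sum_nonneg fun _ _ => norm_nonneg _, fun e => ?_⟩
  unfold Gs
  refine (_root_.norm_sum_le _ _).trans (Finset.sum_le_sum fun u hu => ?_)
  rw [norm_mul, norm_pow]
  exact mul_le_of_le_one_right (norm_nonneg _) (pow_le_one₀ (norm_nonneg _) (d.c2_norm_eta_le hu))

theorem exists_c0 : ∃ c0 : ℝ, 0 < c0 ∧ ∃ᶠ l in D.nbf d.X0, c0 ≤ ‖d.Gs (D.exl d.X0 l)‖ := by
  have h1 : ¬ Tendsto d.Gs atTop (𝓝 0) := by
    intro h2
    have h3 := c2_ad_finset (p := p) d.S (fun u => ((d.X u).val : K) / (d.X0.val : K)) d.G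
      (fun u hu => d.c2_norm_eta_le hu) d.hindep (h * (d.M + 1) + d.b) h2
    obtain ⟨u, hu, hu2⟩ := d.hG
    exact hu2 (h3 u hu)
  rw [Metric.tendsto_nhds] at h1
  push Not at h1
  obtain ⟨c0, hc0, h2⟩ := h1
  refine ⟨c0, hc0, ?_⟩
  have h3 : ∃ᶠ e in atTop, c0 ≤ ‖d.Gs e‖ := by
    refine (h2 : ∃ᶠ e in atTop, _).mono fun e he => ?_
    simpa only [dist_zero_right] using he
  exact D.frequently_nbf d.hX0 h3

/-- The good levels. -/
noncomputable def GG (c0 : ℝ) : Filter ℕ := D.nbf d.X0 ⊓ 𝓟 {l | c0 ≤ ‖d.Gs (D.exl d.X0 l)‖}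

theorem GG_le (c0 : ℝ) : d.GG c0 ≤ D.nbf d.X0 := inf_le_left

theorem eventually_GG (c0 : ℝ) : ∀ᶠ l in d.GG c0, c0 ≤ ‖d.Gs (D.exl d.X0 l)‖ :=
  mem_inf_of_right (mem_principal_self _)

/-- bounds for `ε_v(1)/a^(p^b)` at the good levels. -/
theorem exists_bounds {c0 : ℝ} (hc0 : 0 < c0) : ∃ c1 C1 : ℝ, 0 < c1 ∧
    ∀ᶠ l in d.GG c0, c1 ≤ ‖d.εh 1 l‖ ∧ ‖d.εh 1 l‖ ≤ C1 ∧
      c0 / 2 ≤ ‖(d.εh 1 l) ^ (p ^ (h * (d.M + 1)))‖ := by
  obtain ⟨CG, hCG0, hCG⟩ := d.norm_Gs_le
  have hp : p.Prime := Fact.out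
  have hk := (d.key1.mono_left (d.GG_le c0)).norm
  rw [norm_zero] at hk
  have h1 := hk.eventually (gt_mem_nhds (lt_min (half_pos hc0) one_pos))
  refine ⟨min 1 (c0 / 2), CG + 1, lt_min one_pos (half_pos hc0), ?_⟩
  filter_upwards [h1, d.eventually_GG c0] with l hl1 hl2
  set x := d.εh 1 l with hx
  set y := d.Gs (D.exl d.X0 l) with hy
  set t := p ^ (h * (d.M + 1)) with ht
  have ht0 : t ≠ 0 := pow_ne_zero _ hp.ne_zero
  have h3 : ‖x ^ t + y‖ < c0 / 2 := hl1.trans_le (min_le_left _ _)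
  have h4 : ‖x ^ t + y‖ < 1 := hl1.trans_le (min_le_right _ _)
  have h5 : c0 / 2 ≤ ‖x ^ t‖ := by
    have h6 : ‖y‖ ≤ ‖x ^ t + y‖ + ‖x ^ t‖ := by
      have : y = (x ^ t + y) - x ^ t := by ring
      calc ‖y‖ = ‖(x ^ t + y) - x ^ t‖ := by rw [← this]
        _ ≤ _ := norm_sub_le _ _
    linarith only [hl2, h3, h6]
  have h7 : ‖x ^ t‖ ≤ CG + 1 := by
    have h8 : ‖x ^ t‖ ≤ ‖x ^ t + y‖ + ‖y‖ := by
      have : x ^ t = (x ^ t + y) - y := by ring
      calc ‖x ^ t‖ = ‖(x ^ t + y) - y‖ := by rw [← this]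
        _ ≤ _ := norm_sub_le _ _
    have := hCG (D.exl d.X0 l)
    (clear hc0 hCG0 hp hx hl2 hy hk h1 ht ht0 h3 h5; linarith)
  refine ⟨?_, ?_, h5⟩
  · rcases le_or_gt 1 ‖x‖ with h9 | h9
    · exact (min_le_left _ _).trans h9
    · refine (min_le_right _ _).trans (h5.trans ?_)
      rw [norm_pow]
      exact pow_le_of_le_one (norm_nonneg _) h9.le ht0
  · rcases le_or_gt 1 ‖x‖ with h9 | h9
    · refine le_trans ?_ h7
      rw [norm_pow]
      exact le_self_pow₀ h9 ht0
    · linarith only [hCG0, h9]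

theorem eventually_ratio {c0 : ℝ} (hc0 : 0 < c0) (ω : OK K) (hω : ω ∈ d.Fq) :
    ∀ᶠ l in d.GG c0, D.eX d.Xv 1 l ≠ 0 ∧
      ‖(D.eX d.Xv ω l / D.eX d.Xv 1 l) ^ (p ^ (h * (d.M + 1))) - (ω : K) ^ (p ^ d.jj l)‖ < 1 := by
  have hp : p.Prime := Fact.out
  obtain ⟨c1, C1, hc1, hb⟩ := d.exists_bounds hc0
  set t := p ^ (h * (d.M + 1)) with ht
  have ht0 : t ≠ 0 := pow_ne_zero _ hp.ne_zero
  have hk := (d.key ω hω).mono_left (d.GG_le c0)
  have hk1 := d.key1.mono_left (d.GG_le c0)
  have h1 : Tendsto (fun l => (d.εh 1 l ^ t + d.Gs (D.exl d.X0 l)) * (ω : K) ^ (p ^ d.jj l))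
      (d.GG c0) (𝓝 0) := by
    refine c2_tendsto_mul_bdd hk1 1 (Eventually.of_forall fun l => ?_)
    rw [norm_pow]
    exact pow_le_one₀ (norm_nonneg _) ω.2
  have h2 := hk.sub h1
  rw [sub_zero] at h2
  have h3 : Tendsto (fun l => (d.εh ω l ^ t + (ω : K) ^ (p ^ d.jj l) * d.Gs (D.exl d.X0 l) -
      (d.εh 1 l ^ t + d.Gs (D.exl d.X0 l)) * (ω : K) ^ (p ^ d.jj l)) * (d.εh 1 l ^ t)⁻¹)
      (d.GG c0) (𝓝 0) := by
    refine c2_tendsto_mul_bdd h2 (c0 / 2)⁻¹ ?_
    filter_upwards [hb] with l hl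
    rw [norm_inv]
    exact inv_anti₀ (half_pos hc0) hl.2.2
  have h4 := h3.norm
  rw [norm_zero] at h4
  filter_upwards [h4.eventually (gt_mem_nhds one_pos), hb,
    (D.eventually_eX_ne_zero d.hX0).filter_mono (d.GG_le c0)] with l hl1 hl2 hl3
  have h5 : d.εh 1 l ≠ 0 := norm_pos_iff.1 (hc1.trans_le hl2.1)
  have h6 : D.eX d.Xv 1 l ≠ 0 := by
    intro h0
    apply h5
    unfold εh
    rw [h0, zero_div]
  refine ⟨h6, ?_⟩
  have h7 : (d.εh ω l ^ t + (ω : K) ^ (p ^ d.jj l) * d.Gs (D.exl d.X0 l) -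
      (d.εh 1 l ^ t + d.Gs (D.exl d.X0 l)) * (ω : K) ^ (p ^ d.jj l)) * (d.εh 1 l ^ t)⁻¹ =
      (D.eX d.Xv ω l / D.eX d.Xv 1 l) ^ t - (ω : K) ^ (p ^ d.jj l) := by
    have h8 : D.eX d.Xv ω l / D.eX d.Xv 1 l = d.εh ω l / d.εh 1 l := by
      unfold εh
      (clear hc0 hω hp hb ht ht0 hk hk1 h1 h2 h3 h4 hl1; field_simp)
    rw [h8, div_pow]
    have h9 : d.εh 1 l ^ t ≠ 0 := pow_ne_zero _ h5
    field_simp
    ring
  rw [← h7]
  exact hl1

/-- at the good levels `‖Xv‖^(p^l)` is a non-break and `n ∣ b + σ'' - σ`. -/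
theorem eventually_good {c0 : ℝ} (hc0 : 0 < c0) :
    ∀ᶠ l in d.GG c0, D.NonBreak (‖d.Xv.val‖ ^ (p ^ l)) ∧
      (n : ℤ) ∣ (d.b : ℤ) + D.sgl d.Xv l - D.sgl d.X0 l := by
  have h1 : ∀ᶠ l in d.GG c0, ∀ ω ∈ d.Fq, D.eX d.Xv 1 l ≠ 0 ∧
      ‖(D.eX d.Xv ω l / D.eX d.Xv 1 l) ^ (p ^ (h * (d.M + 1))) - (ω : K) ^ (p ^ d.jj l)‖ < 1 := by
    rw [Filter.eventually_all_finset]
    exact fun ω hω => d.eventually_ratio hc0 ω hω
  filter_upwards [h1] with l hl
  obtain ⟨k1, k2⟩ := D.residue_step d.Fq d.hcard d.hFq d.h1 d.hXv l _ _ (hl 1 d.h1).1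
    (fun ω hω => (hl ω hω).2)
  refine ⟨k1, ?_⟩
  unfold jj at k2
  have hn1 : 1 ≤ n := by have := D.h_lt_n; omega
  have hhn : h ≤ n := D.h_lt_n.le
  push_cast [Nat.cast_sub hn1, Nat.cast_sub hhn] at k2
  have h3 : (d.b : ℤ) + D.sgl d.Xv l - D.sgl d.X0 l =
      ((h : ℤ) + ((n : ℤ) - 1) * (D.sgl d.X0 l + d.M * ((n : ℤ) - h)) + d.b + D.sgl d.Xv l -
        h * (d.M + 1)) - n * (D.sgl d.X0 l + d.M * ((n : ℤ) - h) - d.M) := by ring
  rw [h3]
  exact dvd_sub k2 (dvd_mul_right _ _)

theorem norm_Xv_pow (l k : ℕ) (hle : ‖d.Xv.val‖ ≤ ‖d.X0.val‖ ^ (p ^ (n * k))) :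
    ‖d.Xv.val‖ ^ (p ^ l) ≤ ‖d.X0.val‖ ^ (p ^ (l + n * k)) := by
  rw [LocalFG.norm_pow_shift]
  refine (pow_le_pow_left₀ (norm_nonneg _) hle _).trans (le_of_eq ?_)
  rw [← pow_mul, ← pow_mul, Nat.mul_comm]

theorem exp_le {i j : ℕ} (hij : i ≤ j) {l : ℕ} :
    ‖D.eX d.X0 1 l ^ (p ^ j)‖ ≤ ‖D.eX d.X0 1 l ^ (p ^ i)‖ := by
  rw [norm_pow, norm_pow]
  exact pow_le_pow_of_le_one (norm_nonneg _) (D.norm_eX_lt_one _ 1 l).le
    (Nat.pow_le_pow_right (Fact.out : p.Prime).pos hij)

/-- comparing `ε_v(1)` with powers of `a`. -/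
theorem b_gt {c0 : ℝ} (hc0 : 0 < c0) (hG : (d.GG c0).NeBot) (k : ℕ)
    (hk : Tendsto (fun l => D.eX d.Xv 1 l / D.eX d.X0 1 l ^ (p ^ k)) (d.GG c0) (𝓝 0)) :
    k < d.b := by
  by_contra hlt
  rw [not_lt] at hlt
  obtain ⟨c1, C1, hc1, hb⟩ := d.exists_bounds hc0
  have h1 : Tendsto (fun l => D.eX d.Xv 1 l / D.eX d.X0 1 l ^ (p ^ k) *
      (D.eX d.X0 1 l ^ (p ^ k) / D.eX d.X0 1 l ^ (p ^ d.b))) (d.GG c0) (𝓝 0) :=
    c2_tendsto_mul_bdd hk 1 (Eventually.of_forall fun l => D.norm_eX_pow_div_le d.X0 hlt l)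
  have h2 := h1.norm
  rw [norm_zero] at h2
  obtain ⟨l, hl1, hl2, hl3⟩ := ((h2.eventually (gt_mem_nhds hc1)).and (hb.and
    ((D.eventually_eX_ne_zero d.hX0).filter_mono (d.GG_le c0)))).exists
  have h3 : D.eX d.Xv 1 l / D.eX d.X0 1 l ^ (p ^ k) *
      (D.eX d.X0 1 l ^ (p ^ k) / D.eX d.X0 1 l ^ (p ^ d.b)) = d.εh 1 l := by
    unfold εh
    (clear hc0 hk hlt c1 C1 hc1 hb h1 h2 hl1 hl2; field_simp)
  rw [h3] at hl1
  exact absurd hl2.1 (not_le.2 hl1)

theorem b_lt {c0 : ℝ} (hc0 : 0 < c0) (hG : (d.GG c0).NeBot) (k : ℕ)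
    (hk : Tendsto (fun l => D.eX d.X0 1 l ^ (p ^ k) / D.eX d.Xv 1 l) (d.GG c0) (𝓝 0)) :
    d.b < k := by
  by_contra hlt
  rw [not_lt] at hlt
  obtain ⟨c1, C1, hc1, hb⟩ := d.exists_bounds hc0
  have h1 : Tendsto (fun l => D.eX d.X0 1 l ^ (p ^ k) / D.eX d.Xv 1 l * d.εh 1 l)
      (d.GG c0) (𝓝 0) :=
    c2_tendsto_mul_bdd hk C1 (hb.mono fun l hl => hl.2.1)
  have h2 := h1.norm
  rw [norm_zero] at h2
  obtain ⟨l, hl1, hl2, hl3⟩ := ((h2.eventually (gt_mem_nhds one_pos)).and (hb.and
    ((D.eventually_eX_ne_zero d.hX0).filter_mono (d.GG_le c0)))).exists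
  have hne : d.εh 1 l ≠ 0 := norm_pos_iff.1 (hc1.trans_le hl2.1)
  have hne2 : D.eX d.Xv 1 l ≠ 0 := by
    intro h0
    apply hne
    unfold εh
    rw [h0, zero_div]
  have h3 : D.eX d.X0 1 l ^ (p ^ k) / D.eX d.Xv 1 l * d.εh 1 l =
      D.eX d.X0 1 l ^ (p ^ k) / D.eX d.X0 1 l ^ (p ^ d.b) := by
    unfold εh
    (clear hc0 hk hlt hb h1 h2 hl1; field_simp)
  rw [h3, norm_div, div_lt_one (norm_pos_iff.2 (pow_ne_zero _ hl3))] at hl1
  exact absurd (d.exp_le hlt) (not_le.2 hl1)

/-- Case `‖Xv‖ < ‖X0‖^(q^K0)`. -/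
theorem false_of_lt (hlt : ‖d.Xv.val‖ < ‖d.X0.val‖ ^ (p ^ (n * d.K0))) : False := by
  obtain ⟨c0, hc0, hfreq⟩ := d.exists_c0
  have hG : (d.GG c0).NeBot := frequently_iff_neBot.1 hfreq
  have hhn := D.h_lt_n
  have hr0 : 0 < ‖d.X0.val‖ := LocalFG.norm_val_pos d.hX0
  have hrv : 0 < ‖d.Xv.val‖ := LocalFG.norm_val_pos d.hXv
  -- lower bound for b
  have hb1 : h * d.K0 < d.b := by
    apply d.b_gt hc0 hG
    refine Tendsto.mono_left ?_ (d.GG_le c0)
    have h1 := D.tendsto_ratio_zero (D.smul_ne_zero' d.hX0 d.K0) (X := d.Xv) (by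
      rw [D.val_pow_smul, OK_norm_pow]; exact hlt)
    rw [D.nbf_smul d.hX0] at h1
    have h2 := h1.mul (D.tendsto_eX_shift d.hX0 d.K0)
    rw [zero_mul] at h2
    refine h2.congr' ?_
    filter_upwards [(D.tendsto_shift d.hX0 d.K0).eventually (D.eventually_eX_ne_zero d.hX0)]
      with l hl
    rw [D.eX_smul]
    field_simp
  -- upper bound for b
  have hb2 : d.b < h * (d.K0 + 1) := by
    apply d.b_lt hc0 hG
    have hle : d.GG c0 ≤ D.nbf d.Xv := by
      refine le_inf ((d.GG_le c0).trans (D.nbf_le _)) ?_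
      rw [le_principal_iff]
      exact (d.eventually_good hc0).mono fun l hl => hl.1
    have h1 := (D.tendsto_ratio_zero d.hXv (X := p ^ (d.K0 + 1) • d.X0) (by
      rw [D.val_pow_smul, OK_norm_pow]; exact d.hK0)).mono_left hle
    have h2 : Tendsto (fun l => (D.eX d.X0 1 (l + n * (d.K0 + 1)) /
        (D.eX d.X0 1 l) ^ (p ^ (h * (d.K0 + 1))))⁻¹) (d.GG c0) (𝓝 ((D.cN (d.K0 + 1) : K))⁻¹) :=
      ((D.tendsto_eX_shift d.hX0 (d.K0 + 1)).mono_left (d.GG_le c0)).inv₀
        (fun h0 => D.cN_ne_zero (d.K0 + 1) (Subtype.ext h0))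
    have h3 := h1.mul h2
    rw [zero_mul] at h3
    refine h3.congr' ?_
    filter_upwards [((D.tendsto_shift d.hX0 (d.K0 + 1)).eventually
      (D.eventually_eX_ne_zero d.hX0)).filter_mono (d.GG_le c0)] with l hl
    rw [D.eX_smul]
    (clear hlt hc0 hhn hr0 hrv hb1 hle h1 h2 h3; field_simp)
  -- bounds for the σ's
  have hs := ((D.eventually_sgl_shift d.hX0 d.K0).and
    (D.eventually_sgl_shift d.hX0 (d.K0 + 1))).filter_mono ((d.GG_le c0).trans (D.nbf_le _))
  obtain ⟨l, ⟨hs1, hs2⟩, -, hdvd⟩ := (hs.and (d.eventually_good hc0)).exists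
  have h5 : D.sgl d.X0 (l + n * d.K0) ≤ D.sgl d.Xv l := by
    unfold LocalFG.sgl
    exact D.sig_anti (pow_pos hrv _) (d.norm_Xv_pow l d.K0 d.hK0')
  have h6 : D.sgl d.Xv l ≤ D.sgl d.X0 (l + n * (d.K0 + 1)) := by
    unfold LocalFG.sgl
    refine D.sig_anti (pow_pos hr0 _) ?_
    rw [LocalFG.norm_pow_shift, ← pow_mul, Nat.mul_comm, pow_mul]
    exact pow_le_pow_left₀ (by (clear hlt hc0 hhn hrv hb1 hb2 hs l hs1 hs2 hdvd h5; positivity)) d.hK0.le _
  rw [hs1] at h5
  rw [hs2] at h6
  obtain ⟨z, hz⟩ := hdvd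
  obtain ⟨m, hm⟩ : ∃ m, n = h + m := ⟨n - h, by omega⟩
  have hm' : n - h = m := by omega
  have hmz : (n : ℤ) = h + m := by exact_mod_cast hm
  rw [hm'] at h5 h6
  have h7 : (n : ℤ) * d.K0 < n * z := by
    rw [← hz, hmz]
    have h8 : (h : ℤ) * d.K0 < d.b := by exact_mod_cast hb1
    have h9 : (D.sgl d.X0 l : ℤ) + d.K0 * m ≤ D.sgl d.Xv l := by exact_mod_cast h5
    (clear hhn hr0 hrv hb2 hs hs1 hs2 z hz h6 hm hm' hmz h8 h9; nlinarith)
  have h8 : (n : ℤ) * z < n * (d.K0 + 1) := by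
    rw [← hz, hmz]
    have h8 : (d.b : ℤ) < h * (d.K0 + 1) := by exact_mod_cast hb2
    have h9 : (D.sgl d.Xv l : ℤ) ≤ D.sgl d.X0 l + (d.K0 + 1) * m := by exact_mod_cast h6
    (clear hlt hhn hr0 hrv hb1 hs hs1 hs2 z hz h5 hm hm' hmz h7 h8 h9; nlinarith)
  have hnpos : (0 : ℤ) < n := by omega
  have h9 := lt_of_mul_lt_mul_left h7 hnpos.le
  have h10 := lt_of_mul_lt_mul_left h8 hnpos.le
  omega

/-- in the case of equality the norms of `ε_v(1)` are known at non-breaks -/
theorem norm_eX_of_eq (heq : ‖d.Xv.val‖ = ‖d.X0.val‖ ^ (p ^ (n * d.K0))) {l : ℕ}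
    (hl : D.NonBreak (‖d.X0.val‖ ^ (p ^ (l + n * d.K0)))) :
    ‖D.eX d.Xv 1 l‖ = ‖D.eX d.X0 1 (l + n * d.K0)‖ := by
  have h1 : ‖d.Xv.val‖ ^ (p ^ l) = ‖d.X0.val‖ ^ (p ^ (l + n * d.K0)) := by
    rw [heq, ← pow_mul, ← pow_add, Nat.add_comm]
  have h2 : ‖(powPt p 1 l d.Xv).val‖ = ‖(powPt p 1 (l + n * d.K0) d.X0).val‖ := by
    rw [LocalFG.c2_norm_powPt_one, LocalFG.c2_norm_powPt_one, h1]
  have h3 : D.NonBreak ‖(powPt p 1 l d.Xv).val‖ := by rwa [LocalFG.c2_norm_powPt_one, h1]
  have h4 : D.NonBreak ‖(powPt p 1 (l + n * d.K0) d.X0).val‖ := by rwa [LocalFG.c2_norm_powPt_one]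
  exact le_antisymm
    (D.norm_E_le_of_nonBreak _ _ (LocalFG.powPt_ne_zero _ d.hX0) h4 h2.le).2
    (D.norm_E_le_of_nonBreak _ _ (LocalFG.powPt_ne_zero _ d.hXv) h3 h2.ge).2

/-- in the case of equality `b = h K0`. -/
theorem b_eq_of_eq (heq : ‖d.Xv.val‖ = ‖d.X0.val‖ ^ (p ^ (n * d.K0))) : d.b = h * d.K0 := by
  obtain ⟨c0, hc0, hfreq⟩ := d.exists_c0
  have hG : (d.GG c0).NeBot := frequently_iff_neBot.1 hfreq
  have h0 : ∀ᶠ l in D.nbf d.X0, D.eX d.X0 1 (l + n * d.K0) ≠ 0 ∧ D.eX d.X0 1 l ≠ 0 ∧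
      ‖D.eX d.Xv 1 l‖ = ‖D.eX d.X0 1 (l + n * d.K0)‖ := by
    filter_upwards [(D.tendsto_shift d.hX0 d.K0).eventually (D.eventually_eX_ne_zero d.hX0),
      D.eventually_eX_ne_zero d.hX0,
      (D.tendsto_shift d.hX0 d.K0).eventually (D.eventually_nonBreak d.X0)] with l hl1 hl2 hl3
    exact ⟨hl1, hl2, d.norm_eX_of_eq heq hl3⟩
  have hc : ‖(D.cN d.K0 : K)‖ ≠ 0 := by
    rw [norm_ne_zero_iff]
    exact fun h0 => D.cN_ne_zero d.K0 (Subtype.ext h0)
  have hshift := D.tendsto_eX_shift d.hX0 d.K0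
  rcases lt_trichotomy d.b (h * d.K0) with hlt | heq' | hgt
  · exfalso
    have h1 : Tendsto (fun l => D.eX d.X0 1 (l + n * d.K0) / D.eX d.X0 1 l ^ (p ^ (h * d.K0)) *
        (D.eX d.X0 1 l ^ (p ^ (h * d.K0)) / D.eX d.X0 1 l ^ (p ^ d.b))) (D.nbf d.X0) (𝓝 0) := by
      have := hshift.mul (D.tendsto_eX_pow_div (X1 := d.X0) hlt)
      rwa [mul_zero] at this
    obtain ⟨c1, C1, hc1, hb⟩ := d.exists_bounds hc0
    have h2 := (h1.mono_left (d.GG_le c0)).norm
    rw [norm_zero] at h2
    obtain ⟨l, hl1, hl2, hl3, hl4, hl5⟩ := ((h2.eventually (gt_mem_nhds hc1)).and (hb.and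
      (h0.filter_mono (d.GG_le c0)))).exists
    have h3 : ‖D.eX d.X0 1 (l + n * d.K0) / D.eX d.X0 1 l ^ (p ^ (h * d.K0)) *
        (D.eX d.X0 1 l ^ (p ^ (h * d.K0)) / D.eX d.X0 1 l ^ (p ^ d.b))‖ = ‖d.εh 1 l‖ := by
      unfold εh
      have h4 : D.eX d.X0 1 (l + n * d.K0) / D.eX d.X0 1 l ^ (p ^ (h * d.K0)) *
        (D.eX d.X0 1 l ^ (p ^ (h * d.K0)) / D.eX d.X0 1 l ^ (p ^ d.b)) =
          D.eX d.X0 1 (l + n * d.K0) / D.eX d.X0 1 l ^ (p ^ d.b) := by
        (clear heq hc0 h0 hc hshift hlt h1 c1 C1 hc1 hb h2 hl1 hl2 hl5; field_simp)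
      rw [h4, norm_div, norm_div, hl5]
    rw [h3] at hl1
    exact absurd hl2.1 (not_le.2 hl1)
  · exact heq'
  · exfalso
    obtain ⟨c1, C1, hc1, hb⟩ := d.exists_bounds hc0
    have h1 : Tendsto (fun l => D.eX d.X0 1 l ^ (p ^ d.b) / D.eX d.X0 1 l ^ (p ^ (h * d.K0)) *
        d.εh 1 l) (d.GG c0) (𝓝 0) :=
      c2_tendsto_mul_bdd ((D.tendsto_eX_pow_div (X1 := d.X0) hgt).mono_left (d.GG_le c0)) C1
        (hb.mono fun l hl => hl.2.1)
    have h2 := (hshift.mono_left (d.GG_le c0)).norm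
    have h3 : Tendsto (fun l => ‖D.eX d.X0 1 (l + n * d.K0) / D.eX d.X0 1 l ^ (p ^ (h * d.K0))‖)
        (d.GG c0) (𝓝 0) := by
      have h4 := h1.norm
      rw [norm_zero] at h4
      refine h4.congr' ?_
      filter_upwards [h0.filter_mono (d.GG_le c0)] with l hl
      obtain ⟨hl3, hl4, hl5⟩ := hl
      unfold εh
      have h5 : D.eX d.X0 1 l ^ (p ^ d.b) / D.eX d.X0 1 l ^ (p ^ (h * d.K0)) *
          (D.eX d.Xv 1 l / D.eX d.X0 1 l ^ (p ^ d.b)) =
          D.eX d.Xv 1 l / D.eX d.X0 1 l ^ (p ^ (h * d.K0)) := by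
        field_simp
      rw [h5, norm_div, norm_div, hl5]
    exact hc (tendsto_nhds_unique h2 h3)

/-- in the case of equality: the relation for all `e`. -/
theorem tendsto_of_eq (heq : ‖d.Xv.val‖ = ‖d.X0.val‖ ^ (p ^ (n * d.K0))) :
    Tendsto (fun e : ℕ => (D.cN d.K0 : K) ^ (p ^ (h * (d.M + 1))) *
        ((d.Xv.val : K) / (d.X0.val : K) ^ (p ^ (n * d.K0))) ^ (p ^ (h * (d.M + 1) + e)) +
      ∑ u ∈ d.S, d.G u * ((((d.X u).val : K) / (d.X0.val : K)) ^ (p ^ (n * d.K0))) ^
        (p ^ (h * (d.M + 1) + e))) atTop (𝓝 0) := by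
  have hb := d.b_eq_of_eq heq
  set X1 : FPt Γ := p ^ d.K0 • d.X0 with hX1def
  have hX1 : X1 ≠ 0 := D.smul_ne_zero' d.hX0 d.K0
  have hX1v : (X1.val : K) = (d.X0.val : K) ^ (p ^ (n * d.K0)) := by
    rw [hX1def, D.val_pow_smul]; rfl
  have hX1n : ‖X1.val‖ = ‖d.X0.val‖ ^ (p ^ (n * d.K0)) := by
    rw [hX1def, D.val_pow_smul, OK_norm_pow]
  apply D.tendsto_of_nbf hX1
  rw [D.nbf_smul d.hX0]
  set ηv : K := (d.Xv.val : K) / (d.X0.val : K) ^ (p ^ (n * d.K0)) with hηv
  set t := h * (d.M + 1) with ht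
  set c : K := (D.cN d.K0 : K) with hc
  -- asymptotics of ε_v(1)/a^(Q^K0)
  have hηn : ‖ηv‖ ≤ 1 := by
    rw [hηv, ← hX1v, norm_div]
    refine div_le_one_of_le₀ ?_ (norm_nonneg _)
    show ‖d.Xv.val‖ ≤ ‖X1.val‖
    rw [hX1n, heq]
  have h1 := D.tendsto_ratio' hX1 (X := d.Xv) (by rw [hX1n, heq]) 1 (one_pow _)
  rw [D.nbf_smul d.hX0] at h1
  have h1' : Tendsto (fun l => D.eX d.Xv 1 l / D.eX d.X0 1 (l + n * d.K0) -
      ηv ^ (p ^ D.exl X1 l)) (D.nbf d.X0) (𝓝 0) := by
    refine h1.congr fun l => ?_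
    rw [D.eX_smul, hX1v]
    simp only [OneMemClass.coe_one, one_pow, one_mul, hηv]
  have h2 := D.tendsto_eX_shift d.hX0 d.K0
  have h3 : Tendsto (fun l => D.eX d.Xv 1 l / D.eX d.X0 1 l ^ (p ^ (h * d.K0)) -
      c * ηv ^ (p ^ D.exl X1 l)) (D.nbf d.X0) (𝓝 0) := by
    have h4 := h1'.mul h2
    rw [zero_mul] at h4
    have h5 : Tendsto (fun l => (D.eX d.X0 1 (l + n * d.K0) /
        D.eX d.X0 1 l ^ (p ^ (h * d.K0)) - c) * ηv ^ (p ^ D.exl X1 l)) (D.nbf d.X0) (𝓝 0) := by
      refine c2_tendsto_mul_bdd ?_ 1 (Eventually.of_forall fun l => ?_)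
      · have := h2.sub_const c
        rwa [sub_self] at this
      · rw [norm_pow]
        exact pow_le_one₀ (norm_nonneg _) hηn
    have h6 := h4.add h5
    rw [add_zero] at h6
    refine h6.congr' ?_
    filter_upwards [(D.tendsto_shift d.hX0 d.K0).eventually (D.eventually_eX_ne_zero d.hX0)]
      with l hl
    field_simp
    ring
  have h4 : Tendsto (fun l => (d.εh 1 l) ^ (p ^ t) -
      c ^ (p ^ t) * ηv ^ (p ^ (t + D.exl X1 l))) (D.nbf d.X0) (𝓝 0) := by
    have h5 := h3.pow (p ^ t)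
    rw [zero_pow (pow_ne_zero _ (Fact.out : p.Prime).ne_zero)] at h5
    refine h5.congr fun l => ?_
    rw [sub_pow_char_pow]
    unfold εh
    rw [hb, mul_pow, ← pow_mul, ← pow_add, Nat.add_comm t]
  have h5 := d.key1.sub h4
  rw [sub_zero] at h5
  refine h5.congr' ?_
  filter_upwards [(D.eventually_exl_smul d.hX0 d.K0).filter_mono (D.nbf_le _)] with l hl
  have h6 : d.Gs (D.exl d.X0 l) = ∑ u ∈ d.S, d.G u *
      ((((d.X u).val : K) / (d.X0.val : K)) ^ (p ^ (n * d.K0))) ^ (p ^ (t + D.exl X1 l)) := by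
    unfold Gs
    refine Finset.sum_congr rfl fun u _ => ?_
    rw [← pow_mul, ← pow_add, hl, hb]
    congr 3
    obtain ⟨m, hm⟩ : ∃ m, n = h + m := ⟨n - h, by have := D.h_lt_n; omega⟩
    have hm' : n - h = m := by omega
    rw [hm']
    have h7 : ∀ k : ℕ, n * k = h * k + k * m := fun k => by rw [hm]; ring
    rw [h7, ← hX1def]
    ring
  rw [h6]
  ring

/-- Case `‖Xv‖ = ‖X0‖^(q^K0)`. -/
theorem false_of_eq (heq : ‖d.Xv.val‖ = ‖d.X0.val‖ ^ (p ^ (n * d.K0))) : False := by
  classical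
  have hp : p.Prime := Fact.out
  have hlim := d.tendsto_of_eq heq
  set X0v : K := (d.X0.val : K) with hX0v
  have hX0pos : 0 < ‖d.X0.val‖ := LocalFG.norm_val_pos d.hX0
  have hX0v0 : X0v ≠ 0 := norm_pos_iff.1 hX0pos
  set ηv : K := (d.Xv.val : K) / X0v ^ (p ^ (n * d.K0)) with hηv
  set t := h * (d.M + 1) with ht
  set R : ℝ := ‖d.X0.val‖ ^ (p ^ (n * d.K0)) with hR
  have hRpos : 0 < R := pow_pos hX0pos _
  have hR1 : R < 1 := pow_lt_one₀ (norm_nonneg _) d.X0.norm_val_lt (pow_ne_zero _ hp.ne_zero)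
  have hX0R : ‖X0v ^ (p ^ (n * d.K0))‖ = R := by rw [norm_pow]; rfl
  let η : Option d.S → K := fun o => o.elim ηv
    (fun u => (((d.X u).val : K) / X0v) ^ (p ^ (n * d.K0)))
  let a : Option d.S → K := fun o => o.elim ((D.cN d.K0 : K) ^ (p ^ t)) (fun u => d.G u)
  have hη : ∀ i, ‖η i‖ ≤ 1 := by
    rintro (_ | u)
    · show ‖ηv‖ ≤ 1
      rw [hηv, norm_div, hX0R]
      refine div_le_one_of_le₀ ?_ hRpos.le
      exact d.hK0'
    · show ‖(((d.X u).val : K) / X0v) ^ (p ^ (n * d.K0))‖ ≤ 1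
      rw [norm_pow]
      exact pow_le_one₀ (norm_nonneg _) (d.c2_norm_eta_le u.2)
  have hlim' : Tendsto (fun e : ℕ => ∑ i, a i * η i ^ (p ^ e)) atTop (𝓝 0) := by
    rw [← tendsto_add_atTop_iff_nat t]
    refine hlim.congr fun e => ?_
    rw [Fintype.sum_option, Nat.add_comm t e]
    congr 1
    exact (Finset.sum_coe_sort d.S (fun u => d.G u *
      ((((d.X u).val : K) / X0v) ^ (p ^ (n * d.K0))) ^ (p ^ (e + t)))).symm
  by_cases hind : ∀ c : Option d.S → ℤ, ‖∑ i, (c i : K) * η i‖ < 1 → ∀ i, (p : ℤ) ∣ c i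
  · have h1 := artin_dedekind (p := p) η a hη hind hlim' none
    have h2 : (D.cN d.K0 : K) ^ (p ^ t) = 0 := h1
    have h3 := (pow_eq_zero_iff (pow_ne_zero _ hp.ne_zero)).1 h2
    exact D.cN_ne_zero d.K0 (Subtype.ext h3)
  · push Not at hind
    obtain ⟨c, hc, i, hi⟩ := hind
    rw [Fintype.sum_option] at hc
    have hfrob : ∀ x : ℤ, (x : K) ^ (p ^ (n * d.K0)) = (x : K) := by
      intro x
      have h1 : ∀ m : ℕ, (x : K) ^ (p ^ m) = (x : K) := by
        intro m
        induction m with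
        | zero => simp
        | succ m ih =>
          rw [pow_succ, pow_mul, ih]
          have h2 := congrArg (Int.castRingHom K) (rfl : x = x)
          have h3 : frobenius K p (x : K) = (x : K) := map_intCast _ _
          rwa [frobenius_def] at h3
      exact h1 _
    have hsum : ∀ c' : d.S → ℤ, ∑ u : d.S, (c' u : K) *
        (((d.X u).val : K) / X0v) ^ (p ^ (n * d.K0)) =
        (∑ u : d.S, (c' u : K) * (((d.X u).val : K) / X0v)) ^ (p ^ (n * d.K0)) := by
      intro c'
      rw [sum_pow_char_pow]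
      refine Finset.sum_congr rfl fun u _ => ?_
      rw [mul_pow, hfrob]
    by_cases hcv : (p : ℤ) ∣ c none
    · have h1 : ((c none : ℤ) : K) = 0 := (CharP.intCast_eq_zero_iff K p _).2 hcv
      rw [h1, zero_mul, zero_add] at hc
      have h2 : ‖∑ u : d.S, (c (some u) : K) * (((d.X u).val : K) / X0v)‖ < 1 := by
        have h3 := hsum (fun u => c (some u))
        have h4 : ‖(∑ u : d.S, (c (some u) : K) * (((d.X u).val : K) / X0v)) ^
            (p ^ (n * d.K0))‖ < 1 := by
          rw [← h3]; exact hc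
        rw [norm_pow] at h4
        exact (pow_lt_one_iff_of_nonneg (norm_nonneg _) (pow_ne_zero _ hp.ne_zero)).1 h4
      have h3 := d.hindep (fun u => if h : u ∈ d.S then c (some ⟨u, h⟩) else 0) (by
        have h4 : ∑ u ∈ d.S, (((if h : u ∈ d.S then c (some ⟨u, h⟩) else 0 : ℤ) : ℤ) : K) *
            (((d.X u).val : K) / X0v) =
            ∑ u : d.S, (c (some u) : K) * (((d.X u).val : K) / X0v) := by
          rw [← Finset.sum_coe_sort d.S]
          refine Finset.sum_congr rfl fun u _ => ?_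
          rw [dif_pos u.2]
        rw [← hX0v, h4]
        exact h2)
      rcases i with _ | u
      · exact hi hcv
      · have h5 := h3 u u.2
        apply hi
        simpa only [SetLike.coe_mem, ↓reduceDIte, Subtype.coe_eta] using h5
    · have h1 : ((c none : ℤ) : K) ≠ 0 := fun h0 => hcv ((CharP.intCast_eq_zero_iff K p _).1 h0)
      obtain ⟨z, hz⟩ := exists_intCast_of_pow_eq (K := K) (p := p)
        (x := ((c none : ℤ) : K)⁻¹) (by
          rw [inv_pow]
          have h3 : frobenius K p ((c none : ℤ) : K) = ((c none : ℤ) : K) := map_intCast _ _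
          rw [frobenius_def] at h3
          rw [h3])
      have h2 : ‖ηv + ∑ u : d.S, ((z * c (some u) : ℤ) : K) *
          (((d.X u).val : K) / X0v) ^ (p ^ (n * d.K0))‖ < 1 := by
        have h3 : ηv + ∑ u : d.S, ((z * c (some u) : ℤ) : K) *
            (((d.X u).val : K) / X0v) ^ (p ^ (n * d.K0)) =
            (z : K) * ((c none : K) * η none + ∑ u : d.S, (c (some u) : K) * η (some u)) := by
          rw [mul_add, Finset.mul_sum, ← mul_assoc, hz, inv_mul_cancel₀ h1, one_mul]
          congr 1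
          refine Finset.sum_congr rfl fun u _ => ?_
          rw [← mul_assoc, ← hz]
          push_cast
          rfl
        rw [h3, norm_mul]
        have h4 : ‖((z : OK K) : K)‖ ≤ 1 := (z : OK K).2
        have h5 : ((z : OK K) : K) = (z : K) := by push_cast; rfl
        rw [h5] at h4
        exact lt_of_le_of_lt (mul_le_of_le_one_left (norm_nonneg _) h4) hc
      -- the shorter vector
      let c' : ι → ℤ := fun u => if h : u ∈ d.S then z * c (some ⟨u, h⟩) else 0
      have h3 : ∑ u : d.S, ((z * c (some u) : ℤ) : K) *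
          (((d.X u).val : K) / X0v) ^ (p ^ (n * d.K0)) =
          ∑ u ∈ d.S, (c' u : K) * (((d.X u).val : K) / X0v) ^ (p ^ (n * d.K0)) := by
        rw [← Finset.sum_coe_sort d.S]
        refine Finset.sum_congr rfl fun u _ => ?_
        simp only [c']
        rw [dif_pos u.2]
      rw [h3] at h2
      have h4 := norm_val_add_sum_zsmul_sub_le d.S c' d.Xv (fun u => p ^ d.K0 • d.X u) R hRpos.le
        d.hK0' (fun u hu => by
          rw [D.val_pow_smul, OK_norm_pow]
          exact pow_le_pow_left₀ (norm_nonneg _) (d.hXle u hu) _)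
      have h5 : ‖(d.Xv.val + ∑ u ∈ d.S, (c' u : OK K) * (p ^ d.K0 • d.X u).val)‖ < R := by
        have h6 : ((d.Xv.val + ∑ u ∈ d.S, (c' u : OK K) * (p ^ d.K0 • d.X u).val : OK K) : K) =
            X0v ^ (p ^ (n * d.K0)) * (ηv + ∑ u ∈ d.S, (c' u : K) *
              (((d.X u).val : K) / X0v) ^ (p ^ (n * d.K0))) := by
          rw [mul_add, Finset.mul_sum, hηv]
          push_cast
          congr 1
          · field_simp
          · refine Finset.sum_congr rfl fun u _ => ?_
            rw [D.val_pow_smul, div_pow]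
            push_cast
            (clear hp hX0v ηv hηv t hlim ht R heq hR hRpos hR1 hX0R η a hη hlim' hc i hi hfrob hsum hcv h1 hz h2 h3 h4; field_simp)
        show ‖((d.Xv.val + ∑ u ∈ d.S, (c' u : OK K) * (p ^ d.K0 • d.X u).val : OK K) : K)‖ < R
        rw [h6, norm_mul, hX0R]
        exact mul_lt_of_lt_one_right hRpos h2
      have h7 : ‖(d.Xv + ∑ u ∈ d.S, c' u • (p ^ d.K0 • d.X u)).val‖ < R := by
        have h8 : (d.Xv + ∑ u ∈ d.S, c' u • (p ^ d.K0 • d.X u)).val =
            ((d.Xv + ∑ u ∈ d.S, c' u • (p ^ d.K0 • d.X u)).val -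
              (d.Xv.val + ∑ u ∈ d.S, (c' u : OK K) * (p ^ d.K0 • d.X u).val)) +
            (d.Xv.val + ∑ u ∈ d.S, (c' u : OK K) * (p ^ d.K0 • d.X u).val) := by ring
        rw [h8]
        refine (OK_norm_add_le _ _).trans_lt (max_lt (h4.trans_lt ?_) h5)
        rw [sq]
        exact mul_lt_of_lt_one_left hRpos hR1
      have h9 := d.hmin (fun u => c' u * (p ^ d.K0 : ℕ))
      have h10 : ∑ u ∈ d.S, (c' u * (p ^ d.K0 : ℕ)) • d.X u =
          ∑ u ∈ d.S, c' u • (p ^ d.K0 • d.X u) := by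
        refine Finset.sum_congr rfl fun u _ => ?_
        rw [mul_smul, natCast_zsmul]
      rw [h10] at h9
      rw [heq] at h9
      exact absurd h9 (not_le.2 h7)

/-- The data is contradictory. -/
theorem false' (d : C2Data D ι) : False := by
  rcases d.hK0'.lt_or_eq with h1 | h1
  · exact d.false_of_lt h1
  · exact d.false_of_eq h1

end C2Data

end Vale.Agent.P217
end
end

section

section

/-!
# P217: general lemmas on formal group laws, homomorphisms and multiplication series
-/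

namespace Vale.Agent.P217

open MvPowerSeries

section Subst

variable {R : Type*} [CommRing R] {S : Type*} [CommRing S] {τ υ : Type*}

/-- composition of power series in one variable with constant coefficient `0`. -/
theorem fgHasSubst {a : MvPowerSeries τ R} (ha : constantCoeff a = 0) : PowerSeries.HasSubst a :=
  PowerSeries.HasSubst.of_constantCoeff_zero ha

theorem fgHasSubst_const {a : MvPowerSeries τ R} (ha : constantCoeff a = 0) :
    MvPowerSeries.HasSubst (fun _ : Unit => a) :=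
  hasSubst_of_constantCoeff_zero fun _ => ha

theorem fgHasSubst_pair {a b : MvPowerSeries τ R} (ha : constantCoeff a = 0)
    (hb : constantCoeff b = 0) : MvPowerSeries.HasSubst ![a, b] :=
  hasSubst_of_constantCoeff_zero fun i => by
    fin_cases i
    · exact ha
    · exact hb

theorem constantCoeff_subst_pair (F : FormalGroup R) {a b : MvPowerSeries τ R}
    (ha : constantCoeff a = 0) (hb : constantCoeff b = 0) :
    constantCoeff (MvPowerSeries.subst ![a, b] F.toPowerSeries) = 0 := by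
  refine constantCoeff_subst_eq_zero (fgHasSubst_pair ha hb) (fun i => ?_) F.zero_constantCoeff
  fin_cases i
  · exact ha
  · exact hb

theorem fbConstantCoeff_psubst {a : MvPowerSeries τ R} {f : PowerSeries R}
    (ha : constantCoeff a = 0) (hf : PowerSeries.constantCoeff f = 0) :
    constantCoeff (PowerSeries.subst a f : MvPowerSeries τ R) = 0 :=
  constantCoeff_subst_eq_zero (fgHasSubst_const ha) (fun _ => ha) hf

theorem multSeries_zero' (F : FormalGroup R) : multSeries F 0 = 0 := rfl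

theorem multSeries_succ' (F : FormalGroup R) (m : ℕ) :
    multSeries F (m + 1) =
      MvPowerSeries.subst ![multSeries F m, PowerSeries.X] F.toPowerSeries := by
  rw [multSeries, Function.iterate_succ_apply']
  rfl

theorem constantCoeff_multSeries' (F : FormalGroup R) (m : ℕ) :
    PowerSeries.constantCoeff (multSeries F m) = 0 := by
  induction m with
  | zero => simp [multSeries_zero']
  | succ m ih =>
    rw [multSeries_succ']
    exact constantCoeff_subst_pair F ih PowerSeries.constantCoeff_X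

theorem map_subst_pair (r : R →+* S) (F : FormalGroup R) {a b : MvPowerSeries τ R}
    (ha : constantCoeff a = 0) (hb : constantCoeff b = 0) :
    MvPowerSeries.map r (MvPowerSeries.subst ![a, b] F.toPowerSeries) =
      MvPowerSeries.subst ![MvPowerSeries.map r a, MvPowerSeries.map r b]
        (F.map r).toPowerSeries := by
  rw [MvPowerSeries.map_subst (fgHasSubst_pair ha hb)]
  have : (fun i => MvPowerSeries.map r (![a, b] i)) =
      ![MvPowerSeries.map r a, MvPowerSeries.map r b] := by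
    ext1 i
    fin_cases i <;> rfl
  rw [this]
  rfl

/-- The multiplication series is compatible with base change. -/
theorem fbMap_multSeries (r : R →+* S) (F : FormalGroup R) (m : ℕ) :
    (multSeries F m).map r = multSeries (F.map r) m := by
  induction m with
  | zero => rw [multSeries_zero', multSeries_zero', map_zero]
  | succ m ih =>
    rw [multSeries_succ', multSeries_succ', ← ih]
    have hX : MvPowerSeries.map r (PowerSeries.X : PowerSeries R) = PowerSeries.X :=
      PowerSeries.map_X r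
    refine (map_subst_pair r F (constantCoeff_multSeries' F m)
      PowerSeries.constantCoeff_X).trans ?_
    rw [hX]
    rfl

/-- composition: `subst b (subst a f) = subst (subst b a) f`. -/
theorem psubst_comp {a : MvPowerSeries τ R} {b : τ → MvPowerSeries υ R} (ha : constantCoeff a = 0)
    (hb : MvPowerSeries.HasSubst b) (f : PowerSeries R) :
    MvPowerSeries.subst b (PowerSeries.subst a f : MvPowerSeries τ R) =
      (PowerSeries.subst (MvPowerSeries.subst b a : MvPowerSeries υ R) f : MvPowerSeries υ R) := by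
  exact subst_comp_subst_apply (fgHasSubst_const ha) hb f

theorem fbSubst_pair_comp {a a' : MvPowerSeries τ R} {b : τ → MvPowerSeries υ R}
    (ha : constantCoeff a = 0) (ha' : constantCoeff a' = 0)
    (hb : MvPowerSeries.HasSubst b) (F : MvPowerSeries (Fin 2) R) :
    MvPowerSeries.subst b (MvPowerSeries.subst ![a, a'] F : MvPowerSeries τ R) =
      MvPowerSeries.subst ![MvPowerSeries.subst b a, MvPowerSeries.subst b a'] F := by
  rw [subst_comp_subst_apply (fgHasSubst_pair ha ha') hb]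
  congr 1
  ext1 i
  fin_cases i <;> rfl

/-- A homomorphism applied to a sum. -/
theorem IsHom.apply {F G : FormalGroup R} {f : PowerSeries R} (hf : IsHom F G f)
    {a b : MvPowerSeries τ R} (ha : constantCoeff a = 0) (hb : constantCoeff b = 0) :
    (PowerSeries.subst (MvPowerSeries.subst ![a, b] F.toPowerSeries : MvPowerSeries τ R) f :
        MvPowerSeries τ R) =
      MvPowerSeries.subst ![(PowerSeries.subst a f : MvPowerSeries τ R),
        (PowerSeries.subst b f : MvPowerSeries τ R)] G.toPowerSeries := by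
  have h := congrArg (MvPowerSeries.subst ![a, b]) hf.2
  have hs := fgHasSubst_pair ha hb
  rw [psubst_comp F.zero_constantCoeff hs,
    fbSubst_pair_comp (fbConstantCoeff_psubst (by simp) hf.1) (fbConstantCoeff_psubst (by simp) hf.1) hs,
    psubst_comp (by simp) hs, psubst_comp (by simp) hs, subst_X hs, subst_X hs] at h
  exact h

/-- Homomorphisms commute with the multiplication series: `f([m]_F(X)) = [m]_G(f(X))`. -/
theorem IsHom.fbSubst_multSeries {F G : FormalGroup R} {f : PowerSeries R} (hf : IsHom F G f)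
    (m : ℕ) :
    (PowerSeries.subst (multSeries F m) f : PowerSeries R) =
      (PowerSeries.subst f (multSeries G m) : PowerSeries R) := by
  induction m with
  | zero =>
    rw [multSeries_zero', multSeries_zero', PowerSeries.subst_zero_of_constantCoeff_zero hf.1]
    have := fgHasSubst (show constantCoeff f = 0 from hf.1)
    rw [← PowerSeries.coe_substAlgHom this, map_zero]
  | succ m ih =>
    rw [multSeries_succ', multSeries_succ']
    have hc : MvPowerSeries.HasSubst (fun _ : Unit => f) := fgHasSubst_const hf.1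
    refine (hf.apply (constantCoeff_multSeries' F m) PowerSeries.constantCoeff_X).trans ?_
    refine Eq.trans ?_ (fbSubst_pair_comp (constantCoeff_multSeries' G m)
      PowerSeries.constantCoeff_X hc G.toPowerSeries).symm
    congr 1
    ext1 i
    fin_cases i
    · exact ih
    · change (PowerSeries.subst PowerSeries.X f : PowerSeries R) =
        PowerSeries.subst f PowerSeries.X
      rw [PowerSeries.X_subst, PowerSeries.subst_X (fgHasSubst hf.1)]

theorem IsHom.fbMap {F G : FormalGroup R} {f : PowerSeries R} (hf : IsHom F G f) (r : R →+* S) :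
    IsHom (F.map r) (G.map r) (f.map r) := by
  refine ⟨?_, ?_⟩
  · have := hf.1
    rw [← PowerSeries.coeff_zero_eq_constantCoeff_apply] at this ⊢
    rw [PowerSeries.coeff_map, this, map_zero]
  · have h := congrArg (MvPowerSeries.map r) hf.2
    have h0 : constantCoeff (X 0 : MvPowerSeries (Fin 2) R) = 0 := by simp
    have h1 : constantCoeff (X 1 : MvPowerSeries (Fin 2) R) = 0 := by simp
    rw [PowerSeries.map_subst (fgHasSubst F.zero_constantCoeff),
      map_subst_pair r G (fbConstantCoeff_psubst h0 hf.1) (fbConstantCoeff_psubst h1 hf.1),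
      PowerSeries.map_subst (fgHasSubst h0), PowerSeries.map_subst (fgHasSubst h1),
      MvPowerSeries.map_X, MvPowerSeries.map_X] at h
    exact h

theorem IsIso.fbMap {F G : FormalGroup R} {f : PowerSeries R} (hf : IsIso F G f) (r : R →+* S) :
    IsIso (F.map r) (G.map r) (f.map r) := by
  refine ⟨hf.1.fbMap r, ?_⟩
  rw [PowerSeries.coeff_map]
  exact hf.2.map r

theorem fbMap_map {T : Type*} [CommRing T] (F : FormalGroup R) (r : R →+* S)
    (s : S →+* T) : (F.map r).map s = F.map (s.comp r) := by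
  apply FormalGroup.ext
  simp only [FormalGroup.map_toPowerSeries]
  rw [MvPowerSeries.map_comp]
  rfl

/-- The composition inverse of a power series with invertible linear coefficient. -/
theorem exists_comp_inv {f : PowerSeries R} (h0 : PowerSeries.constantCoeff f = 0)
    (h1 : IsUnit (PowerSeries.coeff 1 f)) :
    ∃ g : PowerSeries R, PowerSeries.constantCoeff g = 0 ∧ IsUnit (PowerSeries.coeff 1 g) ∧
      (PowerSeries.subst g f : PowerSeries R) = PowerSeries.X ∧
      (PowerSeries.subst f g : PowerSeries R) = PowerSeries.X := by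
  have := h1.invertible
  refine ⟨f.substInv, PowerSeries.constantCoeff_substInv f, ?_,
    PowerSeries.subst_substInv_right f h0, PowerSeries.subst_substInv_left f h0⟩
  rw [PowerSeries.coeff_one_substInv]
  exact isUnit_of_invertible _

end Subst

section Divis

variable {R : Type*} [CommRing R]

/-- `f(0) = 0 → a ∣ f(a)`. -/
theorem dvd_psubst {f a : PowerSeries R} (hf : PowerSeries.constantCoeff f = 0)
    (ha : PowerSeries.constantCoeff a = 0) :
    a ∣ (PowerSeries.subst a f : PowerSeries R) := by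
  obtain ⟨g, rfl⟩ := PowerSeries.X_dvd_iff.mpr hf
  have hs := fgHasSubst (show constantCoeff a = 0 from ha)
  rw [PowerSeries.subst_mul hs, PowerSeries.subst_X hs]
  exact dvd_mul_right _ _

/-- `X^N ∣ f → X^N ∣ f(a)` for `a(0) = 0`. -/
theorem pow_dvd_psubst {f a : PowerSeries R} {N : ℕ} (hf : PowerSeries.X ^ N ∣ f)
    (ha : PowerSeries.constantCoeff a = 0) :
    PowerSeries.X ^ N ∣ (PowerSeries.subst a f : PowerSeries R) := by
  obtain ⟨g, rfl⟩ := hf
  have hs := fgHasSubst (show constantCoeff a = 0 from ha)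
  rw [PowerSeries.subst_mul hs, PowerSeries.subst_pow hs, PowerSeries.subst_X hs]
  exact (pow_dvd_pow_of_dvd (PowerSeries.X_dvd_iff.mpr ha) N).mul_right _

theorem psubst_psubst {f a b : PowerSeries R} (ha : PowerSeries.constantCoeff a = 0)
    (hb : PowerSeries.constantCoeff b = 0) :
    (PowerSeries.subst b (PowerSeries.subst a f : PowerSeries R) : PowerSeries R) =
      PowerSeries.subst (PowerSeries.subst b a : PowerSeries R) f :=
  PowerSeries.subst_comp_subst_apply (fgHasSubst (show constantCoeff a = 0 from ha))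
    (fgHasSubst (show constantCoeff b = 0 from hb)) f

/-- Isomorphic formal group laws have multiplication series divisible by the same powers
of `X`. -/
theorem IsIso.pow_dvd_multSeries_iff {F G : FormalGroup R} {f : PowerSeries R}
    (hf : IsIso F G f) (m N : ℕ) :
    PowerSeries.X ^ N ∣ multSeries F m ↔ PowerSeries.X ^ N ∣ multSeries G m := by
  obtain ⟨g, g0, -, hfg, hgf⟩ := exists_comp_inv hf.1.1 hf.2
  have key := hf.1.fbSubst_multSeries m
  constructor
  · intro h
    have h1 : PowerSeries.X ^ N ∣ (PowerSeries.subst f (multSeries G m) : PowerSeries R) := by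
      rw [← key]
      exact h.trans (dvd_psubst hf.1.1 (constantCoeff_multSeries' F m))
    have h2 := pow_dvd_psubst h1 g0
    rw [psubst_psubst hf.1.1 g0, hfg, PowerSeries.X_subst] at h2
    exact h2
  · intro h
    have h1 : PowerSeries.X ^ N ∣ (PowerSeries.subst (multSeries F m) f : PowerSeries R) := by
      rw [key]
      exact pow_dvd_psubst h hf.1.1
    have h0 : PowerSeries.constantCoeff
        (PowerSeries.subst (multSeries F m) f : PowerSeries R) = 0 :=
      fbConstantCoeff_psubst (constantCoeff_multSeries' F m) hf.1.1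
    have h2 := h1.trans (dvd_psubst g0 h0)
    rw [← psubst_psubst hf.1.1 (constantCoeff_multSeries' F m), hgf,
      PowerSeries.subst_X (fgHasSubst (constantCoeff_multSeries' F m))] at h2
    exact h2

/-- The ideal generated by the coefficients of `[m]` of degree `< N` (together with any set)
is the same for isomorphic formal group laws. -/
theorem IsIso.coeff_multSeries_mem {F G : FormalGroup R} {f : PowerSeries R}
    (hf : IsIso F G f) (m N : ℕ) (I : Ideal R) :
    (∀ j < N, PowerSeries.coeff j (multSeries F m) ∈ I) ↔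
      (∀ j < N, PowerSeries.coeff j (multSeries G m) ∈ I) := by
  have h := (hf.fbMap (Ideal.Quotient.mk I)).pow_dvd_multSeries_iff m N
  rw [← fbMap_multSeries, ← fbMap_multSeries, PowerSeries.X_pow_dvd_iff,
    PowerSeries.X_pow_dvd_iff] at h
  simp only [PowerSeries.coeff_map, Ideal.Quotient.eq_zero_iff_mem] at h
  exact h

end Divis

end Vale.Agent.P217
end
end

section

section

/-!
# P217: the group of points of a formal group law in power series, homomorphisms
-/

namespace Vale.Agent.P217.C0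

open MvPowerSeries Vale.Agent.P217

section Cong

variable {R : Type*} [CommRing R] {σ : Type*}

/-- substitution respects congruences modulo `X^k`. -/
theorem coeff_subst_congr {k : ℕ} {a b : σ → PowerSeries R} (ha : HasSubst a) (hb : HasSubst b)
    (h : ∀ s, ∀ i < k, PowerSeries.coeff i (a s) = PowerSeries.coeff i (b s))
    (f : MvPowerSeries σ R) :
    ∀ i < k, PowerSeries.coeff i (subst a f : PowerSeries R) =
      PowerSeries.coeff i (subst b f : PowerSeries R) := by
  have key : ∀ d : σ →₀ ℕ, (PowerSeries.X : PowerSeries R) ^ k ∣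
      (d.prod fun s e => (a s) ^ e) - (d.prod fun s e => (b s) ^ e) := by
    intro d
    rw [← Ideal.mem_span_singleton, ← Ideal.Quotient.mk_eq_mk_iff_sub_mem]
    simp only [Finsupp.prod, map_prod, map_pow]
    refine Finset.prod_congr rfl fun s _ => ?_
    congr 1
    rw [Ideal.Quotient.mk_eq_mk_iff_sub_mem, Ideal.mem_span_singleton, PowerSeries.X_pow_dvd_iff]
    intro m hm
    rw [map_sub, h s m hm, sub_self]
  intro i hi
  rw [PowerSeries.coeff, coeff_subst ha, coeff_subst hb]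
  refine finsum_congr fun d => ?_
  have := (PowerSeries.X_pow_dvd_iff.mp (key d)) i hi
  rw [map_sub, sub_eq_zero] at this
  rw [PowerSeries.coeff] at this
  rw [this]

end Cong

section Iota

variable {R : Type*} [CommRing R] (F : FormalGroup R)

theorem hasSubst_pair {σ : Type*} {f g : MvPowerSeries σ R} (hf : PowerSeries.HasSubst f)
    (hg : PowerSeries.HasSubst g) : HasSubst ![f, g] :=
  hasSubst_of_constantCoeff_nilpotent fun s => by
    fin_cases s
    · exact hf
    · exact hg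

theorem hasSubst_of_cc {σ : Type*} {f : MvPowerSeries σ R} (hf : constantCoeff f = 0) :
    PowerSeries.HasSubst f := PowerSeries.HasSubst.of_constantCoeff_zero hf

/-- There is a series `ι(X)` with `F(ι(X), X) = 0`. -/
theorem exists_iota : ∃ u : PowerSeries R, PowerSeries.constantCoeff u = 0 ∧
    (subst ![u, PowerSeries.X] F.toPowerSeries : PowerSeries R) = 0 := by
  obtain ⟨H, hH⟩ := exists_FG_decomp F
  let T : PowerSeries R → PowerSeries R := fun Y =>
    -PowerSeries.X - Y * PowerSeries.X * (subst ![Y, PowerSeries.X] H : PowerSeries R)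
  have hT0 : ∀ Y, PowerSeries.constantCoeff (T Y) = 0 := by
    intro Y
    simp only [Nat.succ_eq_add_one, Nat.reduceAdd, map_sub, map_neg, PowerSeries.constantCoeff_X, neg_zero, map_mul, mul_zero, zero_mul, sub_self, T]
  let Y : ℕ → PowerSeries R := fun j => T^[j] 0
  have hYs : ∀ j, Y (j + 1) = T (Y j) := fun j => Function.iterate_succ_apply' T j 0
  have hY0 : ∀ j, PowerSeries.constantCoeff (Y j) = 0 := by
    intro j
    cases j with
    | zero => simp [Y]
    | succ j => rw [hYs]; exact hT0 _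
  have hS : ∀ Z : PowerSeries R, PowerSeries.constantCoeff Z = 0 →
      HasSubst ![Z, (PowerSeries.X : PowerSeries R)] := fun Z hZ =>
    hasSubst_pair (hasSubst_of_cc hZ) (hasSubst_of_cc PowerSeries.constantCoeff_X)
  have hTc : ∀ (k : ℕ) (A B : PowerSeries R), PowerSeries.constantCoeff A = 0 →
      PowerSeries.constantCoeff B = 0 →
      (∀ i < k, PowerSeries.coeff i A = PowerSeries.coeff i B) →
      ∀ i < k + 1, PowerSeries.coeff i (T A) = PowerSeries.coeff i (T B) := by
    intro k A B hA hB hAB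
    have h1 : (PowerSeries.X : PowerSeries R) ^ k ∣ A - B := by
      rw [PowerSeries.X_pow_dvd_iff]
      intro m hm
      rw [map_sub, hAB m hm, sub_self]
    have h2 : (PowerSeries.X : PowerSeries R) ^ k ∣
        (subst ![A, PowerSeries.X] H : PowerSeries R) - subst ![B, PowerSeries.X] H := by
      rw [PowerSeries.X_pow_dvd_iff]
      intro m hm
      rw [map_sub, coeff_subst_congr (hS A hA) (hS B hB) ?_ H m hm, sub_self]
      intro s i hi
      fin_cases s
      · exact hAB i hi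
      · rfl
    have h3 : (PowerSeries.X : PowerSeries R) ^ (k + 1) ∣ T A - T B := by
      obtain ⟨u, hu⟩ := h1
      obtain ⟨v, hv⟩ := h2
      refine ⟨-(u * (subst ![A, PowerSeries.X] H : PowerSeries R) + B * v), ?_⟩
      simp only [T]
      linear_combination (-PowerSeries.X * (subst ![A, PowerSeries.X] H : PowerSeries R)) * hu
        - B * PowerSeries.X * hv
    intro i hi
    have := (PowerSeries.X_pow_dvd_iff.mp h3) i hi
    rwa [map_sub, sub_eq_zero] at this
  have hstep : ∀ j, ∀ i < j, PowerSeries.coeff i (Y (j + 1)) = PowerSeries.coeff i (Y j) := by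
    intro j
    induction j with
    | zero => intro i hi; omega
    | succ j ih =>
      intro i hi
      rw [hYs (j + 1)]
      conv_rhs => rw [hYs j]
      exact hTc j _ _ (hY0 _) (hY0 _) ih i hi
  have hstab : ∀ j j', j ≤ j' → ∀ i < j,
      PowerSeries.coeff i (Y j') = PowerSeries.coeff i (Y j) := by
    intro j j' hjj
    induction j', hjj using Nat.le_induction with
    | base => intro i _; rfl
    | succ j' hj ih =>
      intro i hi
      rw [hstep j' i (hi.trans_le hj), ih i hi]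
  let u : PowerSeries R := PowerSeries.mk fun i => PowerSeries.coeff i (Y (i + 1))
  have hu : ∀ j, ∀ i < j, PowerSeries.coeff i u = PowerSeries.coeff i (Y j) := by
    intro j i hi
    rw [PowerSeries.coeff_mk, hstab (i + 1) j hi i (Nat.lt_succ_self i)]
  have hu0 : PowerSeries.constantCoeff u = 0 := by
    rw [← PowerSeries.coeff_zero_eq_constantCoeff_apply, hu 1 0 one_pos,
      PowerSeries.coeff_zero_eq_constantCoeff_apply, hY0]
  refine ⟨u, hu0, ?_⟩
  have hF : ∀ Z : PowerSeries R, PowerSeries.constantCoeff Z = 0 →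
      (subst ![Z, PowerSeries.X] F.toPowerSeries : PowerSeries R) = Z - T Z := by
    intro Z hZ
    rw [hH, subst_add (hS Z hZ), subst_add (hS Z hZ), subst_mul (hS Z hZ), subst_mul (hS Z hZ),
      subst_X (hS Z hZ), subst_X (hS Z hZ)]
    simp only [T, Matrix.cons_val_zero, Matrix.cons_val_one]
    ring
  ext i
  rw [coeff_subst_congr (k := i + 1) (hS u hu0) (hS (Y (i + 1)) (hY0 _)) ?_ _ i
    (Nat.lt_succ_self i), hF _ (hY0 _), map_sub, ← hYs, hstep (i + 1) i (Nat.lt_succ_self i),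
    sub_self, map_zero]
  intro s i' hi'
  fin_cases s
  · exact hu _ i' hi'
  · rfl

/-- the inverse series. -/
noncomputable def iota : PowerSeries R := (exists_iota F).choose

theorem constantCoeff_iota : PowerSeries.constantCoeff (iota F) = 0 :=
  (exists_iota F).choose_spec.1

theorem subst_iota_X : (subst ![iota F, PowerSeries.X] F.toPowerSeries : PowerSeries R) = 0 :=
  (exists_iota F).choose_spec.2

end Iota

section Group

variable {R : Type*} [CommRing R] {σ : Type*} (F : FormalGroup R)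

theorem ps_subst_zero {x : MvPowerSeries σ R} (hx : PowerSeries.HasSubst x) :
    (PowerSeries.subst x (0 : PowerSeries R) : MvPowerSeries σ R) = 0 := by
  rw [← PowerSeries.coe_substAlgHom hx, map_zero]

theorem subst_hasSubst {f : PowerSeries R} (hf : PowerSeries.constantCoeff f = 0)
    {x : MvPowerSeries σ R} (hx : PowerSeries.HasSubst x) :
    PowerSeries.HasSubst (PowerSeries.subst x f : MvPowerSeries σ R) :=
  IsNilpotent_subst hx.const (by
    have : constantCoeff (f : MvPowerSeries Unit R) = 0 := hf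
    rw [this]; exact IsNilpotent.zero)

theorem subst_pair_subst {τ : Type*} {G : MvPowerSeries (Fin 2) R} {f g : MvPowerSeries σ R}
    (hf : PowerSeries.HasSubst f) (hg : PowerSeries.HasSubst g) {a : σ → MvPowerSeries τ R}
    (ha : HasSubst a) :
    subst a (subst ![f, g] G) = subst ![subst a f, subst a g] G := by
  rw [subst_comp_subst_apply (hasSubst_pair hf hg) ha]
  congr! 1
  funext s
  fin_cases s <;> rfl

noncomputable instance : Neg (F.Point σ) :=
  ⟨fun x => ⟨PowerSeries.subst x.val (iota F), subst_hasSubst (constantCoeff_iota F) x.prop⟩⟩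

theorem neg_val (x : F.Point σ) : (-x).val = PowerSeries.subst x.val (iota F) := rfl

theorem neg_add_cancel' (x : F.Point σ) : -x + x = 0 := by
  apply Subtype.ext
  rw [FormalGroup.add_apply, neg_val, FormalGroup.zero_apply]
  have h := congrArg (PowerSeries.subst x.val) (subst_iota_X F)
  rw [PowerSeries.subst, subst_pair_subst (hasSubst_of_cc (constantCoeff_iota F))
    (hasSubst_of_cc PowerSeries.constantCoeff_X) x.prop.const] at h
  have h2 : subst (fun _ : Unit => x.val) (PowerSeries.X : PowerSeries R) = x.val :=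
    PowerSeries.subst_X x.prop
  rw [h2] at h
  refine Eq.trans ?_ (h.trans ?_)
  · rfl
  · exact ps_subst_zero x.prop

noncomputable instance [F.IsComm] : AddCommGroup (F.Point σ) where
  __ := (inferInstance : AddCommMonoid (F.Point σ))
  zsmul := zsmulRec
  neg_add_cancel := neg_add_cancel' F

end Group

section Hom

variable {R S : Type*} [CommRing R] [CommRing S] {σ τ : Type*} {F G H : FormalGroup R}

/-- values of a homomorphism at points. -/
theorem _root_.Vale.Agent.P217.IsHom.substC {f : PowerSeries R} (hf : IsHom F G f) {x y : MvPowerSeries σ R}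
    (hx : PowerSeries.HasSubst x) (hy : PowerSeries.HasSubst y) :
    (PowerSeries.subst (subst ![x, y] F.toPowerSeries) f : MvPowerSeries σ R) =
      subst ![PowerSeries.subst x f, PowerSeries.subst y f] G.toPowerSeries := by
  have h := congrArg (subst ![x, y]) hf.2
  have hxy := hasSubst_pair hx hy
  have hX0 : PowerSeries.HasSubst (X 0 : MvPowerSeries (Fin 2) R) := hasSubst_of_cc (by simp)
  have hX1 : PowerSeries.HasSubst (X 1 : MvPowerSeries (Fin 2) R) := hasSubst_of_cc (by simp)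
  have hFs : PowerSeries.HasSubst F.toPowerSeries := hasSubst_of_cc F.zero_constantCoeff
  rw [subst_pair_subst (subst_hasSubst hf.1 hX0) (subst_hasSubst hf.1 hX1) hxy] at h
  rw [PowerSeries.subst, PowerSeries.subst, PowerSeries.subst,
    subst_comp_subst_apply hFs.const hxy, subst_comp_subst_apply hX0.const hxy,
    subst_comp_subst_apply hX1.const hxy] at h
  simp only [subst_X hxy] at h
  exact h

/-- A homomorphism `F → G` gives homomorphisms on points. -/
noncomputable def homPt [F.IsComm] [G.IsComm] (f : PowerSeries R) (hf : IsHom F G f) :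
    F.Point σ →+ G.Point σ where
  toFun x := ⟨PowerSeries.subst x.val f, subst_hasSubst hf.1 x.prop⟩
  map_zero' := by
    apply Subtype.ext
    exact PowerSeries.subst_zero_of_constantCoeff_zero hf.1
  map_add' x y := by
    apply Subtype.ext
    exact hf.substC x.prop y.prop

@[simp] theorem homPt_val [F.IsComm] [G.IsComm] (f : PowerSeries R) (hf : IsHom F G f)
    (x : F.Point σ) : (homPt f hf x).val = PowerSeries.subst x.val f := rfl

/-- The points `X` and `Y`. -/
noncomputable def ptX (F : FormalGroup R) (s : σ) : F.Point σ :=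
  ⟨X s, hasSubst_of_cc (by simp)⟩

@[simp] theorem ptX_val (s : σ) : (ptX F s).val = X s := rfl

theorem ptX_add : (ptX F (0 : Fin 2) + ptX F 1).val = F.toPowerSeries := by
  rw [FormalGroup.add_apply]
  have : (![(ptX F (0 : Fin 2)).val, (ptX F 1).val] : Fin 2 → MvPowerSeries (Fin 2) R) = X := by
    funext s; fin_cases s <;> rfl
  rw [this, subst_self]
  rfl

theorem _root_.Vale.Agent.P217.IsHom.ofPtC {f : PowerSeries R} (hf0 : PowerSeries.constantCoeff f = 0)
    (h : (PowerSeries.subst (ptX F (0 : Fin 2) + ptX F 1).val f : MvPowerSeries (Fin 2) R) =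
      subst ![PowerSeries.subst (X 0 : MvPowerSeries (Fin 2) R) f,
        PowerSeries.subst (X 1 : MvPowerSeries (Fin 2) R) f] G.toPowerSeries) : IsHom F G f := by
  refine ⟨hf0, ?_⟩
  rw [ptX_add] at h
  exact h

theorem _root_.Vale.Agent.P217.IsHom.compC {f g : PowerSeries R} (hf : IsHom F G f) (hg : IsHom G H g) :
    IsHom F H (PowerSeries.subst f g) := by
  have hfs : PowerSeries.HasSubst f := hasSubst_of_cc hf.1
  refine IsHom.ofPtC (PowerSeries.constantCoeff_subst_eq_zero hf.1 _ hg.1) ?_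
  have h1 : ∀ x : F.Point (Fin 2), (PowerSeries.subst x.val (PowerSeries.subst f g : PowerSeries R)
      : MvPowerSeries (Fin 2) R) = PowerSeries.subst (PowerSeries.subst x.val f) g := fun x =>
    PowerSeries.subst_comp_subst_apply hfs x.prop g
  have hX0 : PowerSeries.HasSubst (X 0 : MvPowerSeries (Fin 2) R) := hasSubst_of_cc (by simp)
  have hX1 : PowerSeries.HasSubst (X 1 : MvPowerSeries (Fin 2) R) := hasSubst_of_cc (by simp)
  rw [h1]
  have e0 : (PowerSeries.subst (X 0 : MvPowerSeries (Fin 2) R)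
      (PowerSeries.subst f g : PowerSeries R) : MvPowerSeries (Fin 2) R) =
      PowerSeries.subst (PowerSeries.subst (X 0 : MvPowerSeries (Fin 2) R) f) g := h1 (ptX F 0)
  have e1 : (PowerSeries.subst (X 1 : MvPowerSeries (Fin 2) R)
      (PowerSeries.subst f g : PowerSeries R) : MvPowerSeries (Fin 2) R) =
      PowerSeries.subst (PowerSeries.subst (X 1 : MvPowerSeries (Fin 2) R) f) g := h1 (ptX F 1)
  rw [e0, e1, ← hg.substC (subst_hasSubst hf.1 hX0) (subst_hasSubst hf.1 hX1),
    ← hf.substC hX0 hX1]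
  rfl

theorem isHom_X : IsHom F F PowerSeries.X := by
  refine ⟨PowerSeries.constantCoeff_X, ?_⟩
  have hFs : PowerSeries.HasSubst F.toPowerSeries := hasSubst_of_cc F.zero_constantCoeff
  have hX0 : PowerSeries.HasSubst (X 0 : MvPowerSeries (Fin 2) R) := hasSubst_of_cc (by simp)
  have hX1 : PowerSeries.HasSubst (X 1 : MvPowerSeries (Fin 2) R) := hasSubst_of_cc (by simp)
  rw [PowerSeries.subst_X hFs, PowerSeries.subst_X hX0, PowerSeries.subst_X hX1]
  have : (![(X 0 : MvPowerSeries (Fin 2) R), X 1] : Fin 2 → MvPowerSeries (Fin 2) R) = X := by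
    funext s; fin_cases s <;> rfl
  rw [this, subst_self]
  rfl

/-- The inverse of an isomorphism. -/
theorem _root_.Vale.Agent.P217.IsIso.symmC {f : PowerSeries R} (hf : IsIso F G f) :
    ∃ g : PowerSeries R, IsIso G F g ∧ PowerSeries.subst f g = (PowerSeries.X : PowerSeries R) ∧
      PowerSeries.subst g f = (PowerSeries.X : PowerSeries R) := by
  have hf0 := hf.1.1
  set g := PowerSeries.substInvOfIsUnit f hf.2 with hg
  have h1 : PowerSeries.subst f g = (PowerSeries.X : PowerSeries R) :=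
    PowerSeries.subst_substInvOfIsUnit_left _ hf0 hf.2
  have h2 : PowerSeries.subst g f = (PowerSeries.X : PowerSeries R) :=
    PowerSeries.subst_substInvOfIsUnit_right _ hf0 hf.2
  have hg0 : PowerSeries.constantCoeff g = 0 := by
    rw [hg, PowerSeries.constantCoeff_substInvOfIsUnit]
  have hX0 : PowerSeries.HasSubst (X 0 : MvPowerSeries (Fin 2) R) := hasSubst_of_cc (by simp)
  have hX1 : PowerSeries.HasSubst (X 1 : MvPowerSeries (Fin 2) R) := hasSubst_of_cc (by simp)
  have hfs : PowerSeries.HasSubst f := hasSubst_of_cc hf0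
  have hgs : PowerSeries.HasSubst g := hasSubst_of_cc hg0
  have k1 : ∀ x : MvPowerSeries (Fin 2) R, PowerSeries.HasSubst x →
      (PowerSeries.subst (PowerSeries.subst x f : MvPowerSeries (Fin 2) R) g :
        MvPowerSeries (Fin 2) R) = x := by
    intro x hx
    rw [← PowerSeries.subst_comp_subst_apply hfs hx, h1, PowerSeries.subst_X hx]
  have k2 : ∀ x : MvPowerSeries (Fin 2) R, PowerSeries.HasSubst x →
      (PowerSeries.subst (PowerSeries.subst x g : MvPowerSeries (Fin 2) R) f :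
        MvPowerSeries (Fin 2) R) = x := by
    intro x hx
    rw [← PowerSeries.subst_comp_subst_apply hgs hx, h2, PowerSeries.subst_X hx]
  refine ⟨g, ⟨IsHom.ofPtC hg0 ?_, ?_⟩, h1, h2⟩
  · have hg0s := subst_hasSubst hg0 hX0
    have hg1s := subst_hasSubst hg0 hX1
    have e := hf.1.substC hg0s hg1s
    rw [k2 _ hX0, k2 _ hX1] at e
    have e2 : (ptX G (0 : Fin 2) + ptX G 1).val = subst ![X 0, X 1] G.toPowerSeries := rfl
    rw [e2, ← e]
    refine k1 _ (IsNilpotent_subst (hasSubst_pair hg0s hg1s) ?_)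
    rw [F.zero_constantCoeff]
    exact IsNilpotent.zero
  · rw [hg, PowerSeries.coeff_one_substInvOfIsUnit]
    exact Units.isUnit _

theorem FG_map_toPowerSeries (φ : R →+* S) : (F.map φ).toPowerSeries = F.toPowerSeries.map φ :=
  rfl

theorem map_pair_subst (φ : R →+* S) {x y : MvPowerSeries σ R} (hx : PowerSeries.HasSubst x)
    (hy : PowerSeries.HasSubst y) (P : MvPowerSeries (Fin 2) R) :
    (subst ![x, y] P).map φ = subst ![x.map φ, y.map φ] (P.map φ) := by
  rw [map_subst (hasSubst_pair hx hy)]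
  congr! 1
  funext s
  fin_cases s <;> rfl

theorem _root_.Vale.Agent.P217.IsHom.mapC {f : PowerSeries R} (hf : IsHom F G f) (φ : R →+* S) :
    IsHom (F.map φ) (G.map φ) (PowerSeries.map φ f) := by
  have hX0 : PowerSeries.HasSubst (X 0 : MvPowerSeries (Fin 2) R) := hasSubst_of_cc (by simp)
  have hX1 : PowerSeries.HasSubst (X 1 : MvPowerSeries (Fin 2) R) := hasSubst_of_cc (by simp)
  have hFs : PowerSeries.HasSubst F.toPowerSeries := hasSubst_of_cc F.zero_constantCoeff
  refine ⟨?_, ?_⟩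
  · rw [← PowerSeries.coeff_zero_eq_constantCoeff_apply, PowerSeries.coeff_map,
      PowerSeries.coeff_zero_eq_constantCoeff_apply, hf.1, map_zero]
  · have h := congrArg (MvPowerSeries.map φ) hf.2
    rw [PowerSeries.map_subst hFs, map_pair_subst φ (subst_hasSubst hf.1 hX0)
      (subst_hasSubst hf.1 hX1), PowerSeries.map_subst hX0, PowerSeries.map_subst hX1, map_X,
      map_X] at h
    exact h

theorem _root_.Vale.Agent.P217.IsIso.mapC {f : PowerSeries R} (hf : IsIso F G f) (φ : R →+* S) :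
    IsIso (F.map φ) (G.map φ) (PowerSeries.map φ f) := by
  refine ⟨hf.1.mapC φ, ?_⟩
  rw [PowerSeries.coeff_map]
  exact hf.2.map φ

instance FG_map_isComm [F.IsComm] (φ : R →+* S) : (F.map φ).IsComm where
  comm := by
    have h := congrArg (MvPowerSeries.map φ) (FormalGroup.IsComm.comm (F := F))
    rw [map_pair_subst φ (hasSubst_of_cc (by simp)) (hasSubst_of_cc (by simp)), map_X, map_X] at h
    exact h

theorem FG_map_map {T : Type*} [CommRing T] (φ : R →+* S) (ψ : S →+* T) :
    (F.map φ).map ψ = F.map (ψ.comp φ) := by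
  apply FormalGroup.ext
  ext d
  simp only [FormalGroup.map_toPowerSeries, map_map, coeff_map, RingHom.coe_comp, Function.comp_apply]

theorem FG_map_id : F.map (RingHom.id R) = F := by
  apply FormalGroup.ext
  ext d
  simp

theorem hasSubst_map (φ : R →+* S) {x : MvPowerSeries σ R} (hx : PowerSeries.HasSubst x) :
    PowerSeries.HasSubst (x.map φ) := by
  have : IsNilpotent (φ (constantCoeff x)) := IsNilpotent.map hx φ
  rwa [← constantCoeff_map] at this

/-- base change of points. -/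
noncomputable def mapPt [F.IsComm] (φ : R →+* S) : F.Point σ →+ (F.map φ).Point σ where
  toFun x := ⟨x.val.map φ, hasSubst_map φ x.prop⟩
  map_zero' := by
    apply Subtype.ext
    exact map_zero _
  map_add' x y := by
    apply Subtype.ext
    exact map_pair_subst φ x.prop y.prop _

@[simp] theorem mapPt_val [F.IsComm] (φ : R →+* S) (x : F.Point σ) :
    (mapPt φ x).val = x.val.map φ := rfl

theorem coeff_one_subst {f g : PowerSeries R} (hf : PowerSeries.constantCoeff f = 0) :
    PowerSeries.coeff 1 (PowerSeries.subst f g : PowerSeries R) =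
      PowerSeries.coeff 1 f * PowerSeries.coeff 1 g := by
  rw [PowerSeries.coeff_subst' (hasSubst_of_cc hf), finsum_eq_single _ 1]
  · simp [mul_comm]
  · intro d hd
    rcases Nat.eq_zero_or_pos d with rfl | hd'
    · simp only [PowerSeries.coeff_zero_eq_constantCoeff, pow_zero, PowerSeries.coeff_one, one_ne_zero, ↓reduceIte, smul_eq_mul, mul_zero]
    · have : PowerSeries.coeff 1 (f ^ d) = 0 := by
        have h1 : (PowerSeries.X : PowerSeries R) ∣ f := PowerSeries.X_dvd_iff.mpr hf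
        have h2 : (PowerSeries.X : PowerSeries R) ^ d ∣ f ^ d := pow_dvd_pow_of_dvd h1 d
        exact (PowerSeries.X_pow_dvd_iff.mp h2) 1 (by omega)
      rw [this, smul_zero]

theorem _root_.Vale.Agent.P217.IsIso.compC {f g : PowerSeries R} (hf : IsIso F G f) (hg : IsIso G H g) :
    IsIso F H (PowerSeries.subst f g) := by
  refine ⟨hf.1.compC hg.1, ?_⟩
  rw [coeff_one_subst hf.1.1]
  exact hf.2.mul hg.2

theorem isIso_X : IsIso F F PowerSeries.X := ⟨isHom_X, by simp⟩

end Hom

end Vale.Agent.P217.C0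
end
end

section

section

/-!
# P217: more on formal group laws: sums of homomorphisms, multiples, congruences, transport
-/

namespace Vale.Agent.P217.C0

open MvPowerSeries Vale.Agent.P217

section Sums

variable {R S : Type*} [CommRing R] [CommRing S] {σ τ : Type*} {F G H : FormalGroup R}

theorem isHom_zero : IsHom F G 0 := by
  refine ⟨map_zero _, ?_⟩
  have hX0 : PowerSeries.HasSubst (X 0 : MvPowerSeries (Fin 2) R) := hasSubst_of_cc (by simp)
  have hX1 : PowerSeries.HasSubst (X 1 : MvPowerSeries (Fin 2) R) := hasSubst_of_cc (by simp)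
  have hFs : PowerSeries.HasSubst F.toPowerSeries := hasSubst_of_cc F.zero_constantCoeff
  rw [ps_subst_zero hFs, ps_subst_zero hX0, ps_subst_zero hX1]
  have h : (0 + 0 : G.Point (Fin 2)).val = 0 := by rw [add_zero]; rfl
  exact h.symm

theorem _root_.Vale.Agent.P217.IsHom.addC [F.IsComm] [G.IsComm] {f g : PowerSeries R} (hf : IsHom F G f)
    (hg : IsHom F G g) : IsHom F G (subst ![f, g] G.toPowerSeries : PowerSeries R) := by
  have hfs : PowerSeries.HasSubst f := hasSubst_of_cc hf.1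
  have hgs : PowerSeries.HasSubst g := hasSubst_of_cc hg.1
  have key : ∀ x : F.Point (Fin 2), (PowerSeries.subst x.val
      (subst ![f, g] G.toPowerSeries : PowerSeries R) : MvPowerSeries (Fin 2) R) =
      (homPt f hf x + homPt g hg x).val := by
    intro x
    rw [PowerSeries.subst, subst_pair_subst hfs hgs x.prop.const]
    rfl
  refine IsHom.ofPtC ?_ ?_
  · have : constantCoeff (subst ![f, g] G.toPowerSeries : PowerSeries R) = 0 :=
      constantCoeff_subst_eq_zero (hasSubst_pair hfs hgs)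
        (by intro s; fin_cases s; exacts [hf.1, hg.1]) G.zero_constantCoeff
    exact this
  · have e0 := key (ptX F 0)
    have e1 := key (ptX F 1)
    rw [ptX_val] at e0 e1
    rw [key, e0, e1, map_add, map_add]
    have h := add_add_add_comm (homPt f hf (ptX F (0 : Fin 2))) (homPt f hf (ptX F 1))
      (homPt g hg (ptX F 0)) (homPt g hg (ptX F 1))
    exact congrArg Subtype.val h

theorem isHom_multSeries [F.IsComm] (m : ℕ) : IsHom F F (multSeries F m) := by
  induction m with
  | zero => exact isHom_zero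
  | succ m ih =>
    rw [FPt.multSeries_succ]
    exact ih.addC isHom_X

theorem nsmul_val [F.IsComm] (m : ℕ) (x : F.Point σ) :
    (m • x).val = PowerSeries.subst x.val (multSeries F m) := by
  induction m with
  | zero =>
    rw [zero_nsmul]
    exact (ps_subst_zero x.prop).symm
  | succ m ih =>
    rw [succ_nsmul, FormalGroup.add_apply, ih, FPt.multSeries_succ, PowerSeries.subst,
      PowerSeries.subst, subst_pair_subst (hasSubst_of_cc (FPt.constantCoeff_multSeries F m))
      (hasSubst_of_cc PowerSeries.constantCoeff_X) x.prop.const]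
    congr! 3
    exact (PowerSeries.subst_X x.prop).symm

theorem map_multSeries (φ : R →+* S) (m : ℕ) :
    PowerSeries.map φ (multSeries F m) = multSeries (F.map φ) m := by
  induction m with
  | zero => exact map_zero _
  | succ m ih =>
    rw [FPt.multSeries_succ, FPt.multSeries_succ, ← ih]
    refine (map_pair_subst φ (hasSubst_of_cc (FPt.constantCoeff_multSeries F m))
      (hasSubst_of_cc PowerSeries.constantCoeff_X) _).trans ?_
    congr! 3
    exact PowerSeries.map_X φ

theorem exists_multSeries_decomp (m : ℕ) : ∃ h : PowerSeries R,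
    multSeries F m = PowerSeries.C (m : R) * PowerSeries.X + PowerSeries.X ^ 2 * h := by
  obtain ⟨H, hH⟩ := exists_FG_decomp F
  induction m with
  | zero => exact ⟨0, by simp only [multSeries, Nat.succ_eq_add_one, Nat.reduceAdd, Function.iterate_zero, id_eq, Nat.cast_zero, map_zero, zero_mul, mul_zero, add_zero]⟩
  | succ m ih =>
    obtain ⟨h, hh⟩ := ih
    have hS : HasSubst ![multSeries F m, (PowerSeries.X : PowerSeries R)] :=
      hasSubst_pair (hasSubst_of_cc (FPt.constantCoeff_multSeries F m))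
        (hasSubst_of_cc PowerSeries.constantCoeff_X)
    refine ⟨h + (PowerSeries.C (m : R) + PowerSeries.X * h) *
      (subst ![multSeries F m, PowerSeries.X] H : PowerSeries R), ?_⟩
    rw [FPt.multSeries_succ, hH, subst_add hS, subst_add hS, subst_mul hS, subst_mul hS,
      subst_X hS, subst_X hS]
    simp only [Matrix.cons_val_zero, Matrix.cons_val_one]
    have e : (PowerSeries.C ((m + 1 : ℕ) : R) : PowerSeries R) = PowerSeries.C (m : R) + 1 := by
      simp only [Nat.cast_add, Nat.cast_one, map_add, map_natCast, map_one]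
    rw [e]
    generalize (subst ![multSeries F m, PowerSeries.X] H : PowerSeries R) = u
    rw [hh]
    ring

theorem coeff_one_multSeries (m : ℕ) : PowerSeries.coeff 1 (multSeries F m) = m := by
  obtain ⟨h, hh⟩ := exists_multSeries_decomp (F := F) m
  rw [hh, map_add]
  have : PowerSeries.coeff 1 ((PowerSeries.X : PowerSeries R) ^ 2 * h) = 0 :=
    (PowerSeries.X_pow_dvd_iff (n := 2)).mp (Dvd.intro _ rfl) 1 (by norm_num)
  rw [this]
  simp only [map_natCast, PowerSeries.coeff_succ_mul_X, PowerSeries.coeff_zero_eq_constantCoeff, add_zero]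

/-- linear coefficient of a formal group sum. -/
theorem coeff_one_add {f g : PowerSeries R} (hf : PowerSeries.constantCoeff f = 0)
    (hg : PowerSeries.constantCoeff g = 0) :
    PowerSeries.coeff 1 (subst ![f, g] G.toPowerSeries : PowerSeries R) =
      PowerSeries.coeff 1 f + PowerSeries.coeff 1 g := by
  obtain ⟨H, hH⟩ := exists_FG_decomp G
  have hS : HasSubst ![f, g] := hasSubst_pair (hasSubst_of_cc hf) (hasSubst_of_cc hg)
  rw [hH, subst_add hS, subst_add hS, subst_mul hS, subst_mul hS, subst_X hS, subst_X hS]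
  simp only [Matrix.cons_val_zero, Matrix.cons_val_one, map_add]
  have h1 : (PowerSeries.X : PowerSeries R) ^ 2 ∣ f * g * (subst ![f, g] H : PowerSeries R) := by
    rw [sq]
    exact Dvd.dvd.mul_right (mul_dvd_mul (PowerSeries.X_dvd_iff.mpr hf)
      (PowerSeries.X_dvd_iff.mpr hg)) _
  rw [(PowerSeries.X_pow_dvd_iff.mp h1) 1 (by norm_num), add_zero]

end Sums

section CI

variable {R S : Type*} [CommRing R] [CommRing S] {σ τ : Type*}

/-- power series with coefficients in the ideal `I`. -/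
noncomputable def CI (σ : Type*) (I : Ideal R) : Ideal (MvPowerSeries σ R) :=
  RingHom.ker (MvPowerSeries.map (Ideal.Quotient.mk I))

theorem mem_CI {I : Ideal R} {f : MvPowerSeries σ R} : f ∈ CI σ I ↔ ∀ d, coeff d f ∈ I := by
  rw [CI, RingHom.mem_ker, MvPowerSeries.ext_iff]
  simp only [coeff_map, map_zero, Ideal.Quotient.eq_zero_iff_mem]

theorem mem_CI_ps {I : Ideal R} {f : PowerSeries R} :
    f ∈ CI Unit I ↔ ∀ d, PowerSeries.coeff d f ∈ I := by
  rw [CI, RingHom.mem_ker]
  have : MvPowerSeries.map (Ideal.Quotient.mk I) f = 0 ↔ PowerSeries.map (Ideal.Quotient.mk I) f = 0 :=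
    Iff.rfl
  rw [this, PowerSeries.ext_iff]
  simp only [PowerSeries.coeff_map, map_zero, Ideal.Quotient.eq_zero_iff_mem]

theorem CI_mono {I J : Ideal R} (h : I ≤ J) : CI σ I ≤ CI σ J := fun _ hf =>
  mem_CI.mpr fun d => h (mem_CI.mp hf d)

theorem mul_mem_CI {I J : Ideal R} {f g : MvPowerSeries σ R} (hf : f ∈ CI σ I) (hg : g ∈ CI σ J) :
    f * g ∈ CI σ (I * J) := by
  classical
  rw [mem_CI]
  intro d
  rw [coeff_mul]
  exact Ideal.sum_mem _ fun x _ => Ideal.mul_mem_mul (mem_CI.mp hf _) (mem_CI.mp hg _)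

theorem C_mul_mem_CI {I : Ideal R} {c : R} {f : MvPowerSeries σ R} (hf : f ∈ CI σ I) :
    C c * f ∈ CI σ (Ideal.span {c} * I) := by
  rw [mem_CI]
  intro d
  rw [coeff_C_mul]
  exact Ideal.mul_mem_mul (Ideal.mem_span_singleton_self c) (mem_CI.mp hf _)

theorem sub_mem_CI_iff {I : Ideal R} {f g : MvPowerSeries σ R} :
    f - g ∈ CI σ I ↔ f.map (Ideal.Quotient.mk I) = g.map (Ideal.Quotient.mk I) := by
  rw [CI, RingHom.mem_ker, map_sub, sub_eq_zero]

variable {F : FormalGroup R} [F.IsComm]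

theorem sub_val_mem_CI_iff {I : Ideal R} (x y : F.Point σ) :
    (x - y).val ∈ CI σ I ↔ x.val - y.val ∈ CI σ I := by
  rw [sub_mem_CI_iff, CI, RingHom.mem_ker]
  have h1 : (x - y).val.map (Ideal.Quotient.mk I) = 0 ↔ mapPt (Ideal.Quotient.mk I) (x - y) = 0 :=
    ⟨fun h => Subtype.ext h, fun h => congrArg Subtype.val h⟩
  rw [h1, map_sub, sub_eq_zero]
  exact ⟨fun h => congrArg Subtype.val h, fun h => Subtype.ext h⟩

theorem nsmul_mem_CI {I : Ideal R} {x : F.Point σ} (hx : x.val ∈ CI σ I) (m : ℕ) :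
    (m • x).val ∈ CI σ (Ideal.span {(m : R)} * I ⊔ I * I) := by
  obtain ⟨h, hh⟩ := exists_multSeries_decomp (F := F) m
  rw [nsmul_val, hh, PowerSeries.subst_add x.prop, PowerSeries.subst_mul x.prop,
    PowerSeries.subst_mul x.prop, PowerSeries.subst_pow x.prop, PowerSeries.subst_X x.prop]
  have e : (PowerSeries.subst x.val (PowerSeries.C (m : R) : PowerSeries R) :
      MvPowerSeries σ R) = C (m : R) := PowerSeries.subst_C _
  rw [e]
  refine Ideal.add_mem _ (CI_mono le_sup_left (C_mul_mem_CI hx))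
    (Ideal.mul_mem_right _ _ (CI_mono le_sup_right ?_))
  rw [sq]
  exact mul_mem_CI hx hx

/-- if `x ≡ y` modulo `p^s`, `s ≥ 1`, then `p^a x ≡ p^a y` modulo `p^(s+a)`. -/
theorem nsmul_pow_mem_CI {p s : ℕ} (hs : 1 ≤ s) {x : F.Point σ}
    (hx : x.val ∈ CI σ (Ideal.span {(p : R)} ^ s)) (a : ℕ) :
    (p ^ a • x).val ∈ CI σ (Ideal.span {(p : R)} ^ (s + a)) := by
  induction a with
  | zero => simpa only [add_zero, pow_zero, one_smul] using hx
  | succ a ih =>
    rw [pow_succ', mul_nsmul']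
    refine CI_mono ?_ (nsmul_mem_CI ih p)
    rw [sup_le_iff]
    constructor
    · rw [← pow_succ', ← add_assoc]
    · rw [← pow_add]
      exact Ideal.pow_le_pow_right (by omega)

omit [F.IsComm] in
theorem sup_mul_sup_le (K L : Ideal R) : (K ⊔ L) * (K ⊔ L) ≤ K * K ⊔ L := by
  rw [Ideal.sup_mul, Ideal.mul_sup]
  have h1 : K * L ≤ L := Ideal.mul_le_right
  have h2 : L * (K ⊔ L) ≤ L := Ideal.mul_le_left
  exact sup_le (sup_le le_sup_left (h1.trans le_sup_right)) (h2.trans le_sup_right)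

/-- if `x` has coefficients in `𝔪` with `𝔪^e ⊆ (p)` then `p^c x` has coefficients in `(p)` for
`c` large. -/
theorem nsmul_pow_mem_CI' {p e : ℕ} {m : Ideal R} (hm : m ^ e ≤ Ideal.span {(p : R)})
    {x : F.Point σ} (hx : x.val ∈ CI σ m) :
    (p ^ e • x).val ∈ CI σ (Ideal.span {(p : R)}) := by
  have key : ∀ j : ℕ, (p ^ j • x).val ∈ CI σ (m ^ (2 ^ j) ⊔ Ideal.span {(p : R)}) := by
    intro j
    induction j with
    | zero => simpa only [pow_zero, pow_one, one_smul] using CI_mono le_sup_left hx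
    | succ j ih =>
      have e1 : p ^ (j + 1) • x = p • (p ^ j • x) := by rw [pow_succ', mul_nsmul']
      rw [e1]
      refine CI_mono ?_ (nsmul_mem_CI ih p)
      have h3 : Ideal.span {(p : R)} * (m ^ (2 ^ j) ⊔ Ideal.span {(p : R)}) ≤
        Ideal.span {(p : R)} := Ideal.mul_le_left
      refine sup_le (h3.trans le_sup_right) ?_
      refine (sup_mul_sup_le _ _).trans ?_
      have e2 : m ^ (2 ^ j) * m ^ (2 ^ j) = m ^ (2 ^ (j + 1)) := by
        rw [← pow_add]
        congr 1
        rw [pow_succ]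
        ring
      rw [e2]
  refine CI_mono ?_ (key e)
  refine sup_le ((Ideal.pow_le_pow_right ?_).trans hm) le_rfl
  exact (Nat.lt_two_pow_self).le

end CI

section Transport

variable {R S : Type*} [CommRing R] [CommRing S] {σ τ : Type*}

theorem cc_subst_X0 {f : PowerSeries R} (hf : PowerSeries.constantCoeff f = 0) (s : σ) :
    constantCoeff (PowerSeries.subst (X s : MvPowerSeries σ R) f : MvPowerSeries σ R) = 0 :=
  constantCoeff_subst_eq_zero (hasSubst_of_cc (by simp)).const (by simp) hf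

/-- coefficient of `X` in `G(X,Y)` is the linear coefficient of `G(X,0)` -/
theorem coeff_single_zero_eq (G : MvPowerSeries (Fin 2) R) (n : ℕ) :
    coeff (Finsupp.single 0 n) G =
      PowerSeries.coeff n (subst ![PowerSeries.X, 0] G : PowerSeries R) := by
  rw [PowerSeries.coeff, coeff_subst, finsum_eq_single _ (Finsupp.single 0 n)]
  · simp [PowerSeries.coeff_X_pow, ← PowerSeries.coeff_def rfl]
  · intro d hd
    by_cases hd₁ : d 1 = 0
    · have : d 0 ≠ n := by
        intro h0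
        apply hd
        ext i
        fin_cases i
        · simpa only [Nat.succ_eq_add_one, Nat.reduceAdd, Fin.zero_eta, Fin.isValue, Finsupp.single_eq_same] using h0
        · simpa only [Nat.succ_eq_add_one, Nat.reduceAdd, Fin.mk_one, Fin.isValue, ne_eq, one_ne_zero,     not_false_eq_true, Finsupp.single_eq_of_ne] using hd₁
      simp only [Nat.succ_eq_add_one, Nat.reduceAdd, ← PowerSeries.coeff_def rfl, Finsupp.single_eq_same, Finsupp.prod_pow, Fin.prod_univ_two, Fin.isValue, Matrix.cons_val_zero, Matrix.cons_val_one, Matrix.cons_val_fin_one, hd₁, pow_zero, mul_one, PowerSeries.coeff_X_pow, Ne.symm this, ↓reduceIte, smul_eq_mul, mul_zero]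
    · simp only [Nat.succ_eq_add_one, Nat.reduceAdd, Finsupp.prod_pow, Fin.prod_univ_two, Fin.isValue, Matrix.cons_val_zero, Matrix.cons_val_one, Matrix.cons_val_fin_one, ne_eq, hd₁, not_false_eq_true, zero_pow, mul_zero, coeff_zero, smul_eq_mul]
  · exact HasSubst.X_zero

theorem coeff_single_one_eq (G : MvPowerSeries (Fin 2) R) (n : ℕ) :
    coeff (Finsupp.single 1 n) G =
      PowerSeries.coeff n (subst ![0, PowerSeries.X] G : PowerSeries R) := by
  rw [PowerSeries.coeff, coeff_subst, finsum_eq_single _ (Finsupp.single 1 n)]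
  · simp [PowerSeries.coeff_X_pow, ← PowerSeries.coeff_def rfl]
  · intro d hd
    by_cases hd₁ : d 0 = 0
    · have : d 1 ≠ n := by
        intro h0
        apply hd
        ext i
        fin_cases i
        · simpa only [Nat.succ_eq_add_one, Nat.reduceAdd, Fin.zero_eta, Fin.isValue, ne_eq, zero_ne_one,     not_false_eq_true, Finsupp.single_eq_of_ne] using hd₁
        · simpa only [Nat.succ_eq_add_one, Nat.reduceAdd, Fin.mk_one, Fin.isValue, Finsupp.single_eq_same] using h0
      simp only [Nat.succ_eq_add_one, Nat.reduceAdd, ← PowerSeries.coeff_def rfl, Finsupp.single_eq_same, Finsupp.prod_pow, Fin.prod_univ_two, Fin.isValue, Matrix.cons_val_zero, hd₁, pow_zero, Matrix.cons_val_one, Matrix.cons_val_fin_one, one_mul, PowerSeries.coeff_X_pow, Ne.symm this, ↓reduceIte, smul_eq_mul, mul_zero]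
    · simp only [Nat.succ_eq_add_one, Nat.reduceAdd, Finsupp.prod_pow, Fin.prod_univ_two, Fin.isValue, Matrix.cons_val_zero, ne_eq, hd₁, not_false_eq_true, zero_pow, Matrix.cons_val_one, Matrix.cons_val_fin_one, zero_mul, coeff_zero, smul_eq_mul, mul_zero]
  · exact HasSubst.zero_X

/-- the series `u(F(v(X), v(Y)))`. -/
noncomputable def transSeries (F : FormalGroup R) (u v : PowerSeries R) :
    MvPowerSeries (Fin 2) R :=
  PowerSeries.subst (subst ![PowerSeries.subst (X 0 : MvPowerSeries (Fin 2) R) v,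
    PowerSeries.subst (X 1 : MvPowerSeries (Fin 2) R) v] F.toPowerSeries :
      MvPowerSeries (Fin 2) R) u

theorem hasSubst_FG {F : FormalGroup R} {x y : MvPowerSeries σ R} (hx : PowerSeries.HasSubst x)
    (hy : PowerSeries.HasSubst y) :
    PowerSeries.HasSubst (subst ![x, y] F.toPowerSeries : MvPowerSeries σ R) :=
  IsNilpotent_subst (hasSubst_pair hx hy) (by rw [F.zero_constantCoeff]; exact IsNilpotent.zero)

theorem subst_transSeries {F : FormalGroup R} {u v : PowerSeries R}
    (hv : PowerSeries.constantCoeff v = 0) {x y : MvPowerSeries σ R}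
    (hx : PowerSeries.HasSubst x) (hy : PowerSeries.HasSubst y) :
    (subst ![x, y] (transSeries F u v) : MvPowerSeries σ R) =
      PowerSeries.subst (subst ![PowerSeries.subst x v, PowerSeries.subst y v] F.toPowerSeries :
        MvPowerSeries σ R) u := by
  have hxy := hasSubst_pair hx hy
  have hX0 : PowerSeries.HasSubst (X 0 : MvPowerSeries (Fin 2) R) := hasSubst_of_cc (by simp)
  have hX1 : PowerSeries.HasSubst (X 1 : MvPowerSeries (Fin 2) R) := hasSubst_of_cc (by simp)
  have h0 := subst_hasSubst hv hX0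
  have h1 := subst_hasSubst hv hX1
  have hF := hasSubst_FG (F := F) h0 h1
  rw [transSeries, PowerSeries.subst, subst_comp_subst_apply hF.const hxy,
    subst_pair_subst h0 h1 hxy]
  rw [PowerSeries.subst, PowerSeries.subst, subst_comp_subst_apply hX0.const hxy,
    subst_comp_subst_apply hX1.const hxy]
  simp only [subst_X hxy]
  rfl

/-- transport of structure -/
noncomputable def transport (F : FormalGroup R) (u v : PowerSeries R)
    (hu : PowerSeries.constantCoeff u = 0) (hv : PowerSeries.constantCoeff v = 0)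
    (huv : PowerSeries.subst v u = (PowerSeries.X : PowerSeries R))
    (hvu : PowerSeries.subst u v = (PowerSeries.X : PowerSeries R)) : FormalGroup R where
  toPowerSeries := transSeries F u v
  zero_constantCoeff := by
    have hX0 : PowerSeries.HasSubst (X 0 : MvPowerSeries (Fin 2) R) := hasSubst_of_cc (by simp)
    have hX1 : PowerSeries.HasSubst (X 1 : MvPowerSeries (Fin 2) R) := hasSubst_of_cc (by simp)
    have h0 := subst_hasSubst hv hX0
    have h1 := subst_hasSubst hv hX1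
    have hF := hasSubst_FG (F := F) h0 h1
    rw [transSeries]
    refine constantCoeff_subst_eq_zero hF.const (fun _ => ?_) hu
    refine constantCoeff_subst_eq_zero (hasSubst_pair h0 h1) (fun s => ?_) F.zero_constantCoeff
    fin_cases s
    · exact cc_subst_X0 hv _
    · exact cc_subst_X0 hv _
  lin_coeff_X := by
    have hXs : PowerSeries.HasSubst (PowerSeries.X : PowerSeries R) :=
      hasSubst_of_cc PowerSeries.constantCoeff_X
    have h0s : PowerSeries.HasSubst (0 : PowerSeries R) := hasSubst_of_cc (by simp)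
    rw [coeff_single_zero_eq]
    have e := subst_transSeries (F := F) (u := u) hv hXs h0s
    have e2 : (PowerSeries.subst (0 : PowerSeries R) v : PowerSeries R) = 0 :=
      PowerSeries.subst_zero_of_constantCoeff_zero hv
    have e3 : (PowerSeries.subst (PowerSeries.X : PowerSeries R) v : PowerSeries R) = v :=
      PowerSeries.X_subst v
    rw [e, e2, e3, F.add_zero (hasSubst_of_cc hv), huv, PowerSeries.coeff_one_X]
  lin_coeff_Y := by
    have hXs : PowerSeries.HasSubst (PowerSeries.X : PowerSeries R) :=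
      hasSubst_of_cc PowerSeries.constantCoeff_X
    have h0s : PowerSeries.HasSubst (0 : PowerSeries R) := hasSubst_of_cc (by simp)
    rw [coeff_single_one_eq]
    have e := subst_transSeries (F := F) (u := u) hv h0s hXs
    have e2 : (PowerSeries.subst (0 : PowerSeries R) v : PowerSeries R) = 0 :=
      PowerSeries.subst_zero_of_constantCoeff_zero hv
    have e3 : (PowerSeries.subst (PowerSeries.X : PowerSeries R) v : PowerSeries R) = v :=
      PowerSeries.X_subst v
    rw [e, e2, e3, F.zero_add (hasSubst_of_cc hv), huv, PowerSeries.coeff_one_X]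
  assoc := by
    have hX : ∀ s : Fin 3, PowerSeries.HasSubst (X s : MvPowerSeries (Fin 3) R) :=
      fun s => hasSubst_of_cc (by simp)
    have hvX : ∀ s : Fin 3, PowerSeries.HasSubst
        (PowerSeries.subst (X s : MvPowerSeries (Fin 3) R) v : MvPowerSeries (Fin 3) R) :=
      fun s => subst_hasSubst hv (hX s)
    have cancel : ∀ z : MvPowerSeries (Fin 3) R, PowerSeries.HasSubst z →
        (PowerSeries.subst (PowerSeries.subst z u : MvPowerSeries (Fin 3) R) v :
          MvPowerSeries (Fin 3) R) = z := by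
      intro z hz
      rw [← PowerSeries.subst_comp_subst_apply (hasSubst_of_cc hu) hz, hvu,
        PowerSeries.subst_X hz]
    have h01 := subst_transSeries (F := F) (u := u) hv (hX 0) (hX 1)
    have h12 := subst_transSeries (F := F) (u := u) hv (hX 1) (hX 2)
    rw [h01, h12]
    have hF01 := hasSubst_FG (F := F) (hvX 0) (hvX 1)
    have hF12 := hasSubst_FG (F := F) (hvX 1) (hvX 2)
    rw [subst_transSeries hv (subst_hasSubst hu hF01) (hX 2),
      subst_transSeries hv (hX 0) (subst_hasSubst hu hF12), cancel _ hF01, cancel _ hF12,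
      F.assoc' (hvX 0) (hvX 1) (hvX 2)]

theorem isHom_transport (F : FormalGroup R) (u v : PowerSeries R)
    (hu : PowerSeries.constantCoeff u = 0) (hv : PowerSeries.constantCoeff v = 0)
    (huv : PowerSeries.subst v u = (PowerSeries.X : PowerSeries R))
    (hvu : PowerSeries.subst u v = (PowerSeries.X : PowerSeries R)) :
    IsHom F (transport F u v hu hv huv hvu) u := by
  have hX0 : PowerSeries.HasSubst (X 0 : MvPowerSeries (Fin 2) R) := hasSubst_of_cc (by simp)
  have hX1 : PowerSeries.HasSubst (X 1 : MvPowerSeries (Fin 2) R) := hasSubst_of_cc (by simp)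
  have cancel : ∀ z : MvPowerSeries (Fin 2) R, PowerSeries.HasSubst z →
      (PowerSeries.subst (PowerSeries.subst z u : MvPowerSeries (Fin 2) R) v :
        MvPowerSeries (Fin 2) R) = z := by
    intro z hz
    rw [← PowerSeries.subst_comp_subst_apply (hasSubst_of_cc hu) hz, hvu,
      PowerSeries.subst_X hz]
  refine IsHom.ofPtC hu ?_
  have e := subst_transSeries (F := F) (u := u) hv (subst_hasSubst hu hX0)
    (subst_hasSubst hu hX1)
  rw [cancel _ hX0, cancel _ hX1] at e
  exact e.symm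

theorem isComm_transport (F : FormalGroup R) [F.IsComm] (u v : PowerSeries R)
    (hu : PowerSeries.constantCoeff u = 0) (hv : PowerSeries.constantCoeff v = 0)
    (huv : PowerSeries.subst v u = (PowerSeries.X : PowerSeries R))
    (hvu : PowerSeries.subst u v = (PowerSeries.X : PowerSeries R)) :
    (transport F u v hu hv huv hvu).IsComm := by
  have hX0 : PowerSeries.HasSubst (X 0 : MvPowerSeries (Fin 2) R) := hasSubst_of_cc (by simp)
  have hX1 : PowerSeries.HasSubst (X 1 : MvPowerSeries (Fin 2) R) := hasSubst_of_cc (by simp)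
  constructor
  have e := subst_transSeries (F := F) (u := u) hv hX1 hX0
  rw [F.comm' (subst_hasSubst hv hX1) (subst_hasSubst hv hX0)] at e
  exact e.symm

/-- Transport of a formal group law along an invertible series. -/
theorem exists_transport (F : FormalGroup R) [F.IsComm] (u : PowerSeries R)
    (hu : PowerSeries.constantCoeff u = 0) (hu1 : IsUnit (PowerSeries.coeff 1 u)) :
    ∃ G : FormalGroup R, G.IsComm ∧ IsIso F G u := by
  have hv := PowerSeries.constantCoeff_substInvOfIsUnit u hu1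
  have h1 := PowerSeries.subst_substInvOfIsUnit_right u hu hu1
  have h2 := PowerSeries.subst_substInvOfIsUnit_left u hu hu1
  exact ⟨transport F u (PowerSeries.substInvOfIsUnit u hu1) hu hv h1 h2,
    isComm_transport F u _ hu hv h1 h2, isHom_transport F u _ hu hv h1 h2, hu1⟩

/-- the target of an isomorphism is determined by the source and the series. -/
theorem _root_.Vale.Agent.P217.IsIso.targetC {F G G' : FormalGroup R} {u : PowerSeries R} (h : IsIso F G u)
    (h' : IsIso F G' u) : G = G' := by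
  obtain ⟨v, hv, hvu, huv⟩ := h.symmC
  have hX0 : PowerSeries.HasSubst (X 0 : MvPowerSeries (Fin 2) R) := hasSubst_of_cc (by simp)
  have hX1 : PowerSeries.HasSubst (X 1 : MvPowerSeries (Fin 2) R) := hasSubst_of_cc (by simp)
  have cancel : ∀ z : MvPowerSeries (Fin 2) R, PowerSeries.HasSubst z →
      (PowerSeries.subst (PowerSeries.subst z v : MvPowerSeries (Fin 2) R) u :
        MvPowerSeries (Fin 2) R) = z := by
    intro z hz
    rw [← PowerSeries.subst_comp_subst_apply (hasSubst_of_cc hv.1.1) hz, huv,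
      PowerSeries.subst_X hz]
  have e := h.1.substC (subst_hasSubst hv.1.1 hX0) (subst_hasSubst hv.1.1 hX1)
  have e' := h'.1.substC (subst_hasSubst hv.1.1 hX0) (subst_hasSubst hv.1.1 hX1)
  rw [cancel _ hX0, cancel _ hX1] at e e'
  have id2 : ∀ P : MvPowerSeries (Fin 2) R, subst ![X 0, X 1] P = P := by
    intro P
    have : (![X 0, X 1] : Fin 2 → MvPowerSeries (Fin 2) R) = X := by
      funext s; fin_cases s <;> rfl
    rw [this, subst_self]
    rfl
  rw [id2] at e e'
  exact FormalGroup.ext (e.symm.trans e')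

end Transport

end Vale.Agent.P217.C0
end
end

section

section

/-!
# P217: commutative algebra of `E₀` for the characteristic zero part
-/

namespace Vale.Agent.P217.CA

open MvPowerSeries IsLocalRing

section Complete

variable {A : Type*} [CommRing A]

/-- elementary form of precompleteness. -/
def Prec (I : Ideal A) : Prop :=
  ∀ f : ℕ → A, (∀ s, f (s + 1) - f s ∈ I ^ s) → ∃ l, ∀ s, l - f s ∈ I ^ s

theorem sub_mem_of_step {I : ℕ → Ideal A} (hI : Antitone I) {f : ℕ → A}
    (hf : ∀ s, f (s + 1) - f s ∈ I s) {s t : ℕ} (hst : s ≤ t) : f t - f s ∈ I s := by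
  induction t, hst using Nat.le_induction with
  | base => simp
  | succ t ht ih =>
    have h1 : f (t + 1) - f s = (f (t + 1) - f t) + (f t - f s) := by ring
    rw [h1]
    exact (I s).add_mem (hI ht (hf t)) ih

theorem prec_iff {I : Ideal A} : Prec I ↔ IsPrecomplete I A := by
  constructor
  · intro h
    refine ⟨fun f hf => ?_⟩
    obtain ⟨l, hl⟩ := h f (fun s => by
      have := hf (Nat.le_succ s)
      rw [SModEq.sub_mem, smul_eq_mul, Ideal.mul_top] at this
      rw [← neg_sub]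
      exact (I ^ s).neg_mem this)
    refine ⟨l, fun s => ?_⟩
    rw [SModEq.sub_mem, smul_eq_mul, Ideal.mul_top, ← neg_sub]
    exact (I ^ s).neg_mem (hl s)
  · intro h f hf
    obtain ⟨l, hl⟩ := h.prec' f (fun {m k} hmk => by
      rw [SModEq.sub_mem, smul_eq_mul, Ideal.mul_top, ← neg_sub]
      exact (I ^ m).neg_mem (sub_mem_of_step (fun _ _ h => Ideal.pow_le_pow_right h) hf hmk))
    refine ⟨l, fun s => ?_⟩
    have := hl s
    rw [SModEq.sub_mem, smul_eq_mul, Ideal.mul_top] at this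
    rw [← neg_sub]
    exact (I ^ s).neg_mem this

/-- sums of precomplete ideals are precomplete. -/
theorem Prec.sup {I J : Ideal A} (hI : Prec I) (hJ : Prec J) : Prec (I ⊔ J) := by
  intro f hf
  have hmono : Antitone fun s => (I ⊔ J) ^ s := fun _ _ h => Ideal.pow_le_pow_right h
  have hle : ∀ k, (I ⊔ J) ^ (2 * k) ≤ I ^ k ⊔ J ^ k := by
    intro k
    rw [← Ideal.add_eq_sup, ← Ideal.add_eq_sup, add_pow, Ideal.sum_eq_sup]
    refine Finset.sup_le fun i hi => ?_
    rw [Finset.mem_range] at hi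
    refine Ideal.mul_le_left.trans ?_
    rcases le_or_gt k i with h | h
    · have h1 : I ^ i ≤ I ^ k := Ideal.pow_le_pow_right h
      have h2 : I ^ i * J ^ (2 * k - i) ≤ I ^ i := Ideal.mul_le_left
      exact (h2.trans h1).trans le_sup_left
    · have h1 : J ^ (2 * k - i) ≤ J ^ k := Ideal.pow_le_pow_right (by omega)
      have h2 : I ^ i * J ^ (2 * k - i) ≤ J ^ (2 * k - i) := Ideal.mul_le_right
      exact (h2.trans h1).trans le_sup_right
  have h1 : ∀ k, ∃ a b, a ∈ I ^ k ∧ b ∈ J ^ k ∧ f (2 * (k + 1)) - f (2 * k) = a + b := by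
    intro k
    have h2 := hle k (sub_mem_of_step hmono hf (show 2 * k ≤ 2 * (k + 1) by omega))
    obtain ⟨a, ha, b, hb, h3⟩ := Submodule.mem_sup.mp h2
    exact ⟨a, b, ha, hb, h3.symm⟩
  choose a b ha hb hab using h1
  obtain ⟨la, hla⟩ := hI (fun k => ∑ j ∈ Finset.range k, a j) (fun s => by
    rw [Finset.sum_range_succ, add_sub_cancel_left]; exact ha s)
  obtain ⟨lb, hlb⟩ := hJ (fun k => ∑ j ∈ Finset.range k, b j) (fun s => by
    rw [Finset.sum_range_succ, add_sub_cancel_left]; exact hb s)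
  have h4 : ∀ k, f (2 * k) = f 0 + (∑ j ∈ Finset.range k, a j + ∑ j ∈ Finset.range k, b j) := by
    intro k
    induction k with
    | zero => simp
    | succ k ih =>
      rw [Finset.sum_range_succ, Finset.sum_range_succ]
      have := hab k
      linear_combination this + ih
  refine ⟨f 0 + (la + lb), fun s => ?_⟩
  have h5 : f 0 + (la + lb) - f s = ((la - ∑ j ∈ Finset.range s, a j) +
      (lb - ∑ j ∈ Finset.range s, b j)) + (f (2 * s) - f s) := by
    rw [h4 s]; ring
  rw [h5]
  refine ((I ⊔ J) ^ s).add_mem (((I ⊔ J) ^ s).add_mem ?_ ?_)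
    (sub_mem_of_step hmono hf (by omega))
  · exact Ideal.pow_right_mono le_sup_left s (hla s)
  · exact Ideal.pow_right_mono le_sup_right s (hlb s)

/-- quotients of precomplete rings. -/
theorem Prec.of_surjective {B : Type*} [CommRing B] {I : Ideal A} (hI : Prec I) {φ : A →+* B}
    (hφ : Function.Surjective φ) : Prec (I.map φ) := by
  intro f hf
  have h1 : ∀ s, ∃ d ∈ I ^ s, φ d = f (s + 1) - f s := by
    intro s
    have h2 := hf s
    rw [← Ideal.map_pow] at h2
    exact (Ideal.mem_map_iff_of_surjective φ hφ).mp h2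
  choose d hd hd2 using h1
  obtain ⟨d0, hd0⟩ := hφ (f 0)
  obtain ⟨l, hl⟩ := hI (fun k => d0 + ∑ j ∈ Finset.range k, d j) (fun s => by
    rw [Finset.sum_range_succ, ← add_assoc, add_sub_cancel_left]; exact hd s)
  have h3 : ∀ k, φ (d0 + ∑ j ∈ Finset.range k, d j) = f k := by
    intro k
    rw [map_add, map_sum, hd0, Finset.sum_congr rfl (fun j _ => hd2 j), Finset.sum_range_sub]
    ring
  refine ⟨φ l, fun s => ?_⟩
  rw [← h3 s, ← map_sub, ← Ideal.map_pow]
  exact Ideal.mem_map_of_mem φ (hl s)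

end Complete

section Witt

set_option linter.unusedSectionVars false

variable {p : ℕ} [hp : Fact p.Prime] {k : Type*} [Field k] [CharP k p] [PerfectRing k p]

theorem p_ne_zero : (p : WittVector p k) ≠ 0 := WittVector.p_nonzero p k

theorem prec_witt : Prec (Ideal.span {(p : WittVector p k)}) :=
  prec_iff.mpr inferInstance

variable {m : ℕ}

/-- the residue map. -/
noncomputable def rd (p : ℕ) [Fact p.Prime] (k : Type*) [Field k] (m : ℕ) :
    MvPowerSeries (Fin m) (WittVector p k) →+* k :=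
  (WittVector.constantCoeff : WittVector p k →+* k).comp MvPowerSeries.constantCoeff

theorem rd_surjective : Function.Surjective (rd p k m) := by
  intro x
  obtain ⟨y, hy⟩ := WittVector.constantCoeff_surjective p x
  exact ⟨C y, by rw [rd, RingHom.comp_apply, constantCoeff_C, hy]⟩

theorem isUnit_iff_rd {f : MvPowerSeries (Fin m) (WittVector p k)} :
    IsUnit f ↔ rd p k m f ≠ 0 := by
  rw [isUnit_iff_constantCoeff]
  constructor
  · intro h
    exact (h.map (WittVector.constantCoeff : WittVector p k →+* k)).ne_zero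
  · intro h
    exact WittVector.isUnit_of_coeff_zero_ne_zero _ h

theorem maximalIdeal_eq_ker : maximalIdeal (MvPowerSeries (Fin m) (WittVector p k)) =
    RingHom.ker (rd p k m) := by
  ext f
  rw [mem_maximalIdeal, mem_nonunits_iff, isUnit_iff_rd, RingHom.mem_ker, not_not]

theorem X_mem_maximalIdeal (i : Fin m) :
    (X i : MvPowerSeries (Fin m) (WittVector p k)) ∈
      maximalIdeal (MvPowerSeries (Fin m) (WittVector p k)) := by
  rw [maximalIdeal_eq_ker, RingHom.mem_ker, rd, RingHom.comp_apply, constantCoeff_X, map_zero]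

theorem p_mem_maximalIdeal : (p : MvPowerSeries (Fin m) (WittVector p k)) ∈
      maximalIdeal (MvPowerSeries (Fin m) (WittVector p k)) := by
  rw [maximalIdeal_eq_ker, RingHom.mem_ker, map_natCast, CharP.cast_eq_zero]

/-- the maximal ideal is `(p, u)`. -/
theorem maximalIdeal_eq_sup : maximalIdeal (MvPowerSeries (Fin m) (WittVector p k)) =
    Ideal.span {(p : MvPowerSeries (Fin m) (WittVector p k))} ⊔
      Ideal.span (Set.range X) := by
  refine le_antisymm ?_ ?_
  · intro f hf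
    rw [maximalIdeal_eq_ker, RingHom.mem_ker] at hf
    obtain ⟨g, hg⟩ := exists_decomp f
    rw [hg]
    refine Ideal.add_mem _ (Ideal.mem_sup_left ?_) (Ideal.mem_sup_right ?_)
    · have h1 : constantCoeff f ∈ Ideal.span {(p : WittVector p k)} :=
        (WittVector.mem_span_p_iff_coeff_zero_eq_zero _).mpr hf
      rw [Ideal.mem_span_singleton] at h1 ⊢
      rw [← map_natCast (C (σ := Fin m) (R := WittVector p k))]
      exact map_dvd C h1
    · exact Ideal.sum_mem _ fun i _ => Ideal.mul_mem_right _ _ (Ideal.subset_span ⟨i, rfl⟩)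
  · refine sup_le ?_ ?_
    · rw [Ideal.span_singleton_le_iff_mem]
      exact p_mem_maximalIdeal
    · rw [Ideal.span_le]
      rintro _ ⟨i, rfl⟩
      exact X_mem_maximalIdeal i

/-- the series with given coefficients. -/
def mkS {σ R : Type*} (g : (σ →₀ ℕ) → R) : MvPowerSeries σ R := g

theorem coeff_mkS {σ R : Type*} [CommRing R] (g : (σ →₀ ℕ) → R) (β : σ →₀ ℕ) :
    coeff β (mkS g) = g β := rfl

theorem C_dvd_iff {σ R : Type*} [CommRing R] {a : R} {f : MvPowerSeries σ R} :
    C a ∣ f ↔ ∀ β, a ∣ coeff β f := by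
  constructor
  · rintro ⟨g, rfl⟩ β
    rw [coeff_C_mul]
    exact dvd_mul_right _ _
  · intro h
    choose g hg using h
    refine ⟨mkS g, ?_⟩
    apply MvPowerSeries.ext
    intro β
    rw [coeff_C_mul, hg β, coeff_mkS]

theorem prec_span_p : Prec (Ideal.span {(p : MvPowerSeries (Fin m) (WittVector p k))}) := by
  have key : ∀ s (f : MvPowerSeries (Fin m) (WittVector p k)),
      f ∈ Ideal.span {(p : MvPowerSeries (Fin m) (WittVector p k))} ^ s ↔
        ∀ β, coeff β f ∈ Ideal.span {(p : WittVector p k)} ^ s := by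
    intro s f
    rw [Ideal.span_singleton_pow, Ideal.mem_span_singleton,
      ← map_natCast (C (σ := Fin m) (R := WittVector p k)), ← map_pow, C_dvd_iff]
    refine forall_congr' fun β => ?_
    rw [Ideal.span_singleton_pow, Ideal.mem_span_singleton]
  intro f hf
  have h1 : ∀ β, ∃ l, ∀ s, l - coeff β (f s) ∈ Ideal.span {(p : WittVector p k)} ^ s := by
    intro β
    refine prec_witt _ fun s => ?_
    have := (key s _).mp (hf s) β
    rwa [map_sub] at this
  choose l hl using h1
  refine ⟨mkS l, fun s => ?_⟩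
  rw [key]
  intro β
  rw [map_sub, coeff_mkS]
  exact hl β s

instance isAdicComplete_maximalIdeal :
    IsAdicComplete (maximalIdeal (MvPowerSeries (Fin m) (WittVector p k)))
      (MvPowerSeries (Fin m) (WittVector p k)) := by
  have h1 : IsPrecomplete (maximalIdeal (MvPowerSeries (Fin m) (WittVector p k)))
      (MvPowerSeries (Fin m) (WittVector p k)) := by
    rw [← prec_iff, maximalIdeal_eq_sup]
    exact Prec.sup prec_span_p (prec_iff.mpr inferInstance)
  exact { (inferInstance : IsHausdorff (maximalIdeal (MvPowerSeries (Fin m) (WittVector p k)))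
      (MvPowerSeries (Fin m) (WittVector p k))), h1 with }

theorem finite_quotient [Finite k] (N : ℕ) : Finite (MvPowerSeries (Fin m) (WittVector p k) ⧸
    (maximalIdeal (MvPowerSeries (Fin m) (WittVector p k))) ^ N) := by
  have h1 : Finite (MvPowerSeries (Fin m) (WittVector p k) ⧸
      maximalIdeal (MvPowerSeries (Fin m) (WittVector p k))) := by
    rw [maximalIdeal_eq_ker]
    exact Finite.of_equiv k
      (RingHom.quotientKerEquivOfSurjective (rd_surjective (p := p) (k := k) (m := m))).symm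
  exact Ideal.finite_quotient_pow (IsNoetherian.noetherian _) N

theorem natCast_eq (N : ℕ) (hN : N ≠ 0) : ∃ (v : ℕ) (u : MvPowerSeries (Fin m) (WittVector p k)),
    IsUnit u ∧ (N : MvPowerSeries (Fin m) (WittVector p k)) = p ^ v * u := by
  obtain ⟨v, M, hM, h⟩ := Nat.exists_eq_pow_mul_and_not_dvd hN p hp.out.ne_one
  refine ⟨v, M, ?_, by rw [h]; push_cast; ring⟩
  rw [isUnit_iff_rd, map_natCast]
  intro h1
  exact hM ((CharP.cast_eq_zero_iff k p M).mp h1)

/-- `p`-saturated ideals. -/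
def PSat (J : Ideal (MvPowerSeries (Fin m) (WittVector p k))) : Prop :=
  ∀ f, (p : MvPowerSeries (Fin m) (WittVector p k)) * f ∈ J → f ∈ J

theorem PSat.pow_cancel {J : Ideal (MvPowerSeries (Fin m) (WittVector p k))} (hJ : PSat J)
    (v : ℕ) {f : MvPowerSeries (Fin m) (WittVector p k)}
    (h : (p : MvPowerSeries (Fin m) (WittVector p k)) ^ v * f ∈ J) : f ∈ J := by
  induction v with
  | zero => simpa only [pow_zero, one_mul] using h
  | succ v ih =>
    apply ih
    apply hJ
    rwa [← mul_assoc, ← pow_succ']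

theorem PSat.nat_cancel {J : Ideal (MvPowerSeries (Fin m) (WittVector p k))} (hJ : PSat J)
    {N : ℕ} (hN : N ≠ 0) {f : MvPowerSeries (Fin m) (WittVector p k)}
    (h : (N : MvPowerSeries (Fin m) (WittVector p k)) * f ∈ J) : f ∈ J := by
  obtain ⟨v, u, hu, h1⟩ := natCast_eq (p := p) (k := k) (m := m) N hN
  rw [h1, mul_assoc] at h
  have h2 := hJ.pow_cancel v h
  exact (Ideal.unit_mul_mem_iff_mem J hu).mp h2

theorem exists_factor (f : MvPowerSeries (Fin m) (WittVector p k)) (hf : f ≠ 0) :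
    ∃ (r : ℕ) (g : MvPowerSeries (Fin m) (WittVector p k)) (β : Fin m →₀ ℕ),
      f = (p : MvPowerSeries (Fin m) (WittVector p k)) ^ r * g ∧ IsUnit (coeff β g) := by
  classical
  have hex : ∃ r, ∃ β, ¬ (p : WittVector p k) ^ (r + 1) ∣ coeff β f := by
    obtain ⟨β, hβ⟩ : ∃ β, coeff β f ≠ 0 := by
      by_contra h
      push Not at h
      exact hf (MvPowerSeries.ext h)
    obtain ⟨r, b, hb⟩ := WittVector.exists_eq_pow_p_mul' (coeff β f) hβ
    refine ⟨r, β, fun ⟨c, hc⟩ => ?_⟩
    rw [hb, pow_succ, mul_assoc] at hc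
    have h1 := mul_left_cancel₀ (pow_ne_zero r (p_ne_zero (p := p) (k := k))) hc
    have h2 : IsUnit (p : WittVector p k) := isUnit_of_mul_isUnit_left (h1 ▸ b.isUnit)
    exact (WittVector.irreducible p).not_isUnit h2
  obtain ⟨β, hβ⟩ := Nat.find_spec hex
  set r := Nat.find hex with hr
  have h1 : C ((p : WittVector p k) ^ r) ∣ f := by
    rw [C_dvd_iff]
    intro γ
    rcases Nat.eq_zero_or_pos r with h0 | h0
    · rw [h0, pow_zero]
      exact one_dvd _
    · have h2 := Nat.find_min hex (m := r - 1) (by omega)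
      push Not at h2
      have h3 : r - 1 + 1 = r := by omega
      rw [h3] at h2
      exact h2 γ
  obtain ⟨g, hg⟩ := h1
  refine ⟨r, g, β, ?_, ?_⟩
  · rw [hg, map_pow, map_natCast]
  · rw [hg, coeff_C_mul, pow_succ] at hβ
    apply WittVector.isUnit_of_coeff_zero_ne_zero
    intro h4
    apply hβ
    refine mul_dvd_mul_left _ ?_
    rw [← Ideal.mem_span_singleton]
    exact (WittVector.mem_span_p_iff_coeff_zero_eq_zero _).mpr h4

/-- Hasse derivatives. -/
noncomputable def hasse {R : Type*} [CommRing R] (α : Fin m →₀ ℕ) (g : MvPowerSeries (Fin m) R) :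
    MvPowerSeries (Fin m) R :=
  mkS fun β => ((∏ j, (β j + α j).choose (α j) : ℕ) : R) * coeff (β + α) g

theorem coeff_hasse {R : Type*} [CommRing R] (α : Fin m →₀ ℕ) (g : MvPowerSeries (Fin m) R)
    (β : Fin m →₀ ℕ) : coeff β (hasse α g) =
      ((∏ j, (β j + α j).choose (α j) : ℕ) : R) * coeff (β + α) g := rfl

theorem hasse_zero {R : Type*} [CommRing R] (g : MvPowerSeries (Fin m) R) : hasse 0 g = g := by
  apply MvPowerSeries.ext
  intro β
  rw [coeff_hasse]
  simp only [Finsupp.coe_zero, Pi.zero_apply, add_zero, Nat.choose_zero_right, Finset.prod_const_one, Nat.cast_one, one_mul]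

theorem constantCoeff_hasse {R : Type*} [CommRing R] (α : Fin m →₀ ℕ)
    (g : MvPowerSeries (Fin m) R) : constantCoeff (hasse α g) = coeff α g := by
  rw [← coeff_zero_eq_constantCoeff_apply, coeff_hasse]
  simp only [Finsupp.coe_zero, Pi.zero_apply, zero_add, Nat.choose_self, Finset.prod_const_one, Nat.cast_one, one_mul]

theorem pderiv_hasse {R : Type*} [CommRing R] (α : Fin m →₀ ℕ) (i : Fin m)
    (g : MvPowerSeries (Fin m) R) : pderiv R i (hasse α g) =
      ((α i + 1 : ℕ) : MvPowerSeries (Fin m) R) * hasse (α + Finsupp.single i 1) g := by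
  classical
  obtain ⟨δ, hδ⟩ : ∃ δ : Fin m →₀ ℕ, δ = Finsupp.single i 1 := ⟨_, rfl⟩
  have hδi : δ i = 1 := by rw [hδ, Finsupp.single_eq_same]
  have hδj : ∀ j, j ≠ i → δ j = 0 := fun j hj => by rw [hδ, Finsupp.single_eq_of_ne hj]
  apply MvPowerSeries.ext
  intro β
  rw [coeff_pderiv, ← hδ, coeff_hasse, ← map_natCast (C (σ := Fin m) (R := R)), coeff_C_mul,
    coeff_hasse]
  have h1 : β + δ + α = β + (α + δ) := by
    rw [add_assoc, add_comm δ α]
  have h2 : (∏ j, ((β + δ) j + α j).choose (α j)) * (β i + 1) =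
      (α i + 1) * ∏ j, (β j + (α + δ) j).choose ((α + δ) j) := by
    rw [← Finset.mul_prod_erase _ _ (Finset.mem_univ i),
      ← Finset.mul_prod_erase _ (fun j => (β j + (α + δ) j).choose
        ((α + δ) j)) (Finset.mem_univ i)]
    have h3 : ∀ j ∈ Finset.univ.erase i,
        ((β + δ) j + α j).choose (α j) =
        (β j + (α + δ) j).choose ((α + δ) j) := by
      intro j hj
      rw [Finset.mem_erase] at hj
      simp only [Finsupp.coe_add, Pi.add_apply, hδj j hj.1, add_zero]
    rw [Finset.prod_congr rfl h3]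
    have h4 : ((β + δ) i + α i).choose (α i) * (β i + 1) =
        (α i + 1) * (β i + (α + δ) i).choose ((α + δ) i) := by
      have h5 := Nat.choose_succ_right_eq (β i + 1 + α i) (α i)
      simp only [Finsupp.add_apply, hδi]
      have h6 : β i + 1 + α i - α i = β i + 1 := by omega
      have h7 : β i + (α i + 1) = β i + 1 + α i := by omega
      rw [h6] at h5
      rw [h7, ← h5]
      ring
    calc _ = (((β + δ) i + α i).choose (α i) * (β i + 1)) *
        ∏ j ∈ Finset.univ.erase i, (β j + (α + δ) j).choose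
          ((α + δ) j) := by ring
      _ = _ := by rw [h4]; ring
  rw [h1, mul_right_comm]
  have h8 := congrArg (Nat.cast (R := R)) h2
  push_cast at h8 ⊢
  rw [← mul_assoc, ← h8]

theorem hasse_mem {J : Ideal (MvPowerSeries (Fin m) (WittVector p k))} (hJ : PSat J)
    (hd : ∀ f ∈ J, ∀ i, pderiv (WittVector p k) i f ∈ J)
    {g : MvPowerSeries (Fin m) (WittVector p k)} (hg : g ∈ J) (α : Fin m →₀ ℕ) :
    hasse α g ∈ J := by
  classical
  induction h : Finsupp.degree α generalizing α with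
  | zero =>
    rw [Finsupp.degree_eq_zero_iff] at h
    rw [h, hasse_zero]
    exact hg
  | succ N ih =>
    have h1 : α ≠ 0 := by
      rintro rfl
      simp at h
    obtain ⟨i, hi⟩ : ∃ i, α i ≠ 0 := by
      by_contra h2
      push Not at h2
      exact h1 (Finsupp.ext h2)
    have h3 : α - Finsupp.single i 1 + Finsupp.single i 1 = α := by
      apply tsub_add_cancel_of_le
      rw [Finsupp.single_le_iff]
      omega
    have h4 : Finsupp.degree (α - Finsupp.single i 1) = N := by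
      have h5 := congrArg Finsupp.degree h3
      rw [map_add, Finsupp.degree_single, h] at h5
      omega
    have h6 := hd _ (ih _ h4) i
    rw [pderiv_hasse, h3] at h6
    exact hJ.nat_cancel (Nat.succ_ne_zero _) h6

theorem eq_top_of_stable {J : Ideal (MvPowerSeries (Fin m) (WittVector p k))} (hJ : PSat J)
    (hd : ∀ f ∈ J, ∀ i, pderiv (WittVector p k) i f ∈ J) (h0 : J ≠ ⊥) : J = ⊤ := by
  obtain ⟨f, hf, hf0⟩ := Submodule.exists_mem_ne_zero_of_ne_bot h0
  obtain ⟨r, g, β, h1, h2⟩ := exists_factor f hf0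
  rw [h1] at hf
  have h3 := hasse_mem hJ hd (hJ.pow_cancel r hf) β
  refine Ideal.eq_top_of_isUnit_mem _ h3 ?_
  rw [isUnit_iff_constantCoeff, constantCoeff_hasse]
  exact h2

end Witt

section Dim

theorem two_le_height {C : Type*} [CommRing C] [IsDomain C] {P Q : Ideal C} [P.IsPrime]
    [Q.IsPrime] (hP : P ≠ ⊥) (h : P < Q) : 2 ≤ Q.height := by
  have h1 := Ideal.height_add_one_le_of_lt_of_isPrime (I := (⊥ : Ideal C)) (J := P)
    (bot_lt_iff_ne_bot.mpr hP)
  have h2 := Ideal.height_add_one_le_of_lt_of_isPrime h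
  rw [Ideal.height_bot, zero_add] at h1
  calc (2 : ℕ∞) = 1 + 1 := by norm_num
    _ ≤ P.height + 1 := by (clear * - h1; gcongr)
    _ ≤ Q.height := h2

/-- In a noetherian local domain where every nonzero prime contains `a ≠ 0`, every nonzero
prime is maximal. -/
theorem eq_maximalIdeal_of_prime {C : Type*} [CommRing C] [IsDomain C] [IsLocalRing C]
    [IsNoetherianRing C] {a : C} (ha : a ≠ 0) (h : ∀ P : Ideal C, P.IsPrime → P ≠ ⊥ → a ∈ P)
    (P : Ideal C) (hP : P.IsPrime) (hP0 : P ≠ ⊥) : P = maximalIdeal C := by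
  classical
  by_contra hne
  have hPm : P < maximalIdeal C := lt_of_le_of_ne (le_maximalIdeal hP.ne_top) hne
  have hm2 : 2 ≤ (maximalIdeal C).height := two_le_height hP0 hPm
  have hfin := Ideal.finite_minimalPrimes_of_isNoetherianRing C (Ideal.span {a})
  have hT : ∀ R ∈ (Ideal.span {a}).minimalPrimes, R.height ≤ 1 := fun R hR =>
    Ideal.height_le_one_of_isPrincipal_of_mem_minimalPrimes _ R hR
  -- prime avoidance
  obtain ⟨x, hxm, hx⟩ : ∃ x ∈ maximalIdeal C, ∀ R ∈ (Ideal.span {a}).minimalPrimes, x ∉ R := by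
    by_contra hcon
    push Not at hcon
    have hsub : ((maximalIdeal C : Ideal C) : Set C) ⊆
        ⋃ R ∈ (hfin.toFinset : Set (Ideal C)), ((id R : Ideal C) : Set C) := by
      intro x hx
      obtain ⟨R, hR, hxR⟩ := hcon x hx
      simp only [Set.mem_iUnion]
      exact ⟨R, by simpa only [Set.Finite.coe_toFinset, Set.mem_ofPred_eq] using hR, hxR⟩
    rw [Ideal.subset_union_prime (f := id) ⊥ ⊥] at hsub
    · obtain ⟨R, hR, hle⟩ := hsub
      have hR' : R ∈ (Ideal.span {a}).minimalPrimes := by simpa only [Set.mem_ofPred_eq, Set.Finite.mem_toFinset] using hR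
      have hRp : R.IsPrime := hR'.1.1
      have h1 : R = maximalIdeal C := le_antisymm (le_maximalIdeal hRp.ne_top) hle
      have h2 := hT R hR'
      rw [h1] at h2
      have h3 := hm2.trans h2
      exact absurd h3 (by norm_num)
    · intro R hR _ _
      have hR' : R ∈ (Ideal.span {a}).minimalPrimes := by simpa only [Set.mem_ofPred_eq, Set.Finite.mem_toFinset] using hR
      exact hR'.1.1
  have ham : a ∈ P := h P hP hP0
  obtain ⟨R0, hR0, hR0le⟩ := Ideal.exists_minimalPrimes_le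
    ((Ideal.span_singleton_le_iff_mem _).mpr ham)
  have hx0 : x ≠ 0 := by
    rintro rfl
    exact hx R0 hR0 (Ideal.zero_mem _)
  obtain ⟨R1, hR1, -⟩ := Ideal.exists_minimalPrimes_le (J := maximalIdeal C)
    ((Ideal.span_singleton_le_iff_mem _).mpr hxm)
  have hR1p : R1.IsPrime := hR1.1.1
  have hxR1 : x ∈ R1 := hR1.1.2 (Ideal.mem_span_singleton_self x)
  have hR1h : R1.height ≤ 1 := Ideal.height_le_one_of_isPrincipal_of_mem_minimalPrimes _ R1 hR1
  have hR10 : R1 ≠ ⊥ := by
    rintro rfl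
    exact hx0 (by simpa only [Submodule.mem_bot] using hxR1)
  obtain ⟨R2, hR2, hR2le⟩ := Ideal.exists_minimalPrimes_le
    ((Ideal.span_singleton_le_iff_mem _).mpr (h R1 hR1p hR10))
  have hR2p : R2.IsPrime := hR2.1.1
  have haR2 : a ∈ R2 := hR2.1.2 (Ideal.mem_span_singleton_self a)
  have hR20 : R2 ≠ ⊥ := by
    rintro rfl
    exact ha (by simpa only [Submodule.mem_bot] using haR2)
  have hlt : R2 < R1 := lt_of_le_of_ne hR2le fun h => hx R2 hR2 (h ▸ hxR1)
  have h4 := (two_le_height hR20 hlt).trans hR1h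
  exact absurd h4 (by norm_num)

/-- A prime with one-dimensional quotient avoiding `a`. -/
theorem exists_prime_dim_one {A : Type*} [CommRing A] [IsLocalRing A] [IsNoetherianRing A]
    {J : Ideal A} (hJ : J.IsRadical) {a b : A} (ha : a ∉ J)
    (hba : b ∣ a) : ∃ (Q : Ideal A) (e : ℕ), Q.IsPrime ∧ J ≤ Q ∧ a ∉ Q ∧
      (maximalIdeal A) ^ e ≤ Q ⊔ Ideal.span {b} := by
  let S : Set (Ideal A) := {Q | Q.IsPrime ∧ J ≤ Q ∧ a ∉ Q}
  have hS : S.Nonempty := by
    by_contra hS
    apply ha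
    rw [← hJ.radical, Ideal.radical_eq_sInf, Ideal.mem_sInf]
    intro Q hQ
    by_contra haQ
    exact hS ⟨Q, hQ.2, hQ.1, haQ⟩
  obtain ⟨Q, ⟨hQp, hJQ, haQ⟩, hmax⟩ := set_has_maximal_iff_noetherian.mpr
    (inferInstance : IsNoetherian A A) S hS
  have hbQ : b ∉ Q := fun h => haQ (Ideal.mem_of_dvd Q hba h)
  have hbig : ∀ P : Ideal A, P.IsPrime → Q < P → a ∈ P := by
    intro P hP hQP
    by_contra haP
    exact hmax P ⟨hP, hJQ.trans hQP.le, haP⟩ hQP
  have hQm : Q ≤ maximalIdeal A := le_maximalIdeal hQp.ne_top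
  -- primes above `Q` and containing `b`
  have hprime : ∀ P : Ideal A, P.IsPrime → Q ⊔ Ideal.span {b} ≤ P → P = maximalIdeal A := by
    intro P hP hle
    have hQP : Q < P := lt_of_le_of_ne (le_sup_left.trans hle) (fun h => hbQ (by
      rw [h]; exact hle (Ideal.mem_sup_right (Ideal.mem_span_singleton_self b))))
    have : Nontrivial (A ⧸ Q) := Ideal.Quotient.nontrivial_iff.mpr hQp.ne_top
    have : IsLocalRing (A ⧸ Q) :=
      IsLocalRing.of_surjective' (Ideal.Quotient.mk Q) Ideal.Quotient.mk_surjective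
    have key := eq_maximalIdeal_of_prime (C := A ⧸ Q) (a := Ideal.Quotient.mk Q a)
      (by rwa [Ne, Ideal.Quotient.eq_zero_iff_mem]) (by
        intro R hR hR0
        have h1 : (R.comap (Ideal.Quotient.mk Q)).IsPrime := Ideal.comap_isPrime _ _
        have h2 : Q < R.comap (Ideal.Quotient.mk Q) := by
          refine lt_of_le_of_ne ?_ ?_
          · intro x hx
            rw [Ideal.mem_comap, Ideal.Quotient.eq_zero_iff_mem.mpr hx]
            exact R.zero_mem
          · intro h3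
            apply hR0
            rw [eq_bot_iff]
            intro y hy
            obtain ⟨z, rfl⟩ := Ideal.Quotient.mk_surjective y
            have : z ∈ Q := by rw [h3]; exact hy
            rw [Ideal.Quotient.eq_zero_iff_mem.mpr this]
            exact Submodule.zero_mem _
        exact hbig _ h1 h2)
      (P.map (Ideal.Quotient.mk Q))
      (Ideal.map_isPrime_of_surjective Ideal.Quotient.mk_surjective (by
        rw [Ideal.mk_ker]; exact hQP.le)) (by
        intro h3
        have h4 : Ideal.Quotient.mk Q b ∈ P.map (Ideal.Quotient.mk Q) :=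
          Ideal.mem_map_of_mem _ (hle (Ideal.mem_sup_right (Ideal.mem_span_singleton_self b)))
        rw [h3, Ideal.mem_bot, Ideal.Quotient.eq_zero_iff_mem] at h4
        exact hbQ h4)
    refine le_antisymm (le_maximalIdeal hP.ne_top) fun x hx => ?_
    have h5 : Ideal.Quotient.mk Q x ∈ maximalIdeal (A ⧸ Q) := by
      rw [mem_maximalIdeal, mem_nonunits_iff] at hx ⊢
      intro hu
      obtain ⟨y, hy⟩ := hu.exists_right_inv
      obtain ⟨z, rfl⟩ := Ideal.Quotient.mk_surjective y
      rw [← map_mul, ← map_one (Ideal.Quotient.mk Q), Ideal.Quotient.eq] at hy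
      have h6 : 1 - x * z ∈ maximalIdeal A := by
        rw [← neg_sub]
        exact (maximalIdeal A).neg_mem (hQm hy)
      have h7 : x * z ∈ maximalIdeal A :=
        Ideal.mul_mem_right _ _ (by rwa [mem_maximalIdeal, mem_nonunits_iff])
      have h8 := (maximalIdeal A).add_mem h6 h7
      rw [sub_add_cancel] at h8
      exact (Ideal.ne_top_iff_one _).mp (maximalIdeal.isMaximal A).ne_top h8
    rw [← key, Ideal.mem_map_iff_of_surjective _ Ideal.Quotient.mk_surjective] at h5
    obtain ⟨y, hy, hxy⟩ := h5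
    rw [Ideal.Quotient.eq] at hxy
    have h9 := hQP.le hxy
    have h10 : y - (y - x) = x := by ring
    rw [← h10]
    exact P.sub_mem hy h9
  have hrad : maximalIdeal A ≤ Ideal.radical (Q ⊔ Ideal.span {b}) := by
    rw [Ideal.radical_eq_sInf]
    refine le_sInf fun P hP => ?_
    rw [hprime P hP.2 hP.1]
  obtain ⟨e, he⟩ := Ideal.exists_pow_le_of_le_radical_of_fg hrad (IsNoetherian.noetherian _)
  exact ⟨Q, e, hQp, hJQ, haQ, he⟩

end Dim

section E0

variable {p n : ℕ} [hp : Fact p.Prime]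

/-- the good prime. -/
theorem exists_good_prime {J : Ideal (E0 p n)} (hJ : J.IsRadical) (hpJ : (p : E0 p n) ∉ J)
    (hJ0 : J ≠ ⊥) : ∃ (f : E0 p n) (i : Fin (n - 1)) (Q : Ideal (E0 p n)) (e : ℕ),
      Q.IsPrime ∧ J ≤ Q ∧ (p : E0 p n) ∉ Q ∧ (p : E0 p n) * f ∈ J ∧
      MvPowerSeries.pderiv (WittVector p (GaloisField p n)) i f ∉ Q ∧
      (maximalIdeal (E0 p n)) ^ e ≤ Q ⊔ Ideal.span {(p : E0 p n)} := by
  let J1 : Ideal (E0 p n) := Submodule.comap (LinearMap.mulLeft (E0 p n) (p : E0 p n)) J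
  have hmem : ∀ x, x ∈ J1 ↔ (p : E0 p n) * x ∈ J := fun x => Iff.rfl
  have hsat : PSat J1 := by
    intro f hf
    rw [hmem] at hf ⊢
    refine hJ ⟨2, ?_⟩
    have : ((p : E0 p n) * f) ^ 2 = f * ((p : E0 p n) * ((p : E0 p n) * f)) := by ring
    rw [this]
    exact Ideal.mul_mem_left _ _ hf
  have hle : J ≤ J1 := fun x hx => (hmem x).mpr (Ideal.mul_mem_left _ _ hx)
  have h0 : J1 ≠ ⊥ := fun h => hJ0 (eq_bot_iff.mpr (h ▸ hle))
  have h1 : J1 ≠ ⊤ := by
    intro h
    apply hpJ
    have : (1 : E0 p n) ∈ J1 := by rw [h]; exact Submodule.mem_top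
    rwa [hmem, mul_one] at this
  obtain ⟨f, hf, i, hi⟩ : ∃ f ∈ J1, ∃ i,
      MvPowerSeries.pderiv (WittVector p (GaloisField p n)) i f ∉ J1 := by
    by_contra hcon
    push Not at hcon
    exact h1 (eq_top_of_stable hsat hcon h0)
  rw [hmem] at hf hi
  obtain ⟨Q, e, hQ, hJQ, haQ, he⟩ := exists_prime_dim_one hJ hi (dvd_mul_right _ _)
  exact ⟨f, i, Q, e, hQ, hJQ, fun h => haQ (Ideal.mul_mem_right _ _ h), hf,
    fun h => haQ (Ideal.mul_mem_left _ _ h), he⟩

/-- `p`-adic completeness of quotients of `E₀`. -/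
theorem prec_quotient {C : Type*} [CommRing C] {x : E0 p n →+* C}
    (hx : Function.Surjective x) : Prec (Ideal.span {(p : C)}) := by
  have h := (prec_span_p (p := p) (k := GaloisField p n) (m := n - 1)).of_surjective hx
  rwa [Ideal.map_span, Set.image_singleton, map_natCast] at h

/-- `p`-adic separatedness. -/
theorem eq_zero_of_forall_mem {C : Type*} [CommRing C] [IsDomain C] [IsNoetherianRing C]
    {I : Ideal C} (hI : I ≠ ⊤) {z : C} (h : ∀ s, z ∈ I ^ s) : z = 0 := by
  have h1 : IsHausdorff I C := IsHausdorff.of_isDomain I hI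
  refine h1.haus' z fun s => ?_
  rw [SModEq.zero, smul_eq_mul, Ideal.mul_top]
  exact h s

theorem isAdicComplete_E0 : IsAdicComplete (maximalIdeal (E0 p n)) (E0 p n) :=
  isAdicComplete_maximalIdeal

theorem finite_quotient_E0 (N : ℕ) : Finite (E0 p n ⧸ (maximalIdeal (E0 p n)) ^ N) :=
  finite_quotient N

end E0

end Vale.Agent.P217.CA
end
end
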