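import Vale.Agent.P217.MathlibUsed
import Vale.Agent.P217.Defs

set_option linter.all false

section

section

/-!
# P217: the big algebraically closed complete nonarchimedean field of characteristic `p`.
-/

open Polynomial

noncomputable section

namespace P217

/-- Same as `IsAlgClosed.of_denseRange` of Mathlib, for perfect fields. -/
theorem isAlgClosed_of_denseRange {K L : Type*} [Field K] [NontriviallyNormedField L]
    [CompleteSpace L] [PerfectField L] [IsUltrametricDist L] [Algebra K L]
    (hi : DenseRange (algebraMap K L)) [IsAlgClosed K] : IsAlgClosed L := by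
  apply IsAlgClosed.of_exists_root
  intro f fmon firr
  have fnatdeg0 : f.natDegree ≠ 0 := (Irreducible.natDegree_pos firr).ne'
  let F := f.SplittingField
  let : NormedField F := spectralNorm.normedField L F
  let : NormedAlgebra L F := spectralNorm.normedAlgebra L F
  let a := rootOfSplits (SplittingField.splits f)
      (by simpa using degree_ne_of_natDegree_ne fnatdeg0)
  have fa0 : f.aeval a = 0 := by
    rw [← eval_map_algebraMap]
    exact eval_rootOfSplits (Polynomial.SplittingField.splits f)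
      (by simpa only [degree_map, ne_eq, CharP.cast_eq_zero] using degree_ne_of_natDegree_ne fnatdeg0)
  classical
    let S : Finset F := {x ∈ (f.rootSet F).toFinset | x ≠ a}
  let δ : ℝ := if hS : S.Nonempty then Finset.min' (S.image fun x => ‖a - x‖)
      (Finset.image_nonempty.mpr hS) else 1
  have norm_sub_le : ∀ a' : F, IsConjRoot L a a' → a ≠ a' → δ ≤ ‖a - a'‖ := by
    intro a' conj ne
    by_cases hS : S.Nonempty <;> simp only [hS, ↓reduceDIte, δ]
    · apply Finset.min'_le (S.image fun x => ‖a - x‖) (‖a - a'‖)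
      apply Finset.mem_image_of_mem
      simp only [minpoly.eq_of_irreducible_of_monic firr fa0 fmon, Finset.mem_filter,
        Set.mem_toFinset, S]
      rw [← (isConjRoot_iff_mem_minpoly_rootSet ⟨f, fmon, fa0⟩)]
      exact ⟨conj, ne.symm⟩
    · simp only [ne_eq, Finset.not_nonempty_iff_eq_empty, Finset.filter_eq_empty_iff,
      Set.mem_toFinset, not_not, S] at hS
      rw [isConjRoot_iff_mem_minpoly_rootSet ⟨f, fmon, fa0⟩,
          ← minpoly.eq_of_irreducible_of_monic firr fa0 fmon] at conj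
      exact (ne (hS conj).symm).elim
  have δpos : δ > 0 := by
    by_cases hS : S.Nonempty <;> simp only [hS, ↓reduceDIte, δ]
    · simp only [gt_iff_lt, Finset.lt_min'_iff, Finset.mem_image, forall_exists_index, and_imp,
        forall_apply_eq_imp_iff₂]
      rintro a' ha'
      simp only [Finset.mem_filter, Set.mem_toFinset, S] at ha'
      rw [norm_pos_iff, sub_ne_zero]
      exact ha'.2.symm
    · linarith only []
  have hε : (δ / (max ‖a‖ 1)) ^ f.natDegree / (f.natDegree + 1) > 0 := by positivity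
  obtain ⟨g, gmon, gdeg, gcoeff⟩ :=
    exists_monic_and_natDegree_eq_and_norm_map_algebraMap_coeff_sub_lt hi fmon hε
  let ⟨b, hb, hab⟩ := exists_aroots_norm_sub_lt_of_norm_coeff_sub_lt
      hε fa0 fmon (gmon.map _) (gdeg ▸ (g.natDegree_map _)) gcoeff
      (by simpa only [map_map] using (IsAlgClosed.splits g).map ((algebraMap L F).comp _))
  have hab : ‖a - b‖ < δ := by
    rw [← Real.rpow_natCast, ← mul_comm_div, div_self, one_mul,
        ← Real.rpow_mul (div_pos δpos (by (clear * -; positivity))).le, mul_inv_cancel₀] at hab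
    · simpa [mul_assoc, div_mul_cancel₀ _ (by (clear * -; positivity) : (max ‖a‖ 1) > 0).ne'] using hab
    · simp [fnatdeg0]
    · (clear * - fnatdeg0; positivity)
  have bbot : b ∈ (⊥ : IntermediateField L F) := by
    rw [Polynomial.aroots_def, Splits.roots_map ((IsAlgClosed.splits g).map _),
        Multiset.mem_map] at hb
    obtain ⟨bCp, _, hbCp⟩ := hb
    rw [IntermediateField.mem_bot]
    exact ⟨bCp, hbCp⟩
  simp only [Polynomial.mem_roots', ne_eq, Polynomial.map_eq_zero, Polynomial.IsRoot.def,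
    Polynomial.eval_map_algebraMap] at hb
  have abot : a ∈ (⊥ : IntermediateField L F) := by
    have masp : ((minpoly L a).map (algebraMap L F)).Splits := by
      simpa [minpoly.eq_of_irreducible_of_monic firr fa0 fmon] using
        (Polynomial.SplittingField.splits f)
    have hsep : (minpoly L a).Separable := PerfectField.separable_of_irreducible
      (minpoly.irreducible ⟨f, fmon, fa0⟩)
    simpa only [IntermediateField.adjoin_simple_eq_bot_iff.mpr bbot] using     IsKrasner.krasner hsep masp ⟨(g.map _), gmon.map _, hb.2⟩ fun a' h1 h2 ↦ lt_of_lt_of_le hab (norm_sub_le a' h1 h2)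
  obtain ⟨aCp, haCp⟩ := IntermediateField.mem_bot.mp abot
  use aCp
  apply_fun algebraMap L F
  · rwa [← Polynomial.aeval_algebraMap_apply_eq_algebraMap_eval, haCp, map_zero]
  · exact RingHom.injective _

open UniformSpace Valuation MonoidWithZeroHom
open scoped LaurentSeries NNReal WithZero

universe u

/-- In a complete nonarchimedean field of characteristic `p` with a dense perfect subfield
the Frobenius is surjective. -/
theorem exists_pow_eq_of_denseRange {K L : Type*} [Field K] [NontriviallyNormedField L]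
    [CompleteSpace L] (p : ℕ) [Fact p.Prime] [CharP L p] [CharP K p] [PerfectRing K p]
    [Algebra K L] (hi : DenseRange (algebraMap K L)) (a : L) : ∃ b : L, b ^ p = a := by
  have hp0 : p ≠ 0 := (Fact.out : p.Prime).ne_zero
  have : ∀ n : ℕ, ∃ c : K, ‖a - algebraMap K L c‖ < (1 / 2 : ℝ) ^ (p * n) := by
    intro n
    have hpos : (0 : ℝ) < (1 / 2 : ℝ) ^ (p * n) := by (clear * -; positivity)
    obtain ⟨c, hc⟩ := Metric.denseRange_iff.mp hi a _ hpos
    exact ⟨c, by simpa only [one_div, inv_pow, dist_eq_norm] using hc⟩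
  choose c hc using this
  have : ∀ n, ∃ b : K, b ^ p = c n := fun n => by
    obtain ⟨b, hb⟩ := surjective_frobenius K p (c n)
    exact ⟨b, hb⟩
  choose b hb using this
  have hdist : ∀ n, ‖algebraMap K L (b n) - algebraMap K L (b (n + 1))‖ ≤
      2 * (1 / 2 : ℝ) ^ n := by
    intro n
    have h1 : ‖algebraMap K L (b n) - algebraMap K L (b (n + 1))‖ ^ p ≤
        (2 * (1 / 2 : ℝ) ^ n) ^ p := by
      rw [← norm_pow, sub_pow_char, ← map_pow, ← map_pow, hb, hb]
      have h2 : algebraMap K L (c n) - algebraMap K L (c (n + 1)) =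
          (a - algebraMap K L (c (n + 1))) - (a - algebraMap K L (c n)) := by ring
      rw [h2]
      refine (norm_sub_le _ _).trans ?_
      have h3 := (hc n).le
      have h4 := (hc (n + 1)).le
      have h5 : (1 / 2 : ℝ) ^ (p * (n + 1)) ≤ (1 / 2 : ℝ) ^ (p * n) :=
        pow_le_pow_of_le_one (by norm_num) (by norm_num) (Nat.mul_le_mul_left _ (Nat.le_succ _))
      have h6 : (2 * (1 / 2 : ℝ) ^ n) ^ p = 2 ^ p * (1 / 2 : ℝ) ^ (p * n) := by
        rw [mul_pow, ← pow_mul, mul_comm n p]
      have h7 : (2 : ℝ) ≤ 2 ^ p := by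
        calc (2 : ℝ) = 2 ^ 1 := by norm_num
          _ ≤ 2 ^ p := pow_le_pow_right₀ (by norm_num) (Nat.one_le_iff_ne_zero.mpr hp0)
      have h8 : (0 : ℝ) < (1 / 2 : ℝ) ^ (p * n) := by positivity
      rw [h6]
      nlinarith only [h3, h4, h5, h7, h8]
    exact (pow_le_pow_iff_left₀ (norm_nonneg _) (by positivity) hp0).mp h1
  have hcau : CauchySeq (fun n => algebraMap K L (b n)) := by
    refine cauchySeq_of_le_geometric (1 / 2) 2 (by (clear * -; norm_num)) (fun n => ?_)
    rw [dist_eq_norm]
    exact hdist n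
  obtain ⟨x, hx⟩ := cauchySeq_tendsto_of_complete hcau
  refine ⟨x, tendsto_nhds_unique (hx.pow p) ?_⟩
  have h9 : (fun n => algebraMap K L (b n) ^ p) = fun n => algebraMap K L (c n) := by
    funext n
    rw [← map_pow, hb]
  rw [h9, tendsto_iff_norm_sub_tendsto_zero]
  have h10 : Filter.Tendsto (fun n : ℕ => (1 / 2 : ℝ) ^ (p * n)) Filter.atTop (nhds 0) := by
    have : (fun n : ℕ => (1 / 2 : ℝ) ^ (p * n)) = fun n : ℕ => ((1 / 2 : ℝ) ^ p) ^ n := by
      funext n; rw [pow_mul]
    rw [this]
    exact tendsto_pow_atTop_nhds_zero_of_lt_one (by positivity)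
      (pow_lt_one₀ (by norm_num) (by norm_num) hp0)
  refine squeeze_zero (fun _ => norm_nonneg _) (fun n => ?_) h10
  rw [norm_sub_rev]
  exact (hc n).le

/-- Completed algebraic closure of a complete nonarchimedean field of characteristic `p`. -/
theorem exists_completed_algClosure (p : ℕ) [Fact p.Prime] (L : Type u)
    [NontriviallyNormedField L] [IsUltrametricDist L] [CompleteSpace L] [CharP L p] :
    ∃ (K : Type u) (_ : NontriviallyNormedField K) (_ : IsUltrametricDist K)
      (_ : CompleteSpace K) (_ : IsAlgClosed K) (_ : CharP K p) (i : L →+* K),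
      ∀ x, ‖i x‖ = ‖x‖ := by
  let A := AlgebraicClosure L
  let : NontriviallyNormedField A := spectralNorm.nontriviallyNormedField L A
  let : NormedAlgebra L A := spectralNorm.normedAlgebra L A
  have : IsUltrametricDist A :=
    IsUltrametricDist.isUltrametricDist_of_forall_norm_add_le_max_norm
      (isNonarchimedean_spectralNorm (K := L) (L := A))
  have : CharP A p := charP_of_injective_algebraMap (algebraMap L A).injective p
  let K := Completion A
  have : IsUltrametricDist K := by
    refine IsUltrametricDist.isUltrametricDist_of_forall_norm_add_le_max_norm fun x y => ?_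
    induction x, y using Completion.induction_on₂ with
    | hp => exact isClosed_le (by fun_prop) (by fun_prop)
    | ih a b =>
      rw [← Completion.coe_add, Completion.norm_coe, Completion.norm_coe, Completion.norm_coe]
      exact IsUltrametricDist.norm_add_le_max a b
  let : NontriviallyNormedField K :=
    { (inferInstance : NormedField K) with
      non_trivial := by
        obtain ⟨x, hx⟩ := NontriviallyNormedField.non_trivial (α := A)
        exact ⟨(x : K), by rwa [Completion.norm_coe]⟩ }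
  have : CharP K p := charP_of_injective_ringHom (Completion.coeRingHom (α := A)).injective p
  let : Algebra A K := inferInstance
  have hd : DenseRange (algebraMap A K) := Completion.denseRange_coe
  have : PerfectRing A p := inferInstance
  have : PerfectRing K p := PerfectRing.ofSurjective K p (fun a => by
    obtain ⟨b, hb⟩ := exists_pow_eq_of_denseRange p hd a
    exact ⟨b, hb⟩)
  have : PerfectField K := PerfectRing.toPerfectField K p
  have : IsAlgClosed K := isAlgClosed_of_denseRange hd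
  refine ⟨K, inferInstance, inferInstance, inferInstance, inferInstance, inferInstance,
    (Completion.coeRingHom (α := A)).comp (algebraMap L A), fun x => ?_⟩
  have h1 : ‖((algebraMap L A x : A) : K)‖ = ‖algebraMap L A x‖ := Completion.norm_coe _
  have h2 : ‖algebraMap L A x‖ = ‖x‖ := norm_algebraMap' A x
  exact h1.trans h2

/-- The rank one structure on Laurent series. -/
@[reducible] def laurentRankOne (F : Type u) [Field F] :
    RankOne (Valued.v : Valuation F⸨X⸩ ℤᵐ⁰) where
  hom' := (WithZeroMulInt.toNNReal (e := 2) (by norm_num)).comp ValueGroup₀.embedding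
  strictMono' := (WithZeroMulInt.toNNReal_strictMono (by norm_num)).comp
    ValueGroup₀.embedding_strictMono
  exists_val_nontrivial := by
    refine ⟨HahnSeries.single 1 1, ?_, ?_⟩
    · have := LaurentSeries.valuation_single_zpow F 1
      rw [this]; simp
    · have := LaurentSeries.valuation_single_zpow F 1
      rw [this]; simp

/-- The field of Laurent series, as a complete nonarchimedean field. -/
theorem exists_laurent_field (p : ℕ) [Fact p.Prime] (F : Type u) [Field F] [CharP F p] :
    ∃ (L : Type u) (_ : NontriviallyNormedField L) (_ : IsUltrametricDist L)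
      (_ : CompleteSpace L) (_ : CharP L p) (i : F →+* L) (t : L),
      0 < ‖t‖ ∧ ‖t‖ < 1 ∧ ∀ x ≠ 0, ‖i x‖ = 1 := by
  let _ := laurentRankOne F
  let L := F⸨X⸩
  let _ : NontriviallyNormedField L := Valued.toNontriviallyNormedField L ℤᵐ⁰
  have h1 : IsUltrametricDist L := Valued.instIsUltrametricDist L ℤᵐ⁰
  have h2 : CompleteSpace L := LaurentSeries.instLaurentSeriesComplete (K := F)
  have h3 : CharP L p := charP_of_injective_ringHom (HahnSeries.C (Γ := ℤ) (R := F)).injective p
  have hle : ∀ x : F, ‖(HahnSeries.C (Γ := ℤ) (R := F) x : L)‖ ≤ 1 := fun x => by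
    rw [Valued.toNormedField.norm_le_one_iff]
    rw [LaurentSeries.val_le_one_iff_eq_coe]
    exact ⟨PowerSeries.C x, by simp only [HahnSeries.ofPowerSeries_C, HahnSeries.C_apply]⟩
  refine ⟨L, inferInstance, inferInstance, inferInstance, inferInstance,
    HahnSeries.C, HahnSeries.single 1 1, ?_, ?_, fun x hx => ?_⟩
  · rw [norm_pos_iff]
    exact HahnSeries.single_ne_zero one_ne_zero
  · rw [Valued.toNormedField.norm_lt_one_iff]
    have := LaurentSeries.valuation_single_zpow F 1
    rw [this]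
    rw [← WithZero.exp_zero, WithZero.exp_lt_exp]; norm_num
  · refine le_antisymm (hle x) ?_
    have h4 := hle x⁻¹
    rw [map_inv₀, norm_inv] at h4
    have h5 : 0 < ‖(HahnSeries.C (Γ := ℤ) (R := F) x : L)‖ := by
      rw [norm_pos_iff]; simpa only [HahnSeries.C_apply, ne_eq, HahnSeries.single_eq_zero_iff] using hx
    exact (inv_le_one₀ h5).mp h4

end P217
end
end
end

section

section

/-!
# P217: polynomials over `κ[[s_1..s_d]]`: derivatives and `p`-th powers
-/

namespace Vale.Agent.P217

open MvPowerSeries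

section Pure

variable {κ : Type*} [Field κ] {d : ℕ}

/-- coefficientwise partial derivative of a polynomial over `κ[[s]]`. -/
noncomputable def pdC (i : Fin d) (M : Polynomial (MvPowerSeries (Fin d) κ)) :
    Polynomial (MvPowerSeries (Fin d) κ) :=
  ∑ k ∈ M.support, Polynomial.monomial k (MvPowerSeries.pderiv κ i (M.coeff k))

@[simp] theorem coeff_pdC (i : Fin d) (M : Polynomial (MvPowerSeries (Fin d) κ)) (k : ℕ) :
    (pdC i M).coeff k = MvPowerSeries.pderiv κ i (M.coeff k) := by
  classical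
  unfold pdC
  rw [Polynomial.finsetSum_coeff]
  by_cases hk : k ∈ M.support
  · rw [Finset.sum_eq_single k]
    · rw [Polynomial.coeff_monomial, if_pos rfl]
    · intro j _ hj
      rw [Polynomial.coeff_monomial, if_neg hj]
    · intro h
      exact absurd hk h
  · rw [Polynomial.notMem_support_iff.1 hk, map_zero]
    refine Finset.sum_eq_zero fun j hj => ?_
    rw [Polynomial.coeff_monomial, if_neg]
    rintro rfl
    exact hk hj

theorem natDegree_pdC_lt (i : Fin d) (M : Polynomial (MvPowerSeries (Fin d) κ)) (hM : M.Monic)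
    (hd : pdC i M ≠ 0) : (pdC i M).natDegree < M.natDegree := by
  by_contra hcon
  push Not at hcon
  have h1 : (pdC i M).coeff (pdC i M).natDegree ≠ 0 := by
    rw [Polynomial.coeff_natDegree]
    exact Polynomial.leadingCoeff_ne_zero.2 hd
  apply h1
  rw [coeff_pdC]
  rcases hcon.eq_or_lt with h | h
  · rw [← h, hM.coeff_natDegree]
    exact MvPowerSeries.pderiv_one
  · rw [Polynomial.coeff_eq_zero_of_natDegree_lt h, map_zero]

/-- `κ[[s]] → κ[[s]]`, `s_i ↦ s_i^(p^b)`. -/
noncomputable def frobX (p : ℕ) [hp : Fact p.Prime] (b : ℕ) :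
    MvPowerSeries (Fin d) κ →+* MvPowerSeries (Fin d) κ :=
  (MvPowerSeries.expand (p ^ b) (pow_ne_zero _ hp.out.ne_zero) :
    MvPowerSeries (Fin d) κ →ₐ[κ] MvPowerSeries (Fin d) κ).toRingHom

/-- in characteristic `p`, a power series with vanishing derivatives has only exponents divisible
by `p` -/
theorem coeff_eq_zero_of_pderiv (p : ℕ) [Fact p.Prime] [CharP κ p]
    (f : MvPowerSeries (Fin d) κ) (hf : ∀ i, MvPowerSeries.pderiv κ i f = 0)
    (m : Fin d →₀ ℕ) (i : Fin d) (hi : ¬ p ∣ m i) : MvPowerSeries.coeff m f = 0 := by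
  have h0 : m i ≠ 0 := fun h => hi (by rw [h]; exact dvd_zero p)
  have hle : Finsupp.single i 1 ≤ m := by
    rw [Finsupp.single_le_iff]
    omega
  have h1 := MvPowerSeries.coeff_pderiv (R := κ) (i := i) f (m - Finsupp.single i 1)
  rw [hf i, map_zero, tsub_add_cancel_of_le hle] at h1
  have h2 : (((m - Finsupp.single i 1 : Fin d →₀ ℕ) i : ℕ) : κ) + 1 = ((m i : ℕ) : κ) := by
    rw [Finsupp.tsub_apply, Finsupp.single_eq_same]
    have h3 : m i - 1 + 1 = m i := by omega
    exact_mod_cast congrArg (Nat.cast : ℕ → κ) h3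
  rw [h2] at h1
  have h3 : ((m i : ℕ) : κ) ≠ 0 := fun h => hi ((CharP.cast_eq_zero_iff κ p _).1 h)
  exact (mul_eq_zero.1 h1.symm).resolve_right h3

/-- the exponents of `m` divided by `p` -/
theorem exists_smul_eq (p : ℕ) (m : Fin d →₀ ℕ) (h : ∀ i, p ∣ m i) :
    ∃ n : Fin d →₀ ℕ, p • n = m :=
  ⟨m.mapRange (fun a => a / p) (by simp only [Nat.zero_div]), by ext i; simp only [Finsupp.coe_smul, Pi.smul_apply, Finsupp.mapRange_apply, smul_eq_mul, Nat.mul_div_cancel' (h i)]⟩

/-- a power series with given coefficients -/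
theorem exists_series (c : (Fin d →₀ ℕ) → κ) :
    ∃ g : MvPowerSeries (Fin d) κ, ∀ m, MvPowerSeries.coeff m g = c m :=
  ⟨c, fun _ => rfl⟩

/-- in characteristic `p`, a power series with vanishing derivatives is a power series in the
`s_i ^ p` -/
theorem exists_expand (p : ℕ) [hp : Fact p.Prime] [CharP κ p]
    (f : MvPowerSeries (Fin d) κ) (hf : ∀ i, MvPowerSeries.pderiv κ i f = 0) :
    ∃ g : MvPowerSeries (Fin d) κ, MvPowerSeries.expand p hp.out.ne_zero g = f := by
  obtain ⟨g, hg⟩ := exists_series (fun m => MvPowerSeries.coeff (p • m) f)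
  refine ⟨g, ?_⟩
  ext m
  by_cases h : ∀ i, p ∣ m i
  · obtain ⟨n, rfl⟩ := exists_smul_eq p m h
    rw [MvPowerSeries.coeff_expand_smul, hg]
  · push Not at h
    obtain ⟨i, hi⟩ := h
    rw [MvPowerSeries.coeff_expand_of_not_dvd p _ _ hi, coeff_eq_zero_of_pderiv p f hf m i hi]

theorem exists_root (p : ℕ) [hp : Fact p.Prime] [CharP κ p] [PerfectRing κ p]
    (f : MvPowerSeries (Fin d) κ) (hf : ∀ i, MvPowerSeries.pderiv κ i f = 0) :
    ∃ g : MvPowerSeries (Fin d) κ, g ^ p = f := by
  obtain ⟨g, hg⟩ := exists_series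
    (fun m => (frobeniusEquiv κ p).symm (MvPowerSeries.coeff (p • m) f))
  refine ⟨g, ?_⟩
  rw [← MvPowerSeries.map_frobenius_expand p hp.out.ne_zero]
  ext m
  rw [MvPowerSeries.coeff_map]
  by_cases h : ∀ i, p ∣ m i
  · obtain ⟨n, rfl⟩ := exists_smul_eq p m h
    rw [MvPowerSeries.coeff_expand_smul, hg, frobenius_apply_frobeniusEquiv_symm]
  · push Not at h
    obtain ⟨i, hi⟩ := h
    rw [MvPowerSeries.coeff_expand_of_not_dvd p _ _ hi, map_zero,
      coeff_eq_zero_of_pderiv p f hf m i hi]

theorem pderiv_coeff_eq_zero {M : Polynomial (MvPowerSeries (Fin d) κ)} (h1 : ∀ i, pdC i M = 0)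
    (k : ℕ) (i : Fin d) : MvPowerSeries.pderiv κ i (M.coeff k) = 0 := by
  rw [← coeff_pdC, h1 i, Polynomial.coeff_zero]

/-- A monic polynomial over `κ[[s]]` (`κ` perfect of char. `p`) all whose derivatives vanish is
a `p`-th power. -/
theorem exists_pow_of_derivatives_zero (p : ℕ) [Fact p.Prime] [CharP κ p] [PerfectRing κ p]
    (M : Polynomial (MvPowerSeries (Fin d) κ)) (h1 : ∀ i, pdC i M = 0)
    (h2 : Polynomial.derivative M = 0) : ∃ M' : Polynomial (MvPowerSeries (Fin d) κ),
      M = M' ^ p := by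
  have hp : p.Prime := Fact.out
  have : CharP (MvPowerSeries (Fin d) κ) p := charP_of_injective_algebraMap
    (FaithfulSMul.algebraMap_injective κ (MvPowerSeries (Fin d) κ)) p
  have hlift : Polynomial.contract p M ∈
      Polynomial.lifts (frobenius (MvPowerSeries (Fin d) κ) p) := by
    rw [Polynomial.lifts_iff_coeff_lifts]
    intro n
    rw [Polynomial.coeff_contract hp.ne_zero]
    obtain ⟨g, hg⟩ := exists_root p (M.coeff (n * p)) (pderiv_coeff_eq_zero h1 _)
    exact ⟨g, by rw [frobenius_def, hg]⟩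
  obtain ⟨N, hN⟩ := (Polynomial.mem_lifts _).1 hlift
  refine ⟨N, ?_⟩
  rw [← Polynomial.map_frobenius_expand p, Polynomial.map_expand, hN,
    Polynomial.expand_contract p h2 hp.ne_zero]

theorem frobX_comp (p : ℕ) [hp : Fact p.Prime] (b : ℕ) :
    (frobX p 1).comp (frobX p b : MvPowerSeries (Fin d) κ →+* MvPowerSeries (Fin d) κ) =
      frobX p (b + 1) := by
  ext1 f
  have h1 : p ^ 1 ≠ 0 := pow_ne_zero _ hp.out.ne_zero
  have h2 : p ^ b ≠ 0 := pow_ne_zero _ hp.out.ne_zero
  have h3 : p ^ (b + 1) ≠ 0 := pow_ne_zero _ hp.out.ne_zero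
  change MvPowerSeries.expand (p ^ 1) h1 (MvPowerSeries.expand (p ^ b) h2 f) =
    MvPowerSeries.expand (p ^ (b + 1)) h3 f
  rw [← MvPowerSeries.expand_mul]
  congr 2
  ring

theorem exists_frob_root_aux (p : ℕ) [hp : Fact p.Prime] [CharP κ p] (N : ℕ) :
    ∀ (M : Polynomial (MvPowerSeries (Fin d) κ)), (∀ i, pdC i M = 0) →
      (∃ (k : ℕ) (n : Fin d →₀ ℕ), n ≠ 0 ∧ n.degree ≤ N ∧ MvPowerSeries.coeff n (M.coeff k) ≠ 0) →
      ∃ (b : ℕ) (M' : Polynomial (MvPowerSeries (Fin d) κ)), 1 ≤ b ∧
        M = M'.map (frobX p b) ∧ ∃ i, pdC i M' ≠ 0 := by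
  induction N using Nat.strong_induction_on with
  | _ N ih =>
    rintro M h1 ⟨k, n, hn0, hnN, hn⟩
    have hlift : M ∈ Polynomial.lifts
        (frobX p 1 : MvPowerSeries (Fin d) κ →+* MvPowerSeries (Fin d) κ) := by
      rw [Polynomial.lifts_iff_coeff_lifts]
      intro m
      obtain ⟨g, hg⟩ := exists_expand p (M.coeff m) (pderiv_coeff_eq_zero h1 _)
      refine ⟨g, ?_⟩
      rw [← hg]
      change MvPowerSeries.expand (p ^ 1) _ g = MvPowerSeries.expand p _ g
      congr 2
      exact pow_one p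
    obtain ⟨M₁, hM₁⟩ := (Polynomial.mem_lifts _).1 hlift
    by_cases h : ∃ i, pdC i M₁ ≠ 0
    · exact ⟨1, M₁, le_rfl, hM₁.symm, h⟩
    · push Not at h
      have hdvd : ∀ i, p ∣ n i := by
        intro i
        by_contra hi
        exact hn (coeff_eq_zero_of_pderiv p _ (pderiv_coeff_eq_zero h1 _) n i hi)
      obtain ⟨m, rfl⟩ := exists_smul_eq p n hdvd
      have hm0 : m ≠ 0 := by
        rintro rfl
        exact hn0 (smul_zero _)
      have hdeg : 0 < m.degree := by
        rw [Nat.pos_iff_ne_zero]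
        exact fun h => hm0 ((Finsupp.degree_eq_zero_iff m).1 h)
      have hlt : m.degree < N := by
        have h2 : (p • m).degree = p * m.degree := by
          rw [map_nsmul, smul_eq_mul]
        rw [h2] at hnN
        have h3 := hp.out.two_le
        nlinarith only [hnN, h3, hdeg]
      have hc : MvPowerSeries.coeff m (M₁.coeff k) ≠ 0 := by
        intro h0
        apply hn
        rw [← hM₁, Polynomial.coeff_map]
        change MvPowerSeries.coeff (p • m) (MvPowerSeries.expand (p ^ 1) _ (M₁.coeff k)) = 0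
        have h4 : p • m = (p ^ 1) • m := by rw [pow_one]
        rw [h4, MvPowerSeries.coeff_expand_smul]
        exact h0
      obtain ⟨b, M', hb, hM', hi⟩ := ih m.degree hlt M₁ h ⟨k, m, hm0, le_rfl, hc⟩
      refine ⟨b + 1, M', by omega, ?_, hi⟩
      rw [← hM₁, hM', Polynomial.map_map, frobX_comp]

/-- If all coefficientwise derivatives of `M` vanish and `M` is not constant in `s`, then
`M = 𝓜(s^(p^b); T)` with `b ≥ 1` and some coefficientwise derivative of `𝓜` nonzero. -/
theorem exists_frob_root (p : ℕ) [Fact p.Prime] [CharP κ p]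
    (M : Polynomial (MvPowerSeries (Fin d) κ)) (h1 : ∀ i, pdC i M = 0)
    (h2 : ¬ ∃ M₀ : Polynomial κ, M = M₀.map (MvPowerSeries.C : κ →+* MvPowerSeries (Fin d) κ)) :
    ∃ (b : ℕ) (M' : Polynomial (MvPowerSeries (Fin d) κ)), 1 ≤ b ∧
      M = M'.map (frobX p b) ∧ ∃ i, pdC i M' ≠ 0 := by
  have h3 : ∃ (k : ℕ) (n : Fin d →₀ ℕ), n ≠ 0 ∧ MvPowerSeries.coeff n (M.coeff k) ≠ 0 := by
    by_contra hcon
    push Not at hcon
    apply h2
    have hlift : M ∈ Polynomial.lifts (MvPowerSeries.C : κ →+* MvPowerSeries (Fin d) κ) := by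
      rw [Polynomial.lifts_iff_coeff_lifts]
      intro m
      refine ⟨MvPowerSeries.coeff 0 (M.coeff m), ?_⟩
      classical
      ext n
      rw [MvPowerSeries.coeff_C]
      split_ifs with hn
      · rw [hn]
      · rw [hcon m n hn]
    obtain ⟨M₀, hM₀⟩ := (Polynomial.mem_lifts _).1 hlift
    exact ⟨M₀, hM₀.symm⟩
  obtain ⟨k, n, hn, hc⟩ := h3
  exact exists_frob_root_aux p n.degree M h1 ⟨k, n, hn, le_rfl, hc⟩

end Pure

end Vale.Agent.P217
end
end

section

section

/-!
# P217: power series rings over a field are integrally closed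

We use the divisibility form of complete integral closedness:
`g ^ n ∣ h * f ^ n` for all `n` (with `g, h ≠ 0`) implies `g ∣ f`.
-/

namespace Vale.Agent.P217

/-- Divisibility form of complete integral closedness. -/
def CIC (R : Type*) [CommRing R] : Prop :=
  ∀ f g h : R, g ≠ 0 → h ≠ 0 → (∀ n : ℕ, g ^ n ∣ h * f ^ n) → g ∣ f

theorem CIC.of_field (k : Type*) [Field k] : CIC k := fun f g _ hg _ _ =>
  ⟨g⁻¹ * f, by rw [← mul_assoc, mul_inv_cancel₀ hg, one_mul]⟩

theorem CIC.of_ringEquiv {R S : Type*} [CommRing R] [CommRing S] (e : R ≃+* S) (hR : CIC R) :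
    CIC S := by
  intro f g h hg hh H
  have h1 : e.symm g ∣ e.symm f := by
    refine hR (e.symm f) (e.symm g) (e.symm h) (by simpa only [ne_eq, EmbeddingLike.map_eq_zero_iff] using hg) (by simpa using hh) fun n => ?_
    rw [← map_pow, ← map_pow, ← map_mul]
    exact map_dvd e.symm (H n)
  simpa only [RingEquiv.apply_symm_apply] using map_dvd e h1

theorem dvd_of_dvd_X_pow_mul {R : Type*} [CommRing R] [IsDomain R] (g : PowerSeries R)
    (hg : PowerSeries.constantCoeff g ≠ 0) (n : ℕ) :
    ∀ k : ℕ, ∀ a : PowerSeries R, g ^ n ∣ PowerSeries.X ^ k * a → g ^ n ∣ a := by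
  intro k
  induction k with
  | zero => intro a ha; simpa only [pow_zero, one_mul] using ha
  | succ k ih =>
    intro a ha
    rw [pow_succ, mul_assoc] at ha
    obtain ⟨b, hb⟩ := ih _ ha
    have h4 : PowerSeries.X ∣ g ^ n * b := ⟨a, hb.symm⟩
    have h5 : PowerSeries.X ∣ b := by
      rcases (PowerSeries.X_prime (R := R)).dvd_or_dvd h4 with h6 | h6
      · exfalso
        have h7 := (PowerSeries.X_prime (R := R)).dvd_of_dvd_pow h6
        rw [PowerSeries.X_dvd_iff] at h7
        exact hg h7
      · exact h6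
    obtain ⟨b', rfl⟩ := h5
    refine ⟨b', ?_⟩
    have h8 : (PowerSeries.X : PowerSeries R) * a = PowerSeries.X * (g ^ n * b') := by
      rw [hb]; ring
    exact mul_left_cancel₀ PowerSeries.X_ne_zero h8

theorem CIC.step {R : Type*} [CommRing R] [IsDomain R] (hR : CIC R) (g h : PowerSeries R)
    (hg : PowerSeries.constantCoeff g ≠ 0) (hh : PowerSeries.constantCoeff h ≠ 0)
    (f : PowerSeries R) (H : ∀ n : ℕ, g ^ n ∣ h * f ^ n) :
    ∃ (c : R) (f' : PowerSeries R), f = PowerSeries.C c * g + PowerSeries.X * f' ∧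
      ∀ n : ℕ, g ^ n ∣ h * f' ^ n := by
  have h0 : PowerSeries.constantCoeff g ∣ PowerSeries.constantCoeff f := by
    refine hR _ _ (PowerSeries.constantCoeff h) hg hh fun n => ?_
    rw [← map_pow, ← map_pow, ← map_mul]
    exact map_dvd _ (H n)
  obtain ⟨c, hc⟩ := h0
  have h1 : PowerSeries.X ∣ f - PowerSeries.C c * g := by
    rw [PowerSeries.X_dvd_iff]
    simp [hc, mul_comm]
  obtain ⟨f', hf'⟩ := h1
  refine ⟨c, f', by rw [← hf']; ring, fun n => ?_⟩
  have h2 : g ^ n ∣ h * (f - PowerSeries.C c * g) ^ n := by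
    rw [sub_eq_add_neg, add_pow, Finset.mul_sum]
    refine Finset.dvd_sum fun m hm => ?_
    have hmn : m ≤ n := Nat.lt_succ_iff.mp (Finset.mem_range.mp hm)
    obtain ⟨a, ha⟩ := H m
    refine ⟨a * (-PowerSeries.C c) ^ (n - m) * (n.choose m : PowerSeries R), ?_⟩
    have h3 : g ^ n = g ^ m * g ^ (n - m) := by rw [← pow_add, Nat.add_sub_cancel' hmn]
    calc h * (f ^ m * (-(PowerSeries.C c * g)) ^ (n - m) * (n.choose m : PowerSeries R))
        = (h * f ^ m) * ((-PowerSeries.C c) ^ (n - m) * g ^ (n - m)) *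
          (n.choose m : PowerSeries R) := by
          rw [← mul_pow, neg_mul]; ring
      _ = _ := by rw [ha, h3]; ring
  rw [hf', mul_pow, mul_left_comm] at h2
  exact dvd_of_dvd_X_pow_mul g hg n n _ h2

theorem CIC.powerSeries_aux {R : Type*} [CommRing R] [IsDomain R] (hR : CIC R)
    (g h : PowerSeries R) (hg : PowerSeries.constantCoeff g ≠ 0)
    (hh : PowerSeries.constantCoeff h ≠ 0)
    (f : PowerSeries R) (H : ∀ n : ℕ, g ^ n ∣ h * f ^ n) : g ∣ f := by
  classical
  choose c f' hcf hf' using CIC.step hR g h hg hh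
  let S := {f : PowerSeries R // ∀ n : ℕ, g ^ n ∣ h * f ^ n}
  let st : S → S := fun s => ⟨f' s.1 s.2, hf' s.1 s.2⟩
  let F : ℕ → S := fun k => st^[k] ⟨f, H⟩
  have hF : ∀ k, (F k).1 = PowerSeries.C (c (F k).1 (F k).2) * g + PowerSeries.X * (F (k + 1)).1 := by
    intro k
    have h1 : F (k + 1) = st (F k) := Function.iterate_succ_apply' st k _
    rw [h1]
    exact hcf (F k).1 (F k).2
  let q : ℕ → R := fun k => c (F k).1 (F k).2
  have hsum : ∀ N : ℕ, f = (∑ k ∈ Finset.range N, PowerSeries.C (q k) * PowerSeries.X ^ k) * g +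
      PowerSeries.X ^ N * (F N).1 := by
    intro N
    induction N with
    | zero => simp only [Finset.range_zero, Finset.sum_empty, zero_mul, pow_zero, Function.iterate_zero, id_eq, one_mul, zero_add, F]
    | succ N ih =>
      rw [Finset.sum_range_succ]
      nth_rewrite 1 [ih]
      rw [hF N]
      ring
  refine ⟨PowerSeries.mk q, ?_⟩
  have hd : ∀ N : ℕ, (PowerSeries.X : PowerSeries R) ^ N ∣ f - g * PowerSeries.mk q := by
    intro N
    have h2 : (PowerSeries.X : PowerSeries R) ^ N ∣
        PowerSeries.mk q - ∑ k ∈ Finset.range N, PowerSeries.C (q k) * PowerSeries.X ^ k := by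
      rw [PowerSeries.X_pow_dvd_iff]
      intro m hm
      rw [map_sub, PowerSeries.coeff_mk, map_sum, Finset.sum_eq_single m]
      · simp [PowerSeries.coeff_C_mul, PowerSeries.coeff_X_pow]
      · intro b _ hb
        simp [PowerSeries.coeff_C_mul, PowerSeries.coeff_X_pow, hb.symm]
      · intro hm'
        exact absurd (Finset.mem_range.mpr hm) hm'
    obtain ⟨a, ha⟩ := h2
    refine ⟨(F N).1 - g * a, ?_⟩
    have h3 : PowerSeries.mk q =
        (∑ k ∈ Finset.range N, PowerSeries.C (q k) * PowerSeries.X ^ k) + PowerSeries.X ^ N * a := by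
      rw [← ha]; ring
    have h4 := hsum N
    rw [h3]
    nth_rewrite 1 [h4]
    ring
  rw [← sub_eq_zero]
  ext m
  have h5 := (PowerSeries.X_pow_dvd_iff.mp (hd (m + 1))) m (Nat.lt_succ_self m)
  simpa only [map_sub, map_zero] using h5

theorem exists_X_pow_mul {R : Type*} [CommRing R] (g : PowerSeries R) (hg : g ≠ 0) :
    ∃ (a : ℕ) (g' : PowerSeries R), g = PowerSeries.X ^ a * g' ∧
      PowerSeries.constantCoeff g' ≠ 0 :=
  ⟨(PowerSeries.order g).toNat, PowerSeries.divXPowOrder g,
    PowerSeries.X_pow_order_mul_divXPowOrder.symm,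
    fun h => hg (PowerSeries.constantCoeff_divXPowOrder_eq_zero_iff.mp h)⟩

theorem CIC.powerSeries {R : Type*} [CommRing R] [IsDomain R] (hR : CIC R) :
    CIC (PowerSeries R) := by
  intro f g h hg hh H
  rcases eq_or_ne f 0 with rfl | hf
  · exact dvd_zero _
  obtain ⟨a, g', rfl, hg'⟩ := exists_X_pow_mul g hg
  obtain ⟨b, h', rfl, hh'⟩ := exists_X_pow_mul h hh
  obtain ⟨c, f', rfl, hf'⟩ := exists_X_pow_mul f hf
  have h1 : ∀ n : ℕ, g' ^ n ∣ h' * f' ^ n := by
    intro n
    refine dvd_of_dvd_X_pow_mul g' hg' n (b + c * n) _ ?_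
    refine (Dvd.intro_left _ rfl : g' ^ n ∣ (PowerSeries.X ^ a) ^ n * g' ^ n).trans ?_
    rw [← mul_pow]
    refine (H n).trans (dvd_of_eq ?_)
    rw [mul_pow, pow_add, pow_mul]
    ring
  have h2 : g' ∣ f' := CIC.powerSeries_aux hR g' h' hg' hh' f' h1
  have h3 : a ≤ c := by
    by_contra hlt
    push Not at hlt
    have h4 : (PowerSeries.X : PowerSeries R) ^ (b + c * (b + 1)) * PowerSeries.X ∣
        PowerSeries.X ^ (b + c * (b + 1)) * (h' * f' ^ (b + 1)) := by
      have h5 : (PowerSeries.X : PowerSeries R) ^ (b + c * (b + 1)) * PowerSeries.X ∣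
          (PowerSeries.X ^ a * g') ^ (b + 1) := by
        rw [mul_pow, ← pow_mul, ← pow_succ]
        refine dvd_mul_of_dvd_left (pow_dvd_pow _ ?_) _
        nlinarith
      refine (h5.trans (H (b + 1))).trans (dvd_of_eq ?_)
      ring
    have h6 := (mul_dvd_mul_iff_left (pow_ne_zero _ PowerSeries.X_ne_zero)).mp h4
    rw [PowerSeries.X_dvd_iff, map_mul, map_pow] at h6
    exact mul_ne_zero hh' (pow_ne_zero _ hf') h6
  exact mul_dvd_mul (pow_dvd_pow _ h3) h2

theorem CIC.mvPowerSeries (κ : Type*) [Field κ] (d : ℕ) : CIC (MvPowerSeries (Fin d) κ) := by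
  induction d with
  | zero =>
    exact CIC.of_ringEquiv (MvPowerSeries.isEmptyEquiv (σ := Fin 0) (R := κ)).toRingEquiv.symm
      (CIC.of_field κ)
  | succ d ih =>
    have : IsDomain (MvPowerSeries (Fin d) κ) := { }
    exact CIC.of_ringEquiv (MvPowerSeries.finSuccEquiv κ d).toRingEquiv.symm ih.powerSeries

theorem CIC.isIntegrallyClosed {R : Type*} [CommRing R] [IsDomain R] (hR : CIC R) :
    IsIntegrallyClosed R := by
  refine (isIntegrallyClosed_iff (FractionRing R)).mpr fun {x} hx => ?_
  obtain ⟨r, hr, H⟩ := hx.isAlmostIntegral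
  obtain ⟨f, g, hg, rfl⟩ := IsFractionRing.div_surjective (A := R) x
  have hinj : Function.Injective (algebraMap R (FractionRing R)) := IsFractionRing.injective _ _
  have hg0 : g ≠ 0 := nonZeroDivisors.ne_zero hg
  have hr0 : r ≠ 0 := nonZeroDivisors.ne_zero hr
  have hg1 : algebraMap R (FractionRing R) g ≠ 0 := fun h => hg0 (hinj (by rw [h, map_zero]))
  have h1 : g ∣ f := by
    refine hR f g r hg0 hr0 fun n => ?_
    obtain ⟨a, ha⟩ := H n
    refine ⟨a, hinj ?_⟩
    rw [map_mul, map_mul, map_pow, map_pow, ha, Algebra.smul_def, div_pow]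
    (clear hR hr hx H hr0 a ha; field_simp)
  obtain ⟨y, rfl⟩ := h1
  exact ⟨y, by rw [map_mul, mul_div_cancel_left₀ _ hg1]⟩

theorem isIntegrallyClosed_mvPowerSeries (κ : Type*) [Field κ] (d : ℕ) :
    IsIntegrallyClosed (MvPowerSeries (Fin d) κ) :=
  have : IsDomain (MvPowerSeries (Fin d) κ) := { }
  (CIC.mvPowerSeries κ d).isIntegrallyClosed

end Vale.Agent.P217
end
end

section

section

/-!
# P217 (sanity part): the Lubin-Tate theorem, definitions for the proof
-/

namespace Vale.Agent.P217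

open MvPowerSeries

open Classical in
/-- the coefficients of `C_N(X,Y) = ((X+Y)^N - X^N - Y^N)/p` (`N` a power of `p`), resp.
`(X+Y)^N - X^N - Y^N` (`N` not a power of `p`). -/
noncomputable def cbar (p N i : ℕ) : ℕ :=
  if ∃ r, N = p ^ r then N.choose i / p else N.choose i

section Cocycles

variable {κ : Type*} [Field κ]

/-- `D(X,Y)` is a symmetric 2-cocycle of the formal group law `Γ` with values in `𝔾_a`:
`D(X,0) = 0`, `D(X,Y) = D(Y,X)`, `D(Y,Z) - D(Γ(X,Y),Z) + D(X,Γ(Y,Z)) - D(X,Y) = 0`. -/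
structure IsCocycle (Γ : FormalGroup κ) (D : MvPowerSeries (Fin 2) κ) : Prop where
  zero : ∀ i : ℕ, coeff (Finsupp.single 0 i) D = 0
  symm : ∀ i j : ℕ, coeff (Finsupp.single 0 i + Finsupp.single 1 j) D =
    coeff (Finsupp.single 0 j + Finsupp.single 1 i) D
  cocycle : D.subst ![(X 1 : MvPowerSeries (Fin 3) κ), X 2] -
      D.subst ![Γ.toPowerSeries.subst ![(X 0 : MvPowerSeries (Fin 3) κ), X 1], X 2] +
      D.subst ![(X 0 : MvPowerSeries (Fin 3) κ),
        Γ.toPowerSeries.subst ![(X 1 : MvPowerSeries (Fin 3) κ), X 2]] -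
      D.subst ![(X 0 : MvPowerSeries (Fin 3) κ), X 1] = 0

/-- the coboundary `χ(X) + χ(Y) - χ(Γ(X,Y))`. -/
noncomputable def cobd (Γ : FormalGroup κ) (χ : PowerSeries κ) : MvPowerSeries (Fin 2) κ :=
  χ.subst (X 0 : MvPowerSeries (Fin 2) κ) + χ.subst (X 1 : MvPowerSeries (Fin 2) κ) -
    χ.subst Γ.toPowerSeries

/-- `D` vanishes in degrees `< N` and has degree `N` part `lam * C_N(X,Y)` up to `X^N`, `Y^N`. -/
def HasLead (p N : ℕ) (lam : κ) (D : MvPowerSeries (Fin 2) κ) : Prop :=
  (∀ i j : ℕ, i + j < N → coeff (Finsupp.single 0 i + Finsupp.single 1 j) D = 0) ∧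
    ∀ i j : ℕ, 1 ≤ i → 1 ≤ j → i + j = N →
      coeff (Finsupp.single 0 i + Finsupp.single 1 j) D = lam * (cbar p N i : κ)

end Cocycles

section Linear

variable (p n : ℕ) [Fact p.Prime]

/-- the coefficient of `u_{i+1}` mod `p`; this is `∂/∂u_{i+1}` followed by `E₀ → 𝔽_{p^n}`. -/
noncomputable def lin (i : Fin (n - 1)) : E0 p n →+ GaloisField p n :=
  (WittVector.constantCoeff : WittVector p (GaloisField p n) →+* GaloisField p n).toAddMonoidHom.comp
    (coeff (R := WittVector p (GaloisField p n)) (Finsupp.single i 1)).toAddMonoidHom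

/-- `(∂F/∂u_{i+1})(X, Y) mod 𝔪`. -/
noncomputable def linF (F : FormalGroup (E0 p n)) (i : Fin (n - 1)) :
    MvPowerSeries (Fin 2) (GaloisField p n) :=
  fun m => lin p n i (coeff m F.toPowerSeries)

/-- Everything which is needed about the explicit (Hazewinkel) formal group law over `E₀`. -/
structure GoodF (Γ : FormalGroup (ZMod p)) (F : FormalGroup (E0 p n)) : Prop where
  comm : F.IsComm
  reduction : F.map (red p n) = Γ.map (algebraMap (ZMod p) (GaloisField p n))
  adapted : HeightAdapted p n F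
  lead : ∀ i : Fin (n - 1), HasLead p (p ^ ((i : ℕ) + 1)) (-1) (linF p n F i)

/-- the universal property for `B`. -/
def HasUniv (Γ : FormalGroup (ZMod p)) (F : FormalGroup (E0 p n)) (A : Type) [CommRing A]
    [IsLocalRing A] : Prop :=
  ∀ (i : GaloisField p n →+* IsLocalRing.ResidueField A) (G : FormalGroup A) [G.IsComm],
    G.map (IsLocalRing.residue A) = (Γ.map (algebraMap (ZMod p) (GaloisField p n))).map i →
    ∃! x : (E0 p n →+* A) × PowerSeries A,
      (IsLocalRing.residue A).comp x.1 = i.comp (red p n) ∧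
      IsIso (F.map x.1) G x.2 ∧ x.2.map (IsLocalRing.residue A) = PowerSeries.X

end Linear

section Hazewinkel

/-- `F` over `ℤ[v_1, …, v_n]` is the Hazewinkel formal group law, with logarithm
`f(X) = X + ∑_{i=1}^n (v_i/p) f^{(p^i)}(X^(p^i))` over `ℚ[v_1, …, v_n]` where `f^{(p^i)}` is
obtained from `f` by `v_j ↦ v_j^(p^i)`; the variable `v_i` is `X ⟨i-1, _⟩`. -/
structure IsHaz (p n : ℕ) (F : FormalGroup (MvPolynomial (Fin n) ℤ))
    (f : PowerSeries (MvPolynomial (Fin n) ℚ)) : Prop where
  comm : F.IsComm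
  cc : PowerSeries.constantCoeff f = 0
  coeff_log : ∀ m : ℕ, PowerSeries.coeff m f = (if m = 1 then 1 else 0) +
    ∑ i : Fin n, if p ^ ((i : ℕ) + 1) ∣ m then
      MvPolynomial.C (1 / (p : ℚ)) * MvPolynomial.X i *
        MvPolynomial.expand (p ^ ((i : ℕ) + 1)) (PowerSeries.coeff (m / p ^ ((i : ℕ) + 1)) f)
      else 0
  log : (PowerSeries.subst (F.map (MvPolynomial.map (Int.castRingHom ℚ))).toPowerSeries f :
      MvPowerSeries (Fin 2) (MvPolynomial (Fin n) ℚ)) =
    PowerSeries.subst (X 0 : MvPowerSeries (Fin 2) (MvPolynomial (Fin n) ℚ)) f +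
      PowerSeries.subst (X 1 : MvPowerSeries (Fin 2) (MvPolynomial (Fin n) ℚ)) f

/-- the homomorphism `ℤ[v_1, …, v_n] → E₀`, `v_i ↦ u_i` for `i < n`, `v_n ↦ 1`. -/
noncomputable def hazMap (p n : ℕ) [Fact p.Prime] : MvPolynomial (Fin n) ℤ →+* E0 p n :=
  MvPolynomial.eval₂Hom (Int.castRingHom _)
    (fun i => if h : (i : ℕ) < n - 1 then X ⟨i, h⟩ else 1)

end Hazewinkel

end Vale.Agent.P217
end
end

section

section

/-!
# P217 (sanity part): Lazard's lemma on symmetric cocycles of the additive group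
-/

namespace Vale.Agent.P217

open MvPowerSeries

section Lazard

theorem lz_dvd_choose {p : ℕ} (t a m : ℕ) (hm : Nat.Coprime p m) :
    p ^ t ∣ (p ^ t * a).choose m := by
  rcases Nat.eq_zero_or_pos m with rfl | hm0
  · rw [Nat.coprime_zero_right] at hm
    rw [hm, one_pow]
    exact one_dvd _
  rcases Nat.eq_zero_or_pos (p ^ t * a) with h0 | h0
  · rw [h0, Nat.choose_eq_zero_of_lt hm0]
    exact dvd_zero _
  obtain ⟨k, rfl⟩ : ∃ k, m = k + 1 := ⟨m - 1, by omega⟩
  obtain ⟨n, hn⟩ : ∃ n, p ^ t * a = n + 1 := ⟨p ^ t * a - 1, by omega⟩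
  have h1 := Nat.add_one_mul_choose_eq n k
  refine (Nat.Coprime.pow_left t hm).dvd_of_dvd_mul_right ?_
  rw [hn, ← h1, ← hn, mul_assoc]
  exact dvd_mul_right _ _

theorem lz_choose_sq {p : ℕ} (hp : p.Prime) (a b : ℕ) :
    (p * a).choose (p * b) ≡ a.choose b [MOD p ^ 2] := by
  induction a generalizing b with
  | zero =>
    rcases Nat.eq_zero_or_pos b with rfl | hb
    · exact Nat.ModEq.refl _
    · rw [mul_zero, Nat.choose_eq_zero_of_lt (Nat.mul_pos hp.pos hb),
        Nat.choose_eq_zero_of_lt hb]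
  | succ a ih =>
    rcases b with _ | b
    · rw [mul_zero, Nat.choose_zero_right, Nat.choose_zero_right]
    · have h1 : p * (a + 1) = p + p * a := by ring
      rw [h1, Nat.add_choose_eq, Finset.Nat.sum_antidiagonal_eq_sum_range_succ_mk,
        ← ZMod.natCast_eq_natCast_iff, Nat.cast_sum]
      rw [Finset.sum_eq_add (0 : ℕ) p hp.ne_zero.symm]
      · have h2 : p * (b + 1) - p = p * b := by
          rw [mul_add, mul_one, Nat.add_sub_cancel]
        rw [Nat.choose_zero_right, Nat.choose_self, one_mul, one_mul, Nat.sub_zero, h2,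
          Nat.choose_succ_succ, Nat.cast_add, add_comm,
          (ZMod.natCast_eq_natCast_iff _ _ _).2 (ih b),
          (ZMod.natCast_eq_natCast_iff _ _ _).2 (ih (b + 1))]
      · intro k hk hkk
        rw [ZMod.natCast_eq_zero_iff]
        rcases lt_or_ge p k with h | h
        · rw [Nat.choose_eq_zero_of_lt h, zero_mul]
          exact dvd_zero _
        · have hkp : k < p := lt_of_le_of_ne h hkk.2
          rw [sq]
          refine mul_dvd_mul (hp.dvd_choose_self hkk.1 hkp) ?_
          have h3 : Nat.Coprime p (p * (b + 1) - k) := by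
            rw [Nat.Prime.coprime_iff_not_dvd hp]
            intro h4
            have h5 : p ∣ k := by
              have h6 : p ∣ p * (b + 1) := dvd_mul_right _ _
              have h7 : k ≤ p * (b + 1) := by nlinarith only [hkp]
              exact (Nat.dvd_sub_iff_right h7 h6).1 h4
            exact hkk.1 (Nat.eq_zero_of_dvd_of_lt h5 hkp)
          have h8 := lz_dvd_choose 1 a (p * (b + 1) - k) h3
          rwa [pow_one] at h8
      · intro h
        exact absurd (Finset.mem_range.2 (Nat.succ_pos _)) h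
      · intro h
        refine absurd (Finset.mem_range.2 ?_) h
        nlinarith only []

theorem lz_choose_pow {p : ℕ} (hp : p.Prime) (s a b : ℕ) :
    (p ^ s * a).choose (p ^ s * b) ≡ a.choose b [MOD p ^ 2] := by
  induction s with
  | zero => rw [pow_zero, one_mul, one_mul]
  | succ s ih =>
    have h1 : ∀ c, p ^ (s + 1) * c = p * (p ^ s * c) := fun c => by ring
    rw [h1, h1]
    exact (lz_choose_sq hp _ _).trans ih

theorem lz_sq_dvd {p : ℕ} (hp : p.Prime) (r s : ℕ) (hr : 1 ≤ r) (i : ℕ) (hi : ¬ p ^ s ∣ i) :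
    p ^ 2 ∣ (p ^ (r + s)).choose i := by
  have hi0 : i ≠ 0 := fun h => hi (h ▸ dvd_zero _)
  obtain ⟨v, m, hm, rfl⟩ := Nat.exists_eq_pow_mul_and_not_dvd hi0 p hp.ne_one
  have hv : v < s := by
    by_contra hv
    exact hi (Dvd.dvd.mul_right (pow_dvd_pow p (not_lt.1 hv)) m)
  have h1 : p ^ (r + s) = p ^ v * (p ^ (r + s - v) * 1) := by
    rw [mul_one, ← pow_add]
    congr 1
    (clear * - hr hv; omega)
  rw [h1]
  have h2 := lz_choose_pow hp v (p ^ (r + s - v) * 1) m
  have h3 := lz_dvd_choose (r + s - v) 1 m ((Nat.Prime.coprime_iff_not_dvd hp).2 hm)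
  have h4 : p ^ 2 ∣ (p ^ (r + s - v) * 1).choose m :=
    (pow_dvd_pow p (by omega)).trans h3
  exact (h2.dvd_iff (dvd_refl _)).2 h4

theorem lz_cbar_pow (p r i : ℕ) : cbar p (p ^ r) i = (p ^ r).choose i / p := by
  unfold cbar
  rw [if_pos ⟨r, rfl⟩]

theorem lz_cbar_of_not {p N : ℕ} (h : ¬ ∃ r, N = p ^ r) (i : ℕ) : cbar p N i = N.choose i := by
  unfold cbar
  rw [if_neg h]

theorem lz_cbar_pow_modEq {p : ℕ} (hp : p.Prime) (r s : ℕ) (b : ℕ)
    (hb : b < p ^ r) : cbar p (p ^ (r + s)) (p ^ s * b) ≡ cbar p (p ^ r) b [MOD p] := by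
  rw [lz_cbar_pow, lz_cbar_pow]
  rcases Nat.eq_zero_or_pos b with rfl | hb0
  · rw [mul_zero, Nat.choose_zero_right, Nat.choose_zero_right]
  have h1 : p ∣ (p ^ r).choose b := hp.dvd_choose_pow hb0.ne' hb.ne
  have h2 : p ∣ (p ^ (r + s)).choose (p ^ s * b) := by
    refine hp.dvd_choose_pow (Nat.mul_pos (pow_pos hp.pos s) hb0).ne' ?_
    rw [pow_add, mul_comm]
    intro h
    exact hb.ne (Nat.eq_of_mul_eq_mul_right (pow_pos hp.pos s) h)
  obtain ⟨x, hx⟩ := h1
  obtain ⟨y, hy⟩ := h2
  rw [hx, hy, Nat.mul_div_cancel_left _ hp.pos, Nat.mul_div_cancel_left _ hp.pos]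
  have h3 := lz_choose_pow hp s (p ^ r) b
  rw [← pow_add, add_comm s r, hx, hy, sq] at h3
  exact Nat.ModEq.mul_left_cancel' hp.ne_zero h3

variable {κ : Type*} [Field κ]

/-- 27b -/
theorem cbar_pow_mul (p : ℕ) [Fact p.Prime] [CharP κ p] (r s : ℕ) (hr : 1 ≤ r) (i : ℕ)
    (hi : i < p ^ (r + s)) :
    (cbar p (p ^ (r + s)) i : κ) =
      if p ^ s ∣ i then (cbar p (p ^ r) (i / p ^ s) : κ) else 0 := by
  have hp : p.Prime := Fact.out
  split_ifs with h
  · obtain ⟨b, rfl⟩ := h
    rw [Nat.mul_div_cancel_left _ (pow_pos hp.pos s)]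
    have hb : b < p ^ r := by
      rw [pow_add, mul_comm] at hi
      exact Nat.lt_of_mul_lt_mul_right hi
    exact (CharP.natCast_eq_natCast κ p).2 (lz_cbar_pow_modEq hp r s b hb)
  · rw [CharP.cast_eq_zero_iff κ p, lz_cbar_pow]
    obtain ⟨x, hx⟩ := lz_sq_dvd hp r s hr i h
    rw [hx, sq, mul_assoc, Nat.mul_div_cancel_left _ hp.pos]
    exact dvd_mul_right _ _

/-- 27b -/
theorem exists_cbar_ne_zero (p : ℕ) [Fact p.Prime] [CharP κ p] (N : ℕ) (hN : 2 ≤ N) :
    ∃ i, 1 ≤ i ∧ i < N ∧ (cbar p N i : κ) ≠ 0 := by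
  have hp : p.Prime := Fact.out
  obtain ⟨v, m, hm, rfl⟩ := Nat.exists_eq_pow_mul_and_not_dvd (show N ≠ 0 by omega) p hp.ne_one
  have hm0 : m ≠ 0 := fun h => hm (h ▸ dvd_zero _)
  by_cases h1 : m = 1
  · subst h1
    rw [mul_one] at hN ⊢
    have hv : v ≠ 0 := by
      rintro rfl
      rw [pow_zero] at hN
      omega
    obtain ⟨w, rfl⟩ : ∃ w, v = w + 1 := ⟨v - 1, by omega⟩
    refine ⟨p ^ w, Nat.one_le_pow _ _ hp.pos, Nat.pow_lt_pow_right hp.one_lt (Nat.lt_succ_self w),
      ?_⟩
    rw [add_comm w 1, cbar_pow_mul p 1 w le_rfl (p ^ w)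
      (Nat.pow_lt_pow_right hp.one_lt (by omega)), if_pos (dvd_refl _),
      Nat.div_self (pow_pos hp.pos w), lz_cbar_pow, pow_one, Nat.choose_one_right,
      Nat.div_self hp.pos, Nat.cast_one]
    exact one_ne_zero
  · refine ⟨p ^ v, Nat.one_le_pow _ _ hp.pos, ?_, ?_⟩
    · exact lt_mul_of_one_lt_right (pow_pos hp.pos v) (by omega)
    · have h2 : ¬ ∃ r, p ^ v * m = p ^ r := by
        rintro ⟨r, hr⟩
        rcases le_or_gt r v with h | h
        · have h3 : p ^ r ≤ p ^ v := Nat.pow_le_pow_right hp.pos h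
          have h4 : p ^ v < p ^ v * m := lt_mul_of_one_lt_right (pow_pos hp.pos v) (by (clear * - hm0 h1; omega))
          omega
        · obtain ⟨w, rfl⟩ : ∃ w, r = v + (w + 1) := ⟨r - v - 1, by omega⟩
          rw [pow_add] at hr
          have h5 := Nat.eq_of_mul_eq_mul_left (pow_pos hp.pos v) hr
          exact hm (h5 ▸ dvd_pow_self p (Nat.succ_ne_zero w))
      rw [lz_cbar_of_not h2, Ne, CharP.cast_eq_zero_iff κ p]
      have h3 := lz_choose_pow hp v m 1
      rw [mul_one, Nat.choose_one_right] at h3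
      intro h4
      exact hm ((h3.dvd_iff (dvd_pow_self p two_ne_zero)).1 h4)

theorem lz_rel {N : ℕ} {a : ℕ → κ}
    (hcoc : ∀ i j k, 1 ≤ i → 1 ≤ j → 1 ≤ k → i + j + k = N →
      a i * ((j + k).choose j : κ) = a (i + j) * ((i + j).choose i : κ))
    {i : ℕ} (hi : 1 ≤ i) (hiN : i < N) :
    (i : κ) * a i = a 1 * ((N - 1).choose (i - 1) : κ) := by
  rcases eq_or_lt_of_le hi with h | h
  · subst h
    rw [Nat.sub_self, Nat.choose_zero_right, Nat.cast_one, one_mul, mul_one]
  · have h1 := hcoc 1 (i - 1) (N - i) le_rfl (by omega) (by omega) (by omega)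
    have h2 : i - 1 + (N - i) = N - 1 := by (clear * - hiN h; omega)
    have h3 : 1 + (i - 1) = i := by omega
    rw [h2, h3, Nat.choose_one_right] at h1
    rw [h1, mul_comm]

theorem lz_mul_choose {N i : ℕ} (hi : 1 ≤ i) (hiN : i < N) :
    (i : κ) * (N.choose i : κ) = N * ((N - 1).choose (i - 1) : κ) := by
  have h1 := Nat.add_one_mul_choose_eq (N - 1) (i - 1)
  have h2 : N - 1 + 1 = N := by omega
  have h3 : i - 1 + 1 = i := by omega
  rw [h2, h3] at h1
  rw [mul_comm, ← Nat.cast_mul, ← Nat.cast_mul, h1]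

/-- 27b **Lazard's lemma** on symmetric cocycles of the additive group over a field of
characteristic `p` in degree `N`: `a i` is the coefficient of `X^i Y^(N-i)`. -/
theorem lazard_lemma (p : ℕ) [Fact p.Prime] [CharP κ p] (N : ℕ) (hN : 2 ≤ N) (a : ℕ → κ)
    (hsymm : ∀ i, 1 ≤ i → i < N → a i = a (N - i))
    (hcoc : ∀ i j k, 1 ≤ i → 1 ≤ j → 1 ≤ k → i + j + k = N →
      a i * ((j + k).choose j : κ) = a (i + j) * ((i + j).choose i : κ)) :
    ∃ c : κ, ∀ i, 1 ≤ i → i < N → a i = c * (cbar p N i : κ) := by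
  have hp : p.Prime := Fact.out
  induction N using Nat.strong_induction_on generalizing a with
  | _ N ih =>
  by_cases hpN : p ∣ N
  · obtain ⟨N', rfl⟩ := hpN
    by_cases h1 : N' = 1
    · subst h1
      rw [mul_one] at *
      refine ⟨a 1, fun i hi hip => ?_⟩
      have hi0 : (i : κ) ≠ 0 := by
        rw [Ne, CharP.cast_eq_zero_iff κ p]
        exact fun h => absurd (Nat.le_of_dvd hi h) (not_le.2 hip)
      refine mul_left_cancel₀ hi0 ?_
      rw [lz_rel hcoc hi hip]
      have h2 := Nat.add_one_mul_choose_eq (p - 1) (i - 1)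
      have h3 : p - 1 + 1 = p := by (clear * - hN; omega)
      have h4 : i - 1 + 1 = i := by omega
      rw [h3, h4] at h2
      have h5 : cbar p p i = p.choose i / p := by
        have := lz_cbar_pow p 1 i
        rwa [pow_one] at this
      obtain ⟨x, hx⟩ := hp.dvd_choose_self (show i ≠ 0 by omega) hip
      rw [h5, hx, Nat.mul_div_cancel_left _ hp.pos]
      rw [hx, mul_assoc] at h2
      have h6 := Nat.eq_of_mul_eq_mul_left hp.pos h2
      rw [h6, Nat.cast_mul]
      ring
    · have hN' : 2 ≤ N' := by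
        rcases N' with _ | _ | N'
        · omega
        · exact absurd rfl h1
        · omega
      have hp2 := hp.two_le
      have hlt : p < p * N' := by nlinarith
      have ha1 : a 1 = 0 := by
        have h2 := hcoc 1 (p - 1) (p * N' - p) le_rfl (by omega) (by omega) (by (clear * - hp2 hlt; omega))
        have h3 : p - 1 + (p * N' - p) = p * N' - 1 := by omega
        have h4 : 1 + (p - 1) = p := by omega
        rw [h3, h4, Nat.choose_one_right, CharP.cast_eq_zero κ p, mul_zero] at h2
        have h5 : (((p * N' - 1).choose (p - 1) : ℕ) : κ) = 1 := by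
          refine Eq.trans ?_ (Nat.cast_one (R := κ))
          rw [CharP.natCast_eq_natCast κ p]
          have h6 := Choose.choose_modEq_choose_mod_mul_choose_div_nat (n := p * N' - 1)
            (k := p - 1) (p := p)
          have h7 : p * N' - 1 = p * (N' - 1) + (p - 1) := by
            obtain ⟨M, rfl⟩ : ∃ M, N' = M + 1 := ⟨N' - 1, by omega⟩
            rw [Nat.add_sub_cancel, mul_add, mul_one]
            omega
          have h8 : (p * N' - 1) % p = p - 1 := by
            rw [h7, Nat.mul_add_mod, Nat.mod_eq_of_lt (by omega)]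
          have h9 : (p - 1) % p = p - 1 := Nat.mod_eq_of_lt (by omega)
          have h10 : (p - 1) / p = 0 := Nat.div_eq_of_lt (by omega)
          rw [h8, h9, h10, Nat.choose_self, Nat.choose_zero_right, one_mul] at h6
          exact h6
        rwa [h5, mul_one] at h2
      have ha : ∀ i, 1 ≤ i → i < p * N' → ¬ p ∣ i → a i = 0 := by
        intro i hi hiN hpi
        have hi0 : (i : κ) ≠ 0 := by
          rwa [Ne, CharP.cast_eq_zero_iff κ p]
        have h2 := lz_rel hcoc hi hiN
        rw [ha1, zero_mul] at h2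
        exact (mul_eq_zero.1 h2).resolve_left hi0
      have hch : ∀ x y, (((p * x).choose (p * y) : ℕ) : κ) = (x.choose y : κ) := by
        intro x y
        rw [CharP.natCast_eq_natCast κ p]
        exact (lz_choose_sq hp x y).of_dvd (dvd_pow_self p two_ne_zero)
      have hlt' : ∀ i, i < N' → p * i < p * N' := fun i hi => Nat.mul_lt_mul_of_pos_left hi hp.pos
      obtain ⟨c, hc⟩ := ih N' (by nlinarith only [hp2, hlt]) hN' (fun i => a (p * i)) (fun i hi hiN => by
          have h2 := hsymm (p * i) (Nat.mul_pos hp.pos hi) (hlt' i hiN)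
          rw [← Nat.mul_sub] at h2
          exact h2) (fun i j k hi hj hk hijk => by
          have h2 := hcoc (p * i) (p * j) (p * k) (Nat.mul_pos hp.pos hi) (Nat.mul_pos hp.pos hj)
            (Nat.mul_pos hp.pos hk) (by rw [← mul_add, ← mul_add, hijk])
          rw [← mul_add, ← mul_add, hch, hch] at h2
          exact h2)
      refine ⟨c, fun i hi hiN => ?_⟩
      by_cases hN'p : ∃ r, N' = p ^ r
      · obtain ⟨r, rfl⟩ := hN'p
        have hr : 1 ≤ r := by
          by_contra hr
          have : r = 0 := by omega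
          rw [this, pow_zero] at hN'
          omega
        have h2 : p * p ^ r = p ^ (r + 1) := by ring
        rw [h2] at hiN ⊢
        rw [cbar_pow_mul p r 1 hr i hiN, pow_one]
        split_ifs with hpi
        · obtain ⟨j, rfl⟩ := hpi
          rw [Nat.mul_div_cancel_left _ hp.pos]
          refine hc j ?_ ?_
          · rcases Nat.eq_zero_or_pos j with rfl | hj
            · omega
            · exact hj
          · rw [← h2] at hiN
            exact Nat.lt_of_mul_lt_mul_left hiN
        · rw [mul_zero]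
          exact ha i hi (by rw [h2]; exact hiN) hpi
      · have hNp : ¬ ∃ r, p * N' = p ^ r := by
          rintro ⟨r, hr⟩
          rcases r with _ | r
          · rw [pow_zero] at hr
            linarith
          · rw [pow_succ, mul_comm (p ^ r)] at hr
            exact hN'p ⟨r, Nat.eq_of_mul_eq_mul_left hp.pos hr⟩
        rw [lz_cbar_of_not hNp]
        by_cases hpi : p ∣ i
        · obtain ⟨j, rfl⟩ := hpi
          rw [hch, ← lz_cbar_of_not hN'p]
          refine hc j ?_ (Nat.lt_of_mul_lt_mul_left hiN)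
          rcases Nat.eq_zero_or_pos j with rfl | hj
          · omega
          · exact hj
        · rw [ha i hi hiN hpi]
          have h2 := lz_dvd_choose 1 N' i ((Nat.Prime.coprime_iff_not_dvd hp).2 hpi)
          rw [pow_one] at h2
          rw [(CharP.cast_eq_zero_iff κ p _).2 h2, mul_zero]
  · have hN0 : (N : κ) ≠ 0 := by rwa [Ne, CharP.cast_eq_zero_iff κ p]
    have hNp : ¬ ∃ r, N = p ^ r := by
      rintro ⟨r, rfl⟩
      rcases r with _ | r
      · rw [pow_zero] at hN
        omega
      · exact hpN (dvd_pow_self p (Nat.succ_ne_zero r))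
    have key : ∀ i, 1 ≤ i → i < N → ¬ p ∣ i → a i = a 1 / N * (N.choose i : κ) := by
      intro i hi hiN hpi
      have hi0 : (i : κ) ≠ 0 := by rwa [Ne, CharP.cast_eq_zero_iff κ p]
      refine mul_left_cancel₀ hi0 ?_
      rw [lz_rel hcoc hi hiN, mul_left_comm, lz_mul_choose hi hiN]
      field_simp
    refine ⟨a 1 / N, fun i hi hiN => ?_⟩
    rw [lz_cbar_of_not hNp]
    by_cases hpi : p ∣ i
    · rw [hsymm i hi hiN, key (N - i) (by omega) (by omega), Nat.choose_symm hiN.le]
      intro h
      exact hpN (by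
        have h2 : N = (N - i) + i := by omega
        rw [h2]
        exact dvd_add h hpi)
    · exact key i hi hiN hpi

end Lazard

end Vale.Agent.P217
end
end
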