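import Vale.Agent.P217.MathlibUsed
import Vale.Agent.P217.Bdl.B1
import Vale.Agent.P217.Bdl.B2
import Vale.Agent.P217.LT

set_option linter.all false

section

section

/-!
# P217: elementary facts on the Honda logarithm
-/

namespace Vale.Agent.P217

open MvPowerSeries

section Log

variable (p n : ℕ) [hp : Fact p.Prime]

theorem hc_coeff (m : ℕ) : PowerSeries.coeff m (hondaLog p n) =
    ∑ i ∈ Finset.range (m + 1), if m = p ^ (n * i) then ((p : ℚ_[p]) ^ i)⁻¹ else 0 := by
  rw [hondaLog, PowerSeries.coeff_mk]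

theorem hc_coeff_pow (hn : 1 ≤ n) (i : ℕ) :
    PowerSeries.coeff (p ^ (n * i)) (hondaLog p n) = ((p : ℚ_[p]) ^ i)⁻¹ := by
  have hp2 : 2 ≤ p := hp.out.two_le
  rw [hc_coeff, Finset.sum_eq_single i]
  · rw [if_pos rfl]
  · intro j _ hj
    rw [if_neg]
    intro h
    have h1 := Nat.pow_right_injective hp2 h
    exact hj (Nat.eq_of_mul_eq_mul_left hn h1.symm)
  · intro h
    exfalso
    apply h
    rw [Finset.mem_range]
    have h1 : i < 2 ^ i := Nat.lt_two_pow_self
    have h2 : 2 ^ i ≤ p ^ i := Nat.pow_le_pow_left hp2 i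
    have h3 : p ^ i ≤ p ^ (n * i) := Nat.pow_le_pow_right (by omega) (Nat.le_mul_of_pos_left i hn)
    omega

theorem hc_exists_pow {m : ℕ} (h : PowerSeries.coeff m (hondaLog p n) ≠ 0) :
    ∃ i, m = p ^ (n * i) := by
  by_contra hne
  push Not at hne
  apply h
  rw [hc_coeff]
  exact Finset.sum_eq_zero fun i _ => if_neg (hne i)

theorem hc_coeff_zero : PowerSeries.constantCoeff (hondaLog p n) = 0 := by
  rw [← PowerSeries.coeff_zero_eq_constantCoeff_apply]
  by_contra h
  obtain ⟨i, hi⟩ := hc_exists_pow p n h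
  exact absurd hi.symm (pow_ne_zero _ hp.out.ne_zero)

theorem hc_coeff_one (hn : 1 ≤ n) : PowerSeries.coeff 1 (hondaLog p n) = 1 := by
  have := hc_coeff_pow p n hn 0
  simpa using this

end Log

section General

variable {τ : Type*} {R : Type*} [CommRing R]

theorem hc_hasSubst {f : MvPowerSeries τ R} (hf : constantCoeff f = 0) : PowerSeries.HasSubst f :=
  PowerSeries.HasSubst.of_constantCoeff_zero hf

/-- coefficients of a substitution as a finite sum -/
theorem hc_coeff_subst {f : MvPowerSeries τ R} (hf : constantCoeff f = 0) (φ : PowerSeries R)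
    (e : τ →₀ ℕ) : coeff e (PowerSeries.subst f φ) =
      ∑ j ∈ Finset.range (e.degree + 1), PowerSeries.coeff j φ * coeff e (f ^ j) := by
  rw [PowerSeries.coeff_subst (hc_hasSubst hf)]
  simp only [smul_eq_mul]
  apply finsum_eq_sum_of_support_subset
  intro j hj
  rw [Function.mem_support] at hj
  rw [Finset.coe_range, Set.mem_Iio]
  by_contra hlt
  apply hj
  rw [coeff_of_lt_order, mul_zero]
  refine lt_of_lt_of_le ?_ (le_order_pow_of_constantCoeff_eq_zero j hf)
  have : e.degree < j := by omega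
  exact_mod_cast this

/-- If `f - g` has order at least `m`, then `f ^ j - g ^ j` has order at least `m + 1` for
`j ≥ 2`. -/
theorem hc_order_pow_sub {f g : MvPowerSeries τ R} (hf : constantCoeff f = 0)
    (hg : constantCoeff g = 0) {m : ℕ} (h : (m : ℕ∞) ≤ (f - g).order) {j : ℕ} (hj : 2 ≤ j) :
    ((m + 1 : ℕ) : ℕ∞) ≤ (f ^ j - g ^ j).order := by
  rw [← (Commute.all f g).mul_geom_sum₂ j]
  have h1 : (1 : ℕ∞) ≤ (∑ i ∈ Finset.range j, f ^ i * g ^ (j - 1 - i)).order := by
    rw [one_le_order_iff_constCoeff_eq_zero, map_sum]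
    apply Finset.sum_eq_zero
    intro i hi
    rw [Finset.mem_range] at hi
    rw [map_mul, map_pow, map_pow, hf, hg]
    rcases Nat.eq_zero_or_pos i with h0 | h0
    · rw [h0, zero_pow (by omega : j - 1 - 0 ≠ 0), mul_zero]
    · rw [zero_pow (by omega : i ≠ 0), zero_mul]
  refine le_trans ?_ le_order_mul
  push_cast
  exact add_le_add h h1

end General

section Inj

variable (p n : ℕ) [hp : Fact p.Prime] {τ : Type*}

theorem hc_injective (hn : 1 ≤ n) {f g : MvPowerSeries τ ℚ_[p]} (hf : constantCoeff f = 0)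
    (hg : constantCoeff g = 0)
    (h : PowerSeries.subst f (hondaLog p n) = PowerSeries.subst g (hondaLog p n)) : f = g := by
  have h1 : PowerSeries.coeff 1 (hondaLog p n) = 1 := hc_coeff_one p n hn
  have h0 := hc_coeff_zero p n
  let _ : Invertible (PowerSeries.coeff 1 (hondaLog p n)) := h1 ▸ invertibleOne
  have hL : PowerSeries.HasSubst (hondaLog p n) := PowerSeries.HasSubst.of_constantCoeff_zero' h0
  have key : ∀ f : MvPowerSeries τ ℚ_[p], constantCoeff f = 0 →
      PowerSeries.subst (PowerSeries.subst f (hondaLog p n)) (hondaLog p n).substInv = f := by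
    intro f hf
    rw [← PowerSeries.subst_comp_subst_apply hL (hc_hasSubst hf)]
    rw [PowerSeries.subst_substInv_left (hondaLog p n) h0, PowerSeries.subst_X (hc_hasSubst hf)]
  rw [← key f hf, ← key g hg, h]

/-- Congruence lemma: if `ℓ(f) ≡ ℓ(g)` modulo `p` then `f ≡ g` modulo `p`. -/
theorem hc_congr (hn : 1 ≤ n) (f g : MvPowerSeries τ ℤ_[p]) (hf : constantCoeff f = 0)
    (hg : constantCoeff g = 0) (h : ∀ e : τ →₀ ℕ,
      ‖coeff e (PowerSeries.subst (f.map (algebraMap ℤ_[p] ℚ_[p])) (hondaLog p n)) -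
        coeff e (PowerSeries.subst (g.map (algebraMap ℤ_[p] ℚ_[p])) (hondaLog p n))‖ ≤
        (p : ℝ)⁻¹) (e : τ →₀ ℕ) : (p : ℤ_[p]) ∣ coeff e f - coeff e g := by
  have hp2 : 2 ≤ p := hp.out.two_le
  induction hm : e.degree using Nat.strong_induction_on generalizing e with
  | _ m ih =>
    rcases Nat.eq_zero_or_pos m with hm0 | hm0
    · have he : e = 0 := by
        rw [hm0] at hm
        exact (Finsupp.degree_eq_zero_iff e).mp hm
      rw [he, coeff_zero_eq_constantCoeff_apply, coeff_zero_eq_constantCoeff_apply, hf, hg, sub_zero]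
      exact dvd_zero _
    · -- the correction term
      have hch : ∀ e' : τ →₀ ℕ, ∃ a : ℤ_[p], e'.degree < m → coeff e' f - coeff e' g = p * a := by
        intro e'
        by_cases hlt : e'.degree < m
        · obtain ⟨a, ha⟩ := ih _ hlt e' rfl
          exact ⟨a, fun _ => ha⟩
        · exact ⟨0, fun h => absurd h hlt⟩
      choose a ha using hch
      set A : MvPowerSeries τ ℤ_[p] := fun e' => if e'.degree < m then a e' else 0 with hA
      have hAc : ∀ e', coeff e' A = if e'.degree < m then a e' else 0 := fun _ => rfl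
      set u : MvPowerSeries τ ℤ_[p] := g + (p : MvPowerSeries τ ℤ_[p]) * A with hu
      have hpC : (p : MvPowerSeries τ ℤ_[p]) = C (p : ℤ_[p]) := by simp
      have huc : ∀ e', coeff e' u = coeff e' g + p * coeff e' A := by
        intro e'
        rw [hu, map_add, hpC, coeff_C_mul]
      have hord : (m : ℕ∞) ≤ (f - u).order := by
        apply nat_le_order
        intro d hd
        rw [map_sub, huc, hAc, if_pos hd, ← ha d hd]
        ring
      have hu0 : constantCoeff u = 0 := by
        rw [← coeff_zero_eq_constantCoeff_apply, huc, hAc, if_pos (by simpa using hm0),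
          ← ha 0 (by simpa using hm0), coeff_zero_eq_constantCoeff_apply,
          coeff_zero_eq_constantCoeff_apply, hf, hg]
        ring
      have hdvd : (p : MvPowerSeries τ ℤ_[p]) ∣ u - g := ⟨A, by rw [hu]; ring⟩
      -- divisibility of the higher terms
      have hpow : ∀ k : ℕ, 1 ≤ k → ((p : ℤ_[p]) ^ (k + 1)) ∣
          coeff e (f ^ p ^ k) - coeff e (g ^ p ^ k) := by
        intro k hk
        have h2 : 2 ≤ p ^ k := by
          calc 2 ≤ p := hp2
            _ = p ^ 1 := (pow_one p).symm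
            _ ≤ p ^ k := Nat.pow_le_pow_right (by omega) hk
        have h3 := hc_order_pow_sub hf hu0 hord h2
        have h4 : coeff e (f ^ p ^ k - u ^ p ^ k) = 0 := by
          apply coeff_of_lt_order
          refine lt_of_lt_of_le ?_ h3
          rw [hm]
          exact_mod_cast Nat.lt_succ_self m
        obtain ⟨B, hB⟩ := dvd_sub_pow_of_dvd_sub hdvd k
        have h5 : coeff e (u ^ p ^ k - g ^ p ^ k) = (p : ℤ_[p]) ^ (k + 1) * coeff e B := by
          rw [hB, hpC, ← map_pow, coeff_C_mul]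
        refine ⟨coeff e B, ?_⟩
        rw [← h5, map_sub]
        rw [map_sub] at h4
        linear_combination h4
      -- pass to norms
      have hnorm : ∀ x : ℤ_[p], (p : ℤ_[p]) ∣ x ↔ ‖x‖ ≤ (p : ℝ)⁻¹ := by
        intro x
        have := PadicInt.norm_le_pow_iff_mem_span_pow x 1
        rw [pow_one, Ideal.mem_span_singleton] at this
        rw [← this]
        simp
      rw [hnorm]
      set F : MvPowerSeries τ ℚ_[p] := f.map (algebraMap ℤ_[p] ℚ_[p]) with hF
      set G : MvPowerSeries τ ℚ_[p] := g.map (algebraMap ℤ_[p] ℚ_[p]) with hG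
      have hF0 : constantCoeff F = 0 := by rw [hF, constantCoeff_map, hf, map_zero]
      have hG0 : constantCoeff G = 0 := by rw [hG, constantCoeff_map, hg, map_zero]
      have hFj : ∀ j, coeff e (F ^ j) = ((coeff e (f ^ j) : ℤ_[p]) : ℚ_[p]) := by
        intro j
        rw [hF, ← map_pow, coeff_map]
        rfl
      have hGj : ∀ j, coeff e (G ^ j) = ((coeff e (g ^ j) : ℤ_[p]) : ℚ_[p]) := by
        intro j
        rw [hG, ← map_pow, coeff_map]
        rfl
      have hmain := h e
      rw [hc_coeff_subst hF0, hc_coeff_subst hG0, ← Finset.sum_sub_distrib] at hmain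
      have hmem : 1 ∈ Finset.range (e.degree + 1) := by
        rw [Finset.mem_range]
        omega
      rw [← Finset.add_sum_erase _ _ hmem] at hmain
      set S : ℚ_[p] := ∑ j ∈ (Finset.range (e.degree + 1)).erase 1,
        (PowerSeries.coeff j (hondaLog p n) * coeff e (F ^ j) -
          PowerSeries.coeff j (hondaLog p n) * coeff e (G ^ j)) with hS
      have hSle : ‖S‖ ≤ (p : ℝ)⁻¹ := by
        rw [hS]
        apply IsUltrametricDist.norm_sum_le_of_forall_le_of_nonneg (by positivity)
        intro j hj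
        rw [Finset.mem_erase] at hj
        by_cases hj0 : PowerSeries.coeff j (hondaLog p n) = 0
        · rw [hj0, zero_mul, zero_mul, sub_zero, norm_zero]
          positivity
        · obtain ⟨i, hi⟩ := hc_exists_pow p n hj0
          have hi1 : 1 ≤ i := by
            rcases Nat.eq_zero_or_pos i with h0 | h0
            · exfalso
              apply hj.1
              rw [hi, h0]
              simp
            · exact h0
          have hni : 1 ≤ n * i := Nat.mul_pos hn hi1
          obtain ⟨B, hB⟩ := hpow (n * i) hni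
          rw [hi, hc_coeff_pow p n hn, ← mul_sub, hFj, hGj, ← PadicInt.coe_sub, hB]
          have hle : i ≤ n * i := Nat.le_mul_of_pos_left i hn
          obtain ⟨t, ht⟩ : ∃ t, n * i + 1 = i + (t + 1) := ⟨n * i - i, by omega⟩
          rw [ht]
          have hpne : (p : ℚ_[p]) ≠ 0 := by
            exact_mod_cast hp.out.ne_zero
          have h6 : ((p : ℚ_[p]) ^ i)⁻¹ * (((p : ℤ_[p]) ^ (i + (t + 1)) * B : ℤ_[p]) : ℚ_[p]) =
              (((p : ℤ_[p]) * ((p : ℤ_[p]) ^ t * B) : ℤ_[p]) : ℚ_[p]) := by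
            push_cast
            field_simp
            ring
          rw [h6, PadicInt.padic_norm_e_of_padicInt, ← hnorm]
          exact dvd_mul_right _ _
      have h7 : ((coeff e f - coeff e g : ℤ_[p]) : ℚ_[p]) =
          (PowerSeries.coeff 1 (hondaLog p n) * coeff e (F ^ 1) -
            PowerSeries.coeff 1 (hondaLog p n) * coeff e (G ^ 1) + S) - S := by
        rw [hc_coeff_one p n hn, hFj, hGj, pow_one, pow_one]
        push_cast
        ring
      rw [← PadicInt.padic_norm_e_of_padicInt, h7]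
      rw [sub_eq_add_neg]
      refine (IsUltrametricDist.norm_add_le_max _ _).trans ?_
      rw [norm_neg]
      exact max_le hmain hSle

end Inj

section Support

variable {τ : Type*} {R : Type*} [CommRing R]

theorem hc_pow_support (N : ℕ) {f : MvPowerSeries τ R} (hf : constantCoeff f = 0) {m : ℕ}
    (h : ∀ e : τ →₀ ℕ, e.degree < m → ¬ e.degree ≡ 1 [MOD N] → coeff e f = 0) (j : ℕ)
    (hj : 1 ≤ j) : ∀ e : τ →₀ ℕ, e.degree < m + (j - 1) → ¬ e.degree ≡ j [MOD N] →
      coeff e (f ^ j) = 0 := by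
  classical
  induction j, hj using Nat.le_induction with
  | base =>
    intro e he1 he2
    rw [pow_one]
    exact h e (by simpa using he1) he2
  | succ j hj ih =>
    intro e he1 he2
    rw [pow_succ, coeff_mul]
    apply Finset.sum_eq_zero
    rintro ⟨a, b⟩ hab
    rw [Finset.HasAntidiagonal.mem_antidiagonal] at hab
    simp only at hab ⊢
    have hdeg : e.degree = a.degree + b.degree := by
      rw [← hab, map_add]
    by_contra hne
    have hne1 : coeff a (f ^ j) ≠ 0 := left_ne_zero_of_mul hne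
    have hne2 : coeff b f ≠ 0 := right_ne_zero_of_mul hne
    have ha : j ≤ a.degree := by
      by_contra hlt
      apply hne1
      apply coeff_of_lt_order
      refine lt_of_lt_of_le ?_ (le_order_pow_of_constantCoeff_eq_zero j hf)
      have : a.degree < j := by omega
      exact_mod_cast this
    have hb : 1 ≤ b.degree := by
      by_contra hlt
      apply hne2
      have hb0 : b.degree = 0 := by omega
      rw [(Finsupp.degree_eq_zero_iff b).mp hb0, coeff_zero_eq_constantCoeff_apply, hf]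
    have h1 : a.degree ≡ j [MOD N] := by
      by_contra hcon
      exact hne1 (ih a (by omega) hcon)
    have h2 : b.degree ≡ 1 [MOD N] := by
      by_contra hcon
      exact hne2 (h b (by omega) hcon)
    apply he2
    rw [hdeg]
    exact h1.add h2

end Support

section Add

variable (p n : ℕ) [hp : Fact p.Prime]

theorem hc_pow_modEq (i : ℕ) : p ^ (n * i) ≡ 1 [MOD p ^ n - 1] := by
  have h1 : p ^ n ≡ 1 [MOD p ^ n - 1] := by
    have h2 : 1 ≤ p ^ n := Nat.one_le_iff_ne_zero.mpr (pow_ne_zero _ hp.out.ne_zero)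
    have h3 : 1 + (p ^ n - 1) ≡ 1 + 0 [MOD p ^ n - 1] :=
      Nat.ModEq.add_left 1 (Nat.modEq_zero_iff_dvd.mpr dvd_rfl)
    rwa [add_zero, Nat.add_sub_cancel' h2] at h3
  have h4 := h1.pow i
  rwa [← pow_mul, one_pow] at h4

/-- the coefficients of the Honda formal group law live in degrees `≡ 1` modulo `q - 1` -/
theorem hc_support (hn : 1 ≤ n) {F : MvPowerSeries (Fin 2) ℚ_[p]} (hF : constantCoeff F = 0)
    (h : PowerSeries.subst F (hondaLog p n) =
      PowerSeries.subst (X 0 : MvPowerSeries (Fin 2) ℚ_[p]) (hondaLog p n) +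
      PowerSeries.subst (X 1 : MvPowerSeries (Fin 2) ℚ_[p]) (hondaLog p n)) (d : Fin 2 →₀ ℕ)
    (hd : ¬ d.degree ≡ 1 [MOD p ^ n - 1]) : coeff d F = 0 := by
  classical
  have hX : ∀ s : Fin 2, ∀ e : Fin 2 →₀ ℕ, ¬ e.degree ≡ 1 [MOD p ^ n - 1] →
      coeff e (PowerSeries.subst (X s : MvPowerSeries (Fin 2) ℚ_[p]) (hondaLog p n)) = 0 := by
    intro s e he
    rw [hc_coeff_subst (by simp)]
    apply Finset.sum_eq_zero
    intro j _
    by_contra hne
    obtain ⟨i, hi⟩ := hc_exists_pow p n (left_ne_zero_of_mul hne)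
    have h2 := right_ne_zero_of_mul hne
    rw [coeff_X_pow] at h2
    have h3 : e = Finsupp.single s j := by
      by_contra hcon
      exact h2 (if_neg hcon)
    apply he
    rw [h3, Finsupp.degree_single, hi]
    exact hc_pow_modEq p n i
  induction hm : d.degree using Nat.strong_induction_on generalizing d with
  | _ m ih =>
    rcases Nat.eq_zero_or_pos m with hm0 | hm0
    · have he : d = 0 := by
        rw [hm0] at hm
        exact (Finsupp.degree_eq_zero_iff d).mp hm
      rw [he, coeff_zero_eq_constantCoeff_apply, hF]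
    · have hlow : ∀ e : Fin 2 →₀ ℕ, e.degree < m → ¬ e.degree ≡ 1 [MOD p ^ n - 1] →
          coeff e F = 0 := fun e he1 he2 => ih _ he1 e he2 rfl
      have h1 := congrArg (coeff d) h
      rw [map_add, hX 0 d hd, hX 1 d hd, add_zero, hc_coeff_subst hF] at h1
      have hmem : 1 ∈ Finset.range (d.degree + 1) := by
        rw [Finset.mem_range]
        omega
      rw [← Finset.add_sum_erase _ _ hmem, hc_coeff_one p n hn, one_mul, pow_one,
        Finset.sum_eq_zero, add_zero] at h1
      · exact h1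
      · intro j hj
        rw [Finset.mem_erase] at hj
        by_contra hne
        obtain ⟨i, hi⟩ := hc_exists_pow p n (left_ne_zero_of_mul hne)
        have hj1 : 1 ≤ j := by
          rw [hi]
          exact Nat.one_le_iff_ne_zero.mpr (pow_ne_zero _ hp.out.ne_zero)
        apply right_ne_zero_of_mul hne
        apply hc_pow_support (p ^ n - 1) hF hlow j hj1
        · have := hj.1
          omega
        · intro hcon
          apply hd
          refine hcon.trans ?_
          rw [hi]
          exact hc_pow_modEq p n i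

/-- additivity of the logarithm on arbitrary arguments -/
theorem hc_add {τ : Type*} {F : MvPowerSeries (Fin 2) ℚ_[p]} (hF : constantCoeff F = 0)
    (h : PowerSeries.subst F (hondaLog p n) =
      PowerSeries.subst (X 0 : MvPowerSeries (Fin 2) ℚ_[p]) (hondaLog p n) +
      PowerSeries.subst (X 1 : MvPowerSeries (Fin 2) ℚ_[p]) (hondaLog p n))
    (f g : MvPowerSeries τ ℚ_[p]) (hf : constantCoeff f = 0) (hg : constantCoeff g = 0) :
    PowerSeries.subst (MvPowerSeries.subst ![f, g] F) (hondaLog p n) =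
      PowerSeries.subst f (hondaLog p n) + PowerSeries.subst g (hondaLog p n) := by
  have hfg : HasSubst ![f, g] := by
    refine hasSubst_of_constantCoeff_zero fun i => ?_
    fin_cases i
    · exact hf
    · exact hg
  have h1 := congrArg (MvPowerSeries.subst ![f, g]) h
  rw [subst_add hfg] at h1
  have h2 : ∀ a : MvPowerSeries (Fin 2) ℚ_[p], constantCoeff a = 0 →
      MvPowerSeries.subst ![f, g] (PowerSeries.subst a (hondaLog p n)) =
        PowerSeries.subst (MvPowerSeries.subst ![f, g] a) (hondaLog p n) := by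
    intro a ha
    rw [PowerSeries.subst, subst_comp_subst_apply (hc_hasSubst ha).const hfg]
    rfl
  rw [h2 _ hF, h2 _ (by simp), h2 _ (by simp), subst_X hfg, subst_X hfg] at h1
  exact h1

end Add

section Map

variable {R S : Type*} [CommRing R] [CommRing S]

theorem hc_multSeries_map (F : FormalGroup R) (r : R →+* S) (m : ℕ) :
    multSeries (F.map r) m = (multSeries F m).map r := by
  induction m with
  | zero => simp [multSeries]
  | succ m ih =>
    rw [FPt.multSeries_succ, FPt.multSeries_succ, ih]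
    have hfg : HasSubst ![multSeries F m, (PowerSeries.X : PowerSeries R)] := by
      refine hasSubst_of_constantCoeff_zero fun i => ?_
      fin_cases i
      · exact FPt.constantCoeff_multSeries F m
      · exact PowerSeries.constantCoeff_X
    have h1 := MvPowerSeries.map_subst hfg (h := r) F.toPowerSeries
    have h2 : (fun i => MvPowerSeries.map r (![multSeries F m, (PowerSeries.X : PowerSeries R)] i)) =
        ![PowerSeries.map r (multSeries F m), (PowerSeries.X : PowerSeries S)] := by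
      funext i
      fin_cases i
      · rfl
      · exact PowerSeries.map_X r
    rw [h2] at h1
    exact h1.symm

theorem hc_isComm_map (F : FormalGroup R) (hF : F.IsComm) (r : R →+* S) : (F.map r).IsComm := by
  constructor
  have h1 := congrArg (MvPowerSeries.map r) hF.comm
  rw [MvPowerSeries.map_subst HasSubst.X_X] at h1
  have h2 : (fun i => (![(X 1 : MvPowerSeries (Fin 2) R), X 0] i).map r) =
      ![(X 1 : MvPowerSeries (Fin 2) S), X 0] := by
    funext i
    fin_cases i <;> simp
  rw [h2] at h1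
  exact h1

end Map

end Vale.Agent.P217
end
end

section

section

/-!
# P217: the Honda formal group law
-/

namespace Vale.Agent.P217

open MvPowerSeries

section HondaProof

variable {p n : ℕ} [hp : Fact p.Prime]

theorem hc_log_multSeries {F : FormalGroup ℚ_[p]}
    (h : PowerSeries.subst F.toPowerSeries (hondaLog p n) =
      PowerSeries.subst (X 0 : MvPowerSeries (Fin 2) ℚ_[p]) (hondaLog p n) +
      PowerSeries.subst (X 1 : MvPowerSeries (Fin 2) ℚ_[p]) (hondaLog p n)) (m : ℕ) :
    (PowerSeries.subst (multSeries F m) (hondaLog p n) : PowerSeries ℚ_[p]) =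
      (m : PowerSeries ℚ_[p]) * hondaLog p n := by
  induction m with
  | zero =>
    rw [Nat.cast_zero, zero_mul]
    have h1 : multSeries F 0 = 0 := rfl
    rw [h1]
    exact PowerSeries.subst_zero_of_constantCoeff_zero (hc_coeff_zero p n)
  | succ m ih =>
    rw [FPt.multSeries_succ]
    have h1 := hc_add p n F.zero_constantCoeff h (multSeries F m) (PowerSeries.X : PowerSeries ℚ_[p])
      (FPt.constantCoeff_multSeries F m) PowerSeries.constantCoeff_X
    have h2 : (PowerSeries.subst (PowerSeries.X : PowerSeries ℚ_[p]) (hondaLog p n) :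
        PowerSeries ℚ_[p]) = hondaLog p n := PowerSeries.X_subst _
    refine h1.trans ?_
    rw [ih, h2]
    push_cast
    ring

theorem hc_coeff_rel (hn : 1 ≤ n) (m : ℕ) :
    ‖(p : ℚ_[p]) * PowerSeries.coeff m (hondaLog p n) -
      (if p ^ n ∣ m then PowerSeries.coeff (m / p ^ n) (hondaLog p n) else 0)‖ ≤ (p : ℝ)⁻¹ := by
  have hp2 : 2 ≤ p := hp.out.two_le
  have hq2 : 2 ≤ p ^ n := by
    calc 2 ≤ p := hp2
      _ = p ^ 1 := (pow_one p).symm
      _ ≤ p ^ n := Nat.pow_le_pow_right (by omega) hn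
  have hpne : (p : ℚ_[p]) ≠ 0 := by exact_mod_cast hp.out.ne_zero
  by_cases hm : ∃ i, m = p ^ (n * i)
  · obtain ⟨i, rfl⟩ := hm
    rcases Nat.eq_zero_or_pos i with h0 | h0
    · subst h0
      have h1 : ¬ p ^ n ∣ p ^ (n * 0) := by
        rw [mul_zero, pow_zero]
        intro h
        have := Nat.le_of_dvd one_pos h
        omega
      rw [if_neg h1, sub_zero, hc_coeff_pow p n hn, pow_zero, inv_one, mul_one]
      exact le_of_eq Padic.norm_p
    · obtain ⟨j, rfl⟩ : ∃ j, i = j + 1 := ⟨i - 1, by omega⟩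
      have h1 : p ^ (n * (j + 1)) = p ^ n * p ^ (n * j) := by
        rw [← pow_add]
        congr 1
        ring
      have h2 : p ^ n ∣ p ^ (n * (j + 1)) := ⟨_, h1⟩
      have h3 : p ^ (n * (j + 1)) / p ^ n = p ^ (n * j) := by
        rw [h1]
        exact Nat.mul_div_cancel_left _ (by omega)
      rw [if_pos h2, h3, hc_coeff_pow p n hn, hc_coeff_pow p n hn]
      have h4 : (p : ℚ_[p]) * ((p : ℚ_[p]) ^ (j + 1))⁻¹ - ((p : ℚ_[p]) ^ j)⁻¹ = 0 := by
        field_simp
        ring
      rw [h4, norm_zero]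
      positivity
  · have h1 : PowerSeries.coeff m (hondaLog p n) = 0 := by
      by_contra h
      exact hm (hc_exists_pow p n h)
    rw [h1, mul_zero, zero_sub, norm_neg]
    by_cases h2 : p ^ n ∣ m
    · rw [if_pos h2]
      have h3 : PowerSeries.coeff (m / p ^ n) (hondaLog p n) = 0 := by
        by_contra h
        obtain ⟨i, hi⟩ := hc_exists_pow p n h
        apply hm
        refine ⟨i + 1, ?_⟩
        rw [← Nat.mul_div_cancel' h2, hi, ← pow_add]
        congr 1
        ring
      rw [h3, norm_zero]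
      positivity
    · rw [if_neg h2, norm_zero]
      positivity

theorem hc_coeff_unit {S : Type*} [CommRing S] (e : Unit →₀ ℕ) (φ : PowerSeries S) :
    MvPowerSeries.coeff e φ = PowerSeries.coeff (e ()) φ := by
  have : e = Finsupp.single () (e ()) := by
    ext
    simp
  rw [PowerSeries.coeff, ← this]

/-- `[p]_Γ(X) = X^q` -/
theorem hc_multSeries_p (hn : 1 ≤ n) {H : FormalGroup ℤ_[p]}
    (h : PowerSeries.subst (H.map (algebraMap ℤ_[p] ℚ_[p])).toPowerSeries (hondaLog p n) =
      PowerSeries.subst (X 0 : MvPowerSeries (Fin 2) ℚ_[p]) (hondaLog p n) +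
      PowerSeries.subst (X 1 : MvPowerSeries (Fin 2) ℚ_[p]) (hondaLog p n)) :
    multSeries (H.map (PadicInt.toZMod : ℤ_[p] →+* ZMod p)) p = PowerSeries.X ^ (p ^ n) := by
  have hq : p ^ n ≠ 0 := pow_ne_zero _ hp.out.ne_zero
  have h1 := hc_log_multSeries h p
  rw [hc_multSeries_map] at h1
  have h2 : ∀ e : Unit →₀ ℕ, (p : ℤ_[p]) ∣ MvPowerSeries.coeff e (multSeries H p) -
      MvPowerSeries.coeff e (PowerSeries.X ^ (p ^ n) : PowerSeries ℤ_[p]) := by
    intro e
    apply hc_congr p n hn (multSeries H p) (PowerSeries.X ^ (p ^ n) : PowerSeries ℤ_[p])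
    · exact FPt.constantCoeff_multSeries H p
    · have : PowerSeries.constantCoeff (PowerSeries.X ^ (p ^ n) : PowerSeries ℤ_[p]) = 0 := by
        rw [map_pow, PowerSeries.constantCoeff_X, zero_pow hq]
      exact this
    · intro e
      have h3 : MvPowerSeries.map (algebraMap ℤ_[p] ℚ_[p])
          (PowerSeries.X ^ (p ^ n) : PowerSeries ℤ_[p]) =
          (PowerSeries.X ^ (p ^ n) : PowerSeries ℚ_[p]) := by
        have := PowerSeries.map_X (algebraMap ℤ_[p] ℚ_[p])
        have h4 : PowerSeries.map (algebraMap ℤ_[p] ℚ_[p])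
            (PowerSeries.X ^ (p ^ n) : PowerSeries ℤ_[p]) =
            (PowerSeries.X ^ (p ^ n) : PowerSeries ℚ_[p]) := by
          rw [map_pow, this]
        exact h4
      have h4 : MvPowerSeries.coeff e (PowerSeries.subst (MvPowerSeries.map (algebraMap ℤ_[p] ℚ_[p])
          (multSeries H p)) (hondaLog p n)) =
          (p : ℚ_[p]) * PowerSeries.coeff (e ()) (hondaLog p n) := by
        have h5 : (PowerSeries.subst (MvPowerSeries.map (algebraMap ℤ_[p] ℚ_[p])
          (multSeries H p)) (hondaLog p n) : PowerSeries ℚ_[p]) =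
            (p : PowerSeries ℚ_[p]) * hondaLog p n := h1
        rw [h5, hc_coeff_unit]
        have : (p : PowerSeries ℚ_[p]) = PowerSeries.C (p : ℚ_[p]) := by simp
        rw [this, PowerSeries.coeff_C_mul]
      rw [h4, h3, hc_coeff_unit]
      have h6 := PowerSeries.coeff_subst_X_pow (S := ℚ_[p]) hq (hondaLog p n) (e ())
      rw [h6]
      exact hc_coeff_rel hn (e ())
  rw [hc_multSeries_map]
  ext m
  rw [PowerSeries.coeff_map]
  have h3 := h2 (Finsupp.single () m)
  rw [hc_coeff_unit, hc_coeff_unit, Finsupp.single_eq_same] at h3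
  have h4 : PadicInt.toZMod (PowerSeries.coeff m (multSeries H p) -
      PowerSeries.coeff m (PowerSeries.X ^ (p ^ n) : PowerSeries ℤ_[p])) = 0 := by
    obtain ⟨a, ha⟩ := h3
    rw [ha, map_mul, map_natCast]
    simp
  rw [map_sub, sub_eq_zero] at h4
  rw [h4, PowerSeries.coeff_X_pow, PowerSeries.coeff_X_pow]
  split_ifs <;> simp

theorem hc_comm (hn : 1 ≤ n) {H : FormalGroup ℤ_[p]}
    (h : PowerSeries.subst (H.map (algebraMap ℤ_[p] ℚ_[p])).toPowerSeries (hondaLog p n) =
      PowerSeries.subst (X 0 : MvPowerSeries (Fin 2) ℚ_[p]) (hondaLog p n) +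
      PowerSeries.subst (X 1 : MvPowerSeries (Fin 2) ℚ_[p]) (hondaLog p n)) : H.IsComm := by
  constructor
  set F : MvPowerSeries (Fin 2) ℚ_[p] := (H.map (algebraMap ℤ_[p] ℚ_[p])).toPowerSeries with hF
  have hF0 : constantCoeff F = 0 := (H.map (algebraMap ℤ_[p] ℚ_[p])).zero_constantCoeff
  have h1 := hc_add p n hF0 h (X 1 : MvPowerSeries (Fin 2) ℚ_[p]) (X 0) (by simp) (by simp)
  have hS0 : constantCoeff (MvPowerSeries.subst ![(X 1 : MvPowerSeries (Fin 2) ℚ_[p]), X 0] F) =
      0 := by
    apply constantCoeff_subst_eq_zero HasSubst.X_X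
    · intro i
      fin_cases i <;> simp
    · exact hF0
  have h2 : MvPowerSeries.subst ![(X 1 : MvPowerSeries (Fin 2) ℚ_[p]), X 0] F = F := by
    apply hc_injective p n hn hS0 hF0
    rw [h1, h, add_comm]
  have h3 : MvPowerSeries.map (algebraMap ℤ_[p] ℚ_[p])
      (MvPowerSeries.subst ![(X 1 : MvPowerSeries (Fin 2) ℤ_[p]), X 0] H.toPowerSeries) =
      MvPowerSeries.map (algebraMap ℤ_[p] ℚ_[p]) H.toPowerSeries := by
    rw [MvPowerSeries.map_subst HasSubst.X_X]
    have h4 : (fun i => (![(X 1 : MvPowerSeries (Fin 2) ℤ_[p]), X 0] i).map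
        (algebraMap ℤ_[p] ℚ_[p])) = ![(X 1 : MvPowerSeries (Fin 2) ℚ_[p]), X 0] := by
      funext i
      fin_cases i <;> simp
    rw [h4]
    exact h2
  symm
  ext d
  have h5 := congrArg (coeff d) h3
  rw [coeff_map, coeff_map] at h5
  exact (FaithfulSMul.algebraMap_injective ℤ_[p] ℚ_[p]) h5

theorem hc_pow_degree {κ : Type*} [Field κ] {q : ℕ} (hq : 1 ≤ q) {ω : κ} (hω : ω ^ q = ω)
    {m : ℕ} (hm : 1 ≤ m) (hmod : m ≡ 1 [MOD q - 1]) : ω ^ m = ω := by
  obtain ⟨t, ht⟩ := (Nat.modEq_iff_dvd' hm).mp hmod.symm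
  have hm' : m = 1 + (q - 1) * t := by omega
  rw [hm']
  clear ht hm' hmod hm
  induction t with
  | zero => simp
  | succ t ih =>
    rw [mul_add, mul_one, ← add_assoc, pow_add, ih, ← pow_succ', Nat.sub_add_cancel hq, hω]

end HondaProof

/-- The Honda formal group law over an extension field of `𝔽_p` has all the properties used in the
proof. -/
theorem IsHonda.hondaLike {p n : ℕ} [Fact p.Prime] (hn : 1 ≤ n) {Γ : FormalGroup (ZMod p)}
    (hΓ : IsHonda p n Γ) (κ : Type*) [Field κ] [CharP κ p] (i : ZMod p →+* κ) :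
    HondaLike p n (Γ.map i) := by
  obtain ⟨H, hH, hlog⟩ := hΓ
  refine ⟨?_, ?_, ?_, ?_⟩
  · apply hc_isComm_map
    rw [← hH]
    exact hc_isComm_map H (hc_comm hn hlog) _
  · rw [hc_multSeries_map, ← hH, hc_multSeries_p hn hlog, map_pow, PowerSeries.map_X]
  · intro d
    have h1 : coeff d (Γ.map i).toPowerSeries = i (coeff d Γ.toPowerSeries) := coeff_map _ _ _
    rw [h1, ← map_pow, ZMod.pow_card]
  · intro ω hω d hd
    have h1 : coeff d (Γ.map i).toPowerSeries = i (coeff d Γ.toPowerSeries) := coeff_map _ _ _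
    have hq : 1 ≤ p ^ n := Nat.one_le_iff_ne_zero.mpr (pow_ne_zero _ (Fact.out : p.Prime).ne_zero)
    have hdeg : d.degree = d 0 + d 1 := by
      rw [Finsupp.degree_eq_sum, Fin.sum_univ_two]
    have hpos : 1 ≤ d.degree := by
      by_contra hlt
      apply hd
      have h0 : d = 0 := (Finsupp.degree_eq_zero_iff d).mp (by omega)
      rw [h0, coeff_zero_eq_constantCoeff_apply, (Γ.map i).zero_constantCoeff]
    rw [← hdeg]
    apply hc_pow_degree hq hω hpos
    by_contra hcon
    apply hd
    rw [h1, ← hH]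
    have h2 : coeff d (H.map (PadicInt.toZMod : ℤ_[p] →+* ZMod p)).toPowerSeries =
        PadicInt.toZMod (coeff d H.toPowerSeries) := coeff_map _ _ _
    have h3 : coeff d (H.map (algebraMap ℤ_[p] ℚ_[p])).toPowerSeries =
        algebraMap ℤ_[p] ℚ_[p] (coeff d H.toPowerSeries) := coeff_map _ _ _
    have h4 := hc_support p n hn (H.map (algebraMap ℤ_[p] ℚ_[p])).zero_constantCoeff hlog d hcon
    rw [h3] at h4
    have h5 : coeff d H.toPowerSeries = 0 := by
      apply FaithfulSMul.algebraMap_injective ℤ_[p] ℚ_[p]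
      rw [h4, map_zero]
    rw [h2, h5, map_zero, map_zero]

end Vale.Agent.P217
end
end

section

section

/-!
# P217: generic points in the big field
-/

namespace Vale.Agent.P217

open MvPowerSeries

universe u

section Bound

variable {K : Type*} [NontriviallyNormedField K] [IsUltrametricDist K] [CompleteSpace K]
variable {κ : Type*} [Field κ] [Algebra κ (OK K)]

omit [CompleteSpace K] in
theorem norm_prod_pow_le_generic {d : ℕ} (a : Fin d → MK K) (ρ : ℝ)
    (ha : ∀ i, ‖(a i : OK K)‖ ≤ ρ) (e : Fin d →₀ ℕ) :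
    ‖e.prod (fun s k => (a s : OK K) ^ k)‖ ≤ ρ ^ (Finsupp.degree e) := by
  have h1 : ‖e.prod (fun s k => (a s : OK K) ^ k)‖ = ∏ s, ‖(a s : OK K)‖ ^ (e s) := by
    rw [Finsupp.prod_fintype _ _ (by intro i; simp)]
    have h2 : ∀ (s : Finset (Fin d)) (F : Fin d → OK K), ‖∏ i ∈ s, F i‖ = ∏ i ∈ s, ‖F i‖ := by
      intro s F
      induction s using Finset.cons_induction with
      | empty => exact norm_one (α := K)
      | cons i s hi ih => rw [Finset.prod_cons, Finset.prod_cons, OK_norm_mul, ih]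
    rw [h2]
    exact Finset.prod_congr rfl fun i _ => OK_norm_pow _ _
  have h3 : ρ ^ (Finsupp.degree e) = ∏ s, ρ ^ (e s) := by
    rw [Finset.prod_pow_eq_pow_sum, Finsupp.degree_eq_sum]
  rw [h1, h3]
  exact Finset.prod_le_prod (fun i _ => by positivity)
    fun i _ => pow_le_pow_left₀ (norm_nonneg _) (ha i) _

theorem norm_evk_le_of_order_generic {d : ℕ} (a : Fin d → MK K) (ρ : ℝ) (hρ0 : 0 ≤ ρ) (hρ1 : ρ ≤ 1)
    (ha : ∀ i, ‖(a i : OK K)‖ ≤ ρ) (g : MvPowerSeries (Fin d) κ) (r : ℕ)
    (hg : ∀ e : Fin d →₀ ℕ, Finsupp.degree e < r → coeff e g = 0) :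
    ‖evk κ a g‖ ≤ ρ ^ r := by
  have h1 := hasSum_ev a (MvPowerSeries.map (algebraMap κ (OK K)) g)
  refine le_of_tendsto' h1.norm fun s => norm_sum_le _ _ (by positivity) fun e _ => ?_
  rw [coeff_map]
  by_cases he : Finsupp.degree e < r
  · rw [hg e he, map_zero, zero_mul, norm_zero]
    positivity
  · rw [OK_norm_mul]
    refine (mul_le_of_le_one_left (norm_nonneg _) (norm_le_one _)).trans ?_
    refine (norm_prod_pow_le_generic a ρ ha e).trans ?_
    exact pow_le_pow_of_le_one hρ0 hρ1 (not_lt.1 he)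

end Bound

/-- The big field, with countably many independent residues. -/
theorem exists_bigField_nat (p : ℕ) [Fact p.Prime] (k : Type u) [Field k] [CharP k p] :
    ∃ (K : Type u) (_ : NontriviallyNormedField K) (_ : IsUltrametricDist K)
      (_ : CompleteSpace K) (_ : IsAlgClosed K) (_ : CharP K p) (ι : k →+* K) (t : K)
      (θ : ℕ → K), 0 < ‖t‖ ∧ ‖t‖ < 1 ∧
      ∀ f : MvPolynomial ℕ k, f ≠ 0 → ‖f.eval₂ ι θ‖ = 1 := by
  let F := FractionRing (MvPolynomial ℕ k)
  have hF : CharP F p := charP_of_injective_ringHom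
    ((algebraMap (MvPolynomial ℕ k) F).comp MvPolynomial.C).injective p
  obtain ⟨L, _, _, _, _, i, t, ht0, ht1, hi⟩ := _root_.P217.exists_laurent_field p F
  obtain ⟨K, _, _, _, _, _, j, hj⟩ := _root_.P217.exists_completed_algClosure p L
  refine ⟨K, inferInstance, inferInstance, inferInstance, inferInstance, inferInstance,
    (j.comp i).comp ((algebraMap (MvPolynomial ℕ k) F).comp MvPolynomial.C), j t,
    fun a => j (i (algebraMap (MvPolynomial ℕ k) F (MvPolynomial.X a))),
    by rwa [hj], by rwa [hj],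
    fun f hf => ?_⟩
  have : f.eval₂ ((j.comp i).comp ((algebraMap (MvPolynomial ℕ k) F).comp MvPolynomial.C))
      (fun a => j (i (algebraMap (MvPolynomial ℕ k) F (MvPolynomial.X a)))) =
      (j.comp i) (algebraMap (MvPolynomial ℕ k) F f) := by
    conv_rhs => rw [← MvPolynomial.eval₂_eta f]
    have h := MvPolynomial.hom_eval₂ f MvPolynomial.C
      ((j.comp i).comp (algebraMap (MvPolynomial ℕ k) F)) MvPolynomial.X
    simpa [RingHom.comp_assoc, Function.comp_def] using h.symm
  rw [this, RingHom.comp_apply, hj]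
  exact hi _ (by simpa using hf)

/-- There is a big field with generic points of all dimensions. -/
theorem exists_field_generic (p : ℕ) [Fact p.Prime] (k : Type u) [Field k] [CharP k p] :
    ∃ (K : Type u) (_ : NontriviallyNormedField K) (_ : IsUltrametricDist K)
      (_ : CompleteSpace K) (_ : IsAlgClosed K) (_ : CharP K p) (_ : Algebra k (OK K)),
      HasGenericPoints k K := by
  obtain ⟨K, _, _, _, _, _, ι, t, θ, ht0, ht1, hθ⟩ := exists_bigField_nat p k
  have hι : ∀ c : k, ‖ι c‖ ≤ 1 := by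
    intro c
    by_cases hc : c = 0
    · rw [hc, map_zero, norm_zero]; exact zero_le_one
    · have h1 := hθ (MvPolynomial.C c) (by simpa using hc)
      rw [MvPolynomial.eval₂_C] at h1
      exact h1.le
  have hθ1 : ∀ i, ‖θ i‖ = 1 := by
    intro i
    have h1 := hθ (MvPolynomial.X i) (MvPolynomial.X_ne_zero i)
    rwa [MvPolynomial.eval₂_X] at h1
  let alg : Algebra k (OK K) := RingHom.toAlgebra (ι.codRestrict (OK K) hι)
  have halg : ∀ c : k, ((algebraMap k (OK K) c : OK K) : K) = ι c := fun c => rfl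
  refine ⟨K, inferInstance, inferInstance, inferInstance, inferInstance, inferInstance, alg, ?_⟩
  intro d
  let tO : OK K := ⟨t, ht1.le⟩
  let θO : ℕ → OK K := fun i => ⟨θ i, (hθ1 i).le⟩
  have ha : ∀ i : Fin d, ‖θO i * tO‖ = ‖t‖ := by
    intro i
    rw [OK_norm_mul]
    have h1 : ‖θO i‖ = 1 := hθ1 i
    rw [h1, one_mul]
    rfl
  let a : Fin d → MK K := fun i => ⟨θO i * tO, by rw [ha]; exact ht1⟩
  refine ⟨a, ‖t‖, ht0, ht1, ?_⟩
  intro f hf
  set r := (order f).toNat with hr
  have hord : order f = (r : ℕ∞) := (ne_zero_iff_order_finite.mp hf).symm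
  -- the leading form
  let hp : MvPolynomial (Fin d) k :=
    ∑ e ∈ Finset.univ.finsuppAntidiag r, MvPolynomial.monomial e (coeff e f)
  have hcoeff : ∀ e : Fin d →₀ ℕ, MvPolynomial.coeff e hp =
      if Finsupp.degree e = r then coeff e f else 0 := by
    intro e
    simp only [hp, MvPolynomial.coeff_sum, MvPolynomial.coeff_monomial]
    rw [Finset.sum_ite_eq']
    congr 1
    rw [Finset.mem_finsuppAntidiag, Finsupp.degree_eq_sum]
    simp
  have hp0 : hp ≠ 0 := by
    obtain ⟨e, he1, he2⟩ := exists_coeff_ne_zero_and_order (ne_zero_iff_order_finite.1 hf)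
    intro h0
    have h1 := hcoeff e
    rw [h0, MvPolynomial.coeff_zero, if_pos] at h1
    · exact he1 h1.symm
    · rw [hord] at he2
      exact_mod_cast he2
  have hrest : ‖evk k a (f - (hp : MvPowerSeries (Fin d) k))‖ ≤ ‖t‖ ^ (r + 1) := by
    refine norm_evk_le_of_order_generic a ‖t‖ (norm_nonneg _) ht1.le (fun i => (ha i).le) _ _ ?_
    intro e he
    rw [map_sub, MvPolynomial.coeff_coe, hcoeff]
    by_cases h1 : Finsupp.degree e = r
    · rw [if_pos h1, sub_self]
    · rw [if_neg h1, sub_zero]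
      apply coeff_of_lt_order
      rw [hord]
      exact_mod_cast (by omega : Finsupp.degree e < r)
  -- the value of the leading form
  have hmain : evk k a (hp : MvPowerSeries (Fin d) k) =
      tO ^ r * MvPolynomial.eval₂ (algebraMap k (OK K)) (fun i : Fin d => θO i) hp := by
    have h1 : evk k a (hp : MvPowerSeries (Fin d) k) =
        MvPolynomial.eval₂ (algebraMap k (OK K)) (fun i : Fin d => (a i : OK K)) hp := by
      have h2 : (evk k a).comp (MvPolynomial.coeToMvPowerSeries.ringHom :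
          MvPolynomial (Fin d) k →+* MvPowerSeries (Fin d) k) =
          MvPolynomial.eval₂Hom (algebraMap k (OK K)) (fun i : Fin d => (a i : OK K)) := by
        apply MvPolynomial.ringHom_ext
        · intro c
          simp
        · intro i
          simp
      exact congrArg (fun φ : MvPolynomial (Fin d) k →+* OK K => φ hp) h2
    rw [h1]
    simp only [hp, MvPolynomial.eval₂_sum, MvPolynomial.eval₂_monomial, Finset.mul_sum]
    refine Finset.sum_congr rfl fun e he => ?_
    have h2 : (e.prod fun i k => (a i : OK K) ^ k) = tO ^ r * e.prod fun i k => (θO i) ^ k := by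
      rw [Finset.mem_finsuppAntidiag] at he
      rw [Finsupp.prod_fintype _ _ (by intro i; simp), Finsupp.prod_fintype _ _ (by intro i; simp)]
      have h3 : ∀ i : Fin d, (a i : OK K) ^ e i = θO i ^ e i * tO ^ e i := fun i => mul_pow _ _ _
      simp_rw [h3]
      rw [Finset.prod_mul_distrib, Finset.prod_pow_eq_pow_sum, he.1, mul_comm]
    rw [h2]
    ring
  have hθr : ‖MvPolynomial.eval₂ (algebraMap k (OK K)) (fun i : Fin d => θO i) hp‖ = 1 := by
    have h1 := hθ (MvPolynomial.rename (fun i : Fin d => (i : ℕ)) hp) (by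
      intro h0
      apply hp0
      have hinj : Function.Injective (fun i : Fin d => (i : ℕ)) := Fin.val_injective
      exact MvPolynomial.rename_injective _ hinj (by rw [h0, map_zero]))
    rw [MvPolynomial.eval₂_rename] at h1
    rw [← h1]
    have h2 : ((OK K).subtype : OK K →+* K) (MvPolynomial.eval₂ (algebraMap k (OK K))
        (fun i : Fin d => θO i) hp) = MvPolynomial.eval₂ ι (θ ∘ fun i : Fin d => (i : ℕ)) hp := by
      rw [MvPolynomial.hom_eval₂]
      rfl
    rw [← h2]
    rfl
  have hlead : ‖evk k a (hp : MvPowerSeries (Fin d) k)‖ = ‖t‖ ^ r := by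
    rw [hmain, OK_norm_mul, hθr, mul_one, OK_norm_pow]
    rfl
  have hlt : ‖evk k a (f - (hp : MvPowerSeries (Fin d) k))‖ <
      ‖evk k a (hp : MvPowerSeries (Fin d) k)‖ := by
    refine lt_of_le_of_lt hrest ?_
    rw [hlead]
    exact pow_lt_pow_right_of_lt_one₀ ht0 ht1 (Nat.lt_succ_self r)
  have hsum : evk k a f = evk k a (f - (hp : MvPowerSeries (Fin d) k)) +
      evk k a (hp : MvPowerSeries (Fin d) k) := by
    rw [← map_add, sub_add_cancel]
  rw [hsum, IsUltrametricDist.norm_add_eq_max_of_norm_ne_norm hlt.ne, max_eq_right hlt.le, hlead]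

end Vale.Agent.P217
end
end

section

section

/-!
# P217: preparations for the core theorem: level structures, the endomorphisms `g_{ω,l}` on points
-/

set_option linter.unusedSectionVars false

namespace Vale.Agent.P217

open MvPowerSeries Filter Topology

section BaseChange

variable {R S T : Type*} [CommRing R] [CommRing S] [CommRing T]

theorem core_FG_map_map (F : FormalGroup R) (φ : R →+* S) (ψ : S →+* T) :
    (F.map φ).map ψ = F.map (ψ.comp φ) := by
  apply FormalGroup.ext
  show MvPowerSeries.map ψ (MvPowerSeries.map φ F.toPowerSeries) =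
    MvPowerSeries.map (ψ.comp φ) F.toPowerSeries
  ext e
  simp

theorem core_multSeries_map (F : FormalGroup R) (φ : R →+* S) (m : ℕ) :
    multSeries (F.map φ) m = (multSeries F m).map φ := by
  induction m with
  | zero =>
    have h1 : multSeries F 0 = 0 := rfl
    have h2 : multSeries (F.map φ) 0 = 0 := rfl
    rw [h1, h2, map_zero]
  | succ m ih =>
    rw [FPt.multSeries_succ, FPt.multSeries_succ, ih]
    have h1 := map_subst (core_hasSubst_pair (multSeries F m) (PowerSeries.X : PowerSeries R)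
      (FPt.constantCoeff_multSeries F m) PowerSeries.constantCoeff_X) (h := φ) F.toPowerSeries
    refine Eq.trans ?_ h1.symm
    show MvPowerSeries.subst _ (MvPowerSeries.map φ F.toPowerSeries) = _
    congr 1
    funext i
    fin_cases i
    · rfl
    · exact (PowerSeries.map_X φ).symm

theorem core_map_subst_X_pow (V : PowerSeries R) (φ : R →+* S) {Q : ℕ} (hQ : Q ≠ 0) :
    (PowerSeries.subst (PowerSeries.X ^ Q : PowerSeries R) V : PowerSeries R).map φ =
      PowerSeries.subst (PowerSeries.X ^ Q : PowerSeries S) (V.map φ) := by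
  have hQs : PowerSeries.HasSubst (PowerSeries.X ^ Q : PowerSeries R) := by
    apply PowerSeries.HasSubst.of_constantCoeff_zero'
    rw [map_pow, PowerSeries.constantCoeff_X, zero_pow hQ]
  have h1 := map_subst hQs.const (h := φ) V
  refine h1.trans ?_
  show MvPowerSeries.subst _ (MvPowerSeries.map φ V) = _
  congr 1
  funext i
  have h2 : PowerSeries.map φ (PowerSeries.X ^ Q : PowerSeries R) = PowerSeries.X ^ Q := by
    rw [map_pow, PowerSeries.map_X]
  exact h2

end BaseChange

variable {K : Type*} [NontriviallyNormedField K] [IsUltrametricDist K] [CompleteSpace K]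
variable {p : ℕ} [Fact p.Prime] [CharP K p] [IsAlgClosed K]
variable {n h : ℕ}

section Level

variable {Γ : FormalGroup (OK K)}

theorem exists_zbasis_aux (p : ℕ) [Fact p.Prime] {T : Type*} [AddCommGroup T] [Finite T]
    [Module (ZMod p) T] (m : ℕ) (hc : Nat.card T = p ^ m) :
    ∃ x : Fin m → T, ∀ c : Fin m → ℤ, ∑ j, c j • x j = 0 → ∀ j, (p : ℤ) ∣ c j := by
  classical
  have hMF : Module.Finite (ZMod p) T := Module.Finite.of_finite
  have hfr : Module.finrank (ZMod p) T = m := by
    have h1 := Module.natCard_eq_pow_finrank (K := ZMod p) (V := T)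
    rw [hc, Nat.card_zmod] at h1
    exact (Nat.pow_right_injective (Fact.out : p.Prime).two_le h1).symm
  let b := (Module.finBasis (ZMod p) T).reindex (finCongr hfr)
  refine ⟨fun j => b j, fun c hc j => ?_⟩
  have h1 : ∑ j, (c j : ZMod p) • b j = 0 := by
    rw [← hc]
    exact Finset.sum_congr rfl fun i _ => Int.cast_smul_eq_zsmul _ _ _
  have h2 := Fintype.linearIndependent_iff.1 b.linearIndependent (fun j => (c j : ZMod p)) h1 j
  exact (ZMod.intCast_zmod_eq_zero_iff_dvd _ _).1 h2

/-- A finite elementary abelian `p`-group of order `p^m` has a basis. -/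
theorem exists_zbasis (p : ℕ) [Fact p.Prime] {T : Type*} [AddCommGroup T] [Finite T]
    (hT : ∀ z : T, p • z = 0) (m : ℕ) (hc : Nat.card T = p ^ m) :
    ∃ x : Fin m → T, ∀ c : Fin m → ℤ, ∑ j, c j • x j = 0 → ∀ j, (p : ℤ) ∣ c j := by
  let inst : Module (ZMod p) T := AddCommGroup.zmodModule hT
  exact exists_zbasis_aux p m hc

/-- Level structures exist. -/
theorem exists_level (D : LocalFG p n h Γ) : ∃ x : Fin (n - h) → FPt D.F, IsLevel D x := by
  classical
  obtain ⟨S, hS, hcard, -⟩ := D.exists_ptorsion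
  let T : AddSubgroup (FPt D.F) := (nsmulAddMonoidHom p : FPt D.F →+ FPt D.F).ker
  have hT : ∀ z, z ∈ T ↔ p • z = 0 := fun z => AddMonoidHom.mem_ker
  have hTS : (T : Set (FPt D.F)) = (S : Set (FPt D.F)) := by
    ext z
    rw [SetLike.mem_coe, hT, Finset.mem_coe, hS]
  have hTcard : Nat.card T = p ^ (n - h) := by
    have h1 : Nat.card T = Nat.card (T : Set (FPt D.F)) := rfl
    rw [h1, hTS, Nat.card_coe_set_eq, Set.ncard_coe_finset, hcard]
  have hTfin : Finite T := by
    apply Nat.finite_of_card_ne_zero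
    rw [hTcard]
    exact pow_ne_zero _ (Fact.out : p.Prime).ne_zero
  obtain ⟨x, hx⟩ := exists_zbasis p (T := T) (by
    intro z
    apply Subtype.ext
    have := (hT z).1 z.2
    simpa using this) (n - h) hTcard
  refine ⟨fun j => (x j : FPt D.F), fun j => (hT _).1 (x j).2, ?_⟩
  intro c hc
  apply hx c
  apply Subtype.ext
  rw [AddSubgroup.coe_zero, ← hc, AddSubgroup.val_finsetSum]
  rfl

end Level

section Gomega

variable {κ : Type*} [Field κ] [Algebra κ (OK K)] {Γ₀ : FormalGroup κ}

theorem continuous_OK_pow (l : ℕ) : Continuous fun x : OK K => x ^ (p ^ l) := by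
  fun_prop

/-- Frobenius and evaluation. -/
theorem ev_pow_of_frob {σ : Type*} [Finite σ] (a b : σ → MK K) (f : MvPowerSeries σ (OK K))
    (l : ℕ) (hab : ∀ i, (b i : OK K) = (a i : OK K) ^ (p ^ l))
    (hf : ∀ e, (coeff e f) ^ (p ^ l) = coeff e f) : (ev a f) ^ (p ^ l) = ev b f := by
  have h1 := hasSum_ev a f
  have h2 := h1.map (iterateFrobenius (OK K) p l) (by
    show Continuous fun x : OK K => iterateFrobenius (OK K) p l x
    simp only [iterateFrobenius_def]
    exact continuous_OK_pow l)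
  rw [iterateFrobenius_def] at h2
  have h3 := hasSum_ev b f
  refine h2.unique ?_
  have hfun : (iterateFrobenius (OK K) p l) ∘ (fun d : σ →₀ ℕ =>
      coeff d f * d.prod (fun s e => (a s : OK K) ^ e)) =
      fun d : σ →₀ ℕ => coeff d f * d.prod (fun s e => (b s : OK K) ^ e) := by
    funext e
    show iterateFrobenius (OK K) p l _ = _
    rw [iterateFrobenius_def, mul_pow, hf]
    congr 1
    rw [Finsupp.prod, Finsupp.prod, ← Finset.prod_pow]
    refine Finset.prod_congr rfl fun i _ => ?_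
    rw [hab, ← pow_mul, ← pow_mul, mul_comm]
  rw [hfun]
  exact h3

theorem HondaLike.coeff_pow (hΓ₀ : HondaLike p n Γ₀) (l : ℕ) (e : Fin 2 →₀ ℕ) :
    (coeff e Γ₀.toPowerSeries) ^ (p ^ l) = coeff e Γ₀.toPowerSeries := by
  induction l with
  | zero => simp
  | succ l ih => rw [pow_succ, pow_mul, ih, hΓ₀.prime_coeff]

/-- multiplication by `ω` on points. -/
theorem ev_mul_omega (hΓ₀ : HondaLike p n Γ₀) (ω : κ) (hω : ω ^ (p ^ n) = ω)
    (a b : Fin 2 → MK K) (hab : ∀ i, (b i : OK K) = algebraMap κ (OK K) ω * (a i : OK K)) :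
    algebraMap κ (OK K) ω * ev a (Γ₀.map (algebraMap κ (OK K))).toPowerSeries =
      ev b (Γ₀.map (algebraMap κ (OK K))).toPowerSeries := by
  have h1 := (hasSum_ev a (Γ₀.map (algebraMap κ (OK K))).toPowerSeries).mul_left
    (algebraMap κ (OK K) ω)
  have h3 := hasSum_ev b (Γ₀.map (algebraMap κ (OK K))).toPowerSeries
  refine h1.unique ?_
  refine Eq.subst (motive := fun F : (Fin 2 →₀ ℕ) → OK K => HasSum F _) ?_ h3
  funext e
  symm
  have h4 : coeff e (Γ₀.map (algebraMap κ (OK K))).toPowerSeries =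
      algebraMap κ (OK K) (coeff e Γ₀.toPowerSeries) := by
    show coeff e (MvPowerSeries.map _ Γ₀.toPowerSeries) = _
    rw [coeff_map]
  rw [h4, Finsupp.prod_fintype _ _ (by intro i; simp), Finsupp.prod_fintype _ _ (by intro i; simp),
    Fin.prod_univ_two, Fin.prod_univ_two, hab, hab, mul_pow, mul_pow]
  by_cases h0 : coeff e Γ₀.toPowerSeries = 0
  · rw [h0]; simp
  · have h5 := hΓ₀.homog ω hω e h0
    have h6 : algebraMap κ (OK K) ω ^ (e 0 + e 1) = algebraMap κ (OK K) ω := by
      rw [← map_pow, h5]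
    calc algebraMap κ (OK K) ω * (algebraMap κ (OK K) (coeff e Γ₀.toPowerSeries) *
          ((a 0 : OK K) ^ e 0 * (a 1 : OK K) ^ e 1))
        = algebraMap κ (OK K) ω ^ (e 0 + e 1) * (algebraMap κ (OK K) (coeff e Γ₀.toPowerSeries) *
          ((a 0 : OK K) ^ e 0 * (a 1 : OK K) ^ e 1)) := by rw [h6]
      _ = _ := by rw [pow_add]; ring

/-- `Y ↦ ω Y^(p^l)` is additive on the points of `Γ`. -/
theorem powPt_add (hΓ₀ : HondaLike p n Γ₀) (ω : κ) (hω : ω ^ (p ^ n) = ω) (l : ℕ)
    (Y Z : FPt (Γ₀.map (algebraMap κ (OK K)))) :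
    powPt p (algebraMap κ (OK K) ω) l (Y + Z) =
      powPt p (algebraMap κ (OK K) ω) l Y + powPt p (algebraMap κ (OK K) ω) l Z := by
  apply FPt.ext
  rw [val_powPt, FPt.val_add, FPt.val_add]
  have hlt : ∀ i : Fin 2, ‖((![Y, Z] : Fin 2 → MK K) i : OK K) ^ (p ^ l)‖ < 1 := by
    intro i
    rw [OK_norm_pow]
    exact pow_lt_one₀ (norm_nonneg _) ((![Y, Z] : Fin 2 → MK K) i).2
      (pow_ne_zero _ (Fact.out : p.Prime).ne_zero)
  let b : Fin 2 → MK K := fun i => ⟨((![Y, Z] : Fin 2 → MK K) i : OK K) ^ (p ^ l), hlt i⟩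
  have h1 := ev_pow_of_frob (p := p) (![Y, Z] : Fin 2 → MK K) b
    (Γ₀.map (algebraMap κ (OK K))).toPowerSeries l (fun i => rfl) (by
      intro e
      have h4 : coeff e (Γ₀.map (algebraMap κ (OK K))).toPowerSeries =
          algebraMap κ (OK K) (coeff e Γ₀.toPowerSeries) := by
        show coeff e (MvPowerSeries.map _ Γ₀.toPowerSeries) = _
        rw [coeff_map]
      rw [h4, ← map_pow, hΓ₀.coeff_pow])
  rw [h1]
  apply ev_mul_omega hΓ₀ ω hω
  intro i
  fin_cases i
  · rfl
  · rfl

variable [(Γ₀.map (algebraMap κ (OK K))).IsComm]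

/-- The endomorphism `g_{ω,l}` on points. -/
noncomputable def gHom (hΓ₀ : HondaLike p n Γ₀) (ω : κ) (hω : ω ^ (p ^ n) = ω) (l : ℕ) :
    FPt (Γ₀.map (algebraMap κ (OK K))) →+ FPt (Γ₀.map (algebraMap κ (OK K))) where
  toFun Y := Y + powPt p (algebraMap κ (OK K) ω) l Y
  map_zero' := by
    rw [zero_add]
    apply FPt.ext
    rw [val_powPt, FPt.val_zero, zero_pow (pow_ne_zero _ (Fact.out : p.Prime).ne_zero), mul_zero]
  map_add' Y Z := by
    rw [powPt_add hΓ₀ ω hω]
    abel

theorem gHom_apply (hΓ₀ : HondaLike p n Γ₀) (ω : κ) (hω : ω ^ (p ^ n) = ω) (l : ℕ)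
    (Y : FPt (Γ₀.map (algebraMap κ (OK K)))) :
    gHom hΓ₀ ω hω l Y = Y + powPt p (algebraMap κ (OK K) ω) l Y := rfl

/-- `gHom` commutes with division by `p^N`. -/
theorem divp_gHom (hΓ₀ : HondaLike p n Γ₀)
    (D : LocalFG p n h (Γ₀.map (algebraMap κ (OK K)))) (ω : κ)
    (hω : ω ^ (p ^ n) = ω) (l N : ℕ) (Y : FPt (Γ₀.map (algebraMap κ (OK K)))) :
    divp p n N (gHom hΓ₀ ω hω l Y) = gHom hΓ₀ ω hω l (divp p n N Y) := by
  rw [gHom_apply, gHom_apply, D.divp_add]
  congr 1
  apply FPt.ext
  show rt p (n * N) (algebraMap κ (OK K) ω * Y.val ^ (p ^ l)) =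
    algebraMap κ (OK K) ω * (rt p (n * N) Y.val) ^ (p ^ l)
  rw [map_mul, map_pow]
  congr 1
  have h1 : algebraMap κ (OK K) ω = (algebraMap κ (OK K) ω) ^ (p ^ (n * N)) := by
    have h2 : ω ^ (p ^ (n * N)) = ω := by
      induction N with
      | zero => simp
      | succ N ih => rw [Nat.mul_succ, pow_add, pow_mul, ih, hω]
    rw [← map_pow, h2]
  conv_lhs => rw [h1]
  rw [rt_of_pow]

/-- evaluation of the series `g_{ω,l}`. -/
theorem evk_gser (ω : κ) (l : ℕ) (Y : FPt (Γ₀.map (algebraMap κ (OK K)))) :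
    evk κ (fun _ : Unit => (Y : MK K)) (gser p Γ₀ ω l) =
      (Y + powPt p (algebraMap κ (OK K) ω) l Y).val := by
  unfold gser
  rw [FPt.val_add]
  have h1 := evk_subst (fun _ : Unit => (Y : MK K)) Γ₀.toPowerSeries
    ![(PowerSeries.X : PowerSeries κ), PowerSeries.C ω * PowerSeries.X ^ (p ^ l)] (by
      intro i
      fin_cases i
      · exact PowerSeries.constantCoeff_X
      · show PowerSeries.constantCoeff (PowerSeries.C ω * PowerSeries.X ^ (p ^ l)) = 0
        rw [map_mul, map_pow, PowerSeries.constantCoeff_X,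
          zero_pow (pow_ne_zero _ (Fact.out : p.Prime).ne_zero), mul_zero])
    (![Y, powPt p (algebraMap κ (OK K) ω) l Y] : Fin 2 → MK K) (by
      intro i
      fin_cases i
      · exact (evk_X (κ := κ) (fun _ : Unit => (Y : MK K)) ()).symm
      · show algebraMap κ (OK K) ω * Y.val ^ (p ^ l) =
          evk κ (fun _ : Unit => (Y : MK K)) (PowerSeries.C ω * PowerSeries.X ^ (p ^ l))
        rw [map_mul, map_pow]
        have h2 : evk κ (fun _ : Unit => (Y : MK K)) (PowerSeries.C ω) =
            algebraMap κ (OK K) ω := evk_C _ _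
        have h3 : evk κ (fun _ : Unit => (Y : MK K)) (PowerSeries.X : PowerSeries κ) =
            Y.val := evk_X _ _
        rw [h2, h3])
  exact h1

end Gomega

end Vale.Agent.P217
end
end

section

section

/-!
# P217: points with prescribed prime kernel, lifts of automorphisms at points
-/

set_option linter.unusedSectionVars false

namespace Vale.Agent.P217

open MvPowerSeries Filter Topology

section Prime

variable {K : Type*} [NontriviallyNormedField K] [IsUltrametricDist K] [CompleteSpace K]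
variable {κ : Type*} [Field κ] [Algebra κ (OK K)]

/-- Every prime ideal of `κ[[y]]` is the kernel of the evaluation at a point. -/
theorem exists_point_of_prime [Infinite κ] [IsAlgClosed K] (hgen : HasGenericPoints κ K) {m : ℕ}
    (P : Ideal (MvPowerSeries (Fin m) κ)) [hPp : P.IsPrime] :
    ∃ y : Fin m → MK K, ∀ f, evk κ y f = 0 ↔ f ∈ P := by
  have hinj : ∀ (d : ℕ) (a : Fin d → MK K) (ρ : ℝ), 0 < ρ →
      (∀ f : MvPowerSeries (Fin d) κ, f ≠ 0 →
        ‖evk κ a f‖ = ρ ^ (MvPowerSeries.order f).toNat) → ∀ f, evk κ a f = 0 → f = 0 := by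
    intro d a ρ hρ0 ha f hf
    by_contra hf0
    have := ha f hf0
    rw [hf, norm_zero] at this
    exact (pow_pos hρ0 _).ne this
  by_cases hP0 : P = ⊥
  · obtain ⟨a, ρ, hρ0, hρ1, ha⟩ := hgen m
    refine ⟨a, fun f => ⟨fun hf => ?_, fun hf => ?_⟩⟩
    · rw [hinj m a ρ hρ0 ha f hf]
      exact P.zero_mem
    · rw [hP0, Ideal.mem_bot] at hf
      rw [hf, map_zero]
  obtain ⟨d, hd, B, hB1, hB2, -⟩ := noether_normalization (K := K) P hP0 hPp.ne_top
  obtain ⟨a, ρ, hρ0, hρ1, ha⟩ := hgen d
  have hainj : Function.Injective (evk κ a) := by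
    rw [injective_iff_map_eq_zero]
    exact hinj d a ρ hρ0 ha
  have hdom : IsDomain (MvPowerSeries (Fin d) κ) := NoZeroDivisors.to_isDomain _
  obtain ⟨ψ, hψ1, hψ2⟩ := exists_extension (linHom B) (evk κ a) hainj P hB2 hB1
  -- the values of the variables are small
  have hsmall : ∀ j, ‖ψ (X j)‖ < 1 := by
    let M : Ideal (OK K) := ballIdeal K 1
    have hM : ∀ x : OK K, x ∈ M ↔ ‖x‖ < 1 := by
      intro x
      constructor
      · rintro (h | rfl)
        · exact h
        · simp
      · intro h; exact Or.inl h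
    have hMprime : M.IsPrime := by
      refine ⟨?_, ?_⟩
      · rw [Ideal.ne_top_iff_one, hM]
        have : ‖(1 : OK K)‖ = 1 := norm_one (α := K)
        rw [this]
        exact lt_irrefl _
      · intro x y hxy
        rw [hM, OK_norm_mul] at hxy
        by_contra! hcon
        rw [hM, hM, not_lt, not_lt] at hcon
        have h1 := one_le_mul_of_one_le_of_one_le hcon.1 hcon.2
        exact absurd hxy (not_lt.mpr h1)
    let q : Ideal (MvPowerSeries (Fin m) κ) := M.comap ψ
    have hPq : P ≤ q := by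
      intro x hx
      rw [← hψ2, RingHom.mem_ker] at hx
      rw [Ideal.mem_comap, hx]
      exact M.zero_mem
    have hqmap : (q.map (Ideal.Quotient.mk P)).comap (Ideal.Quotient.mk P) = q := by
      rw [Ideal.comap_map_of_surjective _ Ideal.Quotient.mk_surjective, ← RingHom.ker_eq_comap_bot,
        Ideal.mk_ker]
      exact sup_eq_left.mpr hPq
    have hqprime : (q.map (Ideal.Quotient.mk P)).IsPrime := by
      apply Ideal.map_isPrime_of_surjective Ideal.Quotient.mk_surjective
      rw [Ideal.mk_ker]; exact hPq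
    have hmax : (q.map (Ideal.Quotient.mk P)).IsMaximal := by
      refine Ideal.isMaximal_of_isIntegral_of_isMaximal_comap' _ hB2 _ ?_
      have h1 : (q.map (Ideal.Quotient.mk P)).comap ((Ideal.Quotient.mk P).comp (linHom B)) =
          IsLocalRing.maximalIdeal (MvPowerSeries (Fin d) κ) := by
        rw [← Ideal.comap_comap, hqmap]
        ext g
        rw [Ideal.mem_comap, Ideal.mem_comap, hψ1, hM, norm_evk_lt, mem_maximalIdeal_iff]
      rw [h1]
      infer_instance
    have hqmax : q.IsMaximal := by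
      have := Ideal.comap_isMaximal_of_surjective (Ideal.Quotient.mk P)
        Ideal.Quotient.mk_surjective (K := q.map (Ideal.Quotient.mk P))
      rwa [hqmap] at this
    have hq : q = IsLocalRing.maximalIdeal _ := IsLocalRing.eq_maximalIdeal hqmax
    intro j
    rw [← hM, ← Ideal.mem_comap]
    change X j ∈ q
    rw [hq, mem_maximalIdeal_iff]
    exact constantCoeff_X j
  let y : Fin m → MK K := fun j => ⟨ψ (X j), hsmall j⟩
  have hψy : evk κ y = ψ := by
    refine ringHom_ext (fun c => ?_) (fun j => ?_) (fun j => ?_)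
    · have h1 : (C c : MvPowerSeries (Fin m) κ) = linHom B (C c) := by
        rw [linHom_eq_linSubst]
        exact (linSubst_C _ c).symm
      rw [evk_C, h1, hψ1, evk_C]
    · rw [evk_X]
    · rw [evk_X]; exact hsmall j
  refine ⟨y, fun f => ?_⟩
  rw [hψy, ← hψ2, RingHom.mem_ker]

end Prime

section LiftPoint

variable {K : Type*} [NontriviallyNormedField K] [IsUltrametricDist K] [CompleteSpace K]
variable {p : ℕ} [Fact p.Prime] [CharP K p] [IsAlgClosed K]
variable {n h : ℕ}
variable {κ : Type*} [Field κ] [Algebra κ (OK K)] {Γ₀ : FormalGroup κ}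
variable {A : FamFG p n h κ Γ₀} {ω : κ} {l : ℕ}

/-- The point `u' = (φ(u_i)(u))_i`. -/
noncomputable def Lift.pt (L : Lift A ω l) (u : Fin (n - h) → MK K) : Fin (n - h) → MK K :=
  fun i => ⟨evk κ u (L.φ (X i)), (norm_evk_lt _ _).2 (L.hφ i)⟩

theorem Lift.evk_pt (L : Lift A ω l) (u : Fin (n - h) → MK K) :
    evk κ (L.pt u) = (evk κ u).comp
      (L.φ : MvPowerSeries (Fin (n - h)) κ →+* MvPowerSeries (Fin (n - h)) κ) := by
  refine ringHom_ext (fun c => ?_) (fun j => ?_) (fun j => ?_)
  · rw [evk_C, RingHom.comp_apply]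
    have h1 : L.φ (C c) = C c := L.φ.commutes c
    rw [RingHom.coe_coe, h1, evk_C]
  · rw [evk_X]; rfl
  · rw [evk_X]; exact (L.pt u j).2

theorem Lift.pt_ne_zero (L : Lift A ω l) (u : Fin (n - h) → MK K)
    (hu : (u A.i0 : OK K) ≠ 0) : (L.pt u A.i0 : OK K) ≠ 0 := by
  intro h0
  have hQ : p ^ h ≠ 0 := pow_ne_zero _ (Fact.out : p.Prime).ne_zero
  set φ : MvPowerSeries (Fin (n - h)) κ →+* MvPowerSeries (Fin (n - h)) κ :=
    (L.φ : MvPowerSeries (Fin (n - h)) κ →+* MvPowerSeries (Fin (n - h)) κ) with hφ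
  have hV : multSeries (A.G.map φ) p =
      PowerSeries.subst (PowerSeries.X ^ (p ^ h) : PowerSeries (MvPowerSeries (Fin (n - h)) κ))
        (A.V.map φ) := by
    rw [core_multSeries_map, A.series]
    exact core_map_subst_X_pow _ _ hQ
  have hV0 : PowerSeries.constantCoeff (A.V.map φ) = 0 := by
    have h1 := congrArg φ A.V_zero
    rw [map_zero] at h1
    rw [← h1]
    rfl
  have h1 := L.iso.1.coeff_one_rel hQ p A.V_zero hV0 A.series hV
  obtain ⟨e, he, hVe⟩ := A.V_one
  have h2 : PowerSeries.coeff 1 (A.V.map φ) = φ (PowerSeries.coeff 1 A.V) := rfl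
  rw [h2, hVe] at h1
  have h3 := congrArg (evk κ u) h1
  rw [map_mul, map_mul, map_mul] at h3
  have h4 : evk κ u (φ (e * X (⟨0, Nat.sub_pos_of_lt A.h_lt_n⟩ : Fin (n - h)))) = 0 := by
    have h5 : evk κ u (φ (X (⟨0, Nat.sub_pos_of_lt A.h_lt_n⟩ : Fin (n - h)))) = 0 := h0
    rw [map_mul, map_mul, h5, mul_zero]
  rw [h4, zero_mul] at h3
  have h6 : evk κ u (PowerSeries.coeff 1 L.g) ≠ 0 :=
    ((L.iso.2).map (evk κ u)).ne_zero
  have h7 : evk κ u e ≠ 0 := (he.map (evk κ u)).ne_zero
  have h8 : evk κ u (X (⟨0, Nat.sub_pos_of_lt A.h_lt_n⟩ : Fin (n - h))) ≠ 0 := by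
    rw [evk_X]; exact hu
  exact mul_ne_zero h6 (mul_ne_zero h7 h8) h3

variable (hΓ₀ : HondaLike p n Γ₀)

theorem Lift.isHom (L : Lift A ω l) (u : Fin (n - h) → MK K)
    (hu : (u A.i0 : OK K) ≠ 0) :
    IsHom (A.fib hΓ₀ u hu).F (A.fib hΓ₀ (L.pt u) (L.pt_ne_zero u hu)).F
      (L.g.map (evk κ u)) := by
  have h1 := L.iso.1.map (evk κ u)
  rw [core_FG_map_map, ← L.evk_pt] at h1
  exact h1

/-- The isomorphism from the formal group at `u` to the formal group at `u'`. -/
noncomputable def Lift.tau (L : Lift A ω l) (u : Fin (n - h) → MK K)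
    (hu : (u A.i0 : OK K) ≠ 0) :
    FPt (A.fib hΓ₀ u hu).F →+ FPt (A.fib hΓ₀ (L.pt u) (L.pt_ne_zero u hu)).F :=
  FPt.mapHom (L.g.map (evk κ u)) (L.isHom hΓ₀ u hu)

theorem Lift.val_tau (L : Lift A ω l) (u : Fin (n - h) → MK K)
    (hu : (u A.i0 : OK K) ≠ 0) (a : FPt (A.fib hΓ₀ u hu).F) :
    (L.tau hΓ₀ u hu a).val = ev (fun _ : Unit => (a : MK K)) (L.g.map (evk κ u)) := rfl

theorem Lift.norm_tau (L : Lift A ω l) (u : Fin (n - h) → MK K)
    (hu : (u A.i0 : OK K) ≠ 0) (a : FPt (A.fib hΓ₀ u hu).F) :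
    ‖(L.tau hΓ₀ u hu a).val‖ = ‖a.val‖ := by
  have hiso := L.isHom hΓ₀ u hu
  have h1 : ‖ev (fun _ : Unit => (a : MK K)) (L.g.map (evk κ u)) -
      PowerSeries.coeff 1 (L.g.map (evk κ u)) * a.val‖ ≤ ‖a.val‖ ^ 2 :=
    norm_ev_sub_coeff_one_le (a : MK K) (L.g.map (evk κ u)) hiso.1
  have h2 : ‖PowerSeries.coeff 1 (L.g.map (evk κ u)) * a.val‖ = ‖a.val‖ := by
    have h3 : IsUnit (PowerSeries.coeff 1 (L.g.map (evk κ u))) := (L.iso.2).map (evk κ u)
    rw [OK_norm_mul]
    obtain ⟨v, hv⟩ := h3.exists_right_inv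
    have h4 : ‖PowerSeries.coeff 1 (L.g.map (evk κ u))‖ = 1 := by
      refine le_antisymm (norm_le_one _) ?_
      have h5 : ‖PowerSeries.coeff 1 (L.g.map (evk κ u))‖ * ‖v‖ = 1 := by
        rw [← OK_norm_mul, hv]
        exact norm_one (α := K)
      rw [← h5]
      exact mul_le_of_le_one_right (norm_nonneg _) (norm_le_one _)
    rw [h4, one_mul]
  rw [L.val_tau]
  by_cases ha : a.val = 0
  · rw [ha, mul_zero, sub_zero, norm_zero] at h1
    rw [ha, norm_zero]
    refine le_antisymm (by simpa using h1) (norm_nonneg _)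
  · have hpos : 0 < ‖a.val‖ := norm_pos_iff.2 ha
    have h3 : ‖ev (fun _ : Unit => (a : MK K)) (L.g.map (evk κ u)) -
        PowerSeries.coeff 1 (L.g.map (evk κ u)) * a.val‖ <
        ‖PowerSeries.coeff 1 (L.g.map (evk κ u)) * a.val‖ := by
      rw [h2]
      refine lt_of_le_of_lt h1 ?_
      show ‖a.val‖ ^ 2 < ‖a.val‖
      have := a.norm_val_lt
      nlinarith
    have h4 : ev (fun _ : Unit => (a : MK K)) (L.g.map (evk κ u)) =
        (ev (fun _ : Unit => (a : MK K)) (L.g.map (evk κ u)) -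
        PowerSeries.coeff 1 (L.g.map (evk κ u)) * a.val) +
        PowerSeries.coeff 1 (L.g.map (evk κ u)) * a.val := by ring
    rw [h4, IsUltrametricDist.norm_add_eq_max_of_norm_ne_norm h3.ne, max_eq_right h3.le, h2]

theorem Lift.tau_eq_zero (L : Lift A ω l) (u : Fin (n - h) → MK K)
    (hu : (u A.i0 : OK K) ≠ 0) (a : FPt (A.fib hΓ₀ u hu).F)
    (ha : L.tau hΓ₀ u hu a = 0) : a = 0 := by
  have h1 := L.norm_tau hΓ₀ u hu a
  rw [ha, FPt.val_zero, norm_zero] at h1
  exact FPt.ext (norm_eq_zero.1 h1.symm)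

/-- Level structures are transported by `τ`. -/
theorem Lift.isLevel_tau (L : Lift A ω l) (u : Fin (n - h) → MK K)
    (hu : (u A.i0 : OK K) ≠ 0) (x : Fin (n - h) → FPt (A.fib hΓ₀ u hu).F)
    (hx : IsLevel (A.fib hΓ₀ u hu) x) :
    IsLevel (A.fib hΓ₀ (L.pt u) (L.pt_ne_zero u hu)) (fun j => L.tau hΓ₀ u hu (x j)) := by
  refine ⟨fun j => ?_, fun c hc => ?_⟩
  · rw [← map_nsmul, hx.tors, map_zero]
  · apply hx.indep c
    apply L.tau_eq_zero hΓ₀ u hu
    rw [map_sum, ← hc]
    exact Finset.sum_congr rfl fun i _ => map_zsmul _ _ _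

/-- The bound `‖u_i‖ ≤ r`. -/
theorem exists_bound_pt (u : Fin (n - h) → MK K) : ∃ r : ℝ, 0 ≤ r ∧ r < 1 ∧
    ∀ i, ‖(u i : OK K)‖ ≤ r := exists_bound (fun i => ‖(u i : OK K)‖) fun i => (u i).2

theorem norm_evk_sub_const_le (u : Fin (n - h) → MK K) (r : ℝ) (hr : 0 ≤ r)
    (hur : ∀ i, ‖(u i : OK K)‖ ≤ r) (c : MvPowerSeries (Fin (n - h)) κ) :
    ‖evk κ u c - algebraMap κ (OK K) (constantCoeff c)‖ ≤ r := by
  have h1 : evk κ u c - algebraMap κ (OK K) (constantCoeff c) =
      evk κ u (c - C (constantCoeff c)) := by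
    rw [map_sub, evk_C]
  rw [h1]
  refine norm_ev_le_of_constantCoeff u _ r hr ?_ hur
  rw [← coeff_zero_eq_constantCoeff_apply, coeff_map, coeff_zero_eq_constantCoeff_apply,
    map_sub, constantCoeff_C, sub_self, map_zero]

variable [hΓc : (Γ₀.map (algebraMap κ (OK K))).IsComm]

/-- Functoriality of `E` under the lifts. -/
theorem Lift.tau_E (L : Lift A ω l) (hω : ω ^ (p ^ n) = ω) (u : Fin (n - h) → MK K)
    (hu : (u A.i0 : OK K) ≠ 0) (Y : FPt (Γ₀.map (algebraMap κ (OK K)))) :
    L.tau hΓ₀ u hu ((A.fib hΓ₀ u hu).E Y) =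
      (A.fib hΓ₀ (L.pt u) (L.pt_ne_zero u hu)).E
        (Y + powPt p (algebraMap κ (OK K) ω) l Y) := by
  obtain ⟨r, hr0, hr1, hur⟩ := exists_bound_pt u
  rw [← gHom_apply hΓ₀ ω hω l Y]
  refine (A.fib hΓ₀ u hu).E_functorial (A.fib hΓ₀ (L.pt u) (L.pt_ne_zero u hu))
    (L.tau hΓ₀ u hu) (gHom hΓ₀ ω hω l) ?_ r hr1 ?_ ?_ Y
  · intro a b
    rw [L.val_tau, L.val_tau]
    exact norm_ev_sub_le _ _ _ _ (norm_nonneg _) fun _ => le_rfl
  · intro a Z haZ
    rw [L.val_tau, gHom_apply, ← evk_gser, ← L.red]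
    have haZ' : (fun _ : Unit => (a : MK K)) = fun _ : Unit => (Z : MK K) := by
      funext _
      exact Subtype.ext haZ
    rw [haZ']
    refine norm_ev_sub_le' _ _ _ _ hr0 ?_
    intro d
    have h1 : coeff d (L.g.map (evk κ u)) = evk κ u (coeff d L.g) := rfl
    have h2 : coeff d (MvPowerSeries.map (algebraMap κ (OK K))
        (L.g.map MvPowerSeries.constantCoeff)) =
        algebraMap κ (OK K) (constantCoeff (coeff d L.g)) := by
      rw [coeff_map]
      rfl
    rw [h1]
    have h3 := norm_evk_sub_const_le u r hr0 hur (coeff d L.g)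
    exact h3
  · intro N Z
    exact divp_gHom hΓ₀ (A.fib hΓ₀ u hu) ω hω l N Z

end LiftPoint

end Vale.Agent.P217
end
end

section

section

/-!
# P217: polynomials over `κ[[s_1..s_d]]`: Taylor expansion, minimal polynomials
-/

namespace Vale.Agent.P217

open MvPowerSeries Filter Topology

section Points

variable {K : Type*} [NontriviallyNormedField K] [IsUltrametricDist K] [CompleteSpace K]
variable {κ : Type*} [Field κ] [Algebra κ (OK K)] {d : ℕ}

/-- Evaluation of a polynomial over `κ[[s]]` at a point. -/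
noncomputable def evP (s : Fin d → MK K) (M : Polynomial (MvPowerSeries (Fin d) κ)) (T : OK K) :
    OK K :=
  (M.map (evk κ s)).eval T

theorem map_pderiv_aux (i : Fin d) (f : MvPowerSeries (Fin d) κ) :
    MvPowerSeries.pderiv (OK K) i (MvPowerSeries.map (algebraMap κ (OK K)) f) =
      MvPowerSeries.map (algebraMap κ (OK K)) (MvPowerSeries.pderiv κ i f) := by
  ext n
  simp [MvPowerSeries.coeff_pderiv]

theorem norm_evk_taylor (a b : Fin d → MK K) (f : MvPowerSeries (Fin d) κ) (r : ℝ)
    (hr : 0 ≤ r) (h : ∀ i, ‖(a i : OK K) - b i‖ ≤ r) :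
    ‖evk κ a f - evk κ b f - ∑ i, evk κ b (MvPowerSeries.pderiv κ i f) * ((a i : OK K) - b i)‖
      ≤ r ^ 2 := by
  have := norm_ev_taylor a b (MvPowerSeries.map (algebraMap κ (OK K)) f) r hr h
  simp_rw [map_pderiv_aux] at this
  exact this

theorem norm_pow_taylor (k : ℕ) (T T' : OK K) (r : ℝ) (hr : 0 ≤ r) (hT : ‖T' - T‖ ≤ r) :
    ‖T' ^ k - T ^ k - (k : OK K) * T ^ (k - 1) * (T' - T)‖ ≤ r ^ 2 := by
  obtain ⟨c, hc⟩ := Polynomial.powAddExpansion T (T' - T) k
  have h1 : T' ^ k - T ^ k - (k : OK K) * T ^ (k - 1) * (T' - T) = c * (T' - T) ^ 2 := by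
    have h2 : T' = T + (T' - T) := by ring
    nth_rewrite 1 [h2]
    rw [hc]
    ring
  rw [h1, OK_norm_mul, OK_norm_pow]
  exact (mul_le_of_le_one_left (by positivity) (norm_le_one _)).trans
    (pow_le_pow_left₀ (norm_nonneg _) hT 2)

theorem evP_add (s : Fin d → MK K) (M N : Polynomial (MvPowerSeries (Fin d) κ)) (T : OK K) :
    evP s (M + N) T = evP s M T + evP s N T := by
  simp [evP]

theorem evP_monomial (s : Fin d → MK K) (k : ℕ) (f : MvPowerSeries (Fin d) κ) (T : OK K) :
    evP s (Polynomial.monomial k f) T = evk κ s f * T ^ k := by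
  simp [evP]

theorem pdC_add (i : Fin d) (M N : Polynomial (MvPowerSeries (Fin d) κ)) :
    pdC i (M + N) = pdC i M + pdC i N := by
  ext k : 1
  simp

theorem pdC_monomial (i : Fin d) (k : ℕ) (f : MvPowerSeries (Fin d) κ) :
    pdC i (Polynomial.monomial k f) = Polynomial.monomial k (MvPowerSeries.pderiv κ i f) := by
  ext j : 1
  rw [coeff_pdC, Polynomial.coeff_monomial, Polynomial.coeff_monomial]
  split_ifs <;> simp

/-- Taylor expansion of a polynomial over `κ[[s]]`. -/
theorem norm_evP_taylor (M : Polynomial (MvPowerSeries (Fin d) κ)) (s s' : Fin d → MK K)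
    (T T' : OK K) (r : ℝ) (hr : 0 ≤ r) (hr1 : r ≤ 1) (hs : ∀ i, ‖(s' i : OK K) - s i‖ ≤ r)
    (hT : ‖T' - T‖ ≤ r) :
    ‖evP s' M T' - evP s M T - (∑ i, evP s (pdC i M) T * ((s' i : OK K) - s i)) -
      evP s (Polynomial.derivative M) T * (T' - T)‖ ≤ r ^ 2 := by
  induction M using Polynomial.induction_on' with
  | add M N hM hN =>
    have h1 : evP s' (M + N) T' - evP s (M + N) T -
        (∑ i, evP s (pdC i (M + N)) T * ((s' i : OK K) - s i)) -
        evP s (Polynomial.derivative (M + N)) T * (T' - T) =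
        (evP s' M T' - evP s M T - (∑ i, evP s (pdC i M) T * ((s' i : OK K) - s i)) -
          evP s (Polynomial.derivative M) T * (T' - T)) +
        (evP s' N T' - evP s N T - (∑ i, evP s (pdC i N) T * ((s' i : OK K) - s i)) -
          evP s (Polynomial.derivative N) T * (T' - T)) := by
      simp only [pdC_add, evP_add, Polynomial.derivative_add, add_mul, Finset.sum_add_distrib]
      ring
    rw [h1]
    exact (OK_norm_add_le _ _).trans (max_le hM hN)
  | monomial k f =>
    simp only [evP_monomial, pdC_monomial, Polynomial.derivative_monomial, map_mul, map_natCast]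
    set A : OK K := ∑ i, evk κ s (MvPowerSeries.pderiv κ i f) * ((s' i : OK K) - s i) with hA
    have h1 : evk κ s' f * T' ^ k - evk κ s f * T ^ k -
        (∑ i, evk κ s (MvPowerSeries.pderiv κ i f) * T ^ k * ((s' i : OK K) - s i)) -
        evk κ s f * (k : OK K) * T ^ (k - 1) * (T' - T) =
        (evk κ s' f - evk κ s f - A) * T' ^ k +
        (evk κ s f * (T' ^ k - T ^ k - (k : OK K) * T ^ (k - 1) * (T' - T)) +
        A * (T' ^ k - T ^ k)) := by
      have h2 : (∑ i, evk κ s (MvPowerSeries.pderiv κ i f) * T ^ k * ((s' i : OK K) - s i)) =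
          A * T ^ k := by
        rw [hA, Finset.sum_mul]
        exact Finset.sum_congr rfl fun i _ => by ring
      rw [h2]
      ring
    rw [h1]
    have hA' : ‖A‖ ≤ r := by
      refine norm_sum_le _ _ hr fun i _ => ?_
      rw [OK_norm_mul]
      exact (mul_le_of_le_one_left (norm_nonneg _) (norm_le_one _)).trans (hs i)
    have hTk : ‖T' ^ k - T ^ k‖ ≤ r := by
      refine le_trans ?_ hT
      obtain ⟨c, hc⟩ := sub_dvd_pow_sub_pow T' T k
      rw [hc, OK_norm_mul]
      exact mul_le_of_le_one_right (norm_nonneg _) (norm_le_one _)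
    refine (OK_norm_add_le _ _).trans (max_le ?_ ((OK_norm_add_le _ _).trans (max_le ?_ ?_)))
    · rw [OK_norm_mul]
      exact (mul_le_of_le_one_right (norm_nonneg _) (norm_le_one _)).trans
        (norm_evk_taylor s' s f r hr hs)
    · rw [OK_norm_mul]
      exact (mul_le_of_le_one_left (norm_nonneg _) (norm_le_one _)).trans
        (norm_pow_taylor k T T' r hr hT)
    · rw [OK_norm_mul, sq]
      exact mul_le_mul hA' hTk (norm_nonneg _) hr

/-- the point `s^(p^b)`. -/
noncomputable def frobPt (p : ℕ) [hp : Fact p.Prime] (b : ℕ) (s : Fin d → MK K) : Fin d → MK K :=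
  fun i => ⟨(s i : OK K) ^ (p ^ b), by
    rw [OK_norm_pow]
    exact pow_lt_one₀ (norm_nonneg _) (s i).2 (pow_ne_zero _ hp.out.ne_zero)⟩

theorem val_frobPt (p : ℕ) [hp : Fact p.Prime] (b : ℕ) (s : Fin d → MK K) (i : Fin d) :
    (frobPt p b s i : OK K) = (s i : OK K) ^ (p ^ b) := rfl

theorem evk_frobX (p : ℕ) [hp : Fact p.Prime] (b : ℕ) (s : Fin d → MK K) :
    (evk κ s).comp (frobX p b) = evk κ (frobPt p b s) := by
  refine ringHom_ext (fun c => ?_) (fun i => ?_) (fun i => ?_)
  · simp [frobX, MvPowerSeries.expand_C]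
  · simp [frobX, MvPowerSeries.expand_X, val_frobPt]
  · simp only [frobX, RingHom.comp_apply, AlgHom.toRingHom_eq_coe, RingHom.coe_coe,
      MvPowerSeries.expand_X, map_pow, evk_X]
    exact (frobPt p b s i).2

theorem evP_map_frobX (p : ℕ) [hp : Fact p.Prime] (b : ℕ) (s : Fin d → MK K)
    (M : Polynomial (MvPowerSeries (Fin d) κ)) (T : OK K) :
    evP s (M.map (frobX p b)) T = evP (frobPt p b s) M T := by
  rw [evP, evP, Polynomial.map_map, evk_frobX]

/-- Taylor expansion of `𝓜(s^(p^b); T)` in characteristic `p`. -/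
theorem norm_evP_taylor_frob (p : ℕ) [Fact p.Prime] [CharP K p] [CharP κ p] (b : ℕ)
    (M M' : Polynomial (MvPowerSeries (Fin d) κ)) (hM : M = M'.map (frobX p b))
    (s s' : Fin d → MK K)
    (T T' : OK K) (r : ℝ) (hr : 0 ≤ r) (hr1 : r ≤ 1)
    (hs : ∀ i, ‖(s' i : OK K) - s i‖ ^ (p ^ b) ≤ r)
    (hT : ‖T' - T‖ ≤ r) :
    ‖evP s' M T' - evP s M T -
      (∑ i, evP s ((pdC i M').map (frobX p b)) T * ((s' i : OK K) - s i) ^ (p ^ b)) -
      evP s (Polynomial.derivative M) T * (T' - T)‖ ≤ r ^ 2 := by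
  have : CharP (OK K) p := inferInstance
  subst hM
  simp only [Polynomial.derivative_map, evP_map_frobX, sub_pow_char_pow]
  have h1 := norm_evP_taylor M' (frobPt p b s) (frobPt p b s') T T' r hr hr1 (fun i => ?_) hT
  · simpa only [val_frobPt] using h1
  · rw [val_frobPt, val_frobPt, ← sub_pow_char_pow, OK_norm_pow]
    exact hs i

/-- elements of norm in `(0,1)` are not algebraic over `κ` algebraically closed. -/
theorem not_const_of_norm [IsAlgClosed κ] (s : Fin d → MK K) (M₀ : Polynomial κ) (hM : M₀ ≠ 0)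
    (Y : OK K) (hY0 : Y ≠ 0) (hY1 : ‖Y‖ < 1) :
    evP s (M₀.map (MvPowerSeries.C : κ →+* MvPowerSeries (Fin d) κ)) Y ≠ 0 := by
  have h1 : evP s (M₀.map (MvPowerSeries.C : κ →+* MvPowerSeries (Fin d) κ)) Y =
      M₀.eval₂ (algebraMap κ (OK K)) Y := by
    rw [evP, Polynomial.map_map, Polynomial.eval_map]
    congr 1
    ext c
    simp
  rw [h1]
  intro h2
  have hinj : Function.Injective (algebraMap κ (OK K)) := (algebraMap κ (OK K)).injective
  have h3 := Polynomial.roots_map_of_injective_of_card_eq_natDegree hinj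
    (IsAlgClosed.splits M₀).natDegree_eq_card_roots.symm
  have h4 : Y ∈ (M₀.map (algebraMap κ (OK K))).roots := by
    rw [Polynomial.mem_roots ((Polynomial.map_ne_zero_iff hinj).mpr hM), Polynomial.IsRoot.def,
      Polynomial.eval_map, h2]
  rw [← h3, Multiset.mem_map] at h4
  obtain ⟨c, -, rfl⟩ := h4
  have hc : c ≠ 0 := by
    rintro rfl
    exact hY0 (map_zero _)
  rw [norm_algebraMap_of_ne_zero hc] at hY1
  exact lt_irrefl _ hY1

theorem norm_evP_sub_le (M : Polynomial (MvPowerSeries (Fin d) κ)) (s s' : Fin d → MK K)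
    (T T' : OK K) (r : ℝ) (hr : 0 ≤ r) (hr1 : r ≤ 1) (hs : ∀ i, ‖(s' i : OK K) - s i‖ ≤ r)
    (hT : ‖T' - T‖ ≤ r) :
    ‖evP s' M T' - evP s M T‖ ≤ r := by
  have h1 := norm_evP_taylor M s s' T T' r hr hr1 hs hT
  have h2 : ‖∑ i, evP s (pdC i M) T * ((s' i : OK K) - s i)‖ ≤ r := by
    refine norm_sum_le _ _ hr fun i _ => ?_
    rw [OK_norm_mul]
    exact (mul_le_of_le_one_left (norm_nonneg _) (norm_le_one _)).trans (hs i)
  have h3 : ‖evP s (Polynomial.derivative M) T * (T' - T)‖ ≤ r := by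
    rw [OK_norm_mul]
    exact (mul_le_of_le_one_left (norm_nonneg _) (norm_le_one _)).trans hT
  have h4 : r ^ 2 ≤ r := by
    rw [sq]
    exact mul_le_of_le_one_left hr hr1
  have h5 : evP s' M T' - evP s M T = (evP s' M T' - evP s M T -
      (∑ i, evP s (pdC i M) T * ((s' i : OK K) - s i)) -
      evP s (Polynomial.derivative M) T * (T' - T)) +
      ((∑ i, evP s (pdC i M) T * ((s' i : OK K) - s i)) +
      evP s (Polynomial.derivative M) T * (T' - T)) := by ring
  rw [h5]
  exact (OK_norm_add_le _ _).trans (max_le (h1.trans h4)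
    ((OK_norm_add_le _ _).trans (max_le h2 h3)))

theorem exists_minpoly (s : Fin d → MK K)
    (hgen : ∀ f : MvPowerSeries (Fin d) κ, evk κ s f = 0 → f = 0)
    (P : Polynomial (MvPowerSeries (Fin d) κ)) (hP : P.Monic) (Y : OK K) (hY : evP s P Y = 0) :
    ∃ M : Polynomial (MvPowerSeries (Fin d) κ), M.Monic ∧ evP s M Y = 0 ∧
      (∀ R : Polynomial (MvPowerSeries (Fin d) κ), evP s R Y = 0 → R ≠ 0 →
        M.natDegree ≤ R.natDegree) ∧
      ∃ δ : ℝ, 0 < δ ∧ ∀ (s' : Fin d → MK K) (Y' : OK K),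
        (∀ i, ‖(s' i : OK K) - s i‖ < δ) → ‖Y' - Y‖ < δ → evP s' P Y' = 0 → evP s' M Y' = 0 := by
  have hdom : IsDomain (MvPowerSeries (Fin d) κ) := { }
  have hic : IsIntegrallyClosed (MvPowerSeries (Fin d) κ) := isIntegrallyClosed_mvPowerSeries κ d
  let alg : Algebra (MvPowerSeries (Fin d) κ) (OK K) := (evk κ s).toAlgebra
  have hmap : algebraMap (MvPowerSeries (Fin d) κ) (OK K) = evk κ s := rfl
  have hinj : Function.Injective (algebraMap (MvPowerSeries (Fin d) κ) (OK K)) :=
    (injective_iff_map_eq_zero _).mpr hgen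
  have htf : Module.IsTorsionFree (MvPowerSeries (Fin d) κ) (OK K) :=
    Module.isTorsionFree_iff_algebraMap_injective.mpr hinj
  have haeval : ∀ R : Polynomial (MvPowerSeries (Fin d) κ),
      Polynomial.aeval Y R = evP s R Y := by
    intro R
    rw [Polynomial.aeval_def, evP, Polynomial.eval_map, hmap]
  have hint : IsIntegral (MvPowerSeries (Fin d) κ) Y := ⟨P, hP, by
    rw [← hY, evP, Polynomial.eval_map, hmap]⟩
  set M := minpoly (MvPowerSeries (Fin d) κ) Y with hMdef
  have hMm : M.Monic := minpoly.monic hint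
  have hM0 : evP s M Y = 0 := by rw [← haeval]; exact minpoly.aeval _ _
  have hMdeg : 0 < M.degree := minpoly.degree_pos hint
  refine ⟨M, hMm, hM0, fun R hR hR0 => ?_, ?_⟩
  · exact Polynomial.natDegree_le_of_dvd
      (minpoly.isIntegrallyClosed_dvd hint (by rw [haeval, hR])) hR0
  · have hfin := Polynomial.finiteMultiplicity_of_degree_pos_of_monic hMdeg hMm hP.ne_zero
    obtain ⟨H, hH, hH'⟩ := hfin.exists_eq_pow_mul_and_not_dvd
    have hHne : evP s H Y ≠ 0 := fun h0 =>
      hH' (minpoly.isIntegrallyClosed_dvd hint (by rw [haeval, h0]))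
    have hHpos : 0 < ‖evP s H Y‖ := norm_pos_iff.mpr hHne
    refine ⟨‖evP s H Y‖ / 2, by positivity, fun s' Y' hs' hY' h0 => ?_⟩
    have h1 : ‖evP s' H Y' - evP s H Y‖ ≤ ‖evP s H Y‖ / 2 :=
      norm_evP_sub_le H s s' Y Y' _ (by positivity)
        (by linarith [norm_le_one (evP s H Y)]) (fun i => (hs' i).le) hY'.le
    have h2 : evP s' H Y' ≠ 0 := by
      intro h3
      rw [h3, zero_sub, norm_neg] at h1
      linarith
    have h4 : evP s' P Y' = (evP s' M Y') ^ (multiplicity M P) * evP s' H Y' := by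
      conv_lhs => rw [hH]
      simp [evP]
    rw [h4] at h0
    by_contra h5
    exact mul_ne_zero (pow_ne_zero _ h5) h2 h0

end Points

end Vale.Agent.P217
end
end

section

section

/-!
# P217: auxiliary lemmas for the asymptotics of `xi` and `s` and for ranks (task T34)
-/

namespace Vale.Agent.P217

open MvPowerSeries Filter Topology

section Aux

variable {K : Type*} [NontriviallyNormedField K] [IsUltrametricDist K]

theorem t34_norm_sum_lt {ι : Type*} (s : Finset ι) (f : ι → K) {r : ℝ} (hr : 0 < r)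
    (h : ∀ i ∈ s, ‖f i‖ < r) : ‖∑ i ∈ s, f i‖ < r := by
  classical
  induction s using Finset.induction_on with
  | empty => simpa using hr
  | insert a s ha ih =>
    rw [Finset.sum_insert ha]
    refine (IsUltrametricDist.norm_add_le_max _ _).trans_lt (max_lt ?_ ?_)
    · exact h a (Finset.mem_insert_self a s)
    · exact ih fun i hi => h i (Finset.mem_insert_of_mem hi)

end Aux

section Rank

variable {K : Type*} [NontriviallyNormedField K] [IsUltrametricDist K]
variable {κ : Type*} [Field κ] [Algebra κ (OK K)]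

/-- If the rows of `β` over `κ` restricted to `S` are independent then so are the rows of any
matrix over `K` close to `β`. -/
theorem t34_rank_perturb {d : ℕ} {ι : Type*} (S : Finset ι) (β : Fin d → ι → κ)
    (hβ : ∀ c : Fin d → κ, (∀ u ∈ S, ∑ i, c i * β i u = 0) → c = 0)
    (β' : Fin d → ι → K) (hclose : ∀ i, ∀ u ∈ S, ‖β' i u - (algebraMap κ (OK K) (β i u) : K)‖ < 1)
    (F : Fin d → K) (hF : ∀ u ∈ S, ∑ i, F i * β' i u = 0) : F = 0 := by
  classical
  let f : (Fin d → κ) →ₗ[κ] (S → κ) :=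
    { toFun := fun c u => ∑ i, c i * β i u
      map_add' := fun a b => by
        funext u
        simp [add_mul, Finset.sum_add_distrib]
      map_smul' := fun r a => by
        funext u
        simp [mul_assoc, Finset.mul_sum] }
  have hker : LinearMap.ker f = ⊥ := by
    rw [LinearMap.ker_eq_bot']
    intro c hc
    apply hβ c
    intro u hu
    have := congrFun hc ⟨u, hu⟩
    exact this
  obtain ⟨g, hg⟩ := f.exists_leftInverse_of_injective hker
  -- the matrix of `g`
  let G : S → Fin d → κ := fun u k => g (Pi.single u 1) k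
  have hGf : ∀ i k, ∑ u : S, β i u * G u k = if i = k then 1 else 0 := by
    intro i k
    have h1 : g (f (Pi.single i 1)) = Pi.single i 1 := by
      have := LinearMap.congr_fun hg (Pi.single i 1)
      exact this
    have h2 : f (Pi.single i 1) = ∑ u : S, β i u • (Pi.single u (1 : κ) : S → κ) := by
      funext u
      have h3 : (∑ v : S, β i v • (Pi.single v (1 : κ) : S → κ)) u = β i u := by
        rw [Finset.sum_apply]
        rw [Finset.sum_eq_single u]
        · simp
        · intro v _ hv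
          simp [Pi.single_eq_of_ne (Ne.symm hv)]
        · simp
      rw [h3]
      change ∑ j, (Pi.single i (1 : κ) : Fin d → κ) j * β j u = β i u
      rw [Finset.sum_eq_single i]
      · simp
      · intro v _ hv
        simp [Pi.single_eq_of_ne hv]
      · simp
    rw [h2, map_sum] at h1
    have h4 := congrFun h1 k
    rw [Finset.sum_apply] at h4
    simp only [map_smul, Pi.smul_apply, smul_eq_mul] at h4
    rw [show (∑ u : S, β i u * G u k) = ∑ u : S, β i u * g (Pi.single u 1) k from rfl, h4]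
    by_cases hik : i = k
    · subst hik; simp
    · rw [if_neg hik, Pi.single_eq_of_ne (Ne.symm hik)]
  -- perturbation
  set em : κ → K := fun c => ((algebraMap κ (OK K) c : OK K) : K) with hem
  have hem_mul : ∀ a b, em (a * b) = em a * em b := by intro a b; simp [hem]
  have hem_sum : ∀ (s : Finset S) (q : S → κ), em (∑ u ∈ s, q u) = ∑ u ∈ s, em (q u) := by
    intro s q
    simp only [hem, map_sum]
    exact map_sum (OK K).subtype _ _
  have hem_le : ∀ a, ‖em a‖ ≤ 1 := fun a => norm_le_one (algebraMap κ (OK K) a)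
  set ee : Fin d → Fin d → K := fun i k =>
    ∑ u : S, (β' i u - em (β i u)) * em (G u k) with hee
  have hee_lt : ∀ i k, ‖ee i k‖ < 1 := by
    intro i k
    apply t34_norm_sum_lt _ _ one_pos
    intro u _
    rw [norm_mul]
    have h1 := hclose i u u.2
    calc ‖β' i u - em (β i u)‖ * ‖em (G u k)‖ ≤ ‖β' i u - em (β i u)‖ * 1 :=
          mul_le_mul_of_nonneg_left (hem_le _) (norm_nonneg _)
      _ < 1 := by rw [mul_one]; exact h1
  have hkey : ∀ k, F k = - ∑ i, F i * ee i k := by
    intro k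
    have h1 : ∑ u : S, (∑ i, F i * β' i u) * em (G u k) = 0 := by
      apply Finset.sum_eq_zero
      intro u _
      rw [hF u u.2, zero_mul]
    have h2 : ∑ u : S, (∑ i, F i * β' i u) * em (G u k) =
        ∑ i, F i * ∑ u : S, β' i u * em (G u k) := by
      simp only [Finset.sum_mul, Finset.mul_sum]
      rw [Finset.sum_comm]
      refine Finset.sum_congr rfl fun i _ => Finset.sum_congr rfl fun u _ => by ring
    have h3 : ∀ i, ∑ u : S, β' i u * em (G u k) = (if i = k then 1 else 0) + ee i k := by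
      intro i
      have h4 : em (∑ u : S, β i u * G u k) = if i = k then 1 else 0 := by
        rw [hGf i k]
        by_cases hik : i = k
        · simp [hik, hem]
        · simp [hik, hem]
      rw [← h4, hem_sum, hee, ← Finset.sum_add_distrib]
      refine Finset.sum_congr rfl fun u _ => ?_
      rw [hem_mul]
      ring
    rw [h2] at h1
    simp only [h3, mul_add, Finset.sum_add_distrib] at h1
    have h5 : ∑ i, F i * (if i = k then (1 : K) else 0) = F k := by
      simp
    rw [h5] at h1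
    exact eq_neg_of_add_eq_zero_left h1
  by_contra hne
  have hex : ∃ i, F i ≠ 0 := by
    by_contra hall
    push Not at hall
    exact hne (funext hall)
  obtain ⟨i₀, hi₀⟩ := hex
  obtain ⟨k, -, hk⟩ := Finset.exists_max_image Finset.univ (fun i => ‖F i‖) ⟨i₀, Finset.mem_univ _⟩
  have hkpos : 0 < ‖F k‖ := (norm_pos_iff.2 hi₀).trans_le (hk i₀ (Finset.mem_univ _))
  have h6 : ‖F k‖ < ‖F k‖ := by
    conv_lhs => rw [hkey k]
    rw [norm_neg]
    apply t34_norm_sum_lt _ _ hkpos
    intro i _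
    rw [norm_mul]
    calc ‖F i‖ * ‖ee i k‖ ≤ ‖F k‖ * ‖ee i k‖ :=
          mul_le_mul_of_nonneg_right (hk i (Finset.mem_univ _)) (norm_nonneg _)
      _ < ‖F k‖ * 1 := mul_lt_mul_of_pos_left (hee_lt i k) hkpos
      _ = ‖F k‖ := mul_one _
  exact lt_irrefl _ h6

theorem t34_card_le {d : ℕ} {ι : Type*} (S : Finset ι) (β : Fin d → ι → κ)
    (hβ : ∀ c : Fin d → κ, (∀ u ∈ S, ∑ i, c i * β i u = 0) → c = 0) : d ≤ S.card := by
  classical
  let f : (Fin d → κ) →ₗ[κ] (S → κ) :=
    { toFun := fun c u => ∑ i, c i * β i u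
      map_add' := fun a b => by
        funext u
        simp [add_mul, Finset.sum_add_distrib]
      map_smul' := fun r a => by
        funext u
        simp [mul_assoc, Finset.mul_sum] }
  have hker : LinearMap.ker f = ⊥ := by
    rw [LinearMap.ker_eq_bot']
    intro c hc
    apply hβ c
    intro u hu
    have := congrFun hc ⟨u, hu⟩
    exact this
  have h := LinearMap.finrank_le_finrank_of_injective (LinearMap.ker_eq_bot.1 hker)
  simpa using h

end Rank

section SAux

variable {K : Type*} [NontriviallyNormedField K] [IsUltrametricDist K]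
variable {p : ℕ} [Fact p.Prime] [CharP K p] {h : ℕ}

theorem t34_int_pow {L : Type*} [Field L] [CharP L p] (c : ℤ) (m : ℕ) :
    (c : L) ^ (p ^ m) = (c : L) := by
  induction m with
  | zero => simp
  | succ m ih =>
    rw [pow_succ, pow_mul, ih, ← frobenius_def, map_intCast]

/-- abstract form of the computation of `s' - s`. -/
theorem t34_s_aux {ι : Type*} [Fintype ι] (S : Finset ι) (b th T z X : ι → OK K) (g : ι → ι → ℤ)
    (a Ω : K) (X0 : K) (e : ℕ) (ε : ℝ) (hε : 0 < ε) (hε1 : ε ≤ 1) (hΩ : ‖Ω‖ ≤ 1)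
    (hξ : ∀ j, ‖((T j : K) - (z j : K)) / a - (th j : K) * Ω * ((X j : K) / X0) ^ (p ^ e)‖ < ε)
    (hr : ∀ j, ‖(X j : K) / X0 - ∑ u ∈ S, (g j u : K) * ((X u : K) / X0)‖ ^ (p ^ (h + e)) < ε) :
    ‖(∑ j, (b j : K) * (T j : K) ^ (p ^ h) - ∑ j, (b j : K) * (z j : K) ^ (p ^ h)) / a ^ (p ^ h) -
      Ω ^ (p ^ h) * ∑ u ∈ S, (∑ j, (b j : K) * (th j : K) ^ (p ^ h) * (g j u : K)) *
        ((X u : K) / X0) ^ (p ^ (h + e))‖ < ε := by
  classical
  have hp : p.Prime := Fact.out
  have hph : p ^ h ≠ 0 := pow_ne_zero _ hp.ne_zero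
  -- the difference is a sum over `j`
  have key : (∑ j, (b j : K) * (T j : K) ^ (p ^ h) - ∑ j, (b j : K) * (z j : K) ^ (p ^ h)) /
        a ^ (p ^ h) -
      Ω ^ (p ^ h) * ∑ u ∈ S, (∑ j, (b j : K) * (th j : K) ^ (p ^ h) * (g j u : K)) *
        ((X u : K) / X0) ^ (p ^ (h + e)) =
      ∑ j, ((b j : K) * (((T j : K) - (z j : K)) / a - (th j : K) * Ω *
        ((X j : K) / X0) ^ (p ^ e)) ^ (p ^ h) +
        (b j : K) * (th j : K) ^ (p ^ h) * Ω ^ (p ^ h) *
          ((X j : K) / X0 - ∑ u ∈ S, (g j u : K) * ((X u : K) / X0)) ^ (p ^ (h + e))) := by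
    have h1 : ∀ j, (((T j : K) - (z j : K)) / a - (th j : K) * Ω *
        ((X j : K) / X0) ^ (p ^ e)) ^ (p ^ h) = ((T j : K) ^ (p ^ h) - (z j : K) ^ (p ^ h)) /
          a ^ (p ^ h) - (th j : K) ^ (p ^ h) * Ω ^ (p ^ h) * ((X j : K) / X0) ^ (p ^ (h + e)) := by
      intro j
      rw [sub_pow_char_pow, div_pow, sub_pow_char_pow, mul_pow, mul_pow, ← pow_mul, ← pow_add,
        Nat.add_comm e h]
    have h2 : ∀ j, ((X j : K) / X0 - ∑ u ∈ S, (g j u : K) * ((X u : K) / X0)) ^ (p ^ (h + e)) =
        ((X j : K) / X0) ^ (p ^ (h + e)) -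
          ∑ u ∈ S, (g j u : K) * ((X u : K) / X0) ^ (p ^ (h + e)) := by
      intro j
      rw [sub_pow_char_pow, sum_pow_char_pow]
      congr 1
      refine Finset.sum_congr rfl fun u _ => ?_
      rw [mul_pow, t34_int_pow]
    have h3 : Ω ^ (p ^ h) * ∑ u ∈ S, (∑ j, (b j : K) * (th j : K) ^ (p ^ h) * (g j u : K)) *
        ((X u : K) / X0) ^ (p ^ (h + e)) =
        ∑ j, (b j : K) * (th j : K) ^ (p ^ h) * Ω ^ (p ^ h) *
          ∑ u ∈ S, (g j u : K) * ((X u : K) / X0) ^ (p ^ (h + e)) := by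
      simp only [Finset.mul_sum, Finset.sum_mul]
      rw [Finset.sum_comm]
      refine Finset.sum_congr rfl fun j _ => Finset.sum_congr rfl fun u _ => by ring
    rw [h3, ← Finset.sum_sub_distrib, Finset.sum_div, ← Finset.sum_sub_distrib]
    refine Finset.sum_congr rfl fun j _ => ?_
    rw [h1 j, h2 j]
    ring
  rw [key]
  apply t34_norm_sum_lt _ _ hε
  intro j _
  refine (IsUltrametricDist.norm_add_le_max _ _).trans_lt (max_lt ?_ ?_)
  · rw [norm_mul, norm_pow]
    have h4 : ‖((T j : K) - (z j : K)) / a - (th j : K) * Ω * ((X j : K) / X0) ^ (p ^ e)‖ ^ (p ^ h)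
        ≤ ‖((T j : K) - (z j : K)) / a - (th j : K) * Ω * ((X j : K) / X0) ^ (p ^ e)‖ :=
      pow_le_of_le_one (norm_nonneg _) ((hξ j).le.trans hε1) hph
    calc ‖(b j : K)‖ *
        ‖((T j : K) - (z j : K)) / a - (th j : K) * Ω * ((X j : K) / X0) ^ (p ^ e)‖ ^ (p ^ h)
        ≤ 1 * ‖((T j : K) - (z j : K)) / a - (th j : K) * Ω * ((X j : K) / X0) ^ (p ^ e)‖ :=
          mul_le_mul (norm_le_one (b j)) h4 (by positivity) zero_le_one
      _ < ε := by rw [one_mul]; exact hξ j
  · rw [norm_mul, norm_mul, norm_mul, norm_pow, norm_pow, norm_pow]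
    have h5 : ‖(b j : K)‖ * ‖(th j : K)‖ ^ (p ^ h) * ‖Ω‖ ^ (p ^ h) ≤ 1 := by
      have h6 : ‖(b j : K)‖ ≤ 1 := norm_le_one (b j)
      have h7 : ‖(th j : K)‖ ^ (p ^ h) ≤ 1 := pow_le_one₀ (norm_nonneg _) (norm_le_one (th j))
      have h8 : ‖Ω‖ ^ (p ^ h) ≤ 1 := pow_le_one₀ (norm_nonneg _) hΩ
      calc ‖(b j : K)‖ * ‖(th j : K)‖ ^ (p ^ h) * ‖Ω‖ ^ (p ^ h) ≤ 1 * 1 * 1 :=
            mul_le_mul (mul_le_mul h6 h7 (by positivity) zero_le_one) h8 (by positivity)
              (by norm_num)
        _ = 1 := by norm_num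
    calc ‖(b j : K)‖ * ‖(th j : K)‖ ^ (p ^ h) * ‖Ω‖ ^ (p ^ h) *
        ‖(X j : K) / X0 - ∑ u ∈ S, (g j u : K) * ((X u : K) / X0)‖ ^ (p ^ (h + e))
        ≤ 1 * ‖(X j : K) / X0 - ∑ u ∈ S, (g j u : K) * ((X u : K) / X0)‖ ^ (p ^ (h + e)) :=
          mul_le_mul_of_nonneg_right h5 (by positivity)
      _ < ε := by rw [one_mul]; exact hr j

end SAux

end Vale.Agent.P217
end
end

section

section

/-!
# P217: the final argument: choice of bases and asymptotic expansions along the orbit
-/

namespace Vale.Agent.P217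

open MvPowerSeries Filter Topology

variable {K : Type*} [NontriviallyNormedField K] [IsUltrametricDist K] [CompleteSpace K]
variable {p : ℕ} [Fact p.Prime] [CharP K p] [IsAlgClosed K]
variable {n h : ℕ} {Γ : FormalGroup (OK K)} [Γ.IsComm]
variable {κ : Type*} [Field κ] [Algebra κ (OK K)]

/-- Bases adapted to the final argument. `S` is the set called `A` in the paper proof. -/
structure FinalBasis (A : FinalData p n h Γ κ) where
  X : Fin (n - h) → FPt Γ
  X_mem : ∀ j, X j ∈ A.D.Lam
  X_E : ∀ j, A.D.E (divp p n 1 (X j)) = A.x j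
  j0 : Fin (n - h)
  X0_ne : X j0 ≠ 0
  X_le : ∀ Y ∈ A.D.Lam, ‖Y.val‖ ≤ ‖(X j0).val‖
  S : Finset (Fin (n - h))
  indep : ∀ c : Fin (n - h) → ℤ,
    ‖∑ u ∈ S, (c u : K) * (((X u).val : K) / ((X j0).val : K))‖ < 1 → ∀ u ∈ S, (p : ℤ) ∣ c u
  γ : Fin (n - h) → Fin (n - h) → ℤ
  γ_S : ∀ u ∈ S, ∀ u', γ u u' = if u' = u then 1 else 0
  γ_zero : ∀ j, ∀ u, u ∉ S → γ j u = 0
  γ_spec : ∀ j, ‖((X j).val : K) / ((X j0).val : K) -
    ∑ u ∈ S, (γ j u : K) * (((X u).val : K) / ((X j0).val : K))‖ < 1
  rank : ∀ c : Fin A.d → κ, (∀ u ∈ S, ∑ i, c i * ∑ j, A.B i j * (γ j u : κ) = 0) → c = 0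

theorem exists_finalBasis [CharP κ p] (A : FinalData p n h Γ κ) : Nonempty (FinalBasis A) := by
  have h1 : ∀ j, ∃ Y ∈ A.D.Lam, A.D.E (divp p n 1 Y) = A.x j := fun j =>
    A.D.exists_mem_Lam_of_torsion 1 (A.x j) (by rw [pow_one]; exact A.level.tors j)
  choose X hX hXE using h1
  obtain ⟨j0, h0, hmax⟩ := exists_max_lift A.D A.x A.level X hXE
  obtain ⟨S, γ, hind, hγS, hγ0, hγ⟩ := exists_residue_basis (p := p)
    (fun j => ((X j).val : K) / ((X j0).val : K))
  exact ⟨{
    X := X
    X_mem := hX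
    X_E := hXE
    j0 := j0
    X0_ne := h0
    X_le := hmax
    S := S
    indep := hind
    γ := γ
    γ_S := hγS
    γ_zero := hγ0
    γ_spec := hγ
    rank := fun c hc => rank_of_generic A X hXE j0 h0 (fun j => hmax _ (hX j)) hmax S γ hγ c hc }⟩

omit [CharP K p] [IsAlgClosed K] in
/-- A monic minimal polynomial at a generic point cannot have all its first derivatives vanish at
the point. -/
theorem minpoly_derivatives_false [IsAlgClosed κ] [CharP κ p] {d : ℕ} (s : Fin d → MK K)
    (M : Polynomial (MvPowerSeries (Fin d) κ)) (hM : M.Monic) (Y : OK K) (hY : evP s M Y = 0)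
    (hmin : ∀ R : Polynomial (MvPowerSeries (Fin d) κ), evP s R Y = 0 → R ≠ 0 →
        M.natDegree ≤ R.natDegree)
    (h1 : ∀ i, evP s (pdC i M) Y = 0) (h2 : evP s (Polynomial.derivative M) Y = 0) : False := by
  have hp : p.Prime := Fact.out
  have hdeg : M.natDegree ≠ 0 := by
    intro h0
    rw [hM.natDegree_eq_zero] at h0
    rw [h0] at hY
    simp [evP] at hY
  have e1 : ∀ i, pdC i M = 0 := by
    intro i
    by_contra hne
    have h3 := hmin _ (h1 i) hne
    have h4 := natDegree_pdC_lt i M hM hne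
    omega
  have e2 : Polynomial.derivative M = 0 := by
    by_contra hne
    have h3 := hmin _ h2 hne
    have h4 := Polynomial.natDegree_derivative_lt hdeg
    omega
  obtain ⟨M', hM'⟩ := exists_pow_of_derivatives_zero p M e1 e2
  have hM'0 : M' ≠ 0 := by
    rintro rfl
    rw [zero_pow hp.ne_zero] at hM'
    exact hM.ne_zero hM'
  have h5 : evP s M' Y = 0 := by
    have : evP s M Y = (evP s M' Y) ^ p := by
      rw [hM']
      simp [evP]
    rw [this] at hY
    exact pow_eq_zero_iff hp.ne_zero |>.1 hY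
  have h6 := hmin _ h5 hM'0
  have h7 : M.natDegree = p * M'.natDegree := by
    rw [hM', Polynomial.natDegree_pow]
  have h8 : M'.natDegree ≠ 0 := by
    intro h0
    rw [h0, mul_zero] at h7
    exact hdeg h7
  have h9 := hp.two_le
  nlinarith [Nat.pos_of_ne_zero h8]

namespace FinalData

variable (A : FinalData p n h Γ κ)

/-- `A_l = E(X_{j0}^(p^l))`. -/
noncomputable def Al (bs : FinalBasis A) (l : ℕ) : K := ((A.D.E (powPt p 1 l (bs.X bs.j0))).val : K)

/-- `ρ_l = ‖X_{j0}‖^(p^l)`. -/
noncomputable def rhol (bs : FinalBasis A) (l : ℕ) : ℝ := ‖(bs.X bs.j0).val‖ ^ (p ^ l)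

/-- (F1) -/
theorem norm_tau_sub_le (N : ℕ) (Y : FPt Γ) (hY : Y ∈ A.D.Lam) : ∃ θ : OK K, ‖θ - 1‖ < 1 ∧
    ∀ ω : κ, ω ^ (p ^ n) = ω → ∀ l : ℕ, 1 ≤ l + n * N →
      ‖(A.τ ω (l + n * N) (A.D.E (divp p n N Y))).val - (A.D.E (divp p n N Y)).val -
        θ * (A.D.E (powPt p (algebraMap κ (OK K) ω) l Y)).val‖ ≤
      max (‖(A.D.E (powPt p (algebraMap κ (OK K) ω) l Y)).val‖ ^ 2) (A.δ ω (l + n * N)) :=
  A.norm_tau_sub_le' N Y

/-- (F2') at a non-break. -/
theorem delta_le_Al (bs : FinalBasis A) (N : ℕ) (hN : 1 ≤ N) (ω : κ) (hω : ω ^ (p ^ n) = ω)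
    (l : ℕ) (hl : A.D.NonBreak (A.rhol bs l)) :
    A.δ ω (l + n * N) ≤ ‖A.Al bs l‖ ^ (p ^ (h * N)) :=
  A.delta_le_Al' bs.X bs.X_E (bs.X bs.j0) bs.X0_ne (fun j => bs.X_le _ (bs.X_mem j)) N hN ω hω l hl

/-- `A_l → 0`. -/
theorem t34_exists_Al_lt (bs : FinalBasis A) (ε : ℝ) (hε : 0 < ε) :
    ∃ L : ℕ, ∀ l ≥ L, ‖A.Al bs l‖ < ε := by
  have hp : p.Prime := Fact.out
  obtain ⟨δ, hδ, hδ'⟩ := A.D.exists_norm_E_lt ε hε
  obtain ⟨L, hL⟩ := exists_pow_lt_of_lt_one hδ (bs.X bs.j0).norm_val_lt
  refine ⟨L, fun l hl => hδ' _ ?_⟩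
  rw [val_powPt, one_mul, OK_norm_pow]
  calc ‖(bs.X bs.j0).val‖ ^ (p ^ l) ≤ ‖(bs.X bs.j0).val‖ ^ L :=
        pow_le_pow_of_le_one (norm_nonneg _) (bs.X bs.j0).norm_val_lt.le
          (hl.trans (Nat.lt_pow_self hp.one_lt).le)
    _ < δ := hL

/-- at a non-break `A_l ≠ 0` and `A_l` dominates. -/
theorem t34_Al_dom (bs : FinalBasis A) (ω : OK K) (Y : FPt Γ)
    (hY : ‖Y.val‖ ≤ ‖(bs.X bs.j0).val‖) (l : ℕ) (hl : A.D.NonBreak (A.rhol bs l)) :
    A.Al bs l ≠ 0 ∧ ‖(A.D.E (powPt p ω l Y)).val‖ ≤ ‖A.Al bs l‖ := by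
  have hX0 : powPt p 1 l (bs.X bs.j0) ≠ 0 := by
    intro h0
    apply bs.X0_ne
    apply FPt.ext
    have h1 := congrArg FPt.val h0
    rw [val_powPt, one_mul, FPt.val_zero] at h1
    rw [FPt.val_zero]
    exact pow_eq_zero_iff (pow_ne_zero _ (Fact.out : p.Prime).ne_zero) |>.1 h1
  have hn : ‖(powPt p 1 l (bs.X bs.j0)).val‖ = A.rhol bs l := by
    rw [val_powPt, one_mul, OK_norm_pow]
    rfl
  have h2 := A.D.norm_E_le_of_nonBreak (powPt p 1 l (bs.X bs.j0)) (powPt p ω l Y) hX0
    (by rw [hn]; exact hl) (by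
      rw [hn, val_powPt, OK_norm_mul, OK_norm_pow]
      calc ‖ω‖ * ‖Y.val‖ ^ p ^ l ≤ 1 * ‖(bs.X bs.j0).val‖ ^ p ^ l :=
            mul_le_mul (norm_le_one ω) (pow_le_pow_left₀ (norm_nonneg _) hY _) (by positivity)
              zero_le_one
        _ = A.rhol bs l := by rw [one_mul]; rfl)
  refine ⟨fun h0 => h2.1 ?_, h2.2⟩
  apply FPt.ext
  rw [FPt.val_zero]
  exact Subtype.ext h0

/-- asymptotics of `τ(z_Y) - z_Y` at level `N`. -/
theorem xi_asym (bs : FinalBasis A) (N : ℕ) (hN : 1 ≤ N) (Y : FPt Γ) (hY : Y ∈ A.D.Lam) :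
    ∃ θ : OK K, ‖θ - 1‖ < 1 ∧ ∀ ω : κ, ω ^ (p ^ n) = ω → ∀ ε : ℝ, 0 < ε → ∃ L : ℕ, ∀ l ≥ L,
      A.D.NonBreak (A.rhol bs l) → ∀ e : ℕ, l = e + A.D.sig (A.rhol bs l) →
      ‖(((A.τ ω (l + n * N) (A.D.E (divp p n N Y))).val : K) -
          ((A.D.E (divp p n N Y)).val : K)) / A.Al bs l -
        (θ : K) * ((algebraMap κ (OK K) ω : OK K) : K) ^ (p ^ ((n - 1) * A.D.sig (A.rhol bs l))) *
          ((Y.val : K) / ((bs.X bs.j0).val : K)) ^ (p ^ e)‖ < ε := by
  have hp : p.Prime := Fact.out
  obtain ⟨θ, hθ, hF1⟩ := A.norm_tau_sub_le N Y hY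
  refine ⟨θ, hθ, fun ω hω ε hε => ?_⟩
  have hn : 1 ≤ n := lt_of_le_of_lt (Nat.zero_le _) A.D.h_lt_n
  have hh : 1 ≤ h := A.D.one_le_h
  have hωK : (algebraMap κ (OK K) ω) ^ (p ^ n) = algebraMap κ (OK K) ω := by
    rw [← map_pow, hω]
  obtain ⟨L1, hL1⟩ := A.D.tendsto_ratio (bs.X bs.j0) Y bs.X0_ne (bs.X_le Y hY)
    (algebraMap κ (OK K) ω) hωK ε hε
  obtain ⟨L2, hL2⟩ := A.t34_exists_Al_lt bs ε hε
  refine ⟨max L1 L2, fun l hl hnb e he => ?_⟩
  have hnN : 1 ≤ n * N := Nat.mul_pos hn hN
  have hF := hF1 ω hω l (by omega)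
  obtain ⟨hA0, hEA⟩ := A.t34_Al_dom bs (algebraMap κ (OK K) ω) Y (bs.X_le Y hY) l hnb
  have hApos : 0 < ‖A.Al bs l‖ := norm_pos_iff.2 hA0
  have hA1 : ‖A.Al bs l‖ ≤ 1 := norm_le_one (A.D.E (powPt p 1 l (bs.X bs.j0))).val
  have hAε : ‖A.Al bs l‖ < ε := hL2 l ((le_max_right _ _).trans hl)
  have hδ := A.delta_le_Al bs N hN ω hω l hnb
  have hexp : 2 ≤ p ^ (h * N) :=
    hp.two_le.trans (Nat.le_self_pow (Nat.mul_pos hh hN).ne' p)
  have hδ2 : A.δ ω (l + n * N) ≤ ‖A.Al bs l‖ ^ 2 :=
    hδ.trans (pow_le_pow_of_le_one hApos.le hA1 hexp)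
  have hE2 : ‖(A.D.E (powPt p (algebraMap κ (OK K) ω) l Y)).val‖ ^ 2 ≤ ‖A.Al bs l‖ ^ 2 :=
    pow_le_pow_left₀ (norm_nonneg _) hEA 2
  have hF' := hF.trans (max_le hE2 hδ2)
  set T : OK K := (A.τ ω (l + n * N) (A.D.E (divp p n N Y))).val with hT
  set z : OK K := (A.D.E (divp p n N Y)).val with hz
  set E : OK K := (A.D.E (powPt p (algebraMap κ (OK K) ω) l Y)).val with hE
  set a : K := A.Al bs l with ha
  have hF'' : ‖((T : K) - (z : K)) - (θ : K) * (E : K)‖ ≤ ‖a‖ ^ 2 := hF'
  have hR := hL1 l ((le_max_left _ _).trans hl) hnb e he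
  set R : K := ((algebraMap κ (OK K) ω : OK K) : K) ^ (p ^ ((n - 1) * A.D.sig (A.rhol bs l))) *
          ((Y.val : K) / ((bs.X bs.j0).val : K)) ^ (p ^ e) with hRdef
  have hR' : ‖(E : K) / a - R‖ < ε := hR
  have hsplit : ((T : K) - (z : K)) / a - (θ : K) *
      ((algebraMap κ (OK K) ω : OK K) : K) ^ (p ^ ((n - 1) * A.D.sig (A.rhol bs l))) *
          ((Y.val : K) / ((bs.X bs.j0).val : K)) ^ (p ^ e) =
      (((T : K) - (z : K)) - (θ : K) * (E : K)) / a + (θ : K) * ((E : K) / a - R) := by
    rw [hRdef]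
    field_simp
    ring
  rw [hsplit]
  refine (IsUltrametricDist.norm_add_le_max _ _).trans_lt (max_lt ?_ ?_)
  · rw [norm_div, div_lt_iff₀ hApos]
    refine hF''.trans_lt ?_
    rw [sq]
    exact mul_lt_mul_of_pos_right hAε hApos
  · rw [norm_mul]
    calc ‖(θ : K)‖ * ‖(E : K) / a - R‖ ≤ 1 * ‖(E : K) / a - R‖ :=
          mul_le_mul_of_nonneg_right (norm_le_one θ) (norm_nonneg _)
      _ < ε := by rw [one_mul]; exact hR'

/-- asymptotics of `s' - s` (level `1`). -/
theorem s_asym [CharP κ p] (bs : FinalBasis A) : ∃ θ : Fin (n - h) → OK K,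
    (∀ j, ‖θ j - 1‖ < 1) ∧
    ∀ i : Fin A.d, ∀ ω : κ, ω ^ (p ^ n) = ω → ∀ ε : ℝ, 0 < ε → ∃ L : ℕ, ∀ l ≥ L,
      A.D.NonBreak (A.rhol bs l) → ∀ e : ℕ, l = e + A.D.sig (A.rhol bs l) →
      ‖(((linPt A.B (ypt (p := p) h (fun j => A.τ ω (l + n) (A.x j))) i : OK K) : K) -
          ((linPt A.B (ypt (p := p) h A.x) i : OK K) : K)) / (A.Al bs l) ^ (p ^ h) -
        ((algebraMap κ (OK K) ω : OK K) : K) ^ (p ^ (h + (n - 1) * A.D.sig (A.rhol bs l))) *
          ∑ u ∈ bs.S, ((∑ j, algebraMap κ (OK K) (A.B i j) * (θ j) ^ (p ^ h) * (bs.γ j u : OK K) :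
            OK K) : K) * (((bs.X u).val : K) / ((bs.X bs.j0).val : K)) ^ (p ^ (h + e))‖ < ε := by
  classical
  have hp : p.Prime := Fact.out
  choose θ hθ hθ' using fun j : Fin (n - h) => A.xi_asym bs 1 le_rfl (bs.X j) (bs.X_mem j)
  refine ⟨θ, hθ, fun i ω hω ε hε => ?_⟩
  set ε' : ℝ := min ε 1 with hε'
  have hε'0 : 0 < ε' := lt_min hε one_pos
  choose L hL using fun j : Fin (n - h) => hθ' j ω hω ε' hε'0
  -- smallness of the rests
  set r : Fin (n - h) → ℝ := fun j => ‖((bs.X j).val : K) / ((bs.X bs.j0).val : K) -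
    ∑ u ∈ bs.S, (bs.γ j u : K) * (((bs.X u).val : K) / ((bs.X bs.j0).val : K))‖ with hr
  have hr0 : ∀ j, 0 ≤ r j := fun j => norm_nonneg _
  have hr1 : ∀ j, r j < 1 := bs.γ_spec
  choose M hM using fun j : Fin (n - h) => exists_pow_lt_of_lt_one hε'0 (hr1 j)
  obtain ⟨L', hL'⟩ := A.D.tendsto_sub_sig (bs.X bs.j0) bs.X0_ne (Finset.univ.sup M)
  refine ⟨max (Finset.univ.sup L) L', fun l hl hnb e he => ?_⟩
  have hlL : ∀ j, L j ≤ l := fun j =>
    (Finset.le_sup (f := L) (Finset.mem_univ j)).trans ((le_max_left _ _).trans hl)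
  have hlL' : L' ≤ l := (le_max_right _ _).trans hl
  have he' : Finset.univ.sup M ≤ e := by
    have h1 := hL' l hlL'
    have h2 : A.D.sig (‖(bs.X bs.j0).val‖ ^ (p ^ l)) = A.D.sig (A.rhol bs l) := rfl
    rw [h2] at h1
    omega
  have hMe : ∀ j, M j ≤ e := fun j => (Finset.le_sup (f := M) (Finset.mem_univ j)).trans he'
  have hrs : ∀ j, r j ^ (p ^ (h + e)) < ε' := by
    intro j
    calc r j ^ (p ^ (h + e)) ≤ r j ^ (M j) :=
          pow_le_pow_of_le_one (hr0 j) (hr1 j).le
            ((hMe j).trans ((Nat.le_add_left e h).trans (Nat.lt_pow_self hp.one_lt).le))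
      _ < ε' := hM j
  have hξ : ∀ j, ‖(((A.τ ω (l + n) (A.x j)).val : K) - ((A.x j).val : K)) / A.Al bs l -
      (θ j : K) * ((algebraMap κ (OK K) ω : OK K) : K) ^ (p ^ ((n - 1) * A.D.sig (A.rhol bs l))) *
        (((bs.X j).val : K) / ((bs.X bs.j0).val : K)) ^ (p ^ e)‖ < ε' := by
    intro j
    have h1 := hL j l (hlL j) hnb e he
    rw [mul_one, bs.X_E j] at h1
    exact h1
  have hfin := t34_s_aux (p := p) (h := h) bs.S (fun j => algebraMap κ (OK K) (A.B i j)) θ
    (fun j => (A.τ ω (l + n) (A.x j)).val) (fun j => (A.x j).val) (fun j => (bs.X j).val) bs.γ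
    (A.Al bs l)
    (((algebraMap κ (OK K) ω : OK K) : K) ^ (p ^ ((n - 1) * A.D.sig (A.rhol bs l))))
    ((bs.X bs.j0).val : K) e ε' hε'0 (min_le_right _ _)
    (by
      rw [norm_pow]
      exact pow_le_one₀ (norm_nonneg _) (norm_le_one (algebraMap κ (OK K) ω))) hξ hrs
  have hexp : (((algebraMap κ (OK K) ω : OK K) : K) ^
      (p ^ ((n - 1) * A.D.sig (A.rhol bs l)))) ^ (p ^ h) =
      ((algebraMap κ (OK K) ω : OK K) : K) ^ (p ^ (h + (n - 1) * A.D.sig (A.rhol bs l))) := by
    rw [← pow_mul, ← pow_add, Nat.add_comm]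
  rw [hexp] at hfin
  have hs1 : ((linPt A.B (ypt (p := p) h (fun j => A.τ ω (l + n) (A.x j))) i : OK K) : K) =
      ∑ j, ((algebraMap κ (OK K) (A.B i j) : OK K) : K) *
        ((A.τ ω (l + n) (A.x j)).val : K) ^ (p ^ h) := by
    rw [val_linPt]
    simp only [val_ypt]
    exact map_sum (OK K).subtype _ _
  have hs2 : ((linPt A.B (ypt (p := p) h A.x) i : OK K) : K) =
      ∑ j, ((algebraMap κ (OK K) (A.B i j) : OK K) : K) * ((A.x j).val : K) ^ (p ^ h) := by
    rw [val_linPt]
    simp only [val_ypt]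
    exact map_sum (OK K).subtype _ _
  have hs3 : ∀ u, ((∑ j, algebraMap κ (OK K) (A.B i j) * (θ j) ^ (p ^ h) *
      (bs.γ j u : OK K) : OK K) : K) =
      ∑ j, ((algebraMap κ (OK K) (A.B i j) : OK K) : K) * (θ j : K) ^ (p ^ h) *
        (bs.γ j u : K) := by
    intro u
    have h1 := map_sum (OK K).subtype (fun j => algebraMap κ (OK K) (A.B i j) *
      (θ j) ^ (p ^ h) * (bs.γ j u : OK K)) Finset.univ
    simp only [map_mul, map_pow, map_intCast] at h1
    exact h1
  rw [hs1, hs2]
  simp only [hs3]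
  exact hfin.trans_le (min_le_left _ _)

/-- the matrix `β̃_{iu}` has `K`-linearly independent rows on `S`. -/
theorem rank_tilde [CharP κ p] (bs : FinalBasis A) (θ : Fin (n - h) → OK K)
    (hθ : ∀ j, ‖θ j - 1‖ < 1) (F : Fin A.d → K)
    (hF : ∀ u ∈ bs.S, ∑ i, F i * ((∑ j, algebraMap κ (OK K) (A.B i j) * (θ j) ^ (p ^ h) *
      (bs.γ j u : OK K) : OK K) : K) = 0) : F = 0 := by
  refine t34_rank_perturb bs.S (fun i u => ∑ j, A.B i j * (bs.γ j u : κ)) bs.rank
    (fun i u => ((∑ j, algebraMap κ (OK K) (A.B i j) * (θ j) ^ (p ^ h) *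
      (bs.γ j u : OK K) : OK K) : K)) ?_ F hF
  intro i u _
  have h1 : ((∑ j, algebraMap κ (OK K) (A.B i j) * (θ j) ^ (p ^ h) *
      (bs.γ j u : OK K) : OK K) : K) - (algebraMap κ (OK K) (∑ j, A.B i j * (bs.γ j u : κ)) : K) =
      ∑ j, ((algebraMap κ (OK K) (A.B i j) * ((θ j) ^ (p ^ h) - 1) * (bs.γ j u : OK K) : OK K) : K)
      := by
    have h2 : (∑ j, algebraMap κ (OK K) (A.B i j) * (θ j) ^ (p ^ h) *
      (bs.γ j u : OK K) : OK K) - algebraMap κ (OK K) (∑ j, A.B i j * (bs.γ j u : κ)) =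
      ∑ j, (algebraMap κ (OK K) (A.B i j) * ((θ j) ^ (p ^ h) - 1) * (bs.γ j u : OK K) : OK K) := by
      rw [map_sum, ← Finset.sum_sub_distrib]
      refine Finset.sum_congr rfl fun j _ => ?_
      rw [map_mul, map_intCast]
      ring
    have h3 := congrArg (OK K).subtype h2
    rw [map_sub, map_sum (OK K).subtype (fun j => (algebraMap κ (OK K) (A.B i j) *
      ((θ j) ^ (p ^ h) - 1) * (bs.γ j u : OK K) : OK K))] at h3
    exact h3
  rw [h1]
  apply t34_norm_sum_lt _ _ one_pos
  intro j _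
  have h4 : ‖(algebraMap κ (OK K) (A.B i j) * ((θ j) ^ (p ^ h) - 1) * (bs.γ j u : OK K) : OK K)‖
      ≤ ‖(θ j) ^ (p ^ h) - 1‖ := by
    rw [OK_norm_mul, OK_norm_mul]
    calc ‖algebraMap κ (OK K) (A.B i j)‖ * ‖(θ j) ^ (p ^ h) - 1‖ * ‖(bs.γ j u : OK K)‖
        ≤ 1 * ‖(θ j) ^ (p ^ h) - 1‖ * 1 := by
          apply mul_le_mul _ (norm_le_one _) (norm_nonneg _) (by positivity)
          exact mul_le_mul_of_nonneg_right (norm_le_one _) (norm_nonneg _)
      _ = ‖(θ j) ^ (p ^ h) - 1‖ := by ring
  exact h4.trans_lt (u1_pow (hθ j) _)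

/-- `A_l → 0`. -/
theorem exists_norm_Al_lt (bs : FinalBasis A) (ε : ℝ) (hε : 0 < ε) :
    ∃ L : ℕ, ∀ l ≥ L, ‖A.Al bs l‖ < ε := by
  obtain ⟨δ, hδ, hE⟩ := A.D.exists_norm_E_lt ε hε
  have hp : 1 < p := (Fact.out : p.Prime).one_lt
  have hlt : ‖(bs.X bs.j0).val‖ < 1 := (bs.X bs.j0).norm_val_lt
  obtain ⟨L, hL⟩ := exists_pow_lt_of_lt_one hδ hlt
  refine ⟨L, fun l hl => hE _ ?_⟩
  rw [val_powPt, one_mul, OK_norm_pow]
  refine lt_of_le_of_lt ?_ hL
  refine pow_le_pow_of_le_one (norm_nonneg _) hlt.le ?_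
  exact hl.trans (Nat.lt_pow_self hp).le

theorem Al_ne_zero (bs : FinalBasis A) (l : ℕ) (hb : A.D.NonBreak (A.rhol bs l)) :
    A.Al bs l ≠ 0 := by
  have h0 : powPt p (1 : OK K) l (bs.X bs.j0) ≠ 0 := by
    intro h0
    have h1 : (bs.X bs.j0).val ^ (p ^ l) = 0 := by
      have := congrArg FPt.val h0
      rwa [val_powPt, one_mul, FPt.val_zero] at this
    have h2 : (bs.X bs.j0).val = 0 :=
      (pow_eq_zero_iff (pow_ne_zero _ (Fact.out : p.Prime).ne_zero)).1 h1
    exact bs.X0_ne (FPt.ext h2)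
  have h1 : A.D.NonBreak ‖(powPt p (1 : OK K) l (bs.X bs.j0)).val‖ := by
    rw [val_powPt, one_mul, OK_norm_pow]
    exact hb
  have h2 := (A.D.norm_E_le_of_nonBreak _ _ h0 h1 le_rfl).1
  intro h3
  apply h2
  apply FPt.ext
  exact Subtype.ext h3

theorem nonBreak_seq (bs : FinalBasis A) (L : ℕ) : ∃ e₀ : ℕ, ∀ e ≥ e₀, ∃ l ≥ L,
    A.D.NonBreak (A.rhol bs l) ∧ l = e + A.D.sig (A.rhol bs l) := by
  obtain ⟨e₀, he⟩ := A.D.exists_nonBreak (bs.X bs.j0) bs.X0_ne
  refine ⟨max e₀ L, fun e hee => ?_⟩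
  obtain ⟨l, h1, h2⟩ := he e ((le_max_left _ _).trans hee)
  have h3 : L ≤ e := (le_max_right _ _).trans hee
  refine ⟨l, ?_, h1, h2⟩
  omega

theorem norm_eta_le (bs : FinalBasis A) (u : Fin (n - h)) :
    ‖((bs.X u).val : K) / ((bs.X bs.j0).val : K)‖ ≤ 1 := by
  rw [norm_div]
  exact div_le_one_of_le₀ (bs.X_le _ (bs.X_mem u)) (norm_nonneg _)

/-- Case I of the final argument: `|S| > d` is impossible. -/
theorem caseI [IsAlgClosed κ] [CharP κ p] (bs : FinalBasis A) : ¬ A.d < bs.S.card := by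
  classical
  intro hcard
  have hp : p.Prime := Fact.out
  have hn : 1 ≤ n := by
    have := A.D.h_lt_n
    omega
  obtain ⟨θ, hθ, hs⟩ := A.s_asym bs
  -- the matrix
  set β : Fin A.d → bs.S → K := fun i u =>
    ((∑ j, algebraMap κ (OK K) (A.B i j) * (θ j) ^ (p ^ h) * (bs.γ j u : OK K) : OK K) : K)
    with hβ
  obtain ⟨v, hv⟩ : ∃ v : bs.S, Pi.single v (1 : K) ∉ Submodule.span K (Set.range β) := by
    by_contra hcon
    push Not at hcon
    have htop : Submodule.span K (Set.range β) = ⊤ := by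
      rw [eq_top_iff, ← (Pi.basisFun K bs.S).span_eq, Submodule.span_le]
      rintro _ ⟨v, rfl⟩
      rw [Pi.basisFun_apply]
      exact hcon v
    have h1 := finrank_range_le_card (R := K) β
    rw [Set.finrank, htop, finrank_top, Module.finrank_fintype_fun_eq_card, Fintype.card_coe,
      Fintype.card_fin] at h1
    omega
  obtain ⟨θ', hθ', hxi⟩ := A.xi_asym bs 1 le_rfl (bs.X v) (bs.X_mem v)
  rw [bs.X_E] at hxi
  -- the minimal polynomial
  set s := linPt A.B (ypt (p := p) h A.x) with hsd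
  set Y : OK K := (A.x v).val ^ (p ^ h) with hY
  obtain ⟨P, hP, hP0, hPl⟩ := A.poly 1 (A.x v) (by rw [pow_one]; exact A.level.tors v)
  rw [mul_one] at hP0 hPl
  have hgen : ∀ f : MvPowerSeries (Fin A.d) κ, evk κ s f = 0 → f = 0 := by
    intro f hf
    by_contra hne
    have h1 := A.generic f hne
    rw [hf, norm_zero] at h1
    exact (pow_pos A.ρ_pos _).ne h1
  obtain ⟨M, hM, hMY, hmin, δ, hδ, hnear⟩ := exists_minpoly s hgen P hP Y hP0
  set F : Fin A.d → OK K := fun i => evP s (pdC i M) Y with hF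
  set f : OK K := evP s (Polynomial.derivative M) Y with hf
  set η : bs.S → K := fun u => ((bs.X u).val : K) / ((bs.X bs.j0).val : K) with hη
  set a : bs.S → K := fun u => (∑ i, (F i : K) * β i u) +
    (if u = v then (f : K) * (θ' : K) ^ (p ^ h) else 0) with ha
  -- the limit relation
  have hlim : Tendsto (fun e : ℕ => ∑ u, a u * η u ^ (p ^ e)) atTop (𝓝 0) := by
    rw [← tendsto_add_atTop_iff_nat h, NormedAddGroup.tendsto_nhds_zero]
    intro ε hε
    set ε' := min (ε / 2) (1 / 2) with hε'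
    have hε'0 : 0 < ε' := lt_min (by positivity) (by norm_num)
    have hε'1 : ε' < 1 := (min_le_right _ _).trans_lt (by norm_num)
    choose L1 hL1 using fun i => hs i 1 (one_pow _) ε' hε'0
    obtain ⟨L2, hL2⟩ := hxi 1 (one_pow _) ε' hε'0
    obtain ⟨L3, hL3⟩ := A.exists_norm_Al_lt bs (min ε' δ) (lt_min hε'0 hδ)
    obtain ⟨e₀, he₀⟩ := A.nonBreak_seq bs (max (∑ i, L1 i) (max L2 L3))
    filter_upwards [eventually_ge_atTop e₀] with e he
    obtain ⟨l, hl, hnb, hle⟩ := he₀ e he
    have hlL1 : ∀ i, L1 i ≤ l := fun i =>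
      (Finset.single_le_sum (f := L1) (fun _ _ => Nat.zero_le _) (Finset.mem_univ i)).trans
        ((le_max_left _ _).trans hl)
    have hlL2 : L2 ≤ l := (le_max_left _ _).trans ((le_max_right _ _).trans hl)
    have hlL3 : L3 ≤ l := (le_max_right _ _).trans ((le_max_right _ _).trans hl)
    have hAl0 := A.Al_ne_zero bs l hnb
    have hAls := hL3 l hlL3
    set α : K := A.Al bs l ^ (p ^ h) with hα
    have hα0 : α ≠ 0 := pow_ne_zero _ hAl0
    have hαn : ‖α‖ ≤ ‖A.Al bs l‖ := by
      rw [hα, norm_pow]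
      exact pow_le_of_le_one (norm_nonneg _)
        ((hAls.trans_le ((min_le_left _ _).trans hε'1.le)).le) (pow_ne_zero _ hp.ne_zero)
    have hαε : ‖α‖ < ε' := hαn.trans_lt (hAls.trans_le (min_le_left _ _))
    have hαδ : ‖α‖ < δ := hαn.trans_lt (hAls.trans_le (min_le_right _ _))
    have hαpos : 0 < ‖α‖ := norm_pos_iff.2 hα0
    set s' := linPt A.B (ypt (p := p) h (fun j => A.τ 1 (l + n) (A.x j))) with hs'
    set Y' : OK K := (A.τ 1 (l + n) (A.x v)).val ^ (p ^ h) with hY'
    have hone : ((algebraMap κ (OK K) 1 : OK K) : K) = 1 := by rw [map_one]; rfl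
    -- `s' - s`
    have hsi : ∀ i, ‖(((s' i : OK K) : K) - ((s i : OK K) : K)) / α -
        ∑ u : bs.S, β i u * η u ^ (p ^ (e + h))‖ < ε' := by
      intro i
      have h1 := hL1 i l (hlL1 i) hnb e hle
      rw [hone, one_pow, one_mul, add_comm h e] at h1
      rw [← Finset.sum_coe_sort bs.S] at h1
      exact h1
    have hβ1 : ∀ i u, ‖β i u‖ ≤ 1 := fun i u => norm_le_one _
    have hη1 : ∀ u, ‖η u‖ ≤ 1 := fun u => A.norm_eta_le bs u
    have hη1' : ∀ u k, ‖η u ^ k‖ ≤ 1 := fun u k => by
      rw [norm_pow]; exact pow_le_one₀ (norm_nonneg _) (hη1 u)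
    have hsum1 : ∀ i, ‖∑ u : bs.S, β i u * η u ^ (p ^ (e + h))‖ ≤ 1 := by
      intro i
      refine IsUltrametricDist.norm_sum_le_of_forall_le_of_nonneg zero_le_one fun u _ => ?_
      rw [norm_mul]
      exact mul_le_one₀ (hβ1 i u) (norm_nonneg _) (hη1' u _)
    have hsi' : ∀ i, ‖((s' i : OK K) : K) - ((s i : OK K) : K)‖ ≤ ‖α‖ := by
      intro i
      have h1 : ‖(((s' i : OK K) : K) - ((s i : OK K) : K)) / α‖ ≤ 1 := by
        have h2 := IsUltrametricDist.norm_add_le_max
          ((((s' i : OK K) : K) - ((s i : OK K) : K)) / α -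
            ∑ u : bs.S, β i u * η u ^ (p ^ (e + h))) (∑ u : bs.S, β i u * η u ^ (p ^ (e + h)))
        rw [sub_add_cancel] at h2
        exact h2.trans (max_le ((hsi i).le.trans hε'1.le) (hsum1 i))
      rw [norm_div, div_le_one hαpos] at h1
      exact h1
    -- `Y' - Y`
    have hYd : (((Y' : OK K) : K) - ((Y : OK K) : K)) / α =
        (((((A.τ 1 (l + n) (A.x v)).val : OK K) : K) - (((A.x v).val : OK K) : K)) /
          A.Al bs l) ^ (p ^ h) := by
      rw [div_pow, sub_pow_char_pow]
      rfl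
    have hYi : ‖(((Y' : OK K) : K) - ((Y : OK K) : K)) / α -
        (θ' : K) ^ (p ^ h) * η v ^ (p ^ (e + h))‖ < ε' := by
      have h1 := hL2 l hlL2 hnb e hle
      rw [hone, one_pow, mul_one, mul_one] at h1
      rw [hYd]
      have h2 : (θ' : K) ^ (p ^ h) * η v ^ (p ^ (e + h)) =
          ((θ' : K) * η v ^ (p ^ e)) ^ (p ^ h) := by
        rw [mul_pow, ← pow_mul, ← pow_add]
      rw [h2, ← sub_pow_char_pow, norm_pow]
      refine lt_of_le_of_lt (pow_le_of_le_one (norm_nonneg _) (h1.le.trans hε'1.le)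
        (pow_ne_zero _ hp.ne_zero)) ?_
      exact h1
    have hYi' : ‖((Y' : OK K) : K) - ((Y : OK K) : K)‖ ≤ ‖α‖ := by
      have h1 : ‖(((Y' : OK K) : K) - ((Y : OK K) : K)) / α‖ ≤ 1 := by
        have h2 := IsUltrametricDist.norm_add_le_max
          ((((Y' : OK K) : K) - ((Y : OK K) : K)) / α -
            (θ' : K) ^ (p ^ h) * η v ^ (p ^ (e + h))) ((θ' : K) ^ (p ^ h) * η v ^ (p ^ (e + h)))
        rw [sub_add_cancel] at h2
        refine h2.trans (max_le (hYi.le.trans hε'1.le) ?_)
        rw [norm_mul, norm_pow]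
        exact mul_le_one₀ (pow_le_one₀ (norm_nonneg _) (norm_le_one θ')) (norm_nonneg _) (hη1' v _)
      rw [norm_div, div_le_one hαpos] at h1
      exact h1
    -- the equation at the nearby point
    have hM' : evP s' M Y' = 0 := by
      refine hnear s' Y' (fun i => (hsi' i).trans_lt hαδ) (hYi'.trans_lt hαδ) ?_
      exact hPl 1 (one_pow _) (l + n) (by omega)
    have hT := norm_evP_taylor M s s' Y Y' ‖α‖ (norm_nonneg _) (hαε.le.trans hε'1.le)
      hsi' hYi'
    rw [hM', hMY, sub_zero, zero_sub] at hT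
    have hT' : ‖(∑ i, (F i : K) * ((((s' i : OK K) : K) - ((s i : OK K) : K)) / α)) +
        (f : K) * ((((Y' : OK K) : K) - ((Y : OK K) : K)) / α)‖ ≤ ‖α‖ := by
      have h1 : ‖(∑ i, (F i : K) * (((s' i : OK K) : K) - ((s i : OK K) : K))) +
          (f : K) * (((Y' : OK K) : K) - ((Y : OK K) : K))‖ ≤ ‖α‖ ^ 2 := by
        refine le_trans (le_of_eq ?_) hT
        rw [← norm_neg]
        have h2 : ((-(∑ i, F i * ((s' i : OK K) - s i)) - f * (Y' - Y) : OK K) : K) =
            -((∑ i, (F i : K) * (((s' i : OK K) : K) - ((s i : OK K) : K))) +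
          (f : K) * (((Y' : OK K) : K) - ((Y : OK K) : K))) := by
          push_cast
          ring
        rw [← h2]
        rfl
      have h3 : (∑ i, (F i : K) * ((((s' i : OK K) : K) - ((s i : OK K) : K)) / α)) +
        (f : K) * ((((Y' : OK K) : K) - ((Y : OK K) : K)) / α) =
        ((∑ i, (F i : K) * (((s' i : OK K) : K) - ((s i : OK K) : K))) +
          (f : K) * (((Y' : OK K) : K) - ((Y : OK K) : K))) / α := by
        rw [add_div, Finset.sum_div]
        congr 1
        · exact Finset.sum_congr rfl fun i _ => (mul_div_assoc _ _ _).symm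
        · rw [mul_div_assoc]
      rw [h3, norm_div, div_le_iff₀ hαpos, ← sq]
      exact h1
    -- compare with the main term
    have hmain : ∑ u, a u * η u ^ (p ^ (e + h)) =
        (∑ i, (F i : K) * ∑ u : bs.S, β i u * η u ^ (p ^ (e + h))) +
          (f : K) * ((θ' : K) ^ (p ^ h) * η v ^ (p ^ (e + h))) := by
      simp only [ha, add_mul, Finset.sum_add_distrib, ite_mul, zero_mul,
        Finset.sum_ite_eq', Finset.mem_univ, if_true]
      congr 1
      · simp_rw [Finset.sum_mul, Finset.mul_sum]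
        rw [Finset.sum_comm]
        exact Finset.sum_congr rfl fun i _ => Finset.sum_congr rfl fun u _ => by ring
      · ring
    have hdiff : ‖((∑ i, (F i : K) * ((((s' i : OK K) : K) - ((s i : OK K) : K)) / α)) +
        (f : K) * ((((Y' : OK K) : K) - ((Y : OK K) : K)) / α)) -
        ∑ u, a u * η u ^ (p ^ (e + h))‖ ≤ ε' := by
      have h1 : ((∑ i, (F i : K) * ((((s' i : OK K) : K) - ((s i : OK K) : K)) / α)) +
        (f : K) * ((((Y' : OK K) : K) - ((Y : OK K) : K)) / α)) -
        ∑ u, a u * η u ^ (p ^ (e + h)) =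
        (∑ i, (F i : K) * ((((s' i : OK K) : K) - ((s i : OK K) : K)) / α -
          ∑ u : bs.S, β i u * η u ^ (p ^ (e + h)))) +
        (f : K) * ((((Y' : OK K) : K) - ((Y : OK K) : K)) / α -
          (θ' : K) ^ (p ^ h) * η v ^ (p ^ (e + h))) := by
        rw [hmain]
        simp only [mul_sub, Finset.sum_sub_distrib]
        ring
      rw [h1]
      refine (IsUltrametricDist.norm_add_le_max _ _).trans (max_le ?_ ?_)
      · refine IsUltrametricDist.norm_sum_le_of_forall_le_of_nonneg hε'0.le fun i _ => ?_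
        rw [norm_mul]
        exact (mul_le_of_le_one_left (norm_nonneg _) (norm_le_one _)).trans (hsi i).le
      · rw [norm_mul]
        exact (mul_le_of_le_one_left (norm_nonneg _) (norm_le_one _)).trans hYi.le
    have hfin : ‖∑ u, a u * η u ^ (p ^ (e + h))‖ ≤ ε' := by
      rw [norm_sub_rev] at hdiff
      have h1 := IsUltrametricDist.norm_add_le_max (∑ u, a u * η u ^ (p ^ (e + h)) -
        ((∑ i, (F i : K) * ((((s' i : OK K) : K) - ((s i : OK K) : K)) / α)) +
        (f : K) * ((((Y' : OK K) : K) - ((Y : OK K) : K)) / α)))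
        ((∑ i, (F i : K) * ((((s' i : OK K) : K) - ((s i : OK K) : K)) / α)) +
        (f : K) * ((((Y' : OK K) : K) - ((Y : OK K) : K)) / α))
      rw [sub_add_cancel] at h1
      exact h1.trans (max_le hdiff (hT'.trans hαε.le))
    exact (hfin.trans (min_le_left _ _)).trans_lt (by linarith)
  -- Artin-Dedekind
  have hind : ∀ c : bs.S → ℤ, ‖∑ u, (c u : K) * η u‖ < 1 → ∀ u, (p : ℤ) ∣ c u := by
    intro c hc u
    have h1 := bs.indep (fun j => if hj : j ∈ bs.S then c ⟨j, hj⟩ else 0) ?_ u u.2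
    · simpa using h1
    · rw [← Finset.sum_coe_sort bs.S]
      refine lt_of_eq_of_lt ?_ hc
      congr 1
      refine Finset.sum_congr rfl fun u _ => ?_
      simp only [u.2, dif_pos]
      rfl
  have hazero := artin_dedekind (p := p) η a (fun u => A.norm_eta_le bs u) hind hlim
  -- conclusion
  have hf0 : (f : K) = 0 := by
    by_contra hne
    apply hv
    have hθ'0 : (θ' : K) ≠ 0 := by
      intro h0
      have h1 : θ' = 0 := Subtype.ext h0
      rw [h1, zero_sub, norm_neg] at hθ'
      simp at hθ'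
    have hc0 : (f : K) * (θ' : K) ^ (p ^ h) ≠ 0 := mul_ne_zero hne (pow_ne_zero _ hθ'0)
    have h1 : Pi.single v (1 : K) = -((f : K) * (θ' : K) ^ (p ^ h))⁻¹ • ∑ i, (F i : K) • β i := by
      funext u
      have h2 := hazero u
      simp only [ha] at h2
      simp only [Pi.smul_apply, Finset.sum_apply, smul_eq_mul]
      by_cases huv : u = v
      · subst huv
        rw [if_pos rfl] at h2
        rw [Pi.single_eq_same, eq_neg_of_add_eq_zero_left h2]
        rw [neg_mul_neg, inv_mul_cancel₀ hc0]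
      · rw [if_neg huv, add_zero] at h2
        rw [Pi.single_eq_of_ne huv, h2, mul_zero]
    rw [h1]
    refine Submodule.smul_mem _ _ (Submodule.sum_mem _ fun i _ => Submodule.smul_mem _ _ ?_)
    exact Submodule.subset_span ⟨i, rfl⟩
  have hF0 : (fun i => (F i : K)) = 0 := by
    refine A.rank_tilde bs θ hθ _ fun u hu => ?_
    have h2 := hazero ⟨u, hu⟩
    simp only [ha, hf0, zero_mul, ite_self, add_zero] at h2
    exact h2
  refine minpoly_derivatives_false (p := p) s M hM Y hMY hmin (fun i => ?_) ?_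
  · exact Subtype.ext (congrFun hF0 i)
  · exact Subtype.ext hf0

theorem card_ge [CharP κ p] (bs : FinalBasis A) : A.d ≤ bs.S.card :=
  t34_card_le bs.S (fun i u => ∑ j, A.B i j * (bs.γ j u : κ)) bs.rank

end FinalData

end Vale.Agent.P217
end
end

section

section

/-!
# P217: Case II of the final argument
-/

namespace Vale.Agent.P217

open MvPowerSeries Filter Topology

variable {K : Type*} [NontriviallyNormedField K] [IsUltrametricDist K] [CompleteSpace K]
variable {p : ℕ} [Fact p.Prime] [CharP K p] [IsAlgClosed K]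
variable {n h : ℕ} {Γ : FormalGroup (OK K)} [Γ.IsComm]
variable {κ : Type*} [Field κ] [Algebra κ (OK K)]

namespace FinalData

variable (A : FinalData p n h Γ κ)

/-- The vector `X_v` of Case II. -/
structure VecData (bs : FinalBasis A) where
  Xv : FPt Γ
  mem : Xv ∈ A.D.Lam
  ndvd : ¬ ∃ Y' ∈ A.D.Lam, Xv = p • Y'
  lt : ‖Xv.val‖ < ‖(bs.X bs.j0).val‖
  min' : ∀ c : Fin (n - h) → ℤ, ‖Xv.val‖ ≤ ‖(Xv + ∑ u ∈ bs.S, c u • bs.X u).val‖
  K0 : ℕ
  hK0 : ‖(bs.X bs.j0).val‖ ^ (p ^ (n * (K0 + 1))) < ‖Xv.val‖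
  hK0' : ‖Xv.val‖ ≤ ‖(bs.X bs.j0).val‖ ^ (p ^ (n * K0))

theorem exists_vecData (bs : FinalBasis A) (hcard : bs.S.card < n - h) :
    Nonempty (VecData A bs) := by
  classical
  have hp : p.Prime := Fact.out
  obtain ⟨v0, hv0⟩ : ∃ v0, v0 ∉ bs.S := by
    by_contra hcon
    push Not at hcon
    have h1 : bs.S = Finset.univ := Finset.eq_univ_iff_forall.2 hcon
    rw [h1, Finset.card_univ, Fintype.card_fin] at hcard
    exact lt_irrefl _ hcard
  set Yc : (Fin (n - h) → ℤ) → FPt Γ := fun c => bs.X v0 + ∑ u ∈ bs.S, c u • bs.X u with hYc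
  have hmem : ∀ c, Yc c ∈ A.D.Lam := fun c =>
    A.D.Lam.add_mem (bs.X_mem v0) (A.D.Lam.sum_mem fun u _ => A.D.Lam.zsmul_mem (bs.X_mem u) _)
  have hnd : ∀ c, ¬ ∃ Y' ∈ A.D.Lam, Yc c = p • Y' := by
    rintro c ⟨Y', hY', hY⟩
    have h1 : A.D.ltcHom 1 (Yc c) = 0 := by
      rw [LocalFG.ltcHom_apply, LocalFG.E_divp_eq_zero_iff]
      exact ⟨Y', hY', by rw [pow_one]; exact hY⟩
    have hXE : ∀ j, A.D.ltcHom 1 (bs.X j) = A.x j := bs.X_E
    have h2 : A.D.ltcHom 1 (Yc c) = A.x v0 + ∑ u ∈ bs.S, c u • A.x u := by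
      simp only [hYc, map_add, map_sum, map_zsmul, hXE]
    have h3 : ∑ j, (if j = v0 then 1 else if j ∈ bs.S then c j else 0 : ℤ) • A.x j =
        A.x v0 + ∑ u ∈ bs.S, c u • A.x u := by
      rw [← Finset.add_sum_erase _ _ (Finset.mem_univ v0), if_pos rfl, one_smul]
      congr 1
      have h4 : bs.S ⊆ Finset.univ.erase v0 := fun u hu =>
        Finset.mem_erase.2 ⟨by rintro rfl; exact hv0 hu, Finset.mem_univ _⟩
      rw [← Finset.sum_subset h4]
      · refine Finset.sum_congr rfl fun u hu => ?_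
        have hne : u ≠ v0 := by rintro rfl; exact hv0 hu
        rw [if_neg hne, if_pos hu]
      · intro u hu hu2
        rw [if_neg (Finset.ne_of_mem_erase hu), if_neg hu2, zero_smul]
    have h4 := A.level.indep _ (h3.trans (h2.symm.trans h1)) v0
    rw [if_pos rfl] at h4
    have h5 := Int.natCast_dvd_natCast.1 (by exact_mod_cast h4 : (p : ℤ) ∣ ((1 : ℕ) : ℤ))
    exact hp.one_lt.ne' (Nat.dvd_one.1 h5)
  -- a vector of minimal norm
  have hfin : Set.Finite (Set.range fun c => ‖(Yc c).val‖) := by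
    refine A.D.finite_norms.subset ?_
    rintro _ ⟨c, rfl⟩
    exact ⟨Yc c, hmem c, hnd c, rfl⟩
  obtain ⟨_, ⟨c0, rfl⟩, hc0⟩ := Set.exists_min_image _ id hfin (Set.range_nonempty _)
  have hmin : ∀ c, ‖(Yc c0).val‖ ≤ ‖(Yc c).val‖ := fun c => hc0 _ ⟨c, rfl⟩
  have hne : Yc c0 ≠ 0 := by
    intro h0
    exact hnd c0 ⟨0, A.D.Lam.zero_mem, by rw [smul_zero]; exact h0⟩
  have hpos : 0 < ‖(Yc c0).val‖ := LocalFG.norm_val_pos hne
  have hr0 : 0 < ‖(bs.X bs.j0).val‖ := LocalFG.norm_val_pos bs.X0_ne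
  have hr1 : ‖(bs.X bs.j0).val‖ < 1 := (bs.X bs.j0).norm_val_lt
  have hlt : ‖(Yc c0).val‖ < ‖(bs.X bs.j0).val‖ := by
    refine lt_of_le_of_lt (hmin fun u => -bs.γ v0 u) ?_
    have h1 := norm_val_add_sum_zsmul_sub_le bs.S (fun u => -bs.γ v0 u) (bs.X v0) bs.X _
      hr0.le (bs.X_le _ (bs.X_mem v0)) (fun u _ => bs.X_le _ (bs.X_mem u))
    have h2 := bs.γ_spec v0
    have h3 : (((bs.X v0).val + ∑ u ∈ bs.S, ((-bs.γ v0 u : ℤ) : OK K) * (bs.X u).val : OK K) : K) =
        ((bs.X bs.j0).val : K) * (((bs.X v0).val : K) / ((bs.X bs.j0).val : K) -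
          ∑ u ∈ bs.S, (bs.γ v0 u : K) * (((bs.X u).val : K) / ((bs.X bs.j0).val : K))) := by
      have h0 : ((bs.X bs.j0).val : K) ≠ 0 := norm_pos_iff.1 hr0
      rw [mul_sub, Finset.mul_sum, mul_div_cancel₀ _ h0, sub_eq_add_neg, ← Finset.sum_neg_distrib]
      push_cast
      congr 1
      refine Finset.sum_congr rfl fun u _ => ?_
      field_simp
    have h4 : ‖(bs.X v0).val + ∑ u ∈ bs.S, ((-bs.γ v0 u : ℤ) : OK K) * (bs.X u).val‖ <
        ‖(bs.X bs.j0).val‖ := by
      show ‖(((bs.X v0).val + ∑ u ∈ bs.S, ((-bs.γ v0 u : ℤ) : OK K) * (bs.X u).val : OK K) : K)‖ <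
        ‖(bs.X bs.j0).val‖
      rw [h3, norm_mul]
      exact mul_lt_of_lt_one_right hr0 h2
    have h5 : (Yc fun u => -bs.γ v0 u).val = ((Yc fun u => -bs.γ v0 u).val -
        ((bs.X v0).val + ∑ u ∈ bs.S, ((-bs.γ v0 u : ℤ) : OK K) * (bs.X u).val)) +
        ((bs.X v0).val + ∑ u ∈ bs.S, ((-bs.γ v0 u : ℤ) : OK K) * (bs.X u).val) := by ring
    rw [h5]
    refine (OK_norm_add_le _ _).trans_lt (max_lt (h1.trans_lt ?_) h4)
    rw [sq]
    exact mul_lt_of_lt_one_left hr0 hr1
  -- K0
  have hex : ∃ k : ℕ, ‖(bs.X bs.j0).val‖ ^ (p ^ (n * (k + 1))) < ‖(Yc c0).val‖ := by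
    obtain ⟨k, hk⟩ := exists_pow_lt_of_lt_one hpos hr1
    refine ⟨k, lt_of_le_of_lt (pow_le_pow_of_le_one hr0.le hr1.le ?_) hk⟩
    have hn : 0 < n := lt_of_le_of_lt (Nat.zero_le _) A.D.h_lt_n
    calc k ≤ n * (k + 1) := by nlinarith
      _ ≤ p ^ (n * (k + 1)) := (Nat.lt_pow_self hp.one_lt).le
  refine ⟨{ Xv := Yc c0, mem := hmem c0, ndvd := hnd c0, lt := hlt, min' := fun c => ?_,
            K0 := Nat.find hex, hK0 := Nat.find_spec hex, hK0' := ?_ }⟩
  · have h1 : Yc c0 + ∑ u ∈ bs.S, c u • bs.X u = Yc (fun u => c0 u + c u) := by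
      simp only [hYc, add_smul, Finset.sum_add_distrib, add_assoc]
    rw [h1]
    exact hmin _
  · rcases Nat.eq_zero_or_pos (Nat.find hex) with h0 | h0
    · rw [h0]
      simpa using hlt.le
    · have h1 := Nat.find_min hex (m := Nat.find hex - 1) (by omega)
      rw [Nat.sub_add_cancel h0] at h1
      exact not_lt.1 h1

/-- `ξ_v = τ(z_v) - z_v`, `z_v = E(p^{-N} Y)`. -/
noncomputable def xiv (N : ℕ) (Y : FPt Γ) (ω : κ) (l : ℕ) : K :=
  ((A.τ ω (l + n * N) (A.D.E (divp p n N Y))).val : K) - ((A.D.E (divp p n N Y)).val : K)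

/-- `s'_i`. -/
noncomputable def spt (ω : κ) (k : ℕ) (i : Fin A.d) : K :=
  ((linPt A.B (ypt (p := p) h (fun j => A.τ ω k (A.x j))) i : OK K) : K)

/-- `s'_i - s_i`. -/
noncomputable def sds (N : ℕ) (ω : κ) (l : ℕ) (i : Fin A.d) : K :=
  A.spt ω (l + n * N) i - ((linPt A.B (ypt (p := p) h A.x) i : OK K) : K)

/-- the matrix `β̃`. -/
noncomputable def bet {A : FinalData p n h Γ κ} (bs : FinalBasis A) (θ : Fin (n - h) → OK K)
    (i : Fin A.d) (u : Fin (n - h)) : K :=
  ((∑ j, algebraMap κ (OK K) (A.B i j) * (θ j) ^ (p ^ h) * (bs.γ j u : OK K) : OK K) : K)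

theorem norm_bet_le {A : FinalData p n h Γ κ} (bs : FinalBasis A) (θ : Fin (n - h) → OK K)
    (i : Fin A.d) (u : Fin (n - h)) : ‖bet bs θ i u‖ ≤ 1 := by
  unfold bet
  exact norm_le_one (K := K) _

theorem c2_norm_eta_le {A : FinalData p n h Γ κ} (bs : FinalBasis A) (u : Fin (n - h)) :
    ‖((bs.X u).val : K) / ((bs.X bs.j0).val : K)‖ ≤ 1 := by
  rw [norm_div]
  exact div_le_one_of_le₀ (bs.X_le _ (bs.X_mem u)) (norm_nonneg _)

theorem tendsto_xiv (bs : FinalBasis A) (N : ℕ) (hN : 1 ≤ N) (Y : FPt Γ) (hY : Y ∈ A.D.Lam)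
    (hlt : ‖Y.val‖ < ‖(bs.X bs.j0).val‖) (ω : κ) (hω : ω ^ (p ^ n) = ω) :
    Tendsto (fun l => A.xiv N Y ω l / A.D.eX (bs.X bs.j0) 1 l) (A.D.nbf (bs.X bs.j0)) (𝓝 0) := by
  obtain ⟨θ, -, hθ⟩ := A.xi_asym bs N hN Y hY
  have h1 : Tendsto (fun l => A.xiv N Y ω l / A.D.eX (bs.X bs.j0) 1 l -
      (θ : K) * ((algebraMap κ (OK K) ω : OK K) : K) ^
        (p ^ ((n - 1) * A.D.sgl (bs.X bs.j0) l)) *
          ((Y.val : K) / ((bs.X bs.j0).val : K)) ^ (p ^ A.D.exl (bs.X bs.j0) l))
      (A.D.nbf (bs.X bs.j0)) (𝓝 0) := by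
    refine Metric.tendsto_nhds.2 fun ε hε => ?_
    obtain ⟨L, hL⟩ := hθ ω hω ε hε
    filter_upwards [A.D.nbf_le _ (eventually_ge_atTop L),
      A.D.nbf_le _ (A.D.eventually_exl bs.X0_ne 0), A.D.eventually_nonBreak _] with l hl1 hl2 hl3
    rw [dist_zero_right]
    exact hL l hl1 hl3 _ hl2.2
  have h2 : ‖(Y.val : K) / ((bs.X bs.j0).val : K)‖ < 1 := by
    rw [norm_div]
    exact (div_lt_one (LocalFG.norm_val_pos bs.X0_ne)).2 hlt
  have h3 := c2_tendsto_mul_bdd (A.D.tendsto_pow_exl bs.X0_ne h2)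
    (g := fun l => (θ : K) * ((algebraMap κ (OK K) ω : OK K) : K) ^
        (p ^ ((n - 1) * A.D.sgl (bs.X bs.j0) l))) 1 (Eventually.of_forall fun l => by
      rw [norm_mul, norm_pow]
      exact mul_le_one₀ θ.2 (by positivity)
        (pow_le_one₀ (norm_nonneg _) (algebraMap κ (OK K) ω).2))
  have h4 := h1.add h3
  rw [add_zero] at h4
  refine h4.congr fun l => ?_
  ring

end FinalData

theorem c2_tendsto_mul_sub {F : Filter ℕ} {x y r : ℕ → K} {c : K}
    (hxy : Tendsto (fun l => x l - y l) F (𝓝 0)) (hy : ∀ᶠ l in F, ‖y l‖ ≤ 1)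
    (hr : Tendsto r F (𝓝 c)) : Tendsto (fun l => x l * r l - c * y l) F (𝓝 0) := by
  have h1 := hxy.mul hr
  rw [zero_mul] at h1
  have h2 : Tendsto (fun l => r l - c) F (𝓝 0) := by
    have := hr.sub_const c
    rwa [sub_self] at this
  have h3 := h1.add (c2_tendsto_mul_bdd h2 1 hy)
  rw [add_zero] at h3
  refine h3.congr fun l => ?_
  ring

theorem c2_norm_sum_le_one {ι : Type*} (s : Finset ι) (f : ι → K) (hf : ∀ i ∈ s, ‖f i‖ ≤ 1) :
    ‖∑ i ∈ s, f i‖ ≤ 1 :=
  IsUltrametricDist.norm_sum_le_of_forall_le_of_nonneg zero_le_one hf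

theorem c2_exists_Fq (κ : Type*) [Field κ] [IsAlgClosed κ] (p : ℕ) [Fact p.Prime] [CharP κ p]
    (n : ℕ) (hn : n ≠ 0) : ∃ Fq : Finset κ, Fq.card = p ^ n ∧ (∀ ω ∈ Fq, ω ^ (p ^ n) = ω) ∧
      (1 : κ) ∈ Fq := by
  classical
  have hp : p.Prime := Fact.out
  have hne := FiniteField.X_pow_card_pow_sub_X_ne_zero κ hn hp.one_lt
  have hmem : ∀ ω : κ, ω ∈ (Polynomial.X ^ (p ^ n) - Polynomial.X : Polynomial κ).roots.toFinset ↔
      ω ^ (p ^ n) = ω := by
    intro ω
    rw [Multiset.mem_toFinset, Polynomial.mem_roots hne, Polynomial.IsRoot.def,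
      Polynomial.eval_sub, Polynomial.eval_pow, Polynomial.eval_X, sub_eq_zero]
  refine ⟨(Polynomial.X ^ (p ^ n) - Polynomial.X : Polynomial κ).roots.toFinset, ?_,
    fun ω hω => (hmem ω).1 hω, (hmem 1).2 (one_pow _)⟩
  rw [Multiset.toFinset_card_of_nodup (Polynomial.nodup_roots
    (galois_poly_separable p _ (dvd_pow_self p hn))), IsAlgClosed.card_roots_eq_natDegree,
    FiniteField.X_pow_card_pow_sub_X_natDegree_eq κ hn hp.one_lt]

namespace FinalData

variable (A : FinalData p n h Γ κ)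

/-- the main term of `(s'_i - s_i)/a^(Q^N)`. -/
noncomputable def Tm {A : FinalData p n h Γ κ} (bs : FinalBasis A) (θ : Fin (n - h) → OK K)
    (M : ℕ) (ω : κ) (l : ℕ) (i : Fin A.d) : K :=
  ((algebraMap κ (OK K) ω : OK K) : K) ^
      (p ^ (h + (n - 1) * (A.D.sgl (bs.X bs.j0) l + M * (n - h)))) *
    ∑ u ∈ bs.S, bet bs θ i u * (((bs.X u).val : K) / ((bs.X bs.j0).val : K)) ^
      (p ^ (h + (h * M + A.D.exl (bs.X bs.j0) l)))

theorem norm_Tm_le {A : FinalData p n h Γ κ} (bs : FinalBasis A) (θ : Fin (n - h) → OK K)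
    (M : ℕ) (ω : κ) (l : ℕ) (i : Fin A.d) : ‖Tm bs θ M ω l i‖ ≤ 1 := by
  unfold Tm
  rw [norm_mul, norm_pow]
  refine mul_le_one₀ (pow_le_one₀ (norm_nonneg _) (algebraMap κ (OK K) ω).2) (norm_nonneg _)
    (c2_norm_sum_le_one _ _ fun u _ => ?_)
  rw [norm_mul, norm_pow]
  exact mul_le_one₀ (norm_bet_le bs θ i u) (by positivity)
    (pow_le_one₀ (norm_nonneg _) (c2_norm_eta_le bs u))

theorem tendsto_sds [CharP κ p] (bs : FinalBasis A) : ∃ θ : Fin (n - h) → OK K,
    (∀ j, ‖θ j - 1‖ < 1) ∧ ∀ (M : ℕ) (i : Fin A.d) (ω : κ), ω ^ (p ^ n) = ω →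
      Tendsto (fun l => A.sds (M + 1) ω l i / (A.D.eX (bs.X bs.j0) 1 l) ^ (p ^ (h * (M + 1))) -
        (A.D.cN M : K) ^ (p ^ h) * Tm bs θ M ω l i) (A.D.nbf (bs.X bs.j0)) (𝓝 0) := by
  obtain ⟨θ, hθ, hs⟩ := A.s_asym bs
  refine ⟨θ, hθ, fun M i ω hω => ?_⟩
  set X0 := bs.X bs.j0 with hX0
  have h1 : Tendsto (fun l => (A.spt ω (l + n) i -
        ((linPt A.B (ypt (p := p) h A.x) i : OK K) : K)) / (A.D.eX X0 1 l) ^ (p ^ h) -
      ((algebraMap κ (OK K) ω : OK K) : K) ^ (p ^ (h + (n - 1) * A.D.sgl X0 l)) *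
          ∑ u ∈ bs.S, bet bs θ i u * (((bs.X u).val : K) / (X0.val : K)) ^
            (p ^ (h + A.D.exl X0 l))) (A.D.nbf X0) (𝓝 0) := by
    refine Metric.tendsto_nhds.2 fun ε hε => ?_
    obtain ⟨L, hL⟩ := hs i ω hω ε hε
    filter_upwards [A.D.nbf_le _ (eventually_ge_atTop L),
      A.D.nbf_le _ (A.D.eventually_exl bs.X0_ne 0), A.D.eventually_nonBreak _] with l hl1 hl2 hl3
    rw [dist_zero_right]
    exact hL l hl1 hl3 _ hl2.2
  have h2 := h1.comp (A.D.tendsto_shift bs.X0_ne M)
  have h3 : Tendsto (fun l => A.sds (M + 1) ω l i / (A.D.eX X0 1 (l + n * M)) ^ (p ^ h) -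
      Tm bs θ M ω l i) (A.D.nbf X0) (𝓝 0) := by
    refine h2.congr' ?_
    filter_upwards [A.D.nbf_le _ (A.D.eventually_sgl_shift bs.X0_ne M),
      A.D.nbf_le _ (A.D.eventually_exl_shift bs.X0_ne M)] with l hl1 hl2
    simp only [Function.comp_apply, sds, Tm]
    rw [← hX0] at hl1 hl2
    rw [hl1, hl2, Nat.add_assoc l, ← Nat.mul_succ n M, Nat.add_comm (A.D.exl X0 l)]
  have h4 : Tendsto (fun l => (A.D.eX X0 1 (l + n * M) / A.D.eX X0 1 l ^ (p ^ (h * M))) ^ (p ^ h))
    (A.D.nbf X0) (𝓝 ((A.D.cN M : K) ^ (p ^ h))) := (A.D.tendsto_eX_shift bs.X0_ne M).pow (p ^ h)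
  have h5 := c2_tendsto_mul_sub h3 (Eventually.of_forall fun l => norm_Tm_le bs θ M ω l i) h4
  refine h5.congr' ?_
  filter_upwards [(A.D.tendsto_shift bs.X0_ne M).eventually (A.D.eventually_eX_ne_zero bs.X0_ne)]
    with l hl
  rw [← hX0] at hl
  have h6 : (A.D.eX X0 1 l ^ (p ^ (h * M))) ^ (p ^ h) = A.D.eX X0 1 l ^ (p ^ (h * (M + 1))) := by
    rw [← pow_mul, ← pow_add, Nat.mul_succ]
  congr 1
  rw [div_pow, h6]
  field_simp

/-- the level used in Case II is `M + 1`. -/
def VecData.M {A : FinalData p n h Γ κ} {bs : FinalBasis A} (V : VecData A bs) : ℕ := V.K0 + 1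

/-- the point `s` -/
noncomputable def s0 : Fin A.d → MK K := linPt A.B (ypt (p := p) h A.x)

/-- the point `s'` -/
noncomputable def sP (ω : κ) (k : ℕ) : Fin A.d → MK K :=
  linPt A.B (ypt (p := p) h (fun j => A.τ ω k (A.x j)))

theorem norm_sP_sub (N : ℕ) (ω : κ) (l : ℕ) (i : Fin A.d) :
    ‖(A.sP ω (l + n * N) i : OK K) - A.s0 i‖ = ‖A.sds N ω l i‖ := rfl

theorem coe_sP_sub (N : ℕ) (ω : κ) (l : ℕ) (i : Fin A.d) :
    (((A.sP ω (l + n * N) i : OK K) - (A.s0 i : OK K) : OK K) : K) = A.sds N ω l i := rfl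

/-- `Y_v` -/
noncomputable def Yz (N : ℕ) (Y : FPt Γ) : OK K :=
  (A.D.E (divp p n N Y)).val ^ (p ^ (h * N))

/-- `Y'_v` -/
noncomputable def Yz' (N : ℕ) (Y : FPt Γ) (ω : κ) (k : ℕ) : OK K :=
  (A.τ ω k (A.D.E (divp p n N Y))).val ^ (p ^ (h * N))

theorem coe_Yz_sub (N : ℕ) (Y : FPt Γ) (ω : κ) (l : ℕ) :
    ((A.Yz' N Y ω (l + n * N) - A.Yz N Y : OK K) : K) = (A.xiv N Y ω l) ^ (p ^ (h * N)) := by
  unfold Yz' Yz xiv
  rw [sub_pow_char_pow]
  rfl

theorem norm_Yz_sub (N : ℕ) (Y : FPt Γ) (ω : κ) (l : ℕ) :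
    ‖A.Yz' N Y ω (l + n * N) - A.Yz N Y‖ = ‖A.xiv N Y ω l‖ ^ (p ^ (h * N)) := by
  rw [← norm_pow, ← coe_Yz_sub]
  rfl

theorem eventually_xiv_le (bs : FinalBasis A) (N : ℕ) (hN : 1 ≤ N) (Y : FPt Γ) (hY : Y ∈ A.D.Lam)
    (hlt : ‖Y.val‖ < ‖(bs.X bs.j0).val‖) (ω : κ) (hω : ω ^ (p ^ n) = ω) :
    ∀ᶠ l in A.D.nbf (bs.X bs.j0), ‖A.xiv N Y ω l‖ ≤ ‖A.D.eX (bs.X bs.j0) 1 l‖ := by
  have h1 := (A.tendsto_xiv bs N hN Y hY hlt ω hω).norm
  rw [norm_zero] at h1
  filter_upwards [h1.eventually (gt_mem_nhds one_pos), A.D.eventually_eX_ne_zero bs.X0_ne]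
    with l hl1 hl2
  rw [norm_div, div_lt_one (norm_pos_iff.2 hl2)] at hl1
  exact hl1.le

/-- data at the special point for Case II. -/
structure PData {A : FinalData p n h Γ κ} {bs : FinalBasis A} (V : VecData A bs) where
  θ : Fin (n - h) → OK K
  hθ : ∀ j, ‖θ j - 1‖ < 1
  lim : ∀ (i : Fin A.d) (ω : κ), ω ^ (p ^ n) = ω →
      Tendsto (fun l => A.sds (V.M + 1) ω l i /
          (A.D.eX (bs.X bs.j0) 1 l) ^ (p ^ (h * (V.M + 1))) -
        (A.D.cN V.M : K) ^ (p ^ h) * Tm bs θ V.M ω l i) (A.D.nbf (bs.X bs.j0)) (𝓝 0)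
  sds_le : ∀ (ω : κ), ω ^ (p ^ n) = ω → ∀ᶠ l in A.D.nbf (bs.X bs.j0), ∀ i,
    ‖A.sds (V.M + 1) ω l i‖ ≤ ‖A.D.eX (bs.X bs.j0) 1 l‖ ^ (p ^ (h * (V.M + 1)))
  Mp : Polynomial (MvPowerSeries (Fin A.d) κ)
  monic : Mp.Monic
  root : evP A.s0 Mp (A.Yz (V.M + 1) V.Xv) = 0
  minimal : ∀ R : Polynomial (MvPowerSeries (Fin A.d) κ), evP A.s0 R (A.Yz (V.M + 1) V.Xv) = 0 →
    R ≠ 0 → Mp.natDegree ≤ R.natDegree
  near : ∀ (ω : κ), ω ^ (p ^ n) = ω → ∀ᶠ l in A.D.nbf (bs.X bs.j0),
    evP (A.sP ω (l + n * (V.M + 1))) Mp (A.Yz' (V.M + 1) V.Xv ω (l + n * (V.M + 1))) = 0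
  ne_zero : A.Yz (V.M + 1) V.Xv ≠ 0

theorem exists_PData [CharP κ p] {bs : FinalBasis A} (V : VecData A bs) : Nonempty (PData V) := by
  have hp : p.Prime := Fact.out
  have hn : 0 < n := lt_of_le_of_lt (Nat.zero_le _) A.D.h_lt_n
  obtain ⟨θ, hθ, hlim⟩ := A.tendsto_sds bs
  have hsds : ∀ (ω : κ), ω ^ (p ^ n) = ω → ∀ᶠ l in A.D.nbf (bs.X bs.j0), ∀ i,
      ‖A.sds (V.M + 1) ω l i‖ ≤ ‖A.D.eX (bs.X bs.j0) 1 l‖ ^ (p ^ (h * (V.M + 1))) := by
    intro ω hω
    rw [Filter.eventually_all]
    intro i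
    have h1 := (hlim V.M i ω hω).norm
    rw [norm_zero] at h1
    filter_upwards [h1.eventually (gt_mem_nhds one_pos), A.D.eventually_eX_ne_zero bs.X0_ne]
      with l hl1 hl2
    have h2 : ‖(A.D.cN V.M : K) ^ (p ^ h) * Tm bs θ V.M ω l i‖ ≤ 1 := by
      rw [norm_mul, norm_pow]
      exact mul_le_one₀ (pow_le_one₀ (norm_nonneg _) (A.D.cN V.M).2) (norm_nonneg _)
        (norm_Tm_le _ _ _ _ _ _)
    have h3 := ltc_norm_le_one hl1 h2
    rw [norm_div, norm_pow, div_le_one (pow_pos (norm_pos_iff.2 hl2) _)] at h3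
    exact h3
  set zv := A.D.E (divp p n (V.M + 1) V.Xv) with hzv
  have hz : p ^ (V.M + 1) • zv = 0 := by
    rw [hzv, A.D.pow_smul_E_divp]
    exact A.D.mem_Lam.1 V.mem
  obtain ⟨P, hP, hP0, hP1⟩ := A.poly (V.M + 1) zv hz
  have hgen : ∀ f : MvPowerSeries (Fin A.d) κ, evk κ A.s0 f = 0 → f = 0 := by
    intro f hf
    by_contra hne
    have h1 := A.generic f hne
    have h2 : ‖evk κ (linPt A.B (ypt (p := p) h A.x)) f‖ = 0 := by
      have : evk κ (linPt A.B (ypt (p := p) h A.x)) f = 0 := hf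
      rw [this, norm_zero]
    rw [h2] at h1
    exact (pow_pos A.ρ_pos _).ne h1
  obtain ⟨Mp, hM1, hM2, hM3, δ, hδ, hM4⟩ := exists_minpoly A.s0 hgen P hP
    (A.Yz (V.M + 1) V.Xv) hP0
  refine ⟨{ θ := θ, hθ := hθ, lim := fun i ω hω => hlim V.M i ω hω, sds_le := hsds, Mp := Mp,
            monic := hM1, root := hM2, minimal := hM3, near := ?_, ne_zero := ?_ }⟩
  · intro ω hω
    have ha := (A.D.tendsto_eX_zero (bs.X bs.j0) 1).norm
    rw [norm_zero] at ha
    filter_upwards [hsds ω hω, A.eventually_xiv_le bs (V.M + 1) (by omega) V.Xv V.mem V.lt ω hω,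
      (ha.mono_left (A.D.nbf_le _)).eventually (gt_mem_nhds hδ)] with l hl1 hl2 hl3
    have h5 : ‖A.D.eX (bs.X bs.j0) 1 l‖ ^ (p ^ (h * (V.M + 1))) < δ :=
      lt_of_le_of_lt (pow_le_of_le_one (norm_nonneg _) (A.D.norm_eX_lt_one _ _ _).le
        (pow_ne_zero _ hp.ne_zero)) hl3
    apply hM4
    · intro i
      rw [A.norm_sP_sub]
      exact (hl1 i).trans_lt h5
    · rw [A.norm_Yz_sub]
      exact (pow_le_pow_left₀ (norm_nonneg _) hl2 _).trans_lt h5
    · exact hP1 ω hω _ (by
        have : 1 ≤ n * (V.M + 1) := Nat.mul_pos hn (by omega)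
        omega)
  · have hzv0 : zv ≠ 0 := by
      intro h0
      obtain ⟨Y', hY', hY⟩ := (A.D.E_divp_eq_zero_iff (V.M + 1) V.Xv).1 h0
      exact V.ndvd ⟨p ^ V.M • Y', A.D.Lam.nsmul_mem hY' _, by
        rw [smul_smul, ← pow_succ']; exact hY⟩
    intro h0
    apply hzv0
    apply FPt.ext
    exact (pow_eq_zero_iff (pow_ne_zero _ hp.ne_zero)).1 h0

theorem PData.xiv_le {A : FinalData p n h Γ κ} {bs : FinalBasis A} (V : VecData A bs)
    (ω : κ) (hω : ω ^ (p ^ n) = ω) : ∀ᶠ l in A.D.nbf (bs.X bs.j0),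
      ‖A.xiv (V.M + 1) V.Xv ω l‖ ≤ ‖A.D.eX (bs.X bs.j0) 1 l‖ :=
  A.eventually_xiv_le bs (V.M + 1) (by omega) V.Xv V.mem V.lt ω hω

theorem Tm_one {A : FinalData p n h Γ κ} (bs : FinalBasis A) (θ : Fin (n - h) → OK K)
    (M : ℕ) (l : ℕ) (i : Fin A.d) : Tm bs θ M (1 : κ) l i =
      ∑ u ∈ bs.S, bet bs θ i u * (((bs.X u).val : K) / ((bs.X bs.j0).val : K)) ^
        (p ^ (h + (h * M + A.D.exl (bs.X bs.j0) l))) := by
  unfold Tm
  rw [map_one]
  simp

/-- First order expansion: all the partial derivatives of the minimal polynomial vanish. -/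
theorem PData.pdC_eq_zero [CharP κ p] {A : FinalData p n h Γ κ} {bs : FinalBasis A}
    {V : VecData A bs} (d : PData V) (i : Fin A.d) : pdC i d.Mp = 0 := by
  have hp : p.Prime := Fact.out
  set X0 := bs.X bs.j0 with hX0
  set F : Fin A.d → K := fun i => ((evP A.s0 (pdC i d.Mp) (A.Yz (V.M + 1) V.Xv) : OK K) : K)
    with hF
  set f : K := ((evP A.s0 (Polynomial.derivative d.Mp) (A.Yz (V.M + 1) V.Xv) : OK K) : K) with hf
  have hF1 : ∀ i, ‖F i‖ ≤ 1 := fun i => norm_le_one (K := K) _
  set t := p ^ (h * (V.M + 1)) with ht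
  have ht0 : t ≠ 0 := pow_ne_zero _ hp.ne_zero
  have hω1 : (1 : κ) ^ (p ^ n) = 1 := one_pow _
  -- Taylor
  have h1 : Tendsto (fun l => ∑ i, F i * (A.sds (V.M + 1) (1 : κ) l i / A.D.eX X0 1 l ^ t) +
      f * (A.xiv (V.M + 1) V.Xv (1 : κ) l / A.D.eX X0 1 l) ^ t) (A.D.nbf X0) (𝓝 0) := by
    rw [tendsto_zero_iff_norm_tendsto_zero]
    have ha := (A.D.tendsto_eX_zero X0 1).norm
    rw [norm_zero] at ha
    refine squeeze_zero' (Eventually.of_forall fun l => norm_nonneg _) ?_
      (ha.mono_left (A.D.nbf_le X0))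
    filter_upwards [d.sds_le 1 hω1, PData.xiv_le V 1 hω1, d.near 1 hω1,
      A.D.eventually_eX_ne_zero bs.X0_ne] with l hl1 hl2 hl3 hl4
    set a := A.D.eX X0 1 l with haa
    have hapos : 0 < ‖a‖ := norm_pos_iff.2 hl4
    have ha1 : ‖a‖ ≤ 1 := (A.D.norm_eX_lt_one _ _ _).le
    have h2 := norm_evP_taylor d.Mp A.s0 (A.sP 1 (l + n * (V.M + 1))) (A.Yz (V.M + 1) V.Xv)
      (A.Yz' (V.M + 1) V.Xv 1 (l + n * (V.M + 1))) (‖a‖ ^ t) (by positivity)
      (pow_le_one₀ (norm_nonneg _) ha1) (fun i => by rw [A.norm_sP_sub]; exact hl1 i)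
      (by rw [A.norm_Yz_sub]; exact pow_le_pow_left₀ (norm_nonneg _) hl2 _)
    rw [hl3, d.root] at h2
    have h3 : ‖(∑ i, F i * A.sds (V.M + 1) (1 : κ) l i) + f * (A.xiv (V.M + 1) V.Xv (1 : κ) l) ^ t‖
        ≤ (‖a‖ ^ t) ^ 2 := by
      have h4 : (((0 - 0 - (∑ i, evP A.s0 (pdC i d.Mp) (A.Yz (V.M + 1) V.Xv) *
          ((A.sP 1 (l + n * (V.M + 1)) i : OK K) - A.s0 i)) -
          evP A.s0 (Polynomial.derivative d.Mp) (A.Yz (V.M + 1) V.Xv) *
            (A.Yz' (V.M + 1) V.Xv 1 (l + n * (V.M + 1)) - A.Yz (V.M + 1) V.Xv) : OK K)) : K) =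
          -((∑ i, F i * A.sds (V.M + 1) (1 : κ) l i) +
            f * (A.xiv (V.M + 1) V.Xv (1 : κ) l) ^ t) := by
        rw [← A.coe_Yz_sub]
        simp only [← A.coe_sP_sub]
        push_cast
        ring
      have h5 := h2
      rw [show ∀ x : OK K, ‖x‖ = ‖(x : K)‖ from fun _ => rfl, h4, norm_neg] at h5
      exact h5
    have h6 : (∑ i, F i * (A.sds (V.M + 1) (1 : κ) l i / a ^ t) +
        f * (A.xiv (V.M + 1) V.Xv (1 : κ) l / a) ^ t) =
        ((∑ i, F i * A.sds (V.M + 1) (1 : κ) l i) + f * (A.xiv (V.M + 1) V.Xv (1 : κ) l) ^ t) /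
          a ^ t := by
      rw [add_div, Finset.sum_div, div_pow]
      congr 1
      · exact Finset.sum_congr rfl fun i _ => by ring
      · ring
    rw [h6, norm_div, norm_pow, div_le_iff₀ (pow_pos hapos _)]
    refine h3.trans ?_
    rw [sq]
    exact mul_le_mul_of_nonneg_right (pow_le_of_le_one hapos.le ha1 ht0) (by positivity)
  have h2 : Tendsto (fun l => f * (A.xiv (V.M + 1) V.Xv (1 : κ) l / A.D.eX X0 1 l) ^ t)
      (A.D.nbf X0) (𝓝 0) := by
    have := ((A.tendsto_xiv bs (V.M + 1) (by omega) V.Xv V.mem V.lt 1 hω1).pow t).const_mul f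
    rwa [zero_pow ht0, mul_zero] at this
  have h3 := h1.sub h2
  rw [sub_zero] at h3
  have h4 : Tendsto (fun l => ∑ i, F i * (A.sds (V.M + 1) (1 : κ) l i / A.D.eX X0 1 l ^ t -
      (A.D.cN V.M : K) ^ (p ^ h) * Tm bs d.θ V.M 1 l i)) (A.D.nbf X0) (𝓝 0) := by
    have : Tendsto (fun l => ∑ i, F i * (A.sds (V.M + 1) (1 : κ) l i / A.D.eX X0 1 l ^ t -
      (A.D.cN V.M : K) ^ (p ^ h) * Tm bs d.θ V.M 1 l i)) (A.D.nbf X0) (𝓝 (∑ i, F i * 0)) :=
      tendsto_finsetSum _ fun i _ => (d.lim i 1 hω1).const_mul (F i)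
    simpa using this
  have h5 := h3.sub h4
  rw [sub_zero] at h5
  -- as a function of e
  have h6 : Tendsto (fun e : ℕ => ∑ u ∈ bs.S, ((A.D.cN V.M : K) ^ (p ^ h) *
      ∑ i, F i * bet bs d.θ i u) * (((bs.X u).val : K) / (X0.val : K)) ^
        (p ^ ((h + h * V.M) + e))) atTop (𝓝 0) := by
    apply A.D.tendsto_of_nbf bs.X0_ne
    refine h5.congr fun l => ?_
    rw [add_sub_cancel_right, ← Finset.sum_sub_distrib]
    have h7 : ∀ i, F i * (A.sds (V.M + 1) (1 : κ) l i / A.D.eX X0 1 l ^ t) -
        F i * (A.sds (V.M + 1) (1 : κ) l i / A.D.eX X0 1 l ^ t -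
          (A.D.cN V.M : K) ^ (p ^ h) * Tm bs d.θ V.M 1 l i) =
        ∑ u ∈ bs.S, (A.D.cN V.M : K) ^ (p ^ h) * (F i * bet bs d.θ i u) *
          (((bs.X u).val : K) / (X0.val : K)) ^ (p ^ ((h + h * V.M) + A.D.exl X0 l)) := by
      intro i
      rw [Tm_one, Finset.mul_sum, mul_sub, sub_sub_cancel, Finset.mul_sum]
      refine Finset.sum_congr rfl fun u _ => ?_
      rw [Nat.add_assoc h]
      ring
    rw [Finset.sum_congr rfl fun i _ => h7 i, Finset.sum_comm]
    refine Finset.sum_congr rfl fun u _ => ?_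
    rw [← Finset.sum_mul, ← Finset.mul_sum]
  have h7 := c2_ad_finset (p := p) bs.S _ _ (fun u _ => c2_norm_eta_le bs u) bs.indep _ h6
  have hc : (A.D.cN V.M : K) ^ (p ^ h) ≠ 0 :=
    pow_ne_zero _ fun h0 => A.D.cN_ne_zero V.M (Subtype.ext h0)
  have h8 : F = 0 := A.rank_tilde bs d.θ d.hθ F fun u hu =>
    (mul_eq_zero.1 (h7 u hu)).resolve_left hc
  by_contra hne
  have h9 : evP A.s0 (pdC i d.Mp) (A.Yz (V.M + 1) V.Xv) = 0 := Subtype.ext (congrFun h8 i)
  have h10 := d.minimal _ h9 hne
  have h11 := natDegree_pdC_lt i d.Mp d.monic hne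
  omega

theorem frobX_injective' {κ : Type*} [Field κ] {d : ℕ} (b : ℕ) :
    Function.Injective (frobX (κ := κ) (d := d) p b) := by
  intro f g hfg
  have hp : p ^ b ≠ 0 := pow_ne_zero _ (Fact.out : p.Prime).ne_zero
  ext m
  have h1 : MvPowerSeries.expand (p ^ b) hp f = MvPowerSeries.expand (p ^ b) hp g := hfg
  rw [← MvPowerSeries.coeff_expand_smul (p ^ b) hp f, h1, MvPowerSeries.coeff_expand_smul]

/-- The data of the second expansion. -/
structure QData {A : FinalData p n h Γ κ} {bs : FinalBasis A} {V : VecData A bs}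
    (d : PData V) where
  b : ℕ
  one_le_b : 1 ≤ b
  M' : Polynomial (MvPowerSeries (Fin A.d) κ)
  hM' : d.Mp = M'.map (frobX p b)
  f : K
  hf : f = ((evP A.s0 (Polynomial.derivative d.Mp) (A.Yz (V.M + 1) V.Xv) : OK K) : K)
  f_ne : f ≠ 0
  F : Fin A.d → K
  hF : ∀ i, F i =
    ((evP A.s0 ((pdC i M').map (frobX p b)) (A.Yz (V.M + 1) V.Xv) : OK K) : K)
  F_ne : ∃ i, F i ≠ 0
  G_ne : ∃ u ∈ bs.S, ∑ i, F i * bet bs d.θ i u ^ (p ^ b) ≠ 0

theorem PData.exists_QData [IsAlgClosed κ] [CharP κ p] {A : FinalData p n h Γ κ}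
    {bs : FinalBasis A} {V : VecData A bs} (d : PData V) : Nonempty (QData d) := by
  have hp : p.Prime := Fact.out
  set Yv := A.Yz (V.M + 1) V.Xv with hYv
  have hYv0 : Yv ≠ 0 := d.ne_zero
  have hYv1 : ‖Yv‖ < 1 := by
    rw [hYv]
    unfold Yz
    rw [OK_norm_pow]
    exact pow_lt_one₀ (norm_nonneg _) (FPt.norm_val_lt _) (pow_ne_zero _ hp.ne_zero)
  -- the minimal polynomial is not constant
  have hnc : ¬ ∃ M₀ : Polynomial κ,
      d.Mp = M₀.map (MvPowerSeries.C : κ →+* MvPowerSeries (Fin A.d) κ) := by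
    rintro ⟨M₀, hM₀⟩
    have h1 : M₀ ≠ 0 := by
      rintro rfl
      rw [Polynomial.map_zero] at hM₀
      exact d.monic.ne_zero hM₀
    apply not_const_of_norm A.s0 M₀ h1 Yv hYv0 hYv1
    rw [← hM₀]
    exact d.root
  obtain ⟨b, M', hb, hM', i0, hi0⟩ := exists_frob_root p d.Mp d.pdC_eq_zero hnc
  have hinj := frobX_injective' (p := p) (κ := κ) (d := A.d) b
  have hM'mon : M'.Monic := Polynomial.monic_of_injective hinj (by rw [← hM']; exact d.monic)
  have hdeg : d.Mp.natDegree = M'.natDegree := by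
    rw [hM', Polynomial.natDegree_map_eq_of_injective hinj]
  -- the derivative
  have hf0 : evP A.s0 (Polynomial.derivative d.Mp) Yv ≠ 0 := by
    intro h0
    have hdM : Polynomial.derivative d.Mp = 0 := by
      by_contra hne
      have h1 := d.minimal _ h0 hne
      have h2 : d.Mp.natDegree ≠ 0 := by
        intro h3
        apply hne
        rw [Polynomial.eq_C_of_natDegree_eq_zero h3, Polynomial.derivative_C]
      have h3 := Polynomial.natDegree_derivative_lt h2
      omega
    have : PerfectRing κ p := inferInstance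
    obtain ⟨R, hR⟩ := exists_pow_of_derivatives_zero p d.Mp d.pdC_eq_zero hdM
    have hR0 : R ≠ 0 := by
      rintro rfl
      rw [zero_pow hp.ne_zero] at hR
      exact d.monic.ne_zero hR
    have h1 : evP A.s0 R Yv = 0 := by
      have h2 := d.root
      rw [hR] at h2
      unfold evP at h2 ⊢
      rw [Polynomial.map_pow, Polynomial.eval_pow] at h2
      exact (pow_eq_zero_iff hp.ne_zero).1 h2
    have h2 := d.minimal R h1 hR0
    have h3 : d.Mp.natDegree = p * R.natDegree := by rw [hR, Polynomial.natDegree_pow]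
    have h4 : R.natDegree = 0 := by
      have := hp.two_le
      nlinarith
    have h5 : d.Mp.natDegree = 0 := by rw [h3, h4, mul_zero]
    have h6 : d.Mp = 1 := d.monic.natDegree_eq_zero.1 h5
    have h7 := d.root
    rw [h6] at h7
    unfold evP at h7
    rw [Polynomial.map_one, Polynomial.eval_one] at h7
    exact one_ne_zero h7
  have hF0 : evP A.s0 ((pdC i0 M').map (frobX p b)) Yv ≠ 0 := by
    intro h0
    have h1 : (pdC i0 M').map (frobX p b) ≠ 0 := by
      rw [Polynomial.map_ne_zero_iff hinj]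
      exact hi0
    have h2 := d.minimal _ h0 h1
    rw [Polynomial.natDegree_map_eq_of_injective hinj, hdeg] at h2
    have h3 := natDegree_pdC_lt i0 M' hM'mon hi0
    omega
  set F : Fin A.d → K := fun i =>
    ((evP A.s0 ((pdC i M').map (frobX p b)) (A.Yz (V.M + 1) V.Xv) : OK K) : K) with hF
  have hFne : F i0 ≠ 0 := fun h0 => hF0 (Subtype.ext h0)
  refine ⟨{ b := b, one_le_b := hb, M' := M', hM' := hM', f := _, hf := rfl,
            f_ne := fun h0 => hf0 (Subtype.ext h0), F := F, hF := fun i => rfl,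
            F_ne := ⟨i0, hFne⟩, G_ne := ?_ }⟩
  by_contra hcon
  push Not at hcon
  have hroot : ∀ i, ∃ φ : K, φ ^ (p ^ b) = F i := fun i =>
    IsAlgClosed.exists_pow_nat_eq (F i) (pow_pos hp.pos b)
  choose φ hφ using hroot
  have h1 : ∀ u ∈ bs.S, ∑ i, φ i * bet bs d.θ i u = 0 := by
    intro u hu
    have h2 : (∑ i, φ i * bet bs d.θ i u) ^ (p ^ b) = 0 := by
      rw [sum_pow_char_pow, ← hcon u hu]
      refine Finset.sum_congr rfl fun i _ => ?_
      rw [mul_pow, hφ]
    exact (pow_eq_zero_iff (pow_ne_zero _ hp.ne_zero)).1 h2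
  have h2 : φ = 0 := A.rank_tilde bs d.θ d.hθ φ h1
  apply hFne
  rw [← hφ i0, h2]
  exact zero_pow (pow_ne_zero _ hp.ne_zero)

theorem c2_real_bound {f D τ S T : ℝ} (hf1 : f ≤ 1) (hf0 : 0 < f) (hD : 0 ≤ D)
    (hDf : D < f) (hτ : 0 < τ) (_ : τ ≤ 1) (hS : S ≤ (max D τ) ^ 2) (hT : T ≤ τ)
    (hfD : f * D ≤ max S T) : f * D ≤ τ ∧ S ≤ τ ^ 2 / f ^ 2 := by
  have h1 : f * D ≤ τ := by
    rcases le_total T S with h | h
    · rw [max_eq_left h] at hfD
      have h2 := hfD.trans hS
      rcases le_total D τ with h3 | h3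
      · rw [max_eq_right h3] at h2
        nlinarith
      · rw [max_eq_left h3] at h2
        have hDpos : 0 < D := lt_of_lt_of_le hτ h3
        nlinarith
    · rw [max_eq_right h] at hfD
      exact hfD.trans hT
  refine ⟨h1, hS.trans ?_⟩
  rw [← div_pow]
  refine pow_le_pow_left₀ (le_max_of_le_left hD) ?_ 2
  refine max_le ?_ ?_
  · rw [le_div_iff₀ hf0, mul_comm]; exact h1
  · rw [le_div_iff₀ hf0]
    nlinarith

/-- the key estimates for the second expansion. -/
theorem QData.estimate [IsAlgClosed κ] [CharP κ p] {A : FinalData p n h Γ κ}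
    {bs : FinalBasis A} {V : VecData A bs} {d : PData V} (q : QData d)
    (ω : κ) (hω : ω ^ (p ^ n) = ω) : ∀ᶠ l in A.D.nbf (bs.X bs.j0),
      ‖q.f‖ * ‖(A.xiv (V.M + 1) V.Xv ω l / A.D.eX (bs.X bs.j0) 1 l ^ (p ^ q.b)) ^
        (p ^ (h * (V.M + 1)))‖ ≤ 1 ∧
      ‖∑ i, q.F i * (A.sds (V.M + 1) ω l i /
          A.D.eX (bs.X bs.j0) 1 l ^ (p ^ (h * (V.M + 1)))) ^ (p ^ q.b) +
        q.f * (A.xiv (V.M + 1) V.Xv ω l / A.D.eX (bs.X bs.j0) 1 l ^ (p ^ q.b)) ^
          (p ^ (h * (V.M + 1)))‖ ≤ ‖A.D.eX (bs.X bs.j0) 1 l‖ / ‖q.f‖ ^ 2 := by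
  have hp : p.Prime := Fact.out
  set X0 := bs.X bs.j0 with hX0
  set t := p ^ (h * (V.M + 1)) with ht
  have ht0 : t ≠ 0 := pow_ne_zero _ hp.ne_zero
  have hB0 : p ^ q.b ≠ 0 := pow_ne_zero _ hp.ne_zero
  have hfpos : 0 < ‖q.f‖ := norm_pos_iff.2 q.f_ne
  have hf1 : ‖q.f‖ ≤ 1 := by rw [q.hf]; exact norm_le_one (K := K) _
  have hF1 : ∀ i, ‖q.F i‖ ≤ 1 := fun i => by rw [q.hF]; exact norm_le_one (K := K) _
  have ha := (A.D.tendsto_eX_zero X0 1).norm
  rw [norm_zero] at ha
  filter_upwards [d.sds_le ω hω, PData.xiv_le V ω hω, d.near ω hω,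
    A.D.eventually_eX_ne_zero bs.X0_ne,
    (ha.mono_left (A.D.nbf_le _)).eventually (gt_mem_nhds hfpos)] with l hl1 hl2 hl3 hl4 hl5
  set a := A.D.eX X0 1 l with haa
  set ξ := A.xiv (V.M + 1) V.Xv ω l with hξ
  have hapos : 0 < ‖a‖ := norm_pos_iff.2 hl4
  have ha1 : ‖a‖ ≤ 1 := (A.D.norm_eX_lt_one _ _ _).le
  set τ : ℝ := (‖a‖ ^ t) ^ (p ^ q.b) with hτ
  have hτpos : 0 < τ := by positivity
  have hτa : τ ≤ ‖a‖ := by
    rw [hτ, ← pow_mul]
    exact pow_le_of_le_one hapos.le ha1 (Nat.mul_ne_zero ht0 hB0)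
  have hτ1 : τ ≤ 1 := hτa.trans ha1
  have hDa : ‖ξ‖ ^ t ≤ ‖a‖ :=
    (pow_le_pow_left₀ (norm_nonneg _) hl2 _).trans (pow_le_of_le_one hapos.le ha1 ht0)
  have h2 := norm_evP_taylor_frob p q.b d.Mp q.M' q.hM' A.s0 (A.sP ω (l + n * (V.M + 1)))
    (A.Yz (V.M + 1) V.Xv) (A.Yz' (V.M + 1) V.Xv ω (l + n * (V.M + 1))) (max (‖ξ‖ ^ t) τ)
    (le_max_of_le_right hτpos.le) (max_le (hDa.trans ha1) hτ1)
    (fun i => by
      rw [A.norm_sP_sub]
      exact (pow_le_pow_left₀ (norm_nonneg _) (hl1 i) _).trans (le_max_right _ _))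
    (by rw [A.norm_Yz_sub]; exact le_max_left _ _)
  rw [hl3, d.root] at h2
  have h3 : ‖(∑ i, q.F i * (A.sds (V.M + 1) ω l i) ^ (p ^ q.b)) + q.f * ξ ^ t‖ ≤
      (max (‖ξ‖ ^ t) τ) ^ 2 := by
    have h4 : (((0 - 0 - (∑ i, evP A.s0 ((pdC i q.M').map (frobX p q.b))
          (A.Yz (V.M + 1) V.Xv) *
        ((A.sP ω (l + n * (V.M + 1)) i : OK K) - A.s0 i) ^ (p ^ q.b)) -
        evP A.s0 (Polynomial.derivative d.Mp) (A.Yz (V.M + 1) V.Xv) *
          (A.Yz' (V.M + 1) V.Xv ω (l + n * (V.M + 1)) - A.Yz (V.M + 1) V.Xv) : OK K)) : K) =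
        -((∑ i, q.F i * (A.sds (V.M + 1) ω l i) ^ (p ^ q.b)) + q.f * ξ ^ t) := by
      rw [hξ, ← A.coe_Yz_sub, q.hf]
      simp only [← A.coe_sP_sub, q.hF]
      push_cast
      ring
    have h5 := h2
    rw [show ∀ x : OK K, ‖x‖ = ‖(x : K)‖ from fun _ => rfl, h4, norm_neg] at h5
    exact h5
  have h4 : ‖∑ i, q.F i * (A.sds (V.M + 1) ω l i) ^ (p ^ q.b)‖ ≤ τ := by
    refine IsUltrametricDist.norm_sum_le_of_forall_le_of_nonneg hτpos.le fun i _ => ?_
    rw [norm_mul, norm_pow]
    calc ‖q.F i‖ * ‖A.sds (V.M + 1) ω l i‖ ^ (p ^ q.b) ≤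
        1 * ‖A.sds (V.M + 1) ω l i‖ ^ (p ^ q.b) :=
          mul_le_mul_of_nonneg_right (hF1 i) (by positivity)
      _ ≤ τ := by rw [one_mul]; exact pow_le_pow_left₀ (norm_nonneg _) (hl1 i) _
  have h5 : ‖q.f‖ * ‖ξ‖ ^ t ≤
      max ‖(∑ i, q.F i * (A.sds (V.M + 1) ω l i) ^ (p ^ q.b)) + q.f * ξ ^ t‖
        ‖∑ i, q.F i * (A.sds (V.M + 1) ω l i) ^ (p ^ q.b)‖ := by
    rw [← norm_pow, ← norm_mul]
    have h6 : q.f * ξ ^ t = ((∑ i, q.F i * (A.sds (V.M + 1) ω l i) ^ (p ^ q.b)) +
        q.f * ξ ^ t) - ∑ i, q.F i * (A.sds (V.M + 1) ω l i) ^ (p ^ q.b) := by ring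
    conv_lhs => rw [h6]
    exact ltc_norm_sub_le _ _
  obtain ⟨k1, k2⟩ := c2_real_bound hf1 hfpos (by positivity) (hDa.trans_lt hl5) hτpos hτ1 h3 h4 h5
  have hatB : ‖a ^ (p ^ q.b)‖ ^ t = τ := by
    rw [norm_pow, hτ, ← pow_mul, ← pow_mul, Nat.mul_comm]
  constructor
  · rw [norm_pow, norm_div, div_pow, hatB, ← mul_div_assoc, div_le_one hτpos]
    exact k1
  · have h6 : ∑ i, q.F i * (A.sds (V.M + 1) ω l i / a ^ t) ^ (p ^ q.b) +
        q.f * (ξ / a ^ (p ^ q.b)) ^ t =
        ((∑ i, q.F i * (A.sds (V.M + 1) ω l i) ^ (p ^ q.b)) + q.f * ξ ^ t) /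
          (a ^ t) ^ (p ^ q.b) := by
      rw [add_div, Finset.sum_div, div_pow]
      congr 1
      · exact Finset.sum_congr rfl fun i _ => by rw [div_pow]; ring
      · rw [← pow_mul, ← pow_mul, Nat.mul_comm]; ring
    rw [h6, norm_div, norm_pow, norm_pow, div_le_iff₀ hτpos]
    refine k2.trans ?_
    rw [div_mul_eq_mul_div]
    refine div_le_div_of_nonneg_right ?_ (by positivity)
    rw [sq]
    exact mul_le_mul_of_nonneg_right hτa hτpos.le

/-- `ξ_v` and `ε_v`. -/
theorem eps_estimate (bs : FinalBasis A) (N : ℕ) (hN : 1 ≤ N) (Y : FPt Γ) (hY : Y ∈ A.D.Lam) :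
    ∃ θ : K, ‖θ‖ = 1 ∧ ∀ ω : κ, ω ^ (p ^ n) = ω → ∀ᶠ l in A.D.nbf (bs.X bs.j0),
      ‖A.xiv N Y ω l - θ * A.D.eX Y (algebraMap κ (OK K) ω) l‖ ≤
        max (‖A.D.eX Y (algebraMap κ (OK K) ω) l‖ ^ 2)
          (‖A.D.eX (bs.X bs.j0) 1 l‖ ^ (p ^ (h * N))) ∧
      ‖A.D.eX Y (algebraMap κ (OK K) ω) l‖ ≤
        max ‖A.xiv N Y ω l‖ (‖A.D.eX (bs.X bs.j0) 1 l‖ ^ (p ^ (h * N))) := by
  obtain ⟨θ, hθ, hF1⟩ := A.norm_tau_sub_le N Y hY
  have hθ1 : ‖(θ : K)‖ = 1 := by
    have h1 : (θ : K) = ((θ : K) - 1) + 1 := by ring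
    have h2 : ‖(θ : K) - 1‖ < 1 := hθ
    rw [h1, IsUltrametricDist.norm_add_eq_max_of_norm_ne_norm (by rw [norm_one]; exact h2.ne),
      norm_one, max_eq_right h2.le]
  refine ⟨θ, hθ1, fun ω hω => ?_⟩
  have hn : 0 < n := lt_of_le_of_lt (Nat.zero_le _) A.D.h_lt_n
  filter_upwards [A.D.eventually_nonBreak (bs.X bs.j0)] with l hl
  have h1 := hF1 ω hω l (by
    have : 1 ≤ n * N := Nat.mul_pos hn hN
    omega)
  have h2 := A.delta_le_Al bs N hN ω hω l hl
  set ε := A.D.eX Y (algebraMap κ (OK K) ω) l with hε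
  set a := A.D.eX (bs.X bs.j0) 1 l with ha
  have h3 : ‖A.xiv N Y ω l - (θ : K) * ε‖ ≤ max (‖ε‖ ^ 2) (‖a‖ ^ (p ^ (h * N))) :=
    (show ‖A.xiv N Y ω l - (θ : K) * ε‖ ≤ _ from h1).trans (max_le_max le_rfl h2)
  refine ⟨h3, ?_⟩
  have h4 : ‖ε‖ ≤ max ‖A.xiv N Y ω l‖ (max (‖ε‖ ^ 2) (‖a‖ ^ (p ^ (h * N)))) := by
    have h5 : ‖(θ : K) * ε‖ = ‖ε‖ := by rw [norm_mul, hθ1, one_mul]
    rw [← h5]
    have h6 : (θ : K) * ε = A.xiv N Y ω l - (A.xiv N Y ω l - (θ : K) * ε) := by ring
    conv_lhs => rw [h6]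
    refine (ltc_norm_sub_le _ _).trans (max_le_max le_rfl ?_)
    rw [h5]; exact h3
  have hε1 : ‖ε‖ < 1 := A.D.norm_eX_lt_one _ _ _
  rcases le_max_iff.1 h4 with h5 | h5
  · exact h5.trans (le_max_left _ _)
  · rcases le_max_iff.1 h5 with h6 | h6
    · have h7 : ‖ε‖ = 0 := by
        by_contra hne
        have : 0 < ‖ε‖ := lt_of_le_of_ne (norm_nonneg _) (Ne.symm hne)
        nlinarith
      rw [h7]
      exact le_max_of_le_left (norm_nonneg _)
    · exact h6.trans (le_max_right _ _)

/-- bound for `ξ_v`. -/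
theorem QData.xi_le [IsAlgClosed κ] [CharP κ p] {A : FinalData p n h Γ κ}
    {bs : FinalBasis A} {V : VecData A bs} {d : PData V} (q : QData d)
    (ω : κ) (hω : ω ^ (p ^ n) = ω) : ∀ᶠ l in A.D.nbf (bs.X bs.j0),
      ‖A.xiv (V.M + 1) V.Xv ω l‖ ≤ ‖q.f‖⁻¹ * ‖A.D.eX (bs.X bs.j0) 1 l‖ ^ (p ^ q.b) := by
  have hp : p.Prime := Fact.out
  have hfpos : 0 < ‖q.f‖ := norm_pos_iff.2 q.f_ne
  have hf1 : ‖q.f‖ ≤ 1 := by rw [q.hf]; exact norm_le_one (K := K) _
  filter_upwards [q.estimate ω hω, A.D.eventually_eX_ne_zero bs.X0_ne] with l hl1 hl2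
  set x := A.xiv (V.M + 1) V.Xv ω l / A.D.eX (bs.X bs.j0) 1 l ^ (p ^ q.b) with hx
  have h1 : ‖x‖ ≤ ‖q.f‖⁻¹ := by
    have h2 : ‖x‖ ^ (p ^ (h * (V.M + 1))) ≤ ‖q.f‖⁻¹ := by
      have h3 := hl1.1
      rw [norm_pow] at h3
      rw [← one_div, le_div_iff₀ hfpos, mul_comm]
      exact h3
    have h4 : 1 ≤ ‖q.f‖⁻¹ := (one_le_inv₀ hfpos).2 hf1
    rcases le_total ‖x‖ 1 with h5 | h5
    · exact h5.trans h4
    · exact (le_self_pow₀ h5 (pow_ne_zero _ hp.ne_zero)).trans h2
  have h6 : 0 < ‖A.D.eX (bs.X bs.j0) 1 l ^ (p ^ q.b)‖ := norm_pos_iff.2 (pow_ne_zero _ hl2)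
  rw [hx, norm_div, div_le_iff₀ h6, norm_pow] at h1
  exact h1

/-- `b < hN`. -/
theorem QData.b_lt [IsAlgClosed κ] [CharP κ p] {A : FinalData p n h Γ κ}
    {bs : FinalBasis A} {V : VecData A bs} {d : PData V} (q : QData d) :
    q.b < h * (V.M + 1) := by
  classical
  by_contra hle
  rw [not_lt] at hle
  have hp : p.Prime := Fact.out
  have hn : 0 < n := lt_of_le_of_lt (Nat.zero_le _) A.D.h_lt_n
  have hh := A.D.one_le_h
  have hfpos : 0 < ‖q.f‖ := norm_pos_iff.2 q.f_ne
  have hf1 : ‖q.f‖ ≤ 1 := by rw [q.hf]; exact norm_le_one (K := K) _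
  have hf4 : 1 ≤ ‖q.f‖⁻¹ := (one_le_inv₀ hfpos).2 hf1
  set X0 := bs.X bs.j0 with hX0
  have hXv0 : V.Xv ≠ 0 := by
    intro h0
    exact V.ndvd ⟨0, A.D.Lam.zero_mem, by rw [smul_zero]; exact h0⟩
  obtain ⟨Fq, hcard, hFq, h1F⟩ := c2_exists_Fq κ p n hn.ne'
  obtain ⟨θ, hθ1, hθ⟩ := A.eps_estimate bs (V.M + 1) (by omega) V.Xv V.mem
  have hinj : Function.Injective (algebraMap κ (OK K)) := (algebraMap κ (OK K)).injective
  have hev : ∀ᶠ l in A.D.nbf X0, ∀ ω ∈ Fq, ‖A.D.eX V.Xv (algebraMap κ (OK K) ω) l‖ ≤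
      ‖q.f‖⁻¹ * ‖A.D.eX X0 1 l‖ ^ (p ^ (h * (V.M + 1))) := by
    rw [Filter.eventually_all_finset]
    intro ω hω
    filter_upwards [hθ ω (hFq ω hω), q.xi_le ω (hFq ω hω)] with l hl1 hl2
    refine hl1.2.trans (max_le (hl2.trans ?_) ?_)
    · refine mul_le_mul_of_nonneg_left ?_ (inv_nonneg.2 hfpos.le)
      exact pow_le_pow_of_le_one (norm_nonneg _) (A.D.norm_eX_lt_one _ _ _).le
        (Nat.pow_le_pow_right hp.pos hle)
    · exact le_mul_of_one_le_left (by positivity) hf4
  have hle2 : ∀ᶠ l in A.D.nbf X0, ‖A.D.eX X0 1 (l + n * V.M)‖ ≤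
      ‖q.f‖⁻¹ * ‖A.D.eX X0 1 l‖ ^ (p ^ (h * (V.M + 1))) := by
    filter_upwards [hev] with l hl
    obtain ⟨C0, -, hC, ω, hω, hωC⟩ := A.D.exists_LT_Fq (Fq.image (algebraMap κ (OK K)))
      (by rw [Finset.card_image_of_injective _ hinj, hcard])
      (by
        intro ω hω
        obtain ⟨x, hx, rfl⟩ := Finset.mem_image.1 hω
        rw [← map_pow, hFq x hx]) hXv0 l
    obtain ⟨x, hx, rfl⟩ := Finset.mem_image.1 hω
    have h1 := hC (powPt p 1 (l + n * V.M) X0) (by
      rw [LocalFG.c2_norm_powPt_one, LocalFG.norm_pow_shift, ← pow_mul, Nat.mul_comm, pow_mul]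
      exact pow_le_pow_left₀ (by positivity) V.hK0.le _)
    rw [← hωC] at h1
    exact h1.trans (hl x hx)
  have hlim := (A.D.tendsto_eX_shift bs.X0_ne V.M).norm
  have hz : Tendsto (fun l => ‖A.D.eX X0 1 (l + n * V.M) / A.D.eX X0 1 l ^ (p ^ (h * V.M))‖)
      (A.D.nbf X0) (𝓝 0) := by
    have h1 : Tendsto (fun l => ‖q.f‖⁻¹ * ‖A.D.eX X0 1 l ^ (p ^ (h * (V.M + 1))) /
        A.D.eX X0 1 l ^ (p ^ (h * V.M))‖) (A.D.nbf X0) (𝓝 0) := by
      have h2 := (A.D.tendsto_eX_pow_div (X1 := X0) (i := h * V.M) (j := h * (V.M + 1))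
        (by rw [Nat.mul_succ]; omega)).norm.const_mul ‖q.f‖⁻¹
      rwa [norm_zero, mul_zero] at h2
    refine squeeze_zero' (Eventually.of_forall fun l => norm_nonneg _) ?_ h1
    filter_upwards [hle2, A.D.eventually_eX_ne_zero bs.X0_ne] with l hl1 hl2
    rw [norm_div, norm_div, ← mul_div_assoc, norm_pow]
    refine div_le_div_of_nonneg_right ?_ (by positivity)
    rw [norm_pow]
    exact hl1
  have hne := A.D.nbf_neBot bs.X0_ne
  have h3 := tendsto_nhds_unique hlim hz
  rw [norm_eq_zero] at h3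
  exact A.D.cN_ne_zero V.M (Subtype.ext h3)

theorem c2_algebra {F : Type*} [Field F] (f θ C S x y w g : F) (hfθ : f * θ ≠ 0) :
    (S + f * x - (S - C * (w * g)) - f * (x - θ * y)) * (f * θ)⁻¹ =
      y + w * (C / (f * θ) * g) := by
  have hf : f ≠ 0 := left_ne_zero_of_mul hfθ
  have hθ : θ ≠ 0 := right_ne_zero_of_mul hfθ
  field_simp
  ring

/-- the key asymptotic relation. -/
theorem QData.key [IsAlgClosed κ] [CharP κ p] {A : FinalData p n h Γ κ}
    {bs : FinalBasis A} {V : VecData A bs} {d : PData V} (q : QData d) :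
    ∃ c : K, c ≠ 0 ∧ ∀ ω : κ, ω ^ (p ^ n) = ω → Tendsto (fun l =>
      (A.D.eX V.Xv (algebraMap κ (OK K) ω) l / A.D.eX (bs.X bs.j0) 1 l ^ (p ^ q.b)) ^
          (p ^ (h * (V.M + 1))) +
        ((algebraMap κ (OK K) ω : OK K) : K) ^
            (p ^ (h + (n - 1) * (A.D.sgl (bs.X bs.j0) l + V.M * (n - h)) + q.b)) *
          ∑ u ∈ bs.S, (c * ∑ i, q.F i * bet bs d.θ i u ^ (p ^ q.b)) *
            (((bs.X u).val : K) / ((bs.X bs.j0).val : K)) ^
              (p ^ ((h * (V.M + 1) + q.b) + A.D.exl (bs.X bs.j0) l)))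
      (A.D.nbf (bs.X bs.j0)) (𝓝 0) := by
  have hp : p.Prime := Fact.out
  set X0 := bs.X bs.j0 with hX0
  set t := p ^ (h * (V.M + 1)) with ht
  have ht0 : t ≠ 0 := pow_ne_zero _ hp.ne_zero
  have hB0 : p ^ q.b ≠ 0 := pow_ne_zero _ hp.ne_zero
  have hfpos : 0 < ‖q.f‖ := norm_pos_iff.2 q.f_ne
  have hf1 : ‖q.f‖ ≤ 1 := by rw [q.hf]; exact norm_le_one (K := K) _
  have hf4 : 1 ≤ ‖q.f‖⁻¹ := (one_le_inv₀ hfpos).2 hf1
  obtain ⟨θ, hθ1, hθ⟩ := A.eps_estimate bs (V.M + 1) (by omega) V.Xv V.mem
  have hθ0 : θ ≠ 0 := norm_pos_iff.1 (by rw [hθ1]; exact one_pos)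
  set C1 : K := (A.D.cN V.M : K) ^ (p ^ h) with hC1
  have hC10 : C1 ≠ 0 := pow_ne_zero _ fun h0 => A.D.cN_ne_zero V.M (Subtype.ext h0)
  set c : K := C1 ^ (p ^ q.b) / (q.f * θ ^ t) with hc
  have hc0 : c ≠ 0 := div_ne_zero (pow_ne_zero _ hC10) (mul_ne_zero q.f_ne (pow_ne_zero _ hθ0))
  refine ⟨c, hc0, fun ω hω => ?_⟩
  have ha := (A.D.tendsto_eX_zero X0 1).norm
  rw [norm_zero] at ha
  have ha' := ha.mono_left (A.D.nbf_le X0)
  -- (1)
  have h1 : Tendsto (fun l => ∑ i, q.F i * (A.sds (V.M + 1) ω l i / A.D.eX X0 1 l ^ t) ^ (p ^ q.b) +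
      q.f * (A.xiv (V.M + 1) V.Xv ω l / A.D.eX X0 1 l ^ (p ^ q.b)) ^ t) (A.D.nbf X0) (𝓝 0) := by
    rw [tendsto_zero_iff_norm_tendsto_zero]
    have h2 := ha'.div_const (‖q.f‖ ^ 2)
    rw [zero_div] at h2
    exact squeeze_zero' (Eventually.of_forall fun l => norm_nonneg _)
      ((q.estimate ω hω).mono fun l hl => hl.2) h2
  -- (2)
  have h2 : Tendsto (fun l => ∑ i, q.F i * ((A.sds (V.M + 1) ω l i / A.D.eX X0 1 l ^ t) ^
      (p ^ q.b) - (C1 * Tm bs d.θ V.M ω l i) ^ (p ^ q.b))) (A.D.nbf X0) (𝓝 0) := by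
    have h3 : Tendsto (fun l => ∑ i, q.F i * ((A.sds (V.M + 1) ω l i / A.D.eX X0 1 l ^ t) ^
      (p ^ q.b) - (C1 * Tm bs d.θ V.M ω l i) ^ (p ^ q.b))) (A.D.nbf X0)
        (𝓝 (∑ i, q.F i * 0)) := by
      refine tendsto_finsetSum _ fun i _ => Tendsto.const_mul (q.F i) ?_
      have h4 := (d.lim i ω hω).pow (p ^ q.b)
      rw [zero_pow hB0] at h4
      refine h4.congr fun l => ?_
      rw [sub_pow_char_pow]
    simpa using h3
  have h3 := h1.sub h2
  rw [sub_zero] at h3
  -- (4)
  have hb := q.b_lt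
  have h4 : Tendsto (fun l => (A.xiv (V.M + 1) V.Xv ω l -
      θ * A.D.eX V.Xv (algebraMap κ (OK K) ω) l) / A.D.eX X0 1 l ^ (p ^ q.b))
      (A.D.nbf X0) (𝓝 0) := by
    rw [tendsto_zero_iff_norm_tendsto_zero]
    have h5 := ha'.const_mul ((‖q.f‖⁻¹) ^ 2)
    rw [mul_zero] at h5
    refine squeeze_zero' (Eventually.of_forall fun l => norm_nonneg _) ?_ h5
    filter_upwards [hθ ω hω, q.xi_le ω hω, A.D.eventually_eX_ne_zero bs.X0_ne] with l hl1 hl2 hl3
    set a := A.D.eX X0 1 l with haa
    set ε := A.D.eX V.Xv (algebraMap κ (OK K) ω) l with hε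
    have hapos : 0 < ‖a‖ := norm_pos_iff.2 hl3
    have ha1 : ‖a‖ ≤ 1 := (A.D.norm_eX_lt_one _ _ _).le
    have hBpos : 0 < ‖a‖ ^ (p ^ q.b) := pow_pos hapos _
    have h6 : ‖a‖ ^ t ≤ ‖a‖ ^ (p ^ q.b) * ‖a‖ := by
      rw [← pow_succ]
      exact pow_le_pow_of_le_one hapos.le ha1 (Nat.pow_lt_pow_right hp.one_lt hb)
    have h7 : ‖ε‖ ≤ ‖q.f‖⁻¹ * ‖a‖ ^ (p ^ q.b) := by
      refine hl1.2.trans (max_le hl2 (h6.trans ?_))
      calc ‖a‖ ^ (p ^ q.b) * ‖a‖ ≤ ‖a‖ ^ (p ^ q.b) * 1 :=
            mul_le_mul_of_nonneg_left ha1 hBpos.le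
        _ ≤ ‖q.f‖⁻¹ * ‖a‖ ^ (p ^ q.b) := by
            rw [mul_one]; exact le_mul_of_one_le_left hBpos.le hf4
    rw [norm_div, norm_pow, div_le_iff₀ hBpos]
    refine hl1.1.trans (max_le ?_ ?_)
    · calc ‖ε‖ ^ 2 ≤ (‖q.f‖⁻¹ * ‖a‖ ^ (p ^ q.b)) ^ 2 := pow_le_pow_left₀ (norm_nonneg _) h7 _
        _ = ‖q.f‖⁻¹ ^ 2 * ‖a‖ ^ (p ^ q.b) * ‖a‖ ^ (p ^ q.b) := by ring
        _ ≤ ‖q.f‖⁻¹ ^ 2 * ‖a‖ * ‖a‖ ^ (p ^ q.b) := by
            refine mul_le_mul_of_nonneg_right ?_ hBpos.le
            refine mul_le_mul_of_nonneg_left ?_ (by positivity)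
            exact pow_le_of_le_one hapos.le ha1 hB0
    · refine h6.trans ?_
      have h8 : (1 : ℝ) ≤ ‖q.f‖⁻¹ ^ 2 := one_le_pow₀ hf4
      calc ‖a‖ ^ (p ^ q.b) * ‖a‖ = 1 * (‖a‖ * ‖a‖ ^ (p ^ q.b)) := by ring
        _ ≤ ‖q.f‖⁻¹ ^ 2 * (‖a‖ * ‖a‖ ^ (p ^ q.b)) :=
            mul_le_mul_of_nonneg_right h8 (by positivity)
        _ = ‖q.f‖⁻¹ ^ 2 * ‖a‖ * ‖a‖ ^ (p ^ q.b) := by ring
  have h5 := (h4.pow t).const_mul q.f
  rw [zero_pow ht0, mul_zero] at h5
  have h6 := (h3.sub h5).mul_const (q.f * θ ^ t)⁻¹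
  rw [sub_zero, zero_mul] at h6
  refine h6.congr fun l => ?_
  have hfθ : q.f * θ ^ t ≠ 0 := mul_ne_zero q.f_ne (pow_ne_zero _ hθ0)
  -- algebra
  have h7 : ∑ i, q.F i * (C1 * Tm bs d.θ V.M ω l i) ^ (p ^ q.b) =
      C1 ^ (p ^ q.b) * (((algebraMap κ (OK K) ω : OK K) : K) ^
            (p ^ (h + (n - 1) * (A.D.sgl X0 l + V.M * (n - h)) + q.b)) *
          ∑ u ∈ bs.S, (∑ i, q.F i * bet bs d.θ i u ^ (p ^ q.b)) *
            (((bs.X u).val : K) / (X0.val : K)) ^
              (p ^ ((h * (V.M + 1) + q.b) + A.D.exl X0 l))) := by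
    have h8 : ∀ i, q.F i * (C1 * Tm bs d.θ V.M ω l i) ^ (p ^ q.b) =
        C1 ^ (p ^ q.b) * (((algebraMap κ (OK K) ω : OK K) : K) ^
            (p ^ (h + (n - 1) * (A.D.sgl X0 l + V.M * (n - h)) + q.b)) *
          ∑ u ∈ bs.S, (q.F i * bet bs d.θ i u ^ (p ^ q.b)) *
            (((bs.X u).val : K) / (X0.val : K)) ^
              (p ^ ((h * (V.M + 1) + q.b) + A.D.exl X0 l))) := by
      intro i
      unfold Tm
      rw [mul_pow, mul_pow, sum_pow_char_pow, ← pow_mul, ← pow_add, ← hX0]
      have h9 : ∑ u ∈ bs.S, (bet bs d.θ i u * (((bs.X u).val : K) / (X0.val : K)) ^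
          (p ^ (h + (h * V.M + A.D.exl X0 l)))) ^ (p ^ q.b) =
          ∑ u ∈ bs.S, bet bs d.θ i u ^ (p ^ q.b) * (((bs.X u).val : K) / (X0.val : K)) ^
            (p ^ ((h * (V.M + 1) + q.b) + A.D.exl X0 l)) := by
        refine Finset.sum_congr rfl fun u _ => ?_
        rw [mul_pow, ← pow_mul, ← pow_add]
        congr 3
        ring
      rw [h9]
      simp only [mul_assoc (q.F i)]
      rw [← Finset.mul_sum]
      ring
    rw [Finset.sum_congr rfl fun i _ => h8 i, ← Finset.mul_sum, ← Finset.mul_sum,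
      Finset.sum_comm]
    simp only [Finset.sum_mul]
  have h8 : ∑ i, q.F i * ((A.sds (V.M + 1) ω l i / A.D.eX X0 1 l ^ t) ^
      (p ^ q.b) - (C1 * Tm bs d.θ V.M ω l i) ^ (p ^ q.b)) =
      ∑ i, q.F i * (A.sds (V.M + 1) ω l i / A.D.eX X0 1 l ^ t) ^ (p ^ q.b) -
        ∑ i, q.F i * (C1 * Tm bs d.θ V.M ω l i) ^ (p ^ q.b) := by
    rw [← Finset.sum_sub_distrib]
    exact Finset.sum_congr rfl fun i _ => by ring
  have h9 : ((A.xiv (V.M + 1) V.Xv ω l -
      θ * A.D.eX V.Xv (algebraMap κ (OK K) ω) l) / A.D.eX X0 1 l ^ (p ^ q.b)) ^ t =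
      (A.xiv (V.M + 1) V.Xv ω l / A.D.eX X0 1 l ^ (p ^ q.b)) ^ t -
        θ ^ t * (A.D.eX V.Xv (algebraMap κ (OK K) ω) l / A.D.eX X0 1 l ^ (p ^ q.b)) ^ t := by
    rw [sub_div, ht, sub_pow_char_pow, mul_div_assoc, mul_pow]
  rw [h8, h9, h7]
  have h10 : ∑ u ∈ bs.S, (c * ∑ i, q.F i * bet bs d.θ i u ^ (p ^ q.b)) *
            (((bs.X u).val : K) / (X0.val : K)) ^
              (p ^ ((h * (V.M + 1) + q.b) + A.D.exl X0 l)) =
      c * ∑ u ∈ bs.S, (∑ i, q.F i * bet bs d.θ i u ^ (p ^ q.b)) *
            (((bs.X u).val : K) / (X0.val : K)) ^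
              (p ^ ((h * (V.M + 1) + q.b) + A.D.exl X0 l)) := by
    rw [Finset.mul_sum]
    exact Finset.sum_congr rfl fun u _ => by ring
  rw [h10, hc]
  exact c2_algebra _ _ _ _ _ _ _ _ hfθ

/-- Case II of the final argument: `|S| = d` is impossible. -/
theorem caseII_proof [IsAlgClosed κ] [CharP κ p] (bs : FinalBasis A) : bs.S.card ≠ A.d := by
  classical
  intro hcard
  have hn : 0 < n := lt_of_le_of_lt (Nat.zero_le _) A.D.h_lt_n
  obtain ⟨V⟩ := A.exists_vecData bs (by rw [hcard]; exact A.d_lt)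
  obtain ⟨d⟩ := A.exists_PData V
  obtain ⟨q⟩ := d.exists_QData
  obtain ⟨c, hc, hkey⟩ := q.key
  obtain ⟨Fq, hFcard, hFq, h1F⟩ := c2_exists_Fq κ p n hn.ne'
  have hinj : Function.Injective (algebraMap κ (OK K)) := (algebraMap κ (OK K)).injective
  have hXv0 : V.Xv ≠ 0 := by
    intro h0
    exact V.ndvd ⟨0, A.D.Lam.zero_mem, by rw [smul_zero]; exact h0⟩
  exact C2Data.false'
    { S := bs.S
      X := bs.X
      X0 := bs.X bs.j0
      Xv := V.Xv
      hX0 := bs.X0_ne
      hXle := fun u _ => bs.X_le _ (bs.X_mem u)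
      hindep := bs.indep
      hXv := hXv0
      hlt := V.lt
      hmin := V.min'
      Fq := Fq.image (algebraMap κ (OK K))
      hcard := by rw [Finset.card_image_of_injective _ hinj, hFcard]
      hFq := by
        intro ω hω
        obtain ⟨x, hx, rfl⟩ := Finset.mem_image.1 hω
        rw [← map_pow, hFq x hx]
      h1 := Finset.mem_image.2 ⟨1, h1F, map_one _⟩
      K0 := V.K0
      M := V.M
      b := q.b
      hK0 := V.hK0
      hK0' := V.hK0'
      G := fun u => c * ∑ i, q.F i * bet bs d.θ i u ^ (p ^ q.b)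
      hG := by
        obtain ⟨u, hu, hu2⟩ := q.G_ne
        exact ⟨u, hu, mul_ne_zero hc hu2⟩
      hkey := by
        intro ω hω
        obtain ⟨x, hx, rfl⟩ := Finset.mem_image.1 hω
        exact hkey x (hFq x hx) : C2Data A.D (Fin (n - h)) }

end FinalData

end Vale.Agent.P217
end
end

section

section

/-!
# P217: the final contradiction
-/

namespace Vale.Agent.P217

open MvPowerSeries Filter Topology

variable {K : Type*} [NontriviallyNormedField K] [IsUltrametricDist K] [CompleteSpace K]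
variable {p : ℕ} [Fact p.Prime] [CharP K p] [IsAlgClosed K]
variable {n h : ℕ} {Γ : FormalGroup (OK K)} [Γ.IsComm]
variable {κ : Type*} [Field κ] [Algebra κ (OK K)]

namespace FinalData

variable (A : FinalData p n h Γ κ)

/-- Case II of the final argument: `|S| = d` is impossible. -/
theorem caseII [IsAlgClosed κ] [CharP κ p] (bs : FinalBasis A) : bs.S.card ≠ A.d :=
  A.caseII_proof bs

theorem false' [IsAlgClosed κ] [CharP κ p] (A : FinalData p n h Γ κ) : False := by
  obtain ⟨bs⟩ := exists_finalBasis A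
  have h1 := A.caseI bs
  have h2 := A.caseII bs
  have h3 := A.card_ge bs
  omega

end FinalData

end Vale.Agent.P217
end
end

section

section

/-!
# P217: assembly of the core theorem
-/

set_option linter.unusedSectionVars false

namespace Vale.Agent.P217

open MvPowerSeries Filter Topology

section Assembly

variable {K : Type*} [NontriviallyNormedField K] [IsUltrametricDist K] [CompleteSpace K]
variable {p : ℕ} [Fact p.Prime] [CharP K p] [IsAlgClosed K]
variable {n h : ℕ}
variable {κ : Type*} [Field κ] [Algebra κ (OK K)] {Γ₀ : FormalGroup κ}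

/-- The points `y` of the level structures over the points of `V(I)` with `u_h ≠ 0`. -/
def levelSet (hΓ₀ : HondaLike p n Γ₀) (A : FamFG p n h κ Γ₀)
    (I : Ideal (MvPowerSeries (Fin (n - h)) κ)) : Set (Fin (n - h) → MK K) :=
  {y | ∃ (u : Fin (n - h) → MK K) (hu : (u A.i0 : OK K) ≠ 0)
    (x : Fin (n - h) → FPt (A.fib hΓ₀ u hu).F), (∀ f ∈ I, evk κ u f = 0) ∧
      IsLevel (A.fib hΓ₀ u hu) x ∧ y = ypt (p := p) h x}

/-- The vanishing ideal of a set of points. -/
noncomputable def vanIdeal {m : ℕ} (κ : Type*) [Field κ] [Algebra κ (OK K)]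
    (Y : Set (Fin m → MK K)) : Ideal (MvPowerSeries (Fin m) κ) :=
  ⨅ y ∈ Y, RingHom.ker (evk κ y)

theorem mem_vanIdeal {m : ℕ} {Y : Set (Fin m → MK K)} {f : MvPowerSeries (Fin m) κ} :
    f ∈ vanIdeal κ Y ↔ ∀ y ∈ Y, evk κ y f = 0 := by
  simp [vanIdeal, RingHom.mem_ker]

/-- Data at a point of the orbit. -/
theorem exists_orbit (hΓ₀ : HondaLike p n Γ₀) (A : FamFG p n h κ Γ₀)
    [hΓc : (Γ₀.map (algebraMap κ (OK K))).IsComm]
    (I : Ideal (MvPowerSeries (Fin (n - h)) κ))
    (U : Fin (n - h) → MvPowerSeries (Fin (n - h)) κ)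
    (hU : ∀ (u : Fin (n - h) → MK K) (hu : (u A.i0 : OK K) ≠ 0)
        (x : Fin (n - h) → FPt (A.fib hΓ₀ u hu).F), IsLevel (A.fib hΓ₀ u hu) x →
        ∀ i, (u i : OK K) = evk κ (ypt (p := p) h x) (U i))
    (sU : MvPowerSeries (Fin (n - h)) κ →+* MvPowerSeries (Fin (n - h)) κ)
    (hsU : ∀ (y u : Fin (n - h) → MK K), (∀ i, (u i : OK K) = evk κ y (U i)) →
      ∀ f, evk κ y (sU f) = evk κ u f)
    (u : Fin (n - h) → MK K) (hu : (u A.i0 : OK K) ≠ 0) (huI : ∀ f ∈ I, evk κ u f = 0)
    (x : Fin (n - h) → FPt (A.fib hΓ₀ u hu).F) (hx : IsLevel (A.fib hΓ₀ u hu) x)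
    (ω : κ) (l : ℕ) (hω : ω ^ (p ^ n) = ω) (L : Lift A ω l)
    (hL : I ≤ I.comap (L.φ : MvPowerSeries (Fin (n - h)) κ →+* MvPowerSeries (Fin (n - h)) κ)) :
    ∃ (D' : LocalFG p n h (Γ₀.map (algebraMap κ (OK K))))
      (τ : FPt (A.fib hΓ₀ u hu).F →+ FPt D'.F) (δ : ℝ),
      (∀ Y : FPt (Γ₀.map (algebraMap κ (OK K))), τ ((A.fib hΓ₀ u hu).E Y) =
        D'.E (Y + powPt p (algebraMap κ (OK K) ω) l Y)) ∧
      δ < 1 ∧ 0 ≤ δ ∧
      (∀ b : ℝ, 0 ≤ b → (∀ j, ‖(τ (x j)).val ^ (p ^ h) - (x j).val ^ (p ^ h)‖ ≤ b) → δ ≤ b) ∧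
      (∀ e, ‖coeff e D'.F.toPowerSeries - coeff e (A.fib hΓ₀ u hu).F.toPowerSeries‖ ≤ δ) ∧
      (∀ f ∈ vanIdeal κ (levelSet (K := K) hΓ₀ A I),
        evk κ (ypt (p := p) h (fun j => τ (x j))) f = 0) ∧
      (∀ (N : ℕ) (W : Polynomial (MvPowerSeries (Fin (n - h)) κ)),
        (∀ (u : Fin (n - h) → MK K) (hu : (u A.i0 : OK K) ≠ 0) (z : FPt (A.fib hΓ₀ u hu).F),
          p ^ N • z = 0 → (W.map (evk κ u)).eval (z.val ^ (p ^ (h * N))) = 0) →
        ∀ z : FPt (A.fib hΓ₀ u hu).F, p ^ N • z = 0 →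
          ((W.map sU).map (evk κ (ypt (p := p) h (fun j => τ (x j))))).eval
            ((τ z).val ^ (p ^ (h * N))) = 0) := by
  have hu' := L.pt_ne_zero u hu
  have hlev := L.isLevel_tau hΓ₀ u hu x hx
  have hUx := hU u hu x hx
  have hUx' := hU (L.pt u) hu' _ hlev
  have hne : (Finset.univ : Finset (Fin (n - h))).Nonempty := ⟨A.i0, Finset.mem_univ _⟩
  refine ⟨A.fib hΓ₀ (L.pt u) hu', L.tau hΓ₀ u hu,
    (Finset.univ : Finset (Fin (n - h))).sup' hne (fun i => ‖(L.pt u i : OK K) - u i‖),
    L.tau_E hΓ₀ hω u hu, ?_, ?_, ?_, ?_, ?_, ?_⟩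
  · rw [Finset.sup'_lt_iff]
    intro i _
    exact (OK_norm_sub_le _ _).trans_lt (max_lt (L.pt u i).2 (u i).2)
  · exact (norm_nonneg _).trans
      (Finset.le_sup' (fun i => ‖(L.pt u i : OK K) - u i‖) (Finset.mem_univ A.i0))
  · intro b hb hbx
    refine Finset.sup'_le _ _ fun i _ => ?_
    rw [hUx' i, hUx i]
    exact norm_ev_sub_le _ _ _ b hb hbx
  · intro e
    have h1 : coeff e (A.fib hΓ₀ (L.pt u) hu').F.toPowerSeries =
        evk κ (L.pt u) (coeff e A.G.toPowerSeries) := coeff_map _ _ _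
    have h2 : coeff e (A.fib hΓ₀ u hu).F.toPowerSeries =
        evk κ u (coeff e A.G.toPowerSeries) := coeff_map _ _ _
    rw [h1, h2]
    refine norm_ev_sub_le _ _ _ _ ?_ ?_
    · exact (norm_nonneg _).trans
        (Finset.le_sup' (fun i => ‖(L.pt u i : OK K) - u i‖) (Finset.mem_univ A.i0))
    · intro i
      exact Finset.le_sup' (fun i => ‖(L.pt u i : OK K) - u i‖) (Finset.mem_univ i)
  · intro f hf
    rw [mem_vanIdeal] at hf
    refine hf _ ⟨L.pt u, hu', fun j => L.tau hΓ₀ u hu (x j), ?_, hlev, rfl⟩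
    intro g hg
    rw [L.evk_pt, RingHom.comp_apply]
    exact huI _ (hL hg)
  · intro N W hW z hz
    have h1 : (evk κ (ypt (p := p) h (fun j => L.tau hΓ₀ u hu (x j)))).comp sU =
        evk κ (L.pt u) := by
      ext1 f
      exact hsU _ _ hUx' f
    rw [Polynomial.map_map, h1]
    apply hW
    rw [← map_nsmul, hz, map_zero]

/-- The core theorem, given the big field. -/
theorem core_aux [IsAlgClosed κ] [CharP κ p] (hgen : HasGenericPoints κ K)
    (hΓ₀ : HondaLike p n Γ₀) (A : FamFG p n h κ Γ₀)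
    (I : Ideal (MvPowerSeries (Fin (n - h)) κ)) (hI : X A.i0 ∉ I.radical)
    (hinv : ∀ ω : κ, ω ^ (p ^ n) = ω → ∀ l : ℕ, 1 ≤ l →
      ∃ L : Lift A ω l, I ≤ I.comap (L.φ : MvPowerSeries (Fin (n - h)) κ →+*
        MvPowerSeries (Fin (n - h)) κ)) : I = ⊥ := by
  classical
  by_contra hI0
  obtain ⟨U, hU0, hU⟩ := A.level_lemma (K := K) hΓ₀
  obtain ⟨D0, Rel, hD, hconv⟩ := A.level_converse (K := K) hΓ₀ U hU0 hU
  have hΓ₀c : Γ₀.IsComm := hΓ₀.comm
  have hΓc : (Γ₀.map (algebraMap κ (OK K))).IsComm := core_isComm_map _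
  have hinf : Infinite κ := IsAlgClosed.instInfinite
  have hJ : ∀ f, f ∈ vanIdeal κ (levelSet (K := K) hΓ₀ A I) ↔
      ∀ y ∈ levelSet (K := K) hΓ₀ A I, evk κ y f = 0 := fun f => mem_vanIdeal
  -- substitution of `U`
  let sU : MvPowerSeries (Fin (n - h)) κ →+* MvPowerSeries (Fin (n - h)) κ :=
    (substAlgHom (R := κ) (hasSubst_of_constantCoeff_zero hU0)).toRingHom
  have hsU : ∀ (y u : Fin (n - h) → MK K), (∀ i, (u i : OK K) = evk κ y (U i)) →
      ∀ f, evk κ y (sU f) = evk κ u f := by
    intro y u hyu f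
    have h1 := evk_subst y f U hU0 u hyu
    rw [← h1]
    show evk κ y (substAlgHom (R := κ) (hasSubst_of_constantCoeff_zero hU0) f) = _
    rw [coe_substAlgHom]
  have hsUJ : ∀ f ∈ I, sU f ∈ vanIdeal κ (levelSet (K := K) hΓ₀ A I) := by
    intro f hf
    rw [hJ]
    rintro y ⟨u, hu, x, huI, hx, rfl⟩
    rw [hsU _ u (hU u hu x hx)]
    exact huI f hf
  -- a point of `V(I)` with `u_h ≠ 0`
  have hne : (levelSet (K := K) hΓ₀ A I).Nonempty := by
    rw [Ideal.radical_eq_sInf, Submodule.mem_sInf] at hI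
    push Not at hI
    obtain ⟨P, ⟨hIP, hPp⟩, hXP⟩ := hI
    have hPp' : Ideal.IsPrime P := hPp
    obtain ⟨u0, hu0⟩ := exists_point_of_prime hgen P
    have hu0' : (u0 A.i0 : OK K) ≠ 0 := by
      have h1 := evk_X (κ := κ) u0 A.i0
      rw [← h1, Ne, hu0]
      exact hXP
    obtain ⟨x0, hx0⟩ := exists_level (A.fib hΓ₀ u0 hu0')
    exact ⟨ypt (p := p) h x0, u0, hu0', x0, fun f hf => (hu0 f).2 (hIP hf), hx0, rfl⟩
  -- `J ≠ 0`
  have hJ0 : vanIdeal κ (levelSet (K := K) hΓ₀ A I) ≠ ⊥ := by
    obtain ⟨f, hfI, hf0⟩ := Submodule.exists_mem_ne_zero_of_ne_bot hI0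
    intro hbot
    have h1 := hsUJ f hfI
    rw [hbot, Ideal.mem_bot] at h1
    obtain ⟨a, ρ, hρ0, hρ1, ha⟩ := hgen (n - h)
    have hne0 : ∀ g : MvPowerSeries (Fin (n - h)) κ, g ≠ 0 → evk κ a g ≠ 0 := by
      intro g hg h0
      have h2 := ha g hg
      rw [h0, norm_zero] at h2
      exact (pow_pos hρ0 _).ne h2
    have ha0 : (a A.i0 : OK K) ≠ 0 := by
      have h2 := hne0 (X A.i0) (by
        intro h0
        have h3 := order_X (κ := κ) A.i0
        rw [h0, order_zero] at h3
        exact absurd h3 (by simp))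
      rwa [evk_X] at h2
    obtain ⟨x1, hx1⟩ := exists_level (A.fib hΓ₀ a ha0)
    have h2 := hsU _ a (hU a ha0 x1 hx1) f
    rw [h1, map_zero] at h2
    exact hne0 f hf0 h2.symm
  obtain ⟨d, hd, B, y, ρ, hρ0, hρ1, hyρ, hyJ, hyD, hygen, hint⟩ :=
    exists_special_point hgen (levelSet (K := K) hΓ₀ A I) hne _ hJ hJ0 D0 (by
      rintro y ⟨u, hu, x, huI, hx, rfl⟩
      exact (hD u hu x hx).1)
  have hRel : ∀ j, evk κ y (Rel j) = 0 := by
    intro j
    apply hyJ
    rw [hJ]
    rintro y ⟨u, hu, x, huI, hx, rfl⟩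
    exact (hD u hu x hx).2 j
  obtain ⟨u, hu, x, hx, huU, rfl⟩ := hconv y hyD hRel
  have huI : ∀ f ∈ I, evk κ u f = 0 := by
    intro f hf
    rw [← hsU _ u huU f]
    exact hyJ _ (hsUJ f hf)
  -- the orbit
  have orbit : ∀ (ω : κ) (l : ℕ), ∃ (D' : LocalFG p n h (Γ₀.map (algebraMap κ (OK K))))
      (τ : FPt (A.fib hΓ₀ u hu).F →+ FPt D'.F) (δ : ℝ), ω ^ (p ^ n) = ω → 1 ≤ l →
      (∀ Y : FPt (Γ₀.map (algebraMap κ (OK K))), τ ((A.fib hΓ₀ u hu).E Y) =
        D'.E (Y + powPt p (algebraMap κ (OK K) ω) l Y)) ∧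
      δ < 1 ∧ 0 ≤ δ ∧
      (∀ b : ℝ, 0 ≤ b → (∀ j, ‖(τ (x j)).val ^ (p ^ h) - (x j).val ^ (p ^ h)‖ ≤ b) → δ ≤ b) ∧
      (∀ e, ‖coeff e D'.F.toPowerSeries - coeff e (A.fib hΓ₀ u hu).F.toPowerSeries‖ ≤ δ) ∧
      (∀ f ∈ vanIdeal κ (levelSet (K := K) hΓ₀ A I),
        evk κ (ypt (p := p) h (fun j => τ (x j))) f = 0) ∧
      (∀ (N : ℕ) (W : Polynomial (MvPowerSeries (Fin (n - h)) κ)),
        (∀ (u : Fin (n - h) → MK K) (hu : (u A.i0 : OK K) ≠ 0) (z : FPt (A.fib hΓ₀ u hu).F),
          p ^ N • z = 0 → (W.map (evk κ u)).eval (z.val ^ (p ^ (h * N))) = 0) →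
        ∀ z : FPt (A.fib hΓ₀ u hu).F, p ^ N • z = 0 →
          ((W.map sU).map (evk κ (ypt (p := p) h (fun j => τ (x j))))).eval
            ((τ z).val ^ (p ^ (h * N))) = 0) := by
    intro ω l
    by_cases hcond : ω ^ (p ^ n) = ω ∧ 1 ≤ l
    · obtain ⟨L, hL⟩ := hinv ω hcond.1 l hcond.2
      obtain ⟨D', τ, δ, hall⟩ := exists_orbit hΓ₀ A I U hU sU hsU u hu huI x hx ω l hcond.1 L hL
      exact ⟨D', τ, δ, fun _ _ => hall⟩
    · exact ⟨A.fib hΓ₀ u hu, AddMonoidHom.id _, 0, fun h1 h2 => absurd ⟨h1, h2⟩ hcond⟩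
  choose D' τ δ hprop using orbit
  refine FinalData.false' (p := p) (n := n) (h := h) (Γ := Γ₀.map (algebraMap κ (OK K)))
    (κ := κ)
    { D := A.fib hΓ₀ u hu
      x := x
      level := hx
      d := d
      d_lt := hd
      B := B
      ρ := ρ
      ρ_pos := hρ0
      ρ_lt_one := hρ1
      norm_le := hyρ
      generic := hygen
      D' := D'
      τ := τ
      τE := fun ω hω l hl => (hprop ω l hω hl).1
      δ := δ
      δ_lt_one := fun ω hω l hl => (hprop ω l hω hl).2.1
      δ_nonneg := fun ω hω l hl => (hprop ω l hω hl).2.2.1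
      δ_le := fun ω hω l hl => (hprop ω l hω hl).2.2.2.1
      close := fun ω hω l hl => (hprop ω l hω hl).2.2.2.2.1
      poly := ?_ }
  intro N z hz
  obtain ⟨W, hWm, hW⟩ := A.exists_torsion_poly (K := K) hΓ₀ N
  obtain ⟨P, hPm, hP⟩ := exists_monic_of_root (K := K) B _ hint (W.map sU) (hWm.map sU)
  refine ⟨P, hPm, ?_, ?_⟩
  · apply hP _ hyJ
    have h1 : (evk κ (ypt (p := p) h x)).comp sU = evk κ u := by
      ext1 f
      exact hsU _ _ huU f
    rw [Polynomial.map_map, h1]
    exact hW u hu z hz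
  · intro ω hω l hl
    exact hP _ (hprop ω l hω hl).2.2.2.2.2.1 _ ((hprop ω l hω hl).2.2.2.2.2.2 N W hW z hz)

end Assembly

end Vale.Agent.P217
end
end

section

section

/-!
# P217: the core theorem
-/

namespace Vale.Agent.P217

open MvPowerSeries Filter Topology

/-- **Core theorem**: an ideal of `κ[[u]]` stable under lifts of all `g_{ω,l}`, whose radical
does not contain `u_h`, is zero. -/
theorem core {p n h : ℕ} [Fact p.Prime] {κ : Type*} [Field κ] [IsAlgClosed κ] [CharP κ p]
    {Γ₀ : FormalGroup κ} (hΓ₀ : HondaLike p n Γ₀) (A : FamFG p n h κ Γ₀)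
    (I : Ideal (MvPowerSeries (Fin (n - h)) κ)) (hI : X A.i0 ∉ I.radical)
    (hinv : ∀ ω : κ, ω ^ (p ^ n) = ω → ∀ l : ℕ, 1 ≤ l →
      ∃ L : Lift A ω l, I ≤ I.comap (L.φ : MvPowerSeries (Fin (n - h)) κ →+*
        MvPowerSeries (Fin (n - h)) κ)) : I = ⊥ := by
  obtain ⟨K, _, _, _, _, _, _, hgen⟩ := exists_field_generic p κ
  exact core_aux (K := K) hgen hΓ₀ A I hI hinv

end Vale.Agent.P217
end
end

section

section

/-!
# P217: base change of families, core theorem over a finite field
-/

namespace Vale.Agent.P217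

open MvPowerSeries

section General

variable {R S T : Type*} [CommRing R] [CommRing S] [CommRing T]

theorem bc_map_map (F : FormalGroup R) (f : R →+* S) (g : S →+* T) :
    (F.map f).map g = F.map (g.comp f) := by
  refine FormalGroup.ext ?_
  rw [FormalGroup.map_toPowerSeries, FormalGroup.map_toPowerSeries, FormalGroup.map_toPowerSeries,
    MvPowerSeries.map_comp]
  rfl

theorem bc_isComm_map (F : FormalGroup R) (f : R →+* S) [hF : F.IsComm] : (F.map f).IsComm := by
  refine ⟨?_⟩
  have h1 := hF.comm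
  rw [FormalGroup.map_toPowerSeries]
  conv_lhs => rw [h1]
  rw [map_subst HasSubst.X_X]
  congr 1
  funext i
  fin_cases i <;> simp

theorem bc_multSeries_map (F : FormalGroup R) (f : R →+* S) (m : ℕ) :
    multSeries (F.map f) m = (multSeries F m).map f := by
  induction m with
  | zero => simp [multSeries]
  | succ m ih =>
    rw [FPt.multSeries_succ, FPt.multSeries_succ, ih]
    have hs : HasSubst ![multSeries F m, PowerSeries.X] := by
      refine hasSubst_of_constantCoeff_zero fun i => ?_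
      fin_cases i
      · exact FPt.constantCoeff_multSeries F m
      · exact PowerSeries.constantCoeff_X
    have := map_subst hs (h := f) F.toPowerSeries
    rw [PowerSeries.map, this, FormalGroup.map_toPowerSeries]
    congr 1
    funext i
    fin_cases i
    · rfl
    · simp [PowerSeries.X]

theorem bc_isHom_map {F G : FormalGroup R} {φ : PowerSeries R} (hφ : IsHom F G φ) (f : R →+* S) :
    IsHom (F.map f) (G.map f) (φ.map f) := by
  obtain ⟨h0, h1⟩ := hφ
  have hF : PowerSeries.HasSubst F.toPowerSeries :=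
    PowerSeries.HasSubst.of_constantCoeff_zero F.zero_constantCoeff
  have hX : ∀ i : Fin 2, PowerSeries.HasSubst (X i : MvPowerSeries (Fin 2) R) := fun i =>
    PowerSeries.HasSubst.of_constantCoeff_zero (by simp)
  refine ⟨?_, ?_⟩
  · rw [← PowerSeries.coeff_zero_eq_constantCoeff_apply, PowerSeries.coeff_map,
      PowerSeries.coeff_zero_eq_constantCoeff_apply, h0, map_zero]
  · rw [FormalGroup.map_toPowerSeries, ← PowerSeries.map_subst hF, h1, map_subst]
    · rw [FormalGroup.map_toPowerSeries]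
      congr 1
      funext i
      fin_cases i
      · simp only [Fin.zero_eta, Matrix.cons_val_zero]
        rw [PowerSeries.map_subst (hX 0), map_X]
      · simp only [Fin.mk_one, Matrix.cons_val_one, Matrix.cons_val_fin_one]
        rw [PowerSeries.map_subst (hX 1), map_X]
    · refine hasSubst_of_constantCoeff_zero fun i => ?_
      fin_cases i
      · simp only [Fin.zero_eta, Matrix.cons_val_zero]
        exact PowerSeries.constantCoeff_subst_eq_zero (by simp) _ h0
      · simp only [Fin.mk_one, Matrix.cons_val_one, Matrix.cons_val_fin_one]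
        exact PowerSeries.constantCoeff_subst_eq_zero (by simp) _ h0

theorem bc_isIso_map {F G : FormalGroup R} {φ : PowerSeries R} (hφ : IsIso F G φ) (f : R →+* S) :
    IsIso (F.map f) (G.map f) (φ.map f) := by
  refine ⟨bc_isHom_map hφ.1 f, ?_⟩
  rw [PowerSeries.coeff_map]
  exact hφ.2.map f

end General

section Family

variable {p n h : ℕ} [Fact p.Prime] {κ κ' : Type*} [Field κ] [Field κ'] {Γ₀ : FormalGroup κ}

/-- Base change of a family along an extension of fields. -/
noncomputable def FamFG.bc (A : FamFG p n h κ Γ₀) (i : κ →+* κ') :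
    FamFG p n h κ' (Γ₀.map i) where
  one_le_h := A.one_le_h
  h_lt_n := A.h_lt_n
  G := A.G.map (MvPowerSeries.map i)
  comm := by
    have := A.comm
    exact bc_isComm_map _ _
  reduction := by
    conv_rhs => rw [← A.reduction]
    rw [bc_map_map, bc_map_map]
    congr 1
  V := A.V.map (MvPowerSeries.map i)
  V_zero := by
    rw [← PowerSeries.coeff_zero_eq_constantCoeff_apply, PowerSeries.coeff_map,
      PowerSeries.coeff_zero_eq_constantCoeff_apply, A.V_zero, map_zero]
  series := by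
    have hp : p ^ h ≠ 0 := pow_ne_zero _ (Fact.out : p.Prime).ne_zero
    have h1 := PowerSeries.map_subst (PowerSeries.HasSubst.X_pow (R := MvPowerSeries (Fin (n - h)) κ) hp) (h := MvPowerSeries.map i) A.V
    have h2 : MvPowerSeries.map (MvPowerSeries.map i) (PowerSeries.X ^ (p ^ h) :
        PowerSeries (MvPowerSeries (Fin (n - h)) κ)) =
        (PowerSeries.X ^ (p ^ h) : PowerSeries (MvPowerSeries (Fin (n - h)) κ')) := by
      simp [PowerSeries.X]
    rw [bc_multSeries_map, A.series]
    rw [h2] at h1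
    exact h1
  V_red := by
    have h1 := congrArg (PowerSeries.map i) A.V_red
    rw [map_pow, PowerSeries.map_X] at h1
    rw [← h1]
    ext j
    simp only [PowerSeries.coeff_map, constantCoeff_map]
  V_one := by
    obtain ⟨e, he, h1⟩ := A.V_one
    refine ⟨MvPowerSeries.map i e, he.map _, ?_⟩
    rw [PowerSeries.coeff_map, h1, map_mul, map_X]
  V_span := by
    have h1 := congrArg (Ideal.map (MvPowerSeries.map i)) A.V_span
    rw [Ideal.map_span, Ideal.map_span] at h1
    have h2 : (MvPowerSeries.map i) '' {c | ∃ j < p ^ (n - h), c = PowerSeries.coeff j A.V} =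
        {c | ∃ j < p ^ (n - h), c = PowerSeries.coeff j (A.V.map (MvPowerSeries.map i))} := by
      ext c
      constructor
      · rintro ⟨_, ⟨j, hj, rfl⟩, rfl⟩
        exact ⟨j, hj, by rw [PowerSeries.coeff_map]⟩
      · rintro ⟨j, hj, rfl⟩
        exact ⟨_, ⟨j, hj, rfl⟩, by rw [PowerSeries.coeff_map]⟩
    have h3 : (MvPowerSeries.map i) '' (Set.range (X : Fin (n - h) → MvPowerSeries (Fin (n - h)) κ)) =
        Set.range X := by
      rw [← Set.range_comp]
      congr 1
      funext j
      simp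
    rw [h2, h3] at h1
    exact h1

theorem HondaLike.bc (hΓ₀ : HondaLike p n Γ₀) (i : κ →+* κ')
    (hfix : ∀ ω' : κ', ω' ^ (p ^ n) = ω' → ∃ ω : κ, i ω = ω') : HondaLike p n (Γ₀.map i) where
  comm := by
    have := hΓ₀.comm
    exact bc_isComm_map _ _
  series := by
    rw [bc_multSeries_map, hΓ₀.series, map_pow, PowerSeries.map_X]
  prime_coeff := by
    intro d
    rw [FormalGroup.map_toPowerSeries, coeff_map, ← map_pow, hΓ₀.prime_coeff]
  homog := by
    intro ω' hω' d hd
    obtain ⟨ω, rfl⟩ := hfix ω' hω'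
    rw [FormalGroup.map_toPowerSeries, coeff_map] at hd
    have h1 : ω ^ (p ^ n) = ω := i.injective (by rw [map_pow]; exact hω')
    rw [← map_pow, hΓ₀.homog ω h1 d (fun h0 => hd (by rw [h0, map_zero]))]

/-- Algebra homomorphisms of power series rings mapping the variables to series without constant
term are determined by the images of the variables. -/
theorem bc_hom_ext {σ τ : Type*} [Finite σ] {R : Type*} [CommRing R] {S : Type*} [CommRing S]
    {φ ψ : MvPowerSeries σ R →+* MvPowerSeries τ S}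
    (hC : ∀ c, φ (C c) = ψ (C c)) (hX : ∀ i, φ (X i) = ψ (X i))
    (h0 : ∀ i, constantCoeff (φ (X i)) = 0) : φ = ψ := by
  classical
  have := Fintype.ofFinite σ
  have key : ∀ N : ℕ, ∀ f : MvPowerSeries σ R, ∀ d : τ →₀ ℕ, d.degree < N →
      coeff d (φ f - ψ f) = 0 := by
    intro N
    induction N with
    | zero => intro f d hd; omega
    | succ N ih =>
      intro f d hd
      obtain ⟨g, hg⟩ := exists_decomp f
      have h1 : φ f - ψ f = ∑ i, φ (X i) * (φ (g i) - ψ (g i)) := by
        rw [hg]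
        simp only [map_add, map_sum, map_mul, hC, ← hX, mul_sub, Finset.sum_sub_distrib]
        ring
      rw [h1, map_sum]
      refine Finset.sum_eq_zero fun i _ => ?_
      rw [coeff_mul]
      refine Finset.sum_eq_zero fun ab hab => ?_
      rw [Finset.HasAntidiagonal.mem_antidiagonal] at hab
      by_cases ha : ab.1 = 0
      · rw [ha, coeff_zero_eq_constantCoeff_apply, h0 i, zero_mul]
      · rw [ih (g i) ab.2, mul_zero]
        have h2 : ab.1.degree + ab.2.degree = d.degree := by rw [← hab, map_add]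
        have h3 : ab.1.degree ≠ 0 := fun h => ha ((Finsupp.degree_eq_zero_iff _).1 h)
        omega
  refine RingHom.ext fun f => ?_
  rw [← sub_eq_zero]
  ext d
  rw [key (d.degree + 1) f d (Nat.lt_succ_self _), map_zero]

theorem bc_gser (Γ₀ : FormalGroup κ) (i : κ →+* κ') (ω : κ) (l : ℕ) :
    gser p (Γ₀.map i) (i ω) l = (gser p Γ₀ ω l).map i := by
  have hp : p ^ l ≠ 0 := pow_ne_zero _ (Fact.out : p.Prime).ne_zero
  have hs : HasSubst ![(PowerSeries.X : PowerSeries κ),
      PowerSeries.C ω * PowerSeries.X ^ (p ^ l)] := by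
    refine hasSubst_of_constantCoeff_zero fun j => ?_
    fin_cases j
    · exact PowerSeries.constantCoeff_X
    · have : PowerSeries.constantCoeff (PowerSeries.C ω * PowerSeries.X ^ (p ^ l)) = 0 := by
        rw [map_mul, map_pow, PowerSeries.constantCoeff_X, zero_pow hp, mul_zero]
      exact this
  have h1 := map_subst hs (h := i) Γ₀.toPowerSeries
  unfold gser
  rw [PowerSeries.map, h1, FormalGroup.map_toPowerSeries]
  congr 1
  funext j
  fin_cases j
  · exact (PowerSeries.map_X i).symm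
  · have : PowerSeries.map i (PowerSeries.C ω * PowerSeries.X ^ (p ^ l)) =
        PowerSeries.C (i ω) * PowerSeries.X ^ (p ^ l) := by
      rw [map_mul, map_pow, PowerSeries.map_X, PowerSeries.map_C]
    exact this.symm

/-- Base change of lifts. -/
theorem bc_lift (A : FamFG p n h κ Γ₀) (i : κ →+* κ') {ω : κ} {l : ℕ} (L : Lift A ω l) :
    ∃ L' : Lift (A.bc i) (i ω) l, ∀ f, L'.φ (MvPowerSeries.map i f) =
      MvPowerSeries.map i (L.φ f) := by
  have ha : HasSubst (fun j => MvPowerSeries.map i (L.φ (X j))) := by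
    refine hasSubst_of_constantCoeff_zero fun j => ?_
    rw [constantCoeff_map, L.hφ, map_zero]
  set φ' : MvPowerSeries (Fin (n - h)) κ' →ₐ[κ'] MvPowerSeries (Fin (n - h)) κ' :=
    substAlgHom ha with hφ'
  have hφX : ∀ j, φ' (X j) = MvPowerSeries.map i (L.φ (X j)) := fun j => by
    rw [hφ', substAlgHom_X]
  have hcomm : ((φ' : MvPowerSeries (Fin (n - h)) κ' →+* MvPowerSeries (Fin (n - h)) κ').comp
      (MvPowerSeries.map i)) = (MvPowerSeries.map i).comp
        (L.φ : MvPowerSeries (Fin (n - h)) κ →+* MvPowerSeries (Fin (n - h)) κ) := by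
    refine bc_hom_ext ?_ ?_ ?_
    · intro c
      have h1 : L.φ (C c) = C c := L.φ.commutes c
      have h2 : φ' (C (i c)) = C (i c) := φ'.commutes (i c)
      simp only [RingHom.comp_apply, RingHom.coe_coe, map_C, h1, h2]
    · intro j
      simp only [RingHom.comp_apply, RingHom.coe_coe, map_X, hφX]
    · intro j
      simp only [RingHom.comp_apply, RingHom.coe_coe, map_X, hφX]
      rw [constantCoeff_map, L.hφ, map_zero]
  refine ⟨{ φ := φ', hφ := ?_, g := L.g.map (MvPowerSeries.map i), iso := ?_, red := ?_ }, ?_⟩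
  · intro j
    rw [hφX, constantCoeff_map, L.hφ, map_zero]
  · have h1 := bc_isIso_map L.iso (MvPowerSeries.map i)
    rw [bc_map_map, ← hcomm, ← bc_map_map] at h1
    exact h1
  · rw [bc_gser, ← L.red]
    ext j
    simp only [PowerSeries.coeff_map, constantCoeff_map]
  · intro f
    exact RingHom.congr_fun hcomm f

/-- Elements of an extension field of a finite field fixed by the Frobenius. -/
theorem bc_exists_of_pow_card {k K : Type*} [Field k] [Finite k] [Field K] (i : k →+* K) (x : K)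
    (hx : x ^ (Nat.card k) = x) : ∃ a : k, i a = x := by
  have := Fintype.ofFinite k
  rw [Nat.card_eq_fintype_card] at hx
  have h1 : (Polynomial.X ^ Fintype.card k - Polynomial.X : Polynomial k).Splits := by
    rw [Polynomial.splits_iff_card_roots, FiniteField.X_pow_card_sub_X_natDegree_eq _
      Fintype.one_lt_card, FiniteField.roots_X_pow_card_sub_X, ← Finset.card_def, Finset.card_univ]
  have h2 := h1.roots_map i
  have hne : (Polynomial.X ^ Fintype.card k - Polynomial.X : Polynomial k).map i ≠ 0 := by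
    rw [Polynomial.map_ne_zero_iff i.injective]
    exact FiniteField.X_pow_card_sub_X_ne_zero k Fintype.one_lt_card
  have h3 : x ∈ ((Polynomial.X ^ Fintype.card k - Polynomial.X : Polynomial k).map i).roots := by
    rw [Polynomial.mem_roots hne, Polynomial.IsRoot.def]
    simp [hx]
  rw [h2, Multiset.mem_map] at h3
  obtain ⟨a, -, ha⟩ := h3
  exact ⟨a, ha⟩

/-- Coefficientwise application of a linear retraction. -/
theorem bc_mem_of_map_mem {σ k K : Type*} [Finite σ] [Field k] [Field K] [Algebra k K]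
    (I : Ideal (MvPowerSeries σ k)) (f : MvPowerSeries σ k)
    (hf : MvPowerSeries.map (algebraMap k K) f ∈ I.map (MvPowerSeries.map (algebraMap k K))) :
    f ∈ I := by
  classical
  obtain ⟨r, hr⟩ := (Algebra.linearMap k K).exists_leftInverse_of_injective
    (LinearMap.ker_eq_bot.2 (algebraMap k K).injective)
  have hr1 : ∀ c : k, r (algebraMap k K c) = c := fun c => by
    have := LinearMap.congr_fun hr c
    simpa using this
  -- the coefficientwise retraction
  let Rr : MvPowerSeries σ K → MvPowerSeries σ k := fun g d => r (coeff d g)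
  have hRr : ∀ g d, coeff d (Rr g) = r (coeff d g) := fun g d => rfl
  have hmul : ∀ (a : MvPowerSeries σ k) (g : MvPowerSeries σ K),
      Rr (MvPowerSeries.map (algebraMap k K) a * g) = a * Rr g := by
    intro a g
    ext d
    rw [hRr, coeff_mul, coeff_mul, map_sum]
    refine Finset.sum_congr rfl fun ab _ => ?_
    rw [coeff_map, hRr, ← Algebra.smul_def, map_smul, smul_eq_mul]
  have hadd : ∀ g g', Rr (g + g') = Rr g + Rr g' := by
    intro g g'
    ext d
    simp only [hRr, map_add]
  have hmem : ∀ g ∈ I.map (MvPowerSeries.map (algebraMap k K)),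
      ∀ c : MvPowerSeries σ K, Rr (c * g) ∈ I := by
    intro g hg
    rw [Ideal.map] at hg
    refine Submodule.span_induction (p := fun g _ => ∀ c : MvPowerSeries σ K, Rr (c * g) ∈ I)
      ?_ ?_ ?_ ?_ hg
    · rintro _ ⟨a, ha, rfl⟩ c
      rw [mul_comm, hmul, mul_comm]
      exact I.mul_mem_left _ ha
    · intro c
      have h0 : Rr (c * 0) = 0 := by
        ext d
        rw [mul_zero, hRr, map_zero, map_zero, map_zero]
      rw [h0]
      exact I.zero_mem
    · intro x y _ _ hx hy c
      rw [mul_add, hadd]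
      exact I.add_mem (hx c) (hy c)
    · intro a x _ hx c
      rw [smul_eq_mul, ← mul_assoc]
      exact hx _
  have h1 := hmem _ hf 1
  rw [one_mul] at h1
  have h2 : Rr (MvPowerSeries.map (algebraMap k K) f) = f := by
    ext d
    rw [hRr, coeff_map, hr1]
  rwa [h2] at h1

/-- Core theorem over the finite field `𝔽_q` (by base change to an algebraic closure). -/
theorem core_finite' {Γ₀ : FormalGroup (GaloisField p n)} (hΓ₀ : HondaLike p n Γ₀)
    (A : FamFG p n h (GaloisField p n) Γ₀)
    (I : Ideal (MvPowerSeries (Fin (n - h)) (GaloisField p n))) (hI : X A.i0 ∉ I.radical)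
    (hinv : ∀ ω : GaloisField p n, ∀ l : ℕ, 1 ≤ l →
      ∃ L : Lift A ω l, I ≤ I.comap (L.φ : MvPowerSeries (Fin (n - h)) (GaloisField p n) →+*
        MvPowerSeries (Fin (n - h)) (GaloisField p n))) : I = ⊥ := by
  set k := GaloisField p n with hk
  set K := AlgebraicClosure k with hK
  set i : k →+* K := algebraMap k K with hi
  have hn : n ≠ 0 := by
    have := A.h_lt_n
    omega
  have hcard : Nat.card k = p ^ n := GaloisField.card p n hn
  have hfix : ∀ ω' : K, ω' ^ (p ^ n) = ω' → ∃ ω : k, i ω = ω' := by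
    intro ω' hω'
    rw [← hcard] at hω'
    exact bc_exists_of_pow_card i ω' hω'
  have : CharP K p := charP_of_injective_algebraMap i.injective p
  have hmap : I.map (MvPowerSeries.map i) = ⊥ := by
    refine core (hΓ₀.bc i hfix) (A.bc i) _ ?_ ?_
    · rintro ⟨m, hm⟩
      apply hI
      refine ⟨m, bc_mem_of_map_mem (K := K) I _ ?_⟩
      rw [map_pow, map_X]
      exact hm
    · intro ω' hω' l hl
      obtain ⟨ω, rfl⟩ := hfix ω' hω'
      obtain ⟨L, hL⟩ := hinv ω l hl
      obtain ⟨L', hL'⟩ := bc_lift A i L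
      refine ⟨L', ?_⟩
      rw [Ideal.map_le_iff_le_comap]
      intro f hf
      rw [Ideal.mem_comap, Ideal.mem_comap]
      have h1 : L'.φ (MvPowerSeries.map i f) = MvPowerSeries.map i (L.φ f) := hL' f
      simp only [RingHom.coe_coe]
      rw [h1]
      exact Ideal.mem_map_of_mem _ (hL hf)
  rw [eq_bot_iff]
  intro f hf
  have h1 : MvPowerSeries.map i f ∈ (⊥ : Ideal (MvPowerSeries (Fin (n - h)) K)) := by
    rw [← hmap]
    exact Ideal.mem_map_of_mem _ hf
  rw [Ideal.mem_bot] at h1 ⊢
  ext d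
  have h2 := congrArg (coeff d) h1
  rw [coeff_map, map_zero] at h2
  rw [map_zero]
  exact i.injective (by rw [h2, map_zero])

end Family

end Vale.Agent.P217
end
end

section

section

/-!
# P217: the reduction `E₀ → E₀ / I_h = 𝔽_q[[u_h, …, u_{n-1}]]`
-/

namespace Vale.Agent.P217

open MvPowerSeries

section PiHdef

variable (p n : ℕ) [Fact p.Prime]

/-- the embedding of the indices of `u_h, …, u_{n-1}` into those of `u_1, …, u_{n-1}`. -/
def embH (h : ℕ) (hh : 1 ≤ h) (hn : h ≤ n) : Fin (n - h) ↪ Fin (n - 1) where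
  toFun j := ⟨(j : ℕ) + (h - 1), by omega⟩
  inj' := by
    intro a b hab
    have := congrArg Fin.val hab
    simp only at this
    exact Fin.ext (by omega)

/-- The reduction `E₀ → E₀ / I_h = 𝔽_q[[u_h, …, u_{n-1}]]`. -/
noncomputable def piH (h : ℕ) (hh : 1 ≤ h) (hn : h ≤ n) :
    E0 p n →+* MvPowerSeries (Fin (n - h)) (GaloisField p n) :=
  (MvPowerSeries.killCompl (R := GaloisField p n) (embH n h hh hn) :
      MvPowerSeries (Fin (n - 1)) (GaloisField p n) →ₐ[GaloisField p n]
        MvPowerSeries (Fin (n - h)) (GaloisField p n)).toRingHom.comp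
    (MvPowerSeries.map (WittVector.constantCoeff :
      WittVector p (GaloisField p n) →+* GaloisField p n))

end PiHdef

section PiHlemmas

variable {p n : ℕ} [Fact p.Prime]

theorem val_embH (h : ℕ) (hh : 1 ≤ h) (hn : h ≤ n) (j : Fin (n - h)) :
    ((embH n h hh hn j : Fin (n - 1)) : ℕ) = (j : ℕ) + (h - 1) := rfl

theorem coeff_piH (h : ℕ) (hh : 1 ≤ h) (hn : h ≤ n) (a : E0 p n) (d : Fin (n - h) →₀ ℕ) :
    coeff d (piH p n h hh hn a) =
      (coeff (Finsupp.embDomain (embH n h hh hn) d) a).coeff 0 := by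
  rfl

theorem piH_surjective (h : ℕ) (hh : 1 ≤ h) (hn : h ≤ n) :
    Function.Surjective (piH p n h hh hn) := by
  intro b
  obtain ⟨c, hc⟩ : ∃ c : MvPowerSeries (Fin (n - 1)) (GaloisField p n),
      MvPowerSeries.killCompl (embH n h hh hn) c = b :=
    ⟨MvPowerSeries.rename (embH n h hh hn) b, killCompl_rename_app b⟩
  have hs : ∀ d, ∃ y : WittVector p (GaloisField p n), y.coeff 0 = coeff d c := fun d =>
    WittVector.constantCoeff_surjective p (coeff d c)
  choose y hy using hs
  let a : E0 p n := fun d => y d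
  refine ⟨a, ?_⟩
  rw [← hc]
  ext d
  rw [coeff_piH, coeff_killCompl]
  exact hy _

theorem constantCoeff_piH (h : ℕ) (hh : 1 ≤ h) (hn : h ≤ n) (a : E0 p n) :
    MvPowerSeries.constantCoeff (piH p n h hh hn a) = red p n a := by
  rw [← coeff_zero_eq_constantCoeff_apply, coeff_piH, Finsupp.embDomain_zero]
  rfl

theorem piH_X_emb (h : ℕ) (hh : 1 ≤ h) (hn : h ≤ n) (j : Fin (n - h)) :
    piH p n h hh hn (X (embH n h hh hn j)) = X j := by
  change MvPowerSeries.killCompl (embH n h hh hn)
    (MvPowerSeries.map (WittVector.constantCoeff :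
      WittVector p (GaloisField p n) →+* GaloisField p n) (X _)) = _
  rw [MvPowerSeries.map_X, killCompl_X]

theorem piH_X_of_lt (h : ℕ) (hh : 1 ≤ h) (hn : h ≤ n) (i : Fin (n - 1)) (hi : (i : ℕ) + 1 < h) :
    piH p n h hh hn (X i) = 0 := by
  change MvPowerSeries.killCompl (embH n h hh hn)
    (MvPowerSeries.map (WittVector.constantCoeff :
      WittVector p (GaloisField p n) →+* GaloisField p n) (X _)) = _
  rw [MvPowerSeries.map_X, killCompl_X_eq_zero]
  rintro ⟨j, hj⟩
  have := congrArg Fin.val hj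
  rw [val_embH] at this
  omega

theorem piH_p (h : ℕ) (hh : 1 ≤ h) (hn : h ≤ n) : piH p n h hh hn (p : E0 p n) = 0 := by
  rw [map_natCast]
  have : ((p : ℕ) : MvPowerSeries (Fin (n - h)) (GaloisField p n)) =
      C ((p : ℕ) : GaloisField p n) := (map_natCast C p).symm
  rw [this, CharP.cast_eq_zero, map_zero]

theorem heightIdeal_of_pos {h : ℕ} (hh : 1 ≤ h) : heightIdeal p n h =
    Ideal.span ({(p : E0 p n)} ∪ {x | ∃ i : Fin (n - 1), (i : ℕ) + 1 < h ∧ x = X i}) := by
  rw [heightIdeal, if_neg (by omega)]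

open Classical in
theorem ker_piH (h : ℕ) (hh : 1 ≤ h) (hn : h ≤ n) :
    RingHom.ker (piH p n h hh hn) = heightIdeal p n h := by
  rw [heightIdeal_of_pos hh]
  apply le_antisymm
  · intro f hf
    rw [RingHom.mem_ker] at hf
    -- choose, for every exponent involving one of the first variables, such a variable
    let P : (Fin (n - 1) →₀ ℕ) → Prop := fun d => ∃ i : Fin (n - 1), (i : ℕ) + 1 < h ∧ d i ≠ 0
    let c : (Fin (n - 1) →₀ ℕ) → Option (Fin (n - 1)) :=
      fun d => if hd : P d then some hd.choose else none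
    have hc : ∀ d i, c d = some i → (i : ℕ) + 1 < h ∧ d i ≠ 0 := by
      intro d i hdi
      by_cases hd : P d
      · simp only [c, dif_pos hd, Option.some.injEq] at hdi
        rw [← hdi]
        exact hd.choose_spec
      · simp only [c, dif_neg hd] at hdi
        exact absurd hdi (by simp)
    let q : Fin (n - 1) → E0 p n := fun i d => if c d = some i then coeff d f else 0
    have hq : ∀ i d, coeff d (q i) = if c d = some i then coeff d f else 0 := fun i d => rfl
    let r : E0 p n := fun d => if c d = none then coeff d f else 0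
    have hr : ∀ d, coeff d r = if c d = none then coeff d f else 0 := fun d => rfl
    have hfr : f = r + ∑ i, q i := by
      ext1 d
      rw [map_add, map_sum, hr]
      simp_rw [hq]
      cases hcd : c d with
      | none => simp
      | some j => simp
    have hqmem : ∀ i, q i ∈ Ideal.span
        ({(p : E0 p n)} ∪ {x | ∃ i : Fin (n - 1), (i : ℕ) + 1 < h ∧ x = X i}) := by
      intro i
      by_cases hi : (i : ℕ) + 1 < h
      · have hdvd : (X i : E0 p n) ∣ q i := by
          rw [X_dvd_iff]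
          intro m hm
          rw [hq, if_neg]
          intro hcm
          exact (hc m i hcm).2 hm
        obtain ⟨g, hg⟩ := hdvd
        rw [hg]
        exact Ideal.mul_mem_right _ _ (Ideal.subset_span (Or.inr ⟨i, hi, rfl⟩))
      · have : q i = 0 := by
          ext1 d
          rw [hq, if_neg]
          · rfl
          · intro hcd
            exact hi (hc d i hcd).1
        rw [this]
        exact Ideal.zero_mem _
    have hrmem : r ∈ Ideal.span
        ({(p : E0 p n)} ∪ {x | ∃ i : Fin (n - 1), (i : ℕ) + 1 < h ∧ x = X i}) := by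
      have h1 : ∀ d, (coeff d r).coeff 0 = 0 := by
        intro d
        rw [hr]
        by_cases hcd : c d = none
        · rw [if_pos hcd]
          have hPd : ¬ P d := by
            intro hP
            simp only [c, dif_pos hP] at hcd
            exact absurd hcd (by simp)
          have hd0 : ∀ i : Fin (n - 1), (i : ℕ) + 1 < h → d i = 0 := by
            intro i hi
            by_contra hne
            exact hPd ⟨i, hi, hne⟩
          -- d is in the image of embDomain
          obtain ⟨e, he⟩ : ∃ e : Fin (n - h) →₀ ℕ, Finsupp.embDomain (embH n h hh hn) e = d := by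
            refine ⟨Finsupp.comapDomain (embH n h hh hn) d (embH n h hh hn).injective.injOn, ?_⟩
            ext i
            by_cases hi : (i : ℕ) + 1 < h
            · rw [hd0 i hi]
              apply Finsupp.embDomain_of_notMem_range
              rintro ⟨j, hj⟩
              have := congrArg Fin.val hj
              rw [val_embH] at this
              omega
            · obtain ⟨j, rfl⟩ : ∃ j, embH n h hh hn j = i := by
                refine ⟨⟨(i : ℕ) - (h - 1), ?_⟩, ?_⟩
                · have := i.2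
                  omega
                · apply Fin.ext
                  rw [val_embH]
                  dsimp only
                  omega
              rw [Finsupp.embDomain_apply_self, Finsupp.comapDomain_apply]
          have := congrArg (coeff e) hf
          rw [coeff_piH, he] at this
          simpa using this
        · rw [if_neg hcd]
          simp
      have h2 : ∀ d, ∃ y : WittVector p (GaloisField p n), coeff d r = (p : WittVector p _) * y := by
        intro d
        have := (WittVector.mem_span_p_iff_coeff_zero_eq_zero (coeff d r)).mpr (h1 d)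
        rw [Ideal.mem_span_singleton] at this
        exact this
      choose y hy using h2
      let y' : E0 p n := fun d => y d
      have : r = (p : E0 p n) * y' := by
        ext1 d
        have h3 : ((p : ℕ) : E0 p n) = C ((p : ℕ) : WittVector p (GaloisField p n)) :=
          (map_natCast C p).symm
        rw [h3, coeff_C_mul, hy d]
        rfl
      rw [this]
      exact Ideal.mul_mem_right _ _ (Ideal.subset_span (Or.inl rfl))
    rw [hfr]
    exact Ideal.add_mem _ hrmem (Ideal.sum_mem _ fun i _ => hqmem i)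
  · rw [Ideal.span_le]
    rintro x (hx | ⟨i, hi, rfl⟩)
    · rw [Set.mem_singleton_iff] at hx
      rw [hx]
      exact piH_p h hh hn
    · exact piH_X_of_lt h hh hn i hi

theorem isPrime_heightIdeal (_hn1 : 1 ≤ n) (h : ℕ) (hn : h ≤ n) : (heightIdeal p n h).IsPrime := by
  rcases Nat.eq_zero_or_pos h with rfl | hh
  · rw [heightIdeal, if_pos rfl]
    have : IsDomain (E0 p n) := NoZeroDivisors.to_isDomain _
    exact Ideal.isPrime_bot
  · rw [← ker_piH h hh hn]
    have : IsDomain (MvPowerSeries (Fin (n - h)) (GaloisField p n)) :=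
      NoZeroDivisors.to_isDomain _
    exact RingHom.ker_isPrime _

end PiHlemmas

end Vale.Agent.P217
end
end

section

section

/-!
# P217: the reduction of the universal deformation modulo `I_h` as a family
-/

namespace Vale.Agent.P217

open MvPowerSeries

section General

variable {R S : Type*} [CommRing R] [CommRing S]

theorem IsHom.mapRing {F G : FormalGroup R} {f : PowerSeries R} (hf : IsHom F G f) (φ : R →+* S) :
    IsHom (F.map φ) (G.map φ) (f.map φ) := by
  have hX : ∀ i : Fin 2, constantCoeff (X i : MvPowerSeries (Fin 2) R) = 0 := by simp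
  refine ⟨?_, ?_⟩
  · rw [← PowerSeries.coeff_zero_eq_constantCoeff_apply, PowerSeries.coeff_map,
      PowerSeries.coeff_zero_eq_constantCoeff_apply, hf.1, map_zero]
  · have h := congrArg (MvPowerSeries.map φ) hf.2
    rw [PowerSeries.map_subst (HT_psubst_of_zero F.zero_constantCoeff), MvPowerSeries.map_subst
      (HT_hasSubst_pair (HT_constantCoeff_psubst (hX 0) hf.1) (HT_constantCoeff_psubst (hX 1) hf.1))] at h
    refine h.trans ?_
    change subst _ (MvPowerSeries.map φ G.toPowerSeries) =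
      subst _ (MvPowerSeries.map φ G.toPowerSeries)
    congr 1
    ext1 i
    fin_cases i
    · change MvPowerSeries.map φ (PowerSeries.subst (X 0 : MvPowerSeries (Fin 2) R) f) = _
      rw [PowerSeries.map_subst (HT_psubst_of_zero (hX 0)), MvPowerSeries.map_X]
      rfl
    · change MvPowerSeries.map φ (PowerSeries.subst (X 1 : MvPowerSeries (Fin 2) R) f) = _
      rw [PowerSeries.map_subst (HT_psubst_of_zero (hX 1)), MvPowerSeries.map_X]
      rfl

/-- The coefficients of degree prime to ... of a homomorphism are multiples of the linear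
coefficient. -/
theorem IsHom.coeff_mem_span {F G : FormalGroup R} {f : PowerSeries R} (hf : IsHom F G f)
    (i : ℕ) (hi : IsUnit (i : R)) :
    PowerSeries.coeff i f ∈ Ideal.span {PowerSeries.coeff 1 f} := by
  rcases Nat.eq_zero_or_pos i with rfl | hpos
  · rw [PowerSeries.coeff_zero_eq_constantCoeff_apply, hf.1]
    exact Ideal.zero_mem _
  obtain ⟨j, rfl⟩ := Nat.exists_eq_succ_of_ne_zero hpos.ne'
  let q := Ideal.Quotient.mk (Ideal.span {PowerSeries.coeff 1 f})
  have h1 : PowerSeries.coeff 1 (f.map q) = 0 := by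
    rw [PowerSeries.coeff_map]
    exact Ideal.Quotient.eq_zero_iff_mem.mpr (Ideal.subset_span rfl)
  have h2 := congrArg (PowerSeries.coeff j) ((hf.mapRing q).derivative_eq_zero h1)
  rw [PowerSeries.coeff_derivative, map_zero, PowerSeries.coeff_map] at h2
  have h3 : IsUnit ((j : R ⧸ Ideal.span {PowerSeries.coeff 1 f}) + 1) := by
    have := hi.map q
    rw [map_natCast] at this
    exact_mod_cast this
  have h4 := (h3.mul_left_eq_zero).mp h2
  exact Ideal.Quotient.eq_zero_iff_mem.mp h4

end General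

section Fam

theorem HT_charP_mvPowerSeries {σ R : Type*} [CommRing R] (p : ℕ) [CharP R p] :
    CharP (MvPowerSeries σ R) p := by
  refine charP_of_injective_ringHom (f := (C : R →+* MvPowerSeries σ R)) ?_ p
  intro a b h
  simpa using congrArg constantCoeff h

variable {p n : ℕ} [Fact p.Prime]

theorem map_piH_heightIdeal (h : ℕ) (hh : 1 ≤ h) (hhn : h ≤ n) (h' : ℕ) (hh' : 1 ≤ h') :
    (heightIdeal p n h').map (piH p n h hh hhn) =
      Ideal.span {x | ∃ j : Fin (n - h), (j : ℕ) + h < h' ∧ x = X j} := by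
  rw [heightIdeal_of_pos hh', Ideal.map_span]
  apply le_antisymm
  · rw [Ideal.span_le]
    rintro _ ⟨x, hx | ⟨i, hi, rfl⟩, rfl⟩
    · rw [Set.mem_singleton_iff] at hx
      rw [hx, piH_p]
      exact Ideal.zero_mem _
    · rcases lt_or_ge ((i : ℕ) + 1) h with hlt | hge
      · rw [piH_X_of_lt h hh hhn i hlt]
        exact Ideal.zero_mem _
      · have hi2 : i = embH n h hh hhn ⟨(i : ℕ) + 1 - h, by omega⟩ := by
          ext
          rw [val_embH]
          change (i : ℕ) = (i : ℕ) + 1 - h + (h - 1)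
          omega
        rw [hi2, piH_X_emb]
        refine Ideal.subset_span ⟨_, ?_, rfl⟩
        change (i : ℕ) + 1 - h + h < h'
        omega
  · rw [Ideal.span_le]
    rintro _ ⟨j, hj, rfl⟩
    refine Ideal.subset_span ⟨X (embH n h hh hhn j), Or.inr ⟨_, ?_, rfl⟩, piH_X_emb h hh hhn j⟩
    rw [val_embH]
    omega

theorem map_piH_coeffIdeal {F : FormalGroup (E0 p n)} (h : ℕ) (hh : 1 ≤ h) (hhn : h ≤ n)
    (V : PowerSeries (MvPowerSeries (Fin (n - h)) (GaloisField p n)))
    (hV : multSeries (F.map (piH p n h hh hhn)) p = PowerSeries.subst (PowerSeries.X ^ (p ^ h) :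
      PowerSeries (MvPowerSeries (Fin (n - h)) (GaloisField p n))) V) (h' : ℕ) (hh' : h ≤ h') :
    (Ideal.span ({(p : E0 p n)} ∪
      {x | ∃ j < p ^ h', x = PowerSeries.coeff j (multSeries F p)})).map (piH p n h hh hhn) =
      Ideal.span {c | ∃ j < p ^ (h' - h), c = PowerSeries.coeff j V} := by
  have hp : p ≠ 0 := (Fact.out : p.Prime).ne_zero
  have hcoef : ∀ j, piH p n h hh hhn (PowerSeries.coeff j (multSeries F p)) =
      if p ^ h ∣ j then PowerSeries.coeff (j / p ^ h) V else 0 := by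
    intro j
    rw [← PowerSeries.coeff_map, ← multSeries_map, hV, ← PowerSeries.expand_apply (p ^ h)
      (pow_ne_zero _ hp), PowerSeries.coeff_expand]
  have hpow : p ^ h' = p ^ h * p ^ (h' - h) := by
    rw [← pow_add]; congr 1; omega
  rw [Ideal.map_span]
  apply le_antisymm
  · rw [Ideal.span_le]
    rintro _ ⟨x, hx | ⟨j, hj, rfl⟩, rfl⟩
    · rw [Set.mem_singleton_iff] at hx
      rw [hx, piH_p]
      exact Ideal.zero_mem _
    · rw [hcoef]
      split_ifs with hd
      · refine Ideal.subset_span ⟨_, ?_, rfl⟩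
        rw [hpow] at hj
        exact Nat.div_lt_of_lt_mul hj
      · exact Ideal.zero_mem _
  · rw [Ideal.span_le]
    rintro _ ⟨j, hj, rfl⟩
    refine Ideal.subset_span ⟨PowerSeries.coeff (p ^ h * j) (multSeries F p),
      Or.inr ⟨_, ?_, rfl⟩, ?_⟩
    · rw [hpow]
      exact Nat.mul_lt_mul_of_pos_left hj (pow_pos (Fact.out : p.Prime).pos h)
    · rw [hcoef, if_pos (dvd_mul_right _ _), Nat.mul_div_cancel_left _
        (pow_pos (Fact.out : p.Prime).pos h)]

/-- The reduction of the universal deformation modulo `I_h` is a family in the sense of `FamFG`. -/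
theorem exists_famFG' {Γ : FormalGroup (ZMod p)} (hn1 : 1 ≤ n)
    (hΓ : HondaLike p n (Γ.map (algebraMap (ZMod p) (GaloisField p n))))
    {F : FormalGroup (E0 p n)} (hF : IsUniversalDeformation p n Γ F) (hH : HeightAdapted p n F)
    (h : ℕ) (hh : 1 ≤ h) (hhn : h < n) :
    ∃ A : FamFG p n h (GaloisField p n) (Γ.map (algebraMap (ZMod p) (GaloisField p n))),
      A.G = F.map (piH p n h hh hhn.le) := by
  have hp : p ≠ 0 := (Fact.out : p.Prime).ne_zero
  have : F.IsComm := hF.comm
  have : CharP (MvPowerSeries (Fin (n - h)) (GaloisField p n)) p := HT_charP_mvPowerSeries p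
  have : IsDomain (MvPowerSeries (Fin (n - h)) (GaloisField p n)) := NoZeroDivisors.to_isDomain _
  have hGcomm : (F.map (piH p n h hh hhn.le)).IsComm := isComm_map F hF.comm _
  have hker : ∀ j < p ^ h, PowerSeries.coeff j (multSeries (F.map (piH p n h hh hhn.le)) p) = 0 := by
    intro j hj
    rw [multSeries_map, PowerSeries.coeff_map, ← RingHom.mem_ker, ker_piH, hH h hh hhn.le]
    exact Ideal.subset_span (Or.inr ⟨j, hj, rfl⟩)
  obtain ⟨V, hV, hVhom⟩ := exists_V_of_coeff_eq_zero p (F.map (piH p n h hh hhn.le)) h hker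
  have hred : (F.map (piH p n h hh hhn.le)).map constantCoeff =
      Γ.map (algebraMap (ZMod p) (GaloisField p n)) := by
    rw [HT_FormalGroup_map_map, ← hF.reduction]
    congr 1
  have hone : ∃ e : MvPowerSeries (Fin (n - h)) (GaloisField p n), IsUnit e ∧
      PowerSeries.coeff 1 V = e * X (⟨0, Nat.sub_pos_of_lt hhn⟩ : Fin (n - h)) := by
    have h1 := map_piH_heightIdeal (p := p) h hh hhn.le (h + 1) (by omega)
    rw [hH (h + 1) (by omega) hhn, map_piH_coeffIdeal h hh hhn.le V hV (h + 1) (by omega)] at h1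
    have h2 : {x : MvPowerSeries (Fin (n - h)) (GaloisField p n) |
        ∃ j : Fin (n - h), (j : ℕ) + h < h + 1 ∧ x = X j} =
        {X (⟨0, Nat.sub_pos_of_lt hhn⟩ : Fin (n - h))} := by
      ext x
      simp only [Set.mem_ofPred_eq, Set.mem_singleton_iff]
      constructor
      · rintro ⟨j, hj, rfl⟩
        congr 1
        ext
        change (j : ℕ) = 0
        omega
      · rintro rfl
        exact ⟨_, by simp, rfl⟩
    rw [h2] at h1
    have h3 : Ideal.span {c | ∃ j < p ^ (h + 1 - h), c = PowerSeries.coeff j V} =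
        Ideal.span {PowerSeries.coeff 1 V} := by
      apply le_antisymm
      · rw [Ideal.span_le]
        rintro _ ⟨j, hj, rfl⟩
        rw [Nat.add_sub_cancel_left, pow_one] at hj
        rcases Nat.eq_zero_or_pos j with rfl | hpos
        · rw [PowerSeries.coeff_zero_eq_constantCoeff_apply, hVhom.1]
          exact Ideal.zero_mem _
        · refine hVhom.coeff_mem_span j ?_
          have hjk : ((j : GaloisField p n)) ≠ 0 := by
            intro h0
            rw [CharP.cast_eq_zero_iff (GaloisField p n) p] at h0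
            exact absurd (Nat.le_of_dvd hpos h0) (by omega)
          have := (isUnit_iff_ne_zero.mpr hjk).map
            (C : GaloisField p n →+* MvPowerSeries (Fin (n - h)) (GaloisField p n))
          rwa [map_natCast] at this
      · rw [Ideal.span_le]
        rintro _ rfl
        refine Ideal.subset_span ⟨1, ?_, rfl⟩
        rw [Nat.add_sub_cancel_left, pow_one]
        exact (Fact.out : p.Prime).one_lt
    rw [h3, Ideal.span_singleton_eq_span_singleton] at h1
    obtain ⟨u, hu⟩ := h1.symm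
    exact ⟨u, u.isUnit, by rw [← hu, mul_comm]⟩
  refine ⟨{ one_le_h := hh, h_lt_n := hhn, G := F.map (piH p n h hh hhn.le), comm := hGcomm,
            reduction := hred, V := V, V_zero := hVhom.1, series := hV, V_red := ?_,
            V_one := hone, V_span := ?_ }, rfl⟩
  · have h1 : multSeries (Γ.map (algebraMap (ZMod p) (GaloisField p n))) p =
        PowerSeries.expand (p ^ h) (pow_ne_zero _ hp) (V.map constantCoeff) := by
      rw [← hred, multSeries_map, hV, ← PowerSeries.expand_apply (p ^ h) (pow_ne_zero _ hp),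
        PowerSeries.map_expand]
    rw [hΓ.series] at h1
    have h2 : (PowerSeries.X ^ (p ^ n) : PowerSeries (GaloisField p n)) =
        PowerSeries.expand (p ^ h) (pow_ne_zero _ hp) (PowerSeries.X ^ (p ^ (n - h))) := by
      rw [map_pow, PowerSeries.expand_X, ← pow_mul, ← pow_add]
      congr 2; omega
    rw [h2] at h1
    exact (HT_expand_injective (R := GaloisField p n) (pow_ne_zero h hp) (σ := Unit) h1).symm
  · have h1 := map_piH_heightIdeal (p := p) h hh hhn.le n hn1
    rw [hH n hn1 le_rfl, map_piH_coeffIdeal h hh hhn.le V hV n hhn.le] at h1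
    rw [h1]
    congr 1
    ext x
    simp only [Set.mem_ofPred_eq, Set.mem_range]
    constructor
    · rintro ⟨j, _, rfl⟩
      exact ⟨j, rfl⟩
    · rintro ⟨j, rfl⟩
      exact ⟨j, by omega, rfl⟩

end Fam

end Vale.Agent.P217
end
end

section

section

/-!
# P217: the height ideals are invariant
-/

namespace Vale.Agent.P217

open MvPowerSeries

variable {p n : ℕ} [Fact p.Prime]

theorem mem_span_union_iff_le {R : Type*} [CommRing R] {a : R} {s : Set R} {I : Ideal R} :
    Ideal.span ({a} ∪ s) ≤ I ↔ a ∈ I ∧ ∀ x ∈ s, x ∈ I := by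
  rw [Ideal.span_le]
  constructor
  · intro h
    exact ⟨h (Or.inl rfl), fun x hx => h (Or.inr hx)⟩
  · rintro ⟨h1, h2⟩ x (hx | hx)
    · rw [Set.mem_singleton_iff] at hx
      rw [hx]
      exact h1
    · exact h2 x hx

/-- Height ideals are invariant. -/
theorem isInvariant_heightIdeal_of_adapted {F : FormalGroup (E0 p n)} (hH : HeightAdapted p n F)
    (h : ℕ) (hhn : h ≤ n) : IsInvariant p n F (heightIdeal p n h) := by
  intro φ g hg
  rcases Nat.eq_zero_or_pos h with rfl | hh
  · rw [heightIdeal, if_pos rfl, Ideal.map_bot]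
  · have hI := hH h hh hhn
    set r : E0 p n →+* E0 p n := (φ : E0 p n →+* E0 p n) with hr
    have hmap : (heightIdeal p n h).map r =
        Ideal.span ({(p : E0 p n)} ∪
          {x | ∃ j < p ^ h, x = PowerSeries.coeff j (multSeries (F.map r) p)}) := by
      rw [hI, Ideal.map_span]
      congr 1
      ext x
      constructor
      · rintro ⟨y, hy | ⟨j, hj, rfl⟩, rfl⟩
        · rw [Set.mem_singleton_iff] at hy
          rw [hy, map_natCast]
          exact Or.inl rfl
        · refine Or.inr ⟨j, hj, ?_⟩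
          rw [← fbMap_multSeries, PowerSeries.coeff_map]
      · rintro (hx | ⟨j, hj, rfl⟩)
        · rw [Set.mem_singleton_iff] at hx
          exact ⟨(p : E0 p n), Or.inl rfl, by rw [hx, map_natCast]⟩
        · refine ⟨_, Or.inr ⟨j, hj, rfl⟩, ?_⟩
          rw [← fbMap_multSeries, PowerSeries.coeff_map]
    have key := fun I : Ideal (E0 p n) => hg.coeff_multSeries_mem p (p ^ h) I
    apply le_antisymm
    · rw [hmap, mem_span_union_iff_le]
      refine ⟨?_, ?_⟩
      · rw [hI]
        exact Ideal.subset_span (Or.inl rfl)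
      · rintro x ⟨j, hj, rfl⟩
        refine (key (heightIdeal p n h)).mp (fun i hi => ?_) j hj
        rw [hI]
        exact Ideal.subset_span (Or.inr ⟨i, hi, rfl⟩)
    · rw [hmap]
      nth_rw 1 [hI]
      rw [mem_span_union_iff_le]
      refine ⟨Ideal.subset_span (Or.inl rfl), ?_⟩
      rintro x ⟨j, hj, rfl⟩
      exact (key (Ideal.span ({(p : E0 p n)} ∪
          {x | ∃ j < p ^ h, x = PowerSeries.coeff j (multSeries (F.map r) p)}))).mpr
        (fun i hi => Ideal.subset_span (Or.inr ⟨i, hi, rfl⟩)) j hj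

/-- Height ideals are invariant. -/
theorem isInvariant_heightIdeal {Γ : FormalGroup (ZMod p)} (_hn1 : 1 ≤ n) (_hΓ : IsHonda p n Γ)
    {F : FormalGroup (E0 p n)} (_hF : IsUniversalDeformation p n Γ F) (hH : HeightAdapted p n F)
    (h : ℕ) (hhn : h ≤ n) : IsInvariant p n F (heightIdeal p n h) :=
  isInvariant_heightIdeal_of_adapted hH h hhn

end Vale.Agent.P217
end
end

section

section

/-!
# P217: the automorphisms `g_{ω,l}` of the Honda formal group law
-/

namespace Vale.Agent.P217

open MvPowerSeries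

section Add

variable {R : Type*} [CommRing R]

/-- The sum of two homomorphisms into a commutative formal group law is a homomorphism. -/
theorem IsHom.add {F G : FormalGroup R} [G.IsComm] {f g : PowerSeries R} (hf : IsHom F G f)
    (hg : IsHom F G g) : IsHom F G (MvPowerSeries.subst ![f, g] G.toPowerSeries) := by
  refine ⟨constantCoeff_subst_pair G hf.1 hg.1, ?_⟩
  have h0 : constantCoeff (X 0 : MvPowerSeries (Fin 2) R) = 0 := by simp
  have h1 : constantCoeff (X 1 : MvPowerSeries (Fin 2) R) = 0 := by simp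
  have key : ∀ a : MvPowerSeries (Fin 2) R, constantCoeff a = 0 →
      (PowerSeries.subst a (MvPowerSeries.subst ![f, g] G.toPowerSeries : PowerSeries R) :
        MvPowerSeries (Fin 2) R) =
      MvPowerSeries.subst ![(PowerSeries.subst a f : MvPowerSeries (Fin 2) R),
        (PowerSeries.subst a g : MvPowerSeries (Fin 2) R)] G.toPowerSeries := by
    intro a ha
    exact fbSubst_pair_comp hf.1 hg.1 (fgHasSubst_const ha) G.toPowerSeries
  rw [key _ F.zero_constantCoeff, key _ h0, key _ h1, hf.2, hg.2]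
  let a : G.Point (Fin 2) := ⟨PowerSeries.subst (X 0 : MvPowerSeries (Fin 2) R) f,
    fgHasSubst (fbConstantCoeff_psubst h0 hf.1)⟩
  let b : G.Point (Fin 2) := ⟨PowerSeries.subst (X 1 : MvPowerSeries (Fin 2) R) f,
    fgHasSubst (fbConstantCoeff_psubst h1 hf.1)⟩
  let c : G.Point (Fin 2) := ⟨PowerSeries.subst (X 0 : MvPowerSeries (Fin 2) R) g,
    fgHasSubst (fbConstantCoeff_psubst h0 hg.1)⟩
  let d : G.Point (Fin 2) := ⟨PowerSeries.subst (X 1 : MvPowerSeries (Fin 2) R) g,
    fgHasSubst (fbConstantCoeff_psubst h1 hg.1)⟩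
  exact congrArg Subtype.val (add_add_add_comm a b c d)

end Add

section Frob

variable {p n : ℕ} [Fact p.Prime] {κ : Type*} [Field κ] [CharP κ p]

/-- `F(X,Y)^(p^l) = F(X^(p^l), Y^(p^l))` if `F` has coefficients in `𝔽_p`. -/
theorem pow_eq_subst_of_prime_coeff (F : MvPowerSeries (Fin 2) κ)
    (hF : ∀ d, (coeff d F) ^ p = coeff d F) (l : ℕ) :
    F ^ p ^ l = MvPowerSeries.subst ![(X 0 ^ p ^ l : MvPowerSeries (Fin 2) κ), X 1 ^ p ^ l] F := by
  have hp0 : p ≠ 0 := (Fact.out : p.Prime).ne_zero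
  have hpl : ∀ d, (coeff d F) ^ p ^ l = coeff d F := by
    intro d
    induction l with
    | zero => simp
    | succ l ih => rw [pow_succ, pow_mul, ih, hF]
  rw [← map_iterateFrobenius_expand p hp0, map_expand]
  have h1 : MvPowerSeries.map (iterateFrobenius κ p l) F = F := by
    ext d
    rw [coeff_map, iterateFrobenius_def, hpl]
  rw [h1, expand, substAlgHom_apply]
  congr 1
  ext1 i
  fin_cases i <;> rfl

/-- `F(ω X, ω Y) = ω F(X,Y)` in terms of coefficients. -/
theorem subst_smul_pair {R : Type*} [CommRing R] (F : MvPowerSeries (Fin 2) R) (ω : R)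
    (hF : ∀ d : Fin 2 →₀ ℕ, coeff d F ≠ 0 → ω ^ (d 0 + d 1) = ω) {τ : Type*}
    {a b : MvPowerSeries τ R} (ha : constantCoeff a = 0) (hb : constantCoeff b = 0) :
    MvPowerSeries.subst ![C ω * a, C ω * b] F = C ω * MvPowerSeries.subst ![a, b] F := by
  have hs := fgHasSubst_pair ha hb
  have h1 : MvPowerSeries.rescale (fun _ => ω) F = C ω * F := by
    ext d
    rw [coeff_rescale, coeff_C_mul]
    by_cases hd : coeff d F = 0
    · rw [hd, mul_zero, mul_zero]
    · congr 1
      refine Eq.trans ?_ (hF d hd)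
      rw [Finsupp.prod_fintype _ _ (fun i => pow_zero _), Fin.prod_univ_two, pow_add]
  have h2 : MvPowerSeries.subst ![a, b] (MvPowerSeries.rescale (fun _ => ω) F) =
      MvPowerSeries.subst ![C ω * a, C ω * b] F := by
    rw [rescale_eq_subst, subst_comp_subst_apply (HasSubst.smul_X _) hs]
    congr 1
    ext1 i
    have h3 : ∀ i : Fin 2, MvPowerSeries.subst ![a, b]
        (((fun _ : Fin 2 => ω) • (X : Fin 2 → MvPowerSeries (Fin 2) R)) i) = C ω * ![a, b] i := by
      intro i
      rw [Pi.smul_apply', subst_smul hs, subst_X hs, smul_eq_C_mul]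
    rw [h3]
    fin_cases i <;> rfl
  rw [← h2, h1, subst_mul hs]
  congr 1
  exact MvPowerSeries.subst_C _

/-- `ω X^(p^l)` is an endomorphism of the Honda formal group law. -/
theorem isHom_frob {Γ₀ : FormalGroup κ} (hΓ₀ : HondaLike p n Γ₀) {ω : κ} (hω : ω ^ p ^ n = ω)
    (l : ℕ) : IsHom Γ₀ Γ₀ (PowerSeries.C ω * PowerSeries.X ^ p ^ l) := by
  have hp0 : p ≠ 0 := (Fact.out : p.Prime).ne_zero
  have hpl : p ^ l ≠ 0 := pow_ne_zero _ hp0
  have hev : ∀ a : MvPowerSeries (Fin 2) κ, constantCoeff a = 0 →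
      (PowerSeries.subst a (PowerSeries.C ω * PowerSeries.X ^ p ^ l) :
        MvPowerSeries (Fin 2) κ) = C ω * a ^ p ^ l := by
    intro a ha
    have hs := fgHasSubst ha
    rw [PowerSeries.subst_mul hs, PowerSeries.subst_pow hs, PowerSeries.subst_X hs,
      PowerSeries.subst_C]
  refine ⟨by simp [hp0], ?_⟩
  rw [hev _ Γ₀.zero_constantCoeff, hev _ (by simp), hev _ (by simp),
    subst_smul_pair _ ω (hΓ₀.homog ω hω) (by simp [hp0]) (by simp [hp0]),
    ← pow_eq_subst_of_prime_coeff _ hΓ₀.prime_coeff]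

theorem isIso_gser' {Γ₀ : FormalGroup κ} (hΓ₀ : HondaLike p n Γ₀) {ω : κ} (hω : ω ^ p ^ n = ω)
    (l : ℕ) (hl : 1 ≤ l) : IsIso Γ₀ Γ₀ (gser p Γ₀ ω l) := by
  have hp0 : p ≠ 0 := (Fact.out : p.Prime).ne_zero
  have hpl : p ^ l ≠ 0 := pow_ne_zero _ hp0
  have := hΓ₀.comm
  have hX : IsHom Γ₀ Γ₀ PowerSeries.X := by
    refine ⟨PowerSeries.constantCoeff_X, ?_⟩
    rw [PowerSeries.subst_X (fgHasSubst Γ₀.zero_constantCoeff),
      PowerSeries.subst_X (fgHasSubst (by simp)), PowerSeries.subst_X (fgHasSubst (by simp))]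
    have h2 : ![(X 0 : MvPowerSeries (Fin 2) κ), X 1] = X := by
      ext1 i
      fin_cases i <;> rfl
    rw [h2, subst_self]
    rfl
  refine ⟨hX.add (isHom_frob hΓ₀ hω l), ?_⟩
  have hlin : PowerSeries.coeff 1 (gser p Γ₀ ω l) = 1 := by
    obtain ⟨H, hH⟩ := exists_FG_decomp Γ₀
    have hs : MvPowerSeries.HasSubst
        ![(PowerSeries.X : PowerSeries κ), PowerSeries.C ω * PowerSeries.X ^ (p ^ l)] :=
      fgHasSubst_pair PowerSeries.constantCoeff_X (by
        change PowerSeries.constantCoeff (PowerSeries.C ω * PowerSeries.X ^ (p ^ l)) = 0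
        simp [hp0])
    have h2l : 2 ≤ p ^ l := by
      calc 2 ≤ p := (Fact.out : p.Prime).two_le
        _ = p ^ 1 := (pow_one p).symm
        _ ≤ p ^ l := Nat.pow_le_pow_right (Nat.pos_of_ne_zero hp0) hl
    obtain ⟨m, hm⟩ := Nat.exists_eq_add_of_le h2l
    have h3 : gser p Γ₀ ω l = PowerSeries.X + PowerSeries.X ^ 2 *
        (PowerSeries.C ω * PowerSeries.X ^ m * (1 + PowerSeries.X *
          MvPowerSeries.subst ![(PowerSeries.X : PowerSeries κ),
            PowerSeries.C ω * PowerSeries.X ^ (p ^ l)] H)) := by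
      rw [gser, hH, subst_add hs, subst_add hs, subst_mul hs, subst_mul hs, subst_X hs,
        subst_X hs]
      change PowerSeries.X + PowerSeries.C ω * PowerSeries.X ^ (p ^ l) +
        PowerSeries.X * (PowerSeries.C ω * PowerSeries.X ^ (p ^ l)) * _ = _
      rw [hm]
      ring
    rw [h3, map_add, PowerSeries.coeff_one_X, PowerSeries.coeff_X_pow_mul', if_neg (by norm_num),
      add_zero]
  rw [hlin]
  exact isUnit_one

/-- `g_{ω,l}` is an automorphism of the Honda formal group law over `𝔽_q`. -/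
theorem isIso_gser {Γ₀ : FormalGroup (GaloisField p n)} (hΓ₀ : HondaLike p n Γ₀)
    (ω : GaloisField p n) (l : ℕ) (hl : 1 ≤ l) : IsIso Γ₀ Γ₀ (gser p Γ₀ ω l) := by
  refine isIso_gser' hΓ₀ ?_ l hl
  rcases Nat.eq_zero_or_pos n with rfl | hn
  · simp
  · have h1 : Nat.card (GaloisField p n) = p ^ n := GaloisField.card p n (by omega)
    have := Fintype.ofFinite (GaloisField p n)
    rw [← h1, Nat.card_eq_fintype_card]
    exact FiniteField.pow_card ω

end Frob

end Vale.Agent.P217
end
end

section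

section

/-!
# P217: automorphisms of `E₀` preserving `I_h` descend to `𝔽_q[[u_h, …, u_{n-1}]]`
-/

namespace Vale.Agent.P217

open MvPowerSeries

/-- In `κ[[τ]]`, an element with `x^m = x` (`m ≥ 2`, `κ` of characteristic `p`, `m = p^n`)
is constant. -/
theorem eq_C_of_pow_eq {κ : Type*} [Field κ] {p : ℕ} [Fact p.Prime] [CharP κ p] {τ : Type*}
    {n : ℕ} (hn : 1 ≤ n) {x : MvPowerSeries τ κ} (hx : x ^ p ^ n = x) :
    x = C (constantCoeff x) := by
  have hp0 : p ≠ 0 := (Fact.out : p.Prime).ne_zero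
  have hcharP : CharP (MvPowerSeries τ κ) p :=
    (charP_of_injective_ringHom (f := (C : κ →+* MvPowerSeries τ κ)) C_injective p)
  have := ExpChar.prime (R := MvPowerSeries τ κ) (Fact.out : p.Prime)
  set c : MvPowerSeries τ κ := C (constantCoeff x) with hc
  have hcp : c ^ p ^ n = c := by
    rw [hc, ← map_pow, ← map_pow, hx]
  have hy : (x - c) ^ p ^ n = x - c := by
    rw [sub_pow_expChar_pow, hx, hcp]
  have hy0 : constantCoeff (x - c) = 0 := by
    rw [map_sub, hc, constantCoeff_C, sub_self]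
  have h2 : 2 ≤ p ^ n := by
    calc 2 ≤ p := (Fact.out : p.Prime).two_le
      _ = p ^ 1 := (pow_one p).symm
      _ ≤ p ^ n := Nat.pow_le_pow_right (Nat.pos_of_ne_zero hp0) hn
  obtain ⟨m, hm⟩ := Nat.exists_eq_add_of_le h2
  have hz : (x - c) * (1 - (x - c) ^ (m + 1)) = 0 := by
    have : (x - c) * (1 - (x - c) ^ (m + 1)) = (x - c) - (x - c) ^ (2 + m) := by ring
    rw [this, ← hm, hy, sub_self]
  have hu : IsUnit (1 - (x - c) ^ (m + 1)) := by
    rw [isUnit_iff_constantCoeff, map_sub, map_pow, hy0]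
    simp
  rw [hu.mul_left_eq_zero] at hz
  exact sub_eq_zero.mp hz

variable {p n : ℕ} [Fact p.Prime]

theorem galois_pow (hn : 1 ≤ n) (ω : GaloisField p n) : ω ^ p ^ n = ω := by
  have h1 : Nat.card (GaloisField p n) = p ^ n := GaloisField.card p n (by omega)
  have := Fintype.ofFinite (GaloisField p n)
  rw [← h1, Nat.card_eq_fintype_card]
  exact FiniteField.pow_card ω

/-- Descent of an automorphism of `E₀` modulo `I_h`. -/
theorem exists_descent (hn1 : 1 ≤ n) (h : ℕ) (hh : 1 ≤ h) (hhn : h ≤ n)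
    (φ : E0 p n →+* E0 p n) (hred : (red p n).comp φ = red p n)
    (hI : (heightIdeal p n h).map φ ≤ heightIdeal p n h) :
    ∃ φ' : MvPowerSeries (Fin (n - h)) (GaloisField p n) →ₐ[GaloisField p n]
        MvPowerSeries (Fin (n - h)) (GaloisField p n),
      ((φ' : MvPowerSeries (Fin (n - h)) (GaloisField p n) →+*
        MvPowerSeries (Fin (n - h)) (GaloisField p n)).comp (piH p n h hh hhn) =
          (piH p n h hh hhn).comp φ) ∧
      ∀ i, constantCoeff (φ' (X i)) = 0 := by
  have hs := piH_surjective (p := p) (n := n) h hh hhn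
  have hker : RingHom.ker (piH p n h hh hhn) ≤ RingHom.ker ((piH p n h hh hhn).comp φ) := by
    intro x hx
    rw [ker_piH] at hx
    rw [RingHom.mem_ker, RingHom.comp_apply, ← RingHom.mem_ker, ker_piH]
    exact hI (Ideal.mem_map_of_mem φ hx)
  let ψ : MvPowerSeries (Fin (n - h)) (GaloisField p n) →+*
      MvPowerSeries (Fin (n - h)) (GaloisField p n) :=
    (piH p n h hh hhn).liftOfSurjective hs ⟨(piH p n h hh hhn).comp φ, hker⟩
  have hψ : ψ.comp (piH p n h hh hhn) = (piH p n h hh hhn).comp φ :=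
    RingHom.liftOfSurjective_comp _ hs ⟨_, hker⟩
  have hψ' : ∀ x, ψ (piH p n h hh hhn x) = piH p n h hh hhn (φ x) := fun x =>
    RingHom.congr_fun hψ x
  have hcc : ∀ y, constantCoeff (ψ y) = constantCoeff y := by
    intro y
    obtain ⟨x, rfl⟩ := hs y
    rw [hψ', constantCoeff_piH, constantCoeff_piH]
    exact RingHom.congr_fun hred x
  have hC : ∀ c, ψ (C c) = C c := by
    intro c
    have h1 : (ψ (C c)) ^ p ^ n = ψ (C c) := by
      rw [← map_pow, ← map_pow, galois_pow hn1]
    have h2 := eq_C_of_pow_eq (p := p) hn1 h1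
    rw [h2, hcc, constantCoeff_C]
  refine ⟨{ ψ with commutes' := fun c => hC c }, ?_, ?_⟩
  · exact hψ
  · intro i
    have : constantCoeff (ψ (X i)) = 0 := by
      rw [hcc, constantCoeff_X]
    exact this

end Vale.Agent.P217
end
end

section

section

/-!
# P217: automorphisms of the Honda formal group lift to the universal deformation
-/

namespace Vale.Agent.P217.C0

open MvPowerSeries Vale.Agent.P217

section Red

variable {p n : ℕ} [Fact p.Prime]

theorem red_surjective : Function.Surjective (red p n) := by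
  intro a
  refine ⟨C (WittVector.teichmuller p a), ?_⟩
  rw [red, RingHom.comp_apply, constantCoeff_C]
  exact WittVector.teichmuller_coeff_zero p a

theorem ker_red : RingHom.ker (red p n) = IsLocalRing.maximalIdeal (E0 p n) :=
  IsLocalRing.eq_maximalIdeal (RingHom.ker_isMaximal_of_surjective _ red_surjective)

/-- factorization through the residue field. -/
theorem exists_factor_red {B : Type*} [CommRing B] (f : E0 p n →+* B)
    (hf : IsLocalRing.maximalIdeal (E0 p n) ≤ RingHom.ker f) :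
    ∃ i : GaloisField p n →+* B, i.comp (red p n) = f := by
  refine ⟨(RingHom.liftOfSurjective (red p n) red_surjective) ⟨f, by rw [ker_red]; exact hf⟩, ?_⟩
  exact RingHom.liftOfRightInverse_comp _ _ _ _

theorem isUnit_of_red {a : E0 p n} (ha : IsUnit (red p n a)) : IsUnit a := by
  by_contra h
  have h1 : a ∈ IsLocalRing.maximalIdeal (E0 p n) := h
  rw [← ker_red, RingHom.mem_ker] at h1
  rw [h1] at ha
  exact not_isUnit_zero ha

end Red

section Rigid

variable {p n : ℕ} [Fact p.Prime] {Γ : FormalGroup (ZMod p)} {F : FormalGroup (E0 p n)}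

theorem rigid (hF : IsUniversalDeformation p n Γ F) {A : Type} [CommRing A] [IsLocalRing A]
    [IsNoetherianRing A] [IsAdicComplete (IsLocalRing.maximalIdeal A) A]
    (i : GaloisField p n →+* IsLocalRing.ResidueField A) {x y : E0 p n →+* A}
    (hx : (IsLocalRing.residue A).comp x = i.comp (red p n))
    (hy : (IsLocalRing.residue A).comp y = i.comp (red p n)) {ψ : PowerSeries A}
    (hψ : IsIso (F.map x) (F.map y) ψ)
    (hψ1 : ψ.map (IsLocalRing.residue A) = PowerSeries.X) : x = y ∧ ψ = PowerSeries.X := by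
  have hc : F.IsComm := hF.comm
  have hred : (F.map y).map (IsLocalRing.residue A) =
      (Γ.map (algebraMap (ZMod p) (GaloisField p n))).map i := by
    rw [FG_map_map, hy, ← FG_map_map, hF.reduction]
  have hu := (hF.universal A i (F.map y) hred).unique (y₁ := (x, ψ)) (y₂ := (y, PowerSeries.X))
    ⟨hx, hψ, hψ1⟩ ⟨hy, isIso_X, PowerSeries.map_X _⟩
  exact ⟨congrArg Prod.fst hu, congrArg Prod.snd hu⟩

variable [IsNoetherianRing (E0 p n)] [IsAdicComplete (IsLocalRing.maximalIdeal (E0 p n)) (E0 p n)]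

theorem ps_map_comp {R S T : Type*} [CommRing R] [CommRing S] [CommRing T] (f : R →+* S)
    (g : S →+* T) (u : PowerSeries R) :
    PowerSeries.map g (PowerSeries.map f u) = PowerSeries.map (g.comp f) u := by
  ext m
  simp

theorem ps_map_subst {R S : Type*} [CommRing R] [CommRing S] (f : R →+* S) {a : PowerSeries R}
    (ha : PowerSeries.constantCoeff a = 0) (u : PowerSeries R) :
    PowerSeries.map f (PowerSeries.subst a u : PowerSeries R) =
      (PowerSeries.subst (PowerSeries.map f a) (PowerSeries.map f u) : PowerSeries S) :=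
  PowerSeries.map_subst (hasSubst_of_cc ha) u

theorem cc_map {R S : Type*} [CommRing R] [CommRing S] (f : R →+* S) {a : PowerSeries R}
    (ha : PowerSeries.constantCoeff a = 0) : PowerSeries.constantCoeff (a.map f) = 0 := by
  rw [← PowerSeries.coeff_zero_eq_constantCoeff_apply, PowerSeries.coeff_map,
    PowerSeries.coeff_zero_eq_constantCoeff_apply, ha, map_zero]

theorem exists_hom (hF : IsUniversalDeformation p n Γ F) (g : PowerSeries (GaloisField p n))
    (hg : IsIso (Γ.map (algebraMap (ZMod p) (GaloisField p n)))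
      (Γ.map (algebraMap (ZMod p) (GaloisField p n))) g) :
    ∃ (φ : E0 p n →+* E0 p n) (ψ : PowerSeries (E0 p n)),
      (red p n).comp φ = red p n ∧ IsIso F (F.map φ) ψ ∧ ψ.map (red p n) = g := by
  have hc : F.IsComm := hF.comm
  obtain ⟨i, hi⟩ := exists_factor_red (IsLocalRing.residue (E0 p n)) (by
    rw [IsLocalRing.ker_residue])
  have hiinj : Function.Injective i := i.injective
  -- a lift of `g`
  obtain ⟨u, hu0, hug⟩ : ∃ u : PowerSeries (E0 p n), PowerSeries.constantCoeff u = 0 ∧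
      u.map (red p n) = g := by
    refine ⟨PowerSeries.mk fun m => if m = 0 then 0 else
      Function.surjInv red_surjective (PowerSeries.coeff m g), ?_, ?_⟩
    · rw [← PowerSeries.coeff_zero_eq_constantCoeff_apply, PowerSeries.coeff_mk, if_pos rfl]
    · ext m
      rw [PowerSeries.coeff_map, PowerSeries.coeff_mk]
      split_ifs with h
      · rw [h, map_zero, PowerSeries.coeff_zero_eq_constantCoeff_apply, hg.1.1]
      · exact Function.surjInv_eq red_surjective _
  have hu1 : IsUnit (PowerSeries.coeff 1 u) := by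
    apply isUnit_of_red
    rw [← PowerSeries.coeff_map, hug]
    exact hg.2
  obtain ⟨G, hG, hFG⟩ := exists_transport F u hu0 hu1
  have hGred : G.map (red p n) = Γ.map (algebraMap (ZMod p) (GaloisField p n)) := by
    have h1 := hFG.mapC (red p n)
    rw [hug, hF.reduction] at h1
    exact h1.targetC hg
  have hGres : G.map (IsLocalRing.residue (E0 p n)) =
      (Γ.map (algebraMap (ZMod p) (GaloisField p n))).map i := by
    rw [← hi, ← FG_map_map, hGred]
  obtain ⟨⟨φ, ψ'⟩, ⟨h1, h2, h3⟩, -⟩ := hF.universal (E0 p n) i G hGres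
  simp only at h1 h2 h3
  have hφ : (red p n).comp φ = red p n := by
    refine RingHom.ext fun a => hiinj ?_
    have e1 := RingHom.congr_fun h1 a
    have e2 := RingHom.congr_fun hi (φ a)
    rw [RingHom.comp_apply, RingHom.comp_apply] at e1
    rw [RingHom.comp_apply] at e2
    rw [RingHom.comp_apply, e2, e1]
  have hψ' : ψ'.map (red p n) = PowerSeries.X := by
    have h4 : (ψ'.map (red p n)).map i = (PowerSeries.X : PowerSeries (GaloisField p n)).map i := by
      rw [ps_map_comp, hi, h3, PowerSeries.map_X]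
    ext m
    have h5 := congrArg (PowerSeries.coeff m) h4
    rw [PowerSeries.coeff_map, PowerSeries.coeff_map] at h5
    exact hiinj h5
  obtain ⟨v, hv, hv1, hv2⟩ := h2.symmC
  have hvr : v.map (red p n) = PowerSeries.X := by
    have h5 := congrArg (PowerSeries.map (red p n)) hv1
    rw [ps_map_subst _ h2.1.1, hψ', PowerSeries.X_subst, PowerSeries.map_X] at h5
    exact h5
  refine ⟨φ, PowerSeries.subst u v, hφ, hFG.compC hv, ?_⟩
  rw [ps_map_subst _ hu0, hvr, hug, PowerSeries.subst_X (hasSubst_of_cc hg.1.1)]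

theorem exists_phi' (hF : IsUniversalDeformation p n Γ F) (g : PowerSeries (GaloisField p n))
    (hg : IsIso (Γ.map (algebraMap (ZMod p) (GaloisField p n)))
      (Γ.map (algebraMap (ZMod p) (GaloisField p n))) g) :
    ∃ (φ : E0 p n ≃+* E0 p n) (ψ : PowerSeries (E0 p n)),
      (red p n).comp (φ : E0 p n →+* E0 p n) = red p n ∧
      IsIso F (F.map (φ : E0 p n →+* E0 p n)) ψ ∧ ψ.map (red p n) = g := by
  have hc : F.IsComm := hF.comm
  obtain ⟨i, hi⟩ := exists_factor_red (IsLocalRing.residue (E0 p n)) (by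
    rw [IsLocalRing.ker_residue])
  have key : ∀ (g₁ g₂ : PowerSeries (GaloisField p n)) (φ₁ φ₂ : E0 p n →+* E0 p n)
      (ψ₁ ψ₂ : PowerSeries (E0 p n)), (red p n).comp φ₁ = red p n → (red p n).comp φ₂ = red p n →
      IsIso F (F.map φ₁) ψ₁ → IsIso F (F.map φ₂) ψ₂ → ψ₁.map (red p n) = g₁ →
      ψ₂.map (red p n) = g₂ → PowerSeries.subst g₁ g₂ = (PowerSeries.X : PowerSeries _) →
      φ₁.comp φ₂ = RingHom.id _ := by
    intro g₁ g₂ φ₁ φ₂ ψ₁ ψ₂ r1 r2 i1 i2 s1 s2 h12
    have h3 : IsIso (F.map (RingHom.id _)) (F.map (φ₁.comp φ₂))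
        (PowerSeries.subst ψ₁ (ψ₂.map φ₁)) := by
      rw [FG_map_id, ← FG_map_map]
      exact i1.compC (i2.mapC φ₁)
    have hres : ∀ f : E0 p n →+* E0 p n, (red p n).comp f = red p n →
        (IsLocalRing.residue (E0 p n)).comp f = i.comp (red p n) := by
      intro f hf
      rw [← hi, RingHom.comp_assoc, hf]
    refine ((rigid hF i (hres _ ?_) (hres _ ?_) h3 ?_).1).symm
    · rw [RingHom.comp_id]
    · rw [← RingHom.comp_assoc, r1, r2]
    · rw [← hi, ← ps_map_comp, ps_map_subst _ i1.1.1, s1, ps_map_comp, r1, s2, h12,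
        PowerSeries.map_X]
  obtain ⟨g', hg', h1, h2⟩ := hg.symmC
  obtain ⟨φ, ψ, a1, a2, a3⟩ := exists_hom hF g hg
  obtain ⟨φ', ψ', b1, b2, b3⟩ := exists_hom hF g' hg'
  have e1 := key g g' φ φ' ψ ψ' a1 b1 a2 b2 a3 b3 h1
  have e2 := key g' g φ' φ ψ' ψ b1 a1 b2 a2 b3 a3 h2
  refine ⟨RingEquiv.ofRingHom φ φ' e1 e2, ψ, ?_, ?_, a3⟩
  · exact a1
  · exact a2

end Rigid

end Vale.Agent.P217.C0
end
end

section

section

/-!
# P217: formal algebra (power series with zero constant coefficient, substitution congruences)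
-/

namespace Vale.Agent.P217.FA

open MvPowerSeries

section HomExt

variable {σ τ R S : Type*} [CommRing R] [CommRing S]

/-- Two ring homomorphisms on a power series ring agree if they agree on constants and on the
variables, which are mapped to nilpotent elements. -/
theorem hom_ext_nilp [Finite σ] {φ ψ : MvPowerSeries σ R →+* S}
    (hC : ∀ c, φ (C c) = ψ (C c)) (hX : ∀ i, φ (X i) = ψ (X i))
    (hn : ∀ i, IsNilpotent (φ (X i))) : φ = ψ := by
  classical
  have := Fintype.ofFinite σ
  set I : Ideal S := Ideal.span (Set.range fun i => φ (X i)) with hI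
  have hfg : I.FG := Submodule.fg_span (Set.finite_range _)
  have hnil : IsNilpotent I := by
    rw [hfg.isNilpotent_iff_le_nilradical, hI, Ideal.span_le]
    rintro _ ⟨i, rfl⟩
    exact hn i
  obtain ⟨N, hN⟩ := hnil
  have key : ∀ k : ℕ, ∀ f, φ f - ψ f ∈ I ^ k := by
    intro k
    induction k with
    | zero => intro f; simp
    | succ k ih =>
      intro f
      obtain ⟨g, hg⟩ := exists_decomp f
      rw [hg, map_add, map_add, hC, map_sum, map_sum, add_sub_add_left_eq_sub,
        ← Finset.sum_sub_distrib]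
      refine Ideal.sum_mem _ fun i _ => ?_
      rw [map_mul, map_mul, ← hX, ← mul_sub, pow_succ']
      exact Ideal.mul_mem_mul (Ideal.subset_span ⟨i, rfl⟩) (ih _)
  ext f
  have := key N f
  rw [hN] at this
  exact sub_eq_zero.mp this

/-- substitution as a ring homomorphism. -/
noncomputable def sHom {a : σ → MvPowerSeries τ R} (ha : HasSubst a) :
    MvPowerSeries σ R →+* MvPowerSeries τ R := (substAlgHom (R := R) ha).toRingHom

theorem sHom_apply {a : σ → MvPowerSeries τ R} (ha : HasSubst a) (f : MvPowerSeries σ R) :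
    sHom ha f = f.subst a := by
  simp [sHom]

theorem sHom_X {a : σ → MvPowerSeries τ R} (ha : HasSubst a) (i : σ) : sHom ha (X i) = a i := by
  rw [sHom_apply, subst_X ha]

theorem sHom_C {a : σ → MvPowerSeries τ R} (ha : HasSubst a) (c : R) :
    sHom ha (C c) = C c := by
  rw [sHom_apply, subst_C]

/-- substitution is congruence preserving. -/
theorem subst_sub_subst_mem [Finite σ] (I : Ideal (MvPowerSeries τ R))
    {a b : σ → MvPowerSeries τ R} (ha : HasSubst a) (hb : HasSubst b)
    (h : ∀ i, a i - b i ∈ I) (hn : ∀ i, ∃ N, (a i) ^ N ∈ I) (f : MvPowerSeries σ R) :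
    f.subst a - f.subst b ∈ I := by
  have := hom_ext_nilp (φ := (Ideal.Quotient.mk I).comp (sHom ha))
    (ψ := (Ideal.Quotient.mk I).comp (sHom hb)) (by
      intro c
      rw [RingHom.comp_apply, RingHom.comp_apply, sHom_C, sHom_C]) (by
      intro i
      rw [RingHom.comp_apply, RingHom.comp_apply, sHom_X, sHom_X, Ideal.Quotient.eq]
      exact h i) (by
      intro i
      obtain ⟨N, hN⟩ := hn i
      refine ⟨N, ?_⟩
      rw [RingHom.comp_apply, sHom_X, ← map_pow, Ideal.Quotient.eq_zero_iff_mem]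
      exact hN)
  have := congrArg (fun φ => φ f) this
  simpa only [RingHom.comp_apply, Ideal.Quotient.eq, sHom_apply] using this

end HomExt

section FixPoint

variable {R : Type*} [CommRing R]

/-- A strictly contracting self-map of the power series with zero constant coefficient has a
fixed point. -/
theorem exists_fix (T : PowerSeries R → PowerSeries R)
    (hT0 : ∀ a, PowerSeries.constantCoeff a = 0 → PowerSeries.constantCoeff (T a) = 0)
    (hT : ∀ a b, PowerSeries.constantCoeff a = 0 → PowerSeries.constantCoeff b = 0 → ∀ k,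
      PowerSeries.X ^ k ∣ a - b → PowerSeries.X ^ (k + 1) ∣ T a - T b) :
    ∃ c, PowerSeries.constantCoeff c = 0 ∧ T c = c := by
  have h0 : ∀ k, PowerSeries.constantCoeff (T^[k] 0) = 0 := by
    intro k
    induction k with
    | zero => simp
    | succ k ih => rw [Function.iterate_succ_apply']; exact hT0 _ ih
  have hstep : ∀ k, PowerSeries.X ^ k ∣ T^[k + 1] 0 - T^[k] 0 := by
    intro k
    induction k with
    | zero => simp
    | succ k ih =>
      have := hT _ _ (h0 _) (h0 _) k ih
      rwa [← Function.iterate_succ_apply' T, ← Function.iterate_succ_apply' T] at this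
  have hmono : ∀ j k, k ≤ j → PowerSeries.X ^ k ∣ T^[j] 0 - T^[k] 0 := by
    intro j k hkj
    induction j, hkj using Nat.le_induction with
    | base => simp
    | succ j hj ih =>
      have := dvd_add ((pow_dvd_pow _ hj).trans (hstep j)) ih
      simpa using this
  let c : PowerSeries R := PowerSeries.mk fun m => PowerSeries.coeff m (T^[m + 1] 0)
  have hc : ∀ k, PowerSeries.X ^ k ∣ c - T^[k] 0 := by
    intro k
    rw [PowerSeries.X_pow_dvd_iff]
    intro m hm
    have := (PowerSeries.X_pow_dvd_iff.mp (hmono k (m + 1) hm)) m (Nat.lt_succ_self m)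
    rw [map_sub, sub_eq_zero] at this
    rw [map_sub, this]
    simp [c]
  have hc0 : PowerSeries.constantCoeff c = 0 := by
    have := (PowerSeries.X_pow_dvd_iff.mp (hc 1)) 0 one_pos
    rw [map_sub, sub_eq_zero] at this
    rw [PowerSeries.coeff_zero_eq_constantCoeff_apply,
      PowerSeries.coeff_zero_eq_constantCoeff_apply, h0 1] at this
    exact this
  refine ⟨c, hc0, ?_⟩
  rw [← sub_eq_zero]
  ext m
  have h1 := hT c (T^[m] 0) hc0 (h0 m) m (hc m)
  rw [← Function.iterate_succ_apply' T m] at h1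
  have h2 := dvd_sub h1 (hc (m + 1))
  have h3 : T c - T^[m + 1] 0 - (c - T^[m + 1] 0) = T c - c := by ring
  rw [h3] at h2
  exact (PowerSeries.X_pow_dvd_iff.mp h2) m (Nat.lt_succ_self m)

end FixPoint

section Group

variable {R : Type*} [CommRing R] {τ υ : Type*}

/-- Points of `F` in the power series with zero constant coefficient. -/
def ZPt (_F : FormalGroup R) (τ : Type*) : Type _ :=
  {f : MvPowerSeries τ R // constantCoeff f = 0}

theorem hasSubst_cons {a b : MvPowerSeries τ R} (ha : constantCoeff a = 0)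
    (hb : constantCoeff b = 0) : HasSubst (![a, b] : Fin 2 → MvPowerSeries τ R) := by
  refine hasSubst_of_constantCoeff_zero fun i => ?_
  fin_cases i
  · exact ha
  · exact hb

theorem constantCoeff_cons {a b : MvPowerSeries τ R} (ha : constantCoeff a = 0)
    (hb : constantCoeff b = 0) (i : Fin 2) :
    constantCoeff ((![a, b] : Fin 2 → MvPowerSeries τ R) i) = 0 := by
  fin_cases i
  · exact ha
  · exact hb

theorem hs {a : MvPowerSeries τ R} (ha : constantCoeff a = 0) : PowerSeries.HasSubst a :=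
  PowerSeries.HasSubst.of_constantCoeff_zero ha

theorem constantCoeff_FG_subst (F : FormalGroup R) {a b : MvPowerSeries τ R}
    (ha : constantCoeff a = 0) (hb : constantCoeff b = 0) :
    constantCoeff (F.toPowerSeries.subst ![a, b]) = 0 :=
  constantCoeff_subst_eq_zero (hasSubst_cons ha hb) (constantCoeff_cons ha hb)
    F.zero_constantCoeff

/-- the inverse series. -/
theorem exists_inv (F : FormalGroup R) : ∃ ι : PowerSeries R, PowerSeries.constantCoeff ι = 0 ∧
    F.toPowerSeries.subst ![ι, (PowerSeries.X : PowerSeries R)] = 0 := by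
  obtain ⟨H, hH⟩ := exists_FG_decomp F
  have hX0 : MvPowerSeries.constantCoeff (PowerSeries.X : PowerSeries R) = 0 :=
    PowerSeries.constantCoeff_X
  have hval : ∀ c : PowerSeries R, PowerSeries.constantCoeff c = 0 →
      F.toPowerSeries.subst ![c, (PowerSeries.X : PowerSeries R)] =
        c + PowerSeries.X + c * PowerSeries.X * H.subst ![c, (PowerSeries.X : PowerSeries R)] := by
    intro c hc
    have h := hasSubst_cons (τ := Unit) hc hX0
    rw [hH, ← sHom_apply h, map_add, map_add, map_mul, map_mul, sHom_X, sHom_X, sHom_apply]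
    rfl
  obtain ⟨c, hc0, hc⟩ := exists_fix (fun c => -PowerSeries.X -
      PowerSeries.X * (c * H.subst ![c, (PowerSeries.X : PowerSeries R)])) (by
    intro a _
    simp) (by
    intro a b ha hb k hk
    have h1 : (PowerSeries.X : PowerSeries R) ^ k ∣
        a * H.subst ![a, (PowerSeries.X : PowerSeries R)] -
        b * H.subst ![b, (PowerSeries.X : PowerSeries R)] := by
      have h2 : H.subst ![a, (PowerSeries.X : PowerSeries R)] -
          H.subst ![b, (PowerSeries.X : PowerSeries R)] ∈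
          Ideal.span {(PowerSeries.X : PowerSeries R) ^ k} := by
        have hmem : ∀ f : PowerSeries R, PowerSeries.constantCoeff f = 0 →
            f ^ k ∈ Ideal.span {(PowerSeries.X : PowerSeries R) ^ k} := by
          intro f hf
          rw [Ideal.mem_span_singleton]
          exact pow_dvd_pow_of_dvd (PowerSeries.X_dvd_iff.mpr hf) k
        refine subst_sub_subst_mem _ (hasSubst_cons (τ := Unit) ha hX0)
          (hasSubst_cons (τ := Unit) hb hX0) ?_ ?_ H
        · intro i
          fin_cases i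
          · simpa [Ideal.mem_span_singleton] using hk
          · simp
        · intro i
          refine ⟨k, ?_⟩
          fin_cases i
          · exact hmem a ha
          · exact hmem _ hX0
      rw [Ideal.mem_span_singleton] at h2
      have : a * H.subst ![a, (PowerSeries.X : PowerSeries R)] -
        b * H.subst ![b, (PowerSeries.X : PowerSeries R)] =
          (a - b) * H.subst ![a, (PowerSeries.X : PowerSeries R)] +
          b * (H.subst ![a, (PowerSeries.X : PowerSeries R)] -
            H.subst ![b, (PowerSeries.X : PowerSeries R)]) := by ring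
      rw [this]
      exact dvd_add (hk.mul_right _) (h2.mul_left _)
    have h3 : (-PowerSeries.X - PowerSeries.X * (a * H.subst ![a, (PowerSeries.X :
        PowerSeries R)])) - (-PowerSeries.X - PowerSeries.X * (b * H.subst ![b,
        (PowerSeries.X : PowerSeries R)])) = -(PowerSeries.X *
        (a * H.subst ![a, (PowerSeries.X : PowerSeries R)] -
        b * H.subst ![b, (PowerSeries.X : PowerSeries R)])) := by ring
    rw [h3, dvd_neg, pow_succ']
    exact mul_dvd_mul_left _ h1)
  refine ⟨c, hc0, ?_⟩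
  rw [hval c hc0]
  nth_rewrite 1 [← hc]
  ring

namespace ZPt

variable {F : FormalGroup R}

/-- the underlying series. -/
def val (a : ZPt F τ) : MvPowerSeries τ R := (show {f : MvPowerSeries τ R // _} from a).1

theorem constantCoeff_val (a : ZPt F τ) : constantCoeff a.val = 0 :=
  (show {f : MvPowerSeries τ R // constantCoeff f = 0} from a).2

/-- make a point. -/
def mk (F : FormalGroup R) (a : MvPowerSeries τ R) (ha : constantCoeff a = 0) : ZPt F τ :=
  (⟨a, ha⟩ : {f : MvPowerSeries τ R // constantCoeff f = 0})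

@[simp] theorem val_mk (a : MvPowerSeries τ R) (ha : constantCoeff a = 0) :
    (mk F a ha).val = a := rfl

@[ext] theorem ext {a b : ZPt F τ} (h : a.val = b.val) : a = b := Subtype.ext h

noncomputable instance : Add (ZPt F τ) :=
  ⟨fun a b => mk F (F.toPowerSeries.subst ![a.val, b.val])
    (constantCoeff_FG_subst F a.constantCoeff_val b.constantCoeff_val)⟩

instance : Zero (ZPt F τ) := ⟨mk F 0 (by simp)⟩

theorem val_add (a b : ZPt F τ) : (a + b).val = F.toPowerSeries.subst ![a.val, b.val] := rfl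

@[simp] theorem val_zero : (0 : ZPt F τ).val = 0 := rfl

theorem add_assoc' (a b c : ZPt F τ) : a + b + c = a + (b + c) :=
  ext (F.assoc' (hs a.constantCoeff_val) (hs b.constantCoeff_val) (hs c.constantCoeff_val))

theorem zero_add' (a : ZPt F τ) : 0 + a = a := ext (F.zero_add (hs a.constantCoeff_val))

theorem add_zero' (a : ZPt F τ) : a + 0 = a := ext (F.add_zero (hs a.constantCoeff_val))

theorem add_comm' [F.IsComm] (a b : ZPt F τ) : a + b = b + a :=
  ext (F.comm' (hs a.constantCoeff_val) (hs b.constantCoeff_val))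

/-- substitution of a power series with zero constant coefficient. -/
theorem constantCoeff_psubst {a : MvPowerSeries τ R} (ha : constantCoeff a = 0)
    {f : PowerSeries R} (hf : PowerSeries.constantCoeff f = 0) :
    constantCoeff (f.subst a) = 0 := PowerSeries.constantCoeff_subst_eq_zero ha f hf

theorem exists_neg (a : ZPt F τ) : ∃ b : ZPt F τ, b + a = 0 := by
  obtain ⟨ι, hι0, hι⟩ := exists_inv F
  refine ⟨mk F (ι.subst a.val) (constantCoeff_psubst a.constantCoeff_val hι0), ?_⟩
  apply ext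
  rw [val_add, val_mk, val_zero]
  have h1 := congrArg (PowerSeries.subst (R := R) a.val) hι
  rw [PowerSeries.subst_def, subst_comp_subst_apply
    (hasSubst_cons hι0 PowerSeries.constantCoeff_X) (hs a.constantCoeff_val).const] at h1
  have h2 : (fun s : Fin 2 => MvPowerSeries.subst (fun _ : Unit => a.val)
      ((![ι, (PowerSeries.X : PowerSeries R)] : Fin 2 → MvPowerSeries Unit R) s)) =
      ![ι.subst a.val, a.val] := by
    funext s
    fin_cases s
    · rfl
    · exact PowerSeries.subst_X (hs a.constantCoeff_val)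
  rw [h2] at h1
  rw [h1, ← PowerSeries.coe_substAlgHom (hs a.constantCoeff_val), map_zero]

noncomputable instance : Neg (ZPt F τ) := ⟨fun a => (exists_neg a).choose⟩

noncomputable instance [F.IsComm] : AddCommGroup (ZPt F τ) where
  add_assoc := add_assoc'
  zero_add := zero_add'
  add_zero := add_zero'
  nsmul := nsmulRec
  zsmul := zsmulRec
  neg_add_cancel := fun a => (exists_neg a).choose_spec
  add_comm := add_comm'

theorem val_nsmul [F.IsComm] (m : ℕ) (a : ZPt F τ) :
    (m • a).val = (multSeries F m).subst a.val := by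
  induction m with
  | zero =>
    rw [zero_nsmul, val_zero]
    simp only [multSeries, Function.iterate_zero, id]
    rw [← PowerSeries.coe_substAlgHom (hs a.constantCoeff_val), map_zero]
  | succ m ih =>
    rw [succ_nsmul, FPt.multSeries_succ, val_add, ih, PowerSeries.subst_def a.val
      (MvPowerSeries.subst _ _), subst_comp_subst_apply
      (hasSubst_cons (FPt.constantCoeff_multSeries F m)
        PowerSeries.constantCoeff_X) (hs a.constantCoeff_val).const]
    congr 1
    funext s
    fin_cases s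
    · rfl
    · exact (PowerSeries.subst_X (hs a.constantCoeff_val)).symm

end ZPt

end Group

section Log

variable {R : Type*} [CommRing R] {τ υ : Type*}

theorem psubst_comp {g : PowerSeries R} (hg : PowerSeries.constantCoeff g = 0)
    {b : MvPowerSeries τ R} (hb : constantCoeff b = 0) (f : PowerSeries R) :
    PowerSeries.subst b (PowerSeries.subst g f : PowerSeries R) =
      PowerSeries.subst (PowerSeries.subst b g) f :=
  PowerSeries.subst_comp_subst_apply (hs hg) (hs hb) f

/-- `l` is a logarithm of `F` (up to a unit). -/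
structure IsLog (F : FormalGroup R) (l : PowerSeries R) : Prop where
  zero : PowerSeries.constantCoeff l = 0
  unit : IsUnit (PowerSeries.coeff 1 l)
  add : (PowerSeries.subst F.toPowerSeries l : MvPowerSeries (Fin 2) R) =
    PowerSeries.subst (X 0 : MvPowerSeries (Fin 2) R) l +
      PowerSeries.subst (X 1 : MvPowerSeries (Fin 2) R) l

theorem subst_injective {l : PowerSeries R} (h0 : PowerSeries.constantCoeff l = 0)
    (h1 : IsUnit (PowerSeries.coeff 1 l)) {a b : MvPowerSeries τ R}
    (ha : constantCoeff a = 0) (hb : constantCoeff b = 0)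
    (h : PowerSeries.subst a l = PowerSeries.subst b l) : a = b := by
  have key : ∀ c : MvPowerSeries τ R, constantCoeff c = 0 →
      PowerSeries.subst (PowerSeries.subst c l) (l.substInvOfIsUnit h1) = c := by
    intro c hc
    rw [← psubst_comp h0 hc, PowerSeries.subst_substInvOfIsUnit_left l h0 h1,
      PowerSeries.subst_X (hs hc)]
  rw [← key a ha, h, key b hb]

theorem IsLog.subst_add {F : FormalGroup R} {l : PowerSeries R} (h : IsLog F l)
    {a b : MvPowerSeries τ R} (ha : constantCoeff a = 0) (hb : constantCoeff b = 0) :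
    PowerSeries.subst (F.toPowerSeries.subst ![a, b]) l =
      PowerSeries.subst a l + PowerSeries.subst b l := by
  have hab := hasSubst_cons ha hb
  have h1 := congrArg (MvPowerSeries.subst ![a, b]) h.add
  rw [MvPowerSeries.subst_add hab, PowerSeries.subst_def, PowerSeries.subst_def,
    PowerSeries.subst_def, subst_comp_subst_apply (hs F.zero_constantCoeff).const hab,
    subst_comp_subst_apply (PowerSeries.HasSubst.X 0).const hab,
    subst_comp_subst_apply (PowerSeries.HasSubst.X 1).const hab] at h1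
  rw [PowerSeries.subst_def, h1, subst_X hab, subst_X hab]
  rfl

theorem IsLog.isComm {F : FormalGroup R} {l : PowerSeries R} (h : IsLog F l) : F.IsComm where
  comm := by
    have h1 : F.toPowerSeries =
        F.toPowerSeries.subst ![(X 1 : MvPowerSeries (Fin 2) R), X 0] := by
      refine subst_injective h.zero h.unit F.zero_constantCoeff
        (constantCoeff_FG_subst F (by simp) (by simp)) ?_
      rw [h.subst_add (by simp) (by simp), h.add, add_comm]
    exact h1

theorem IsLog.subst_nsmul {F : FormalGroup R} [F.IsComm] {l : PowerSeries R} (h : IsLog F l)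
    (m : ℕ) (a : ZPt F τ) :
    PowerSeries.subst (m • a).val l = m • PowerSeries.subst a.val l := by
  induction m with
  | zero =>
    rw [zero_nsmul, zero_nsmul, ZPt.val_zero]
    exact PowerSeries.subst_zero_of_constantCoeff_zero h.zero
  | succ m ih =>
    rw [succ_nsmul, succ_nsmul, ZPt.val_add, h.subst_add (ZPt.constantCoeff_val _)
      (ZPt.constantCoeff_val _), ih]

end Log

section Map

variable {R S : Type*} [CommRing R] [CommRing S] (f : R →+* S) {τ : Type*}

theorem map_toPowerSeries (F : FormalGroup R) :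
    (F.map f).toPowerSeries = MvPowerSeries.map f F.toPowerSeries := rfl

theorem map_cons_subst (F : FormalGroup R) {a b : MvPowerSeries τ R}
    (ha : constantCoeff a = 0) (hb : constantCoeff b = 0) :
    MvPowerSeries.map f (F.toPowerSeries.subst ![a, b]) =
      (F.map f).toPowerSeries.subst ![MvPowerSeries.map f a, MvPowerSeries.map f b] := by
  rw [map_subst (hasSubst_cons ha hb), map_toPowerSeries]
  congr 1
  funext i
  fin_cases i <;> rfl

theorem isComm_map (F : FormalGroup R) [F.IsComm] : (F.map f).IsComm where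
  comm := by
    have h := congrArg (MvPowerSeries.map f) (FormalGroup.IsComm.comm (F := F))
    rw [map_cons_subst f F (by simp) (by simp), map_X, map_X] at h
    exact h

theorem map_multSeries (F : FormalGroup R) (m : ℕ) :
    PowerSeries.map f (multSeries F m) = multSeries (F.map f) m := by
  induction m with
  | zero => simp [multSeries]
  | succ m ih =>
    rw [FPt.multSeries_succ, FPt.multSeries_succ, ← ih]
    have := map_cons_subst f F (τ := Unit) (FPt.constantCoeff_multSeries F m)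
      PowerSeries.constantCoeff_X
    rw [PowerSeries.map, this]
    congr 2
    exact congrArg (fun y => ![y]) (PowerSeries.map_X f)

end Map

section Homog

variable {L : Type*} [CommRing L] {τ : Type*}

theorem psubst_rescale (ω : L) (l : PowerSeries L) {a : MvPowerSeries τ L}
    (ha : constantCoeff a = 0) :
    PowerSeries.subst a (PowerSeries.rescale ω l) = PowerSeries.subst (C ω * a) l := by
  have h0 : PowerSeries.constantCoeff (ω • PowerSeries.X : PowerSeries L) = 0 := by
    rw [PowerSeries.smul_eq_C_mul, map_mul, PowerSeries.constantCoeff_X, mul_zero]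
  rw [PowerSeries.rescale_eq_subst, psubst_comp h0 ha, PowerSeries.smul_eq_C_mul,
    PowerSeries.subst_mul (hs ha), PowerSeries.subst_X (hs ha), PowerSeries.subst_C]

theorem psubst_C_mul (ω : L) (l : PowerSeries L) {a : MvPowerSeries τ L}
    (ha : constantCoeff a = 0) :
    PowerSeries.subst a (PowerSeries.C ω * l) = C ω * PowerSeries.subst a l := by
  rw [PowerSeries.subst_mul (hs ha), PowerSeries.subst_C]

theorem subst_cons_C_mul (ω : L) (f : MvPowerSeries (Fin 2) L) :
    f.subst ![C ω * (X 0 : MvPowerSeries (Fin 2) L), C ω * X 1] =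
      MvPowerSeries.rescale (fun _ => ω) f := by
  rw [rescale_eq_subst]
  congr 1
  funext i
  fin_cases i
  · exact (MvPowerSeries.smul_eq_C_mul _ _).symm
  · exact (MvPowerSeries.smul_eq_C_mul _ _).symm

theorem IsLog.rescale_eq {F : FormalGroup L} {l : PowerSeries L} (h : IsLog F l) {ω : L}
    (hω : PowerSeries.rescale ω l = PowerSeries.C ω * l) :
    MvPowerSeries.rescale (fun _ => ω) F.toPowerSeries = C ω * F.toPowerSeries := by
  have h0 : constantCoeff (C ω * (X 0 : MvPowerSeries (Fin 2) L)) = 0 := by simp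
  have h1 : constantCoeff (C ω * (X 1 : MvPowerSeries (Fin 2) L)) = 0 := by simp
  have hF : constantCoeff (C ω * F.toPowerSeries) = 0 := by
    rw [map_mul, F.zero_constantCoeff, mul_zero]
  rw [← subst_cons_C_mul]
  refine subst_injective h.zero h.unit (constantCoeff_FG_subst F h0 h1) hF ?_
  rw [h.subst_add h0 h1, ← psubst_rescale ω l (by simp), ← psubst_rescale ω l (by simp),
    ← psubst_rescale ω l F.zero_constantCoeff, hω, psubst_C_mul _ _ (by simp),
    psubst_C_mul _ _ (by simp), psubst_C_mul _ _ F.zero_constantCoeff, h.add, mul_add]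

theorem coeff_rescale_const (ω : L) (f : MvPowerSeries (Fin 2) L) (d : Fin 2 →₀ ℕ) :
    coeff d (MvPowerSeries.rescale (fun _ => ω) f) = ω ^ (d 0 + d 1) * coeff d f := by
  rw [coeff_rescale, Finsupp.prod_fintype _ _ (by simp), Fin.prod_univ_two, pow_add]

end Homog

end Vale.Agent.P217.FA
end
end

section

section

/-!
# P217: the invariant differential and the formal logarithm of a formal group law
-/

namespace Vale.Agent.P217

open MvPowerSeries

section Chain

variable {R : Type*} [CommRing R] {σ τ : Type*}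

/-- a derivation over a substitution, vanishing on constants and variables, vanishes. -/
theorem flog_der_eq_zero [Finite σ] {a : σ → MvPowerSeries τ R}
    (ha0 : ∀ i, constantCoeff (a i) = 0)
    (D : MvPowerSeries σ R →+ MvPowerSeries τ R)
    (hC : ∀ c, D (C c) = 0) (hX : ∀ i, D (X i) = 0)
    (hmul : ∀ i g, D (X i * g) = D (X i) * g.subst a + a i * D g)
    (f : MvPowerSeries σ R) : D f = 0 := by
  classical
  have := Fintype.ofFinite σ
  have key : ∀ k : ℕ, ∀ f, (k : ℕ∞) ≤ (D f).order := by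
    intro k
    induction k with
    | zero => intro f; simp
    | succ k ih =>
      intro f
      obtain ⟨g, hg⟩ := exists_decomp f
      rw [hg, map_add, hC, zero_add, map_sum]
      refine le_order fun d hd => ?_
      rw [map_sum]
      refine Finset.sum_eq_zero fun i _ => ?_
      rw [hmul, hX, zero_mul, zero_add]
      refine coeff_of_lt_order (hd.trans_le ?_)
      refine le_trans ?_ le_order_mul
      push_cast
      rw [add_comm]
      exact add_le_add (one_le_order_iff_constCoeff_eq_zero.2 (ha0 i)) (ih (g i))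
  have h1 : (D f).order = ⊤ := by
    rw [ENat.eq_top_iff_forall_ge]
    exact fun m => key m f
  exact order_eq_top_iff.1 h1

/-- the chain rule for substitutions of series with zero constant coefficient. -/
theorem flog_pderiv_subst [Fintype σ] {a : σ → MvPowerSeries τ R} (ha : HasSubst a)
    (ha0 : ∀ i, constantCoeff (a i) = 0) (f : MvPowerSeries σ R) (j : τ) :
    pderiv R j (f.subst a) = ∑ i, (pderiv R i f).subst a * pderiv R j (a i) := by
  classical
  let D : MvPowerSeries σ R →+ MvPowerSeries τ R :=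
    { toFun := fun f => pderiv R j (FA.sHom ha f) -
        ∑ i, FA.sHom ha (pderiv R i f) * pderiv R j (a i)
      map_zero' := by simp
      map_add' := by
        intro f g
        simp only [map_add, add_mul, Finset.sum_add_distrib]
        ring }
  have hD : ∀ f, D f = pderiv R j (FA.sHom ha f) -
        ∑ i, FA.sHom ha (pderiv R i f) * pderiv R j (a i) := fun f => rfl
  have hX : ∀ i, D (X i) = 0 := by
    intro i
    rw [hD, FA.sHom_X, Finset.sum_eq_single i]
    · rw [pderiv_X_self, map_one, one_mul, sub_self]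
    · intro k _ hk
      rw [pderiv_X_of_ne hk.symm, map_zero, zero_mul]
    · intro h
      exact absurd (Finset.mem_univ i) h
  have h1 := flog_der_eq_zero ha0 D (by
    intro c
    rw [hD, FA.sHom_C]
    simp) hX (by
    intro i g
    rw [hX i, zero_mul, zero_add, hD, hD, map_mul, FA.sHom_X, Derivation.leibniz, smul_eq_mul,
      smul_eq_mul, mul_sub]
    have h2 : ∑ k, FA.sHom ha (pderiv R k (X i * g)) * pderiv R j (a k) =
        a i * ∑ k, FA.sHom ha (pderiv R k g) * pderiv R j (a k) +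
          FA.sHom ha g * pderiv R j (a i) := by
      have h3 : ∀ k, FA.sHom ha (pderiv R k (X i * g)) * pderiv R j (a k) =
          a i * (FA.sHom ha (pderiv R k g) * pderiv R j (a k)) +
            FA.sHom ha g * (FA.sHom ha (pderiv R k (X i)) * pderiv R j (a k)) := by
        intro k
        rw [Derivation.leibniz, smul_eq_mul, smul_eq_mul, map_add, map_mul, map_mul, FA.sHom_X]
        ring
      simp_rw [h3]
      rw [Finset.sum_add_distrib, Finset.mul_sum]
      congr 1
      rw [Finset.sum_eq_single i]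
      · rw [pderiv_X_self, map_one, one_mul]
      · intro k _ hk
        rw [pderiv_X_of_ne hk.symm, map_zero, zero_mul, mul_zero]
      · intro h
        exact absurd (Finset.mem_univ i) h
    rw [h2]
    ring) f
  rw [hD, FA.sHom_apply] at h1
  simp only [FA.sHom_apply] at h1
  exact sub_eq_zero.1 h1

/-- the chain rule for a series in one variable. -/
theorem flog_pderiv_psubst {a : MvPowerSeries τ R} (ha : constantCoeff a = 0)
    (f : PowerSeries R) (j : τ) :
    pderiv R j (PowerSeries.subst a f) =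
      PowerSeries.subst a (PowerSeries.derivative R f) * pderiv R j a := by
  have h1 := flog_pderiv_subst (a := fun _ : Unit => a) (FA.hs ha).const (fun _ => ha) f j
  rw [PowerSeries.subst_def, h1]
  simp [PowerSeries.subst_def, PowerSeries.derivative]

end Chain

section Omega

variable {R S : Type*} [CommRing R] [CommRing S]

/-- The series `g(X) = (∂F/∂Y)(X, 0)`. -/
noncomputable def omegaInv (F : FormalGroup R) : PowerSeries R :=
  PowerSeries.mk fun i => coeff (Finsupp.single 0 i + Finsupp.single 1 1) F.toPowerSeries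

/-- The invariant differential `ω(X) = 1 / g(X)` of a formal group law, normalized at the
origin. -/
noncomputable def omega (F : FormalGroup R) : PowerSeries R :=
  PowerSeries.invOfUnit (omegaInv F) 1

theorem constantCoeff_omegaInv (F : FormalGroup R) :
    PowerSeries.constantCoeff (omegaInv F) = 1 := by
  rw [← PowerSeries.coeff_zero_eq_constantCoeff_apply, omegaInv, PowerSeries.coeff_mk,
    Finsupp.single_zero, zero_add, F.lin_coeff_Y]

theorem omegaInv_mul_omega (F : FormalGroup R) : omegaInv F * omega F = 1 :=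
  PowerSeries.mul_invOfUnit _ _ (by rw [constantCoeff_omegaInv, Units.val_one])

theorem constantCoeff_omega (F : FormalGroup R) :
    PowerSeries.constantCoeff (omega F) = 1 := by
  have h := congrArg PowerSeries.constantCoeff (omegaInv_mul_omega F)
  rwa [map_mul, constantCoeff_omegaInv, one_mul, map_one] at h

theorem map_omegaInv (f : R →+* S) (F : FormalGroup R) :
    (omegaInv F).map f = omegaInv (F.map f) := by
  ext i
  rw [PowerSeries.coeff_map, omegaInv, omegaInv, PowerSeries.coeff_mk, PowerSeries.coeff_mk,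
    FA.map_toPowerSeries, coeff_map]

theorem map_omega (f : R →+* S) (F : FormalGroup R) :
    (omega F).map f = omega (F.map f) := by
  have h1 := congrArg (PowerSeries.map f) (omegaInv_mul_omega F)
  rw [map_mul, map_omegaInv, map_one] at h1
  have h2 := omegaInv_mul_omega (F.map f)
  calc (omega F).map f = (omegaInv (F.map f) * omega (F.map f)) * (omega F).map f := by
        rw [h2, one_mul]
    _ = (omegaInv (F.map f) * (omega F).map f) * omega (F.map f) := by ring
    _ = omega (F.map f) := by rw [h1, one_mul]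

theorem omegaInv_eq_subst (F : FormalGroup R) :
    omegaInv F = (subst ![PowerSeries.X, 0] (pderiv R 1 F.toPowerSeries) : PowerSeries R) := by
  ext n
  rw [← C0.coeff_single_zero_eq, coeff_pderiv, omegaInv, PowerSeries.coeff_mk]
  simp

theorem subst_omegaInv (F : FormalGroup R) {τ : Type*} {a : MvPowerSeries τ R}
    (ha : constantCoeff a = 0) :
    PowerSeries.subst a (omegaInv F) = (pderiv R 1 F.toPowerSeries).subst ![a, 0] := by
  rw [omegaInv_eq_subst, PowerSeries.subst_def,
    subst_comp_subst_apply (FA.hasSubst_cons (τ := Unit) (a := (PowerSeries.X : PowerSeries R))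
      PowerSeries.constantCoeff_X (map_zero _)) (FA.hs ha).const]
  congr 1
  funext i
  fin_cases i
  · exact PowerSeries.subst_X (FA.hs ha)
  · show MvPowerSeries.subst (fun _ : Unit => a) (0 : PowerSeries R) = 0
    rw [← MvPowerSeries.coe_substAlgHom (FA.hs ha).const, map_zero]

/-- `g(F(X,Y)) = F_2(X,Y) g(Y)`. -/
theorem subst_FG_omegaInv (F : FormalGroup R) :
    PowerSeries.subst F.toPowerSeries (omegaInv F) =
      pderiv R 1 F.toPowerSeries *
        PowerSeries.subst (X 1 : MvPowerSeries (Fin 2) R) (omegaInv F) := by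
  have hX3 : ∀ i : Fin 3, constantCoeff (X i : MvPowerSeries (Fin 3) R) = 0 := by
    intro i; simp
  have hF01 : constantCoeff (F.toPowerSeries.subst
      ![(X 0 : MvPowerSeries (Fin 3) R), X 1]) = 0 :=
    FA.constantCoeff_FG_subst F (hX3 0) (hX3 1)
  have hF12 : constantCoeff (F.toPowerSeries.subst
      ![(X 1 : MvPowerSeries (Fin 3) R), X 2]) = 0 :=
    FA.constantCoeff_FG_subst F (hX3 1) (hX3 2)
  have e1 := congrArg (pderiv R (2 : Fin 3)) F.assoc
  rw [flog_pderiv_subst (FA.hasSubst_cons hF01 (hX3 2)) (FA.constantCoeff_cons hF01 (hX3 2)),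
    flog_pderiv_subst (FA.hasSubst_cons (hX3 0) hF12) (FA.constantCoeff_cons (hX3 0) hF12),
    Fin.sum_univ_two, Fin.sum_univ_two] at e1
  simp only [Matrix.cons_val_zero, Matrix.cons_val_one] at e1
  rw [flog_pderiv_subst (FA.hasSubst_cons (hX3 0) (hX3 1))
      (FA.constantCoeff_cons (hX3 0) (hX3 1)),
    flog_pderiv_subst (FA.hasSubst_cons (hX3 1) (hX3 2))
      (FA.constantCoeff_cons (hX3 1) (hX3 2)),
    Fin.sum_univ_two, Fin.sum_univ_two] at e1
  simp only [Matrix.cons_val_zero, Matrix.cons_val_one, pderiv_X_self] at e1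
  rw [pderiv_X_of_ne (i := (2 : Fin 3)) (j := 0) (by decide),
    pderiv_X_of_ne (i := (2 : Fin 3)) (j := 1) (by decide)] at e1
  simp only [mul_zero, zero_add, mul_one, add_zero] at e1
  -- substitute `Z = 0`
  have hX0 : constantCoeff (X 0 : MvPowerSeries (Fin 2) R) = 0 := by simp
  have hX1 : constantCoeff (X 1 : MvPowerSeries (Fin 2) R) = 0 := by simp
  have hc0 : ∀ i : Fin 3, constantCoeff
      ((![X 0, X 1, 0] : Fin 3 → MvPowerSeries (Fin 2) R) i) = 0 := by
    intro i
    fin_cases i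
    · exact hX0
    · exact hX1
    · exact map_zero _
  have hc : HasSubst (![X 0, X 1, 0] : Fin 3 → MvPowerSeries (Fin 2) R) :=
    hasSubst_of_constantCoeff_zero hc0
  have e2 := congrArg
    (MvPowerSeries.subst (![X 0, X 1, 0] : Fin 3 → MvPowerSeries (Fin 2) R)) e1
  rw [subst_mul hc, subst_comp_subst_apply (FA.hasSubst_cons hF01 (hX3 2)) hc,
    subst_comp_subst_apply (FA.hasSubst_cons (hX3 0) hF12) hc,
    subst_comp_subst_apply (FA.hasSubst_cons (hX3 1) (hX3 2)) hc] at e2
  have a1 : (fun s : Fin 2 => subst (![X 0, X 1, 0] : Fin 3 → MvPowerSeries (Fin 2) R)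
      ((![F.toPowerSeries.subst ![(X 0 : MvPowerSeries (Fin 3) R), X 1], X 2] :
        Fin 2 → MvPowerSeries (Fin 3) R) s)) = ![F.toPowerSeries, 0] := by
    funext s
    fin_cases s
    · show subst (![X 0, X 1, 0] : Fin 3 → MvPowerSeries (Fin 2) R)
        (F.toPowerSeries.subst ![(X 0 : MvPowerSeries (Fin 3) R), X 1]) = F.toPowerSeries
      rw [subst_comp_subst_apply (FA.hasSubst_cons (hX3 0) (hX3 1)) hc]
      have a2 : (fun s : Fin 2 => subst (![X 0, X 1, 0] : Fin 3 → MvPowerSeries (Fin 2) R)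
          ((![(X 0 : MvPowerSeries (Fin 3) R), X 1] : Fin 2 → MvPowerSeries (Fin 3) R) s)) =
          X := by
        funext s
        fin_cases s
        · exact subst_X hc 0
        · exact subst_X hc 1
      rw [a2]
      exact congrFun subst_self _
    · exact subst_X hc 2
  have a3 : (fun s : Fin 2 => subst (![X 0, X 1, 0] : Fin 3 → MvPowerSeries (Fin 2) R)
      ((![(X 0 : MvPowerSeries (Fin 3) R),
        F.toPowerSeries.subst ![(X 1 : MvPowerSeries (Fin 3) R), X 2]] :
        Fin 2 → MvPowerSeries (Fin 3) R) s)) = X := by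
    funext s
    fin_cases s
    · exact subst_X hc 0
    · show subst (![X 0, X 1, 0] : Fin 3 → MvPowerSeries (Fin 2) R)
        (F.toPowerSeries.subst ![(X 1 : MvPowerSeries (Fin 3) R), X 2]) = X 1
      rw [subst_comp_subst_apply (FA.hasSubst_cons (hX3 1) (hX3 2)) hc]
      have a2 : (fun s : Fin 2 => subst (![X 0, X 1, 0] : Fin 3 → MvPowerSeries (Fin 2) R)
          ((![(X 1 : MvPowerSeries (Fin 3) R), X 2] : Fin 2 → MvPowerSeries (Fin 3) R) s)) =
          ![X 1, 0] := by
        funext s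
        fin_cases s
        · exact subst_X hc 1
        · exact subst_X hc 2
      rw [a2]
      exact F.add_zero (FA.hs hX1)
  have a4 : (fun s : Fin 2 => subst (![X 0, X 1, 0] : Fin 3 → MvPowerSeries (Fin 2) R)
      ((![(X 1 : MvPowerSeries (Fin 3) R), X 2] : Fin 2 → MvPowerSeries (Fin 3) R) s)) =
      ![X 1, 0] := by
    funext s
    fin_cases s
    · exact subst_X hc 1
    · exact subst_X hc 2
  rw [a1, a3, a4] at e2
  rw [subst_omegaInv F F.zero_constantCoeff, subst_omegaInv F hX1, e2]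
  exact congrArg₂ (· * ·) (congrFun subst_self _) rfl

/-- `ω(F(X,Y)) F_2(X,Y) = ω(Y)`. -/
theorem subst_FG_omega (F : FormalGroup R) :
    PowerSeries.subst F.toPowerSeries (omega F) * pderiv R 1 F.toPowerSeries =
        PowerSeries.subst (X 1 : MvPowerSeries (Fin 2) R) (omega F) := by
  have hX1 : constantCoeff (X 1 : MvPowerSeries (Fin 2) R) = 0 := by simp
  have h1 : PowerSeries.subst F.toPowerSeries (omegaInv F) *
      PowerSeries.subst F.toPowerSeries (omega F) = 1 := by
    rw [← PowerSeries.subst_mul (FA.hs F.zero_constantCoeff), omegaInv_mul_omega]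
    rw [← PowerSeries.coe_substAlgHom (FA.hs F.zero_constantCoeff), map_one]
  have h2 : PowerSeries.subst (X 1 : MvPowerSeries (Fin 2) R) (omegaInv F) *
      PowerSeries.subst (X 1 : MvPowerSeries (Fin 2) R) (omega F) = 1 := by
    rw [← PowerSeries.subst_mul (FA.hs hX1), omegaInv_mul_omega]
    rw [← PowerSeries.coe_substAlgHom (FA.hs hX1), map_one]
  have h3 := subst_FG_omegaInv F
  calc PowerSeries.subst F.toPowerSeries (omega F) * pderiv R 1 F.toPowerSeries
      = PowerSeries.subst F.toPowerSeries (omega F) * (pderiv R 1 F.toPowerSeries *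
        (PowerSeries.subst (X 1 : MvPowerSeries (Fin 2) R) (omegaInv F) *
          PowerSeries.subst (X 1 : MvPowerSeries (Fin 2) R) (omega F))) := by
        rw [h2, mul_one]
    _ = (PowerSeries.subst F.toPowerSeries (omegaInv F) *
        PowerSeries.subst F.toPowerSeries (omega F)) *
          PowerSeries.subst (X 1 : MvPowerSeries (Fin 2) R) (omega F) := by
        rw [h3]; ring
    _ = _ := by rw [h1, one_mul]

end Omega

section Flog

variable {L : Type*} [Field L]

/-- The formal logarithm of a formal group law over a field (of characteristic `0`):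
the primitive of `ω`. -/
noncomputable def flog (F : FormalGroup L) : PowerSeries L :=
  PowerSeries.mk fun d => PowerSeries.coeff (d - 1) (omega F) / d

theorem constantCoeff_flog (F : FormalGroup L) : PowerSeries.constantCoeff (flog F) = 0 := by
  rw [← PowerSeries.coeff_zero_eq_constantCoeff_apply, flog, PowerSeries.coeff_mk]
  simp

theorem coeff_one_flog (F : FormalGroup L) : PowerSeries.coeff 1 (flog F) = 1 := by
  rw [flog, PowerSeries.coeff_mk]
  simp [constantCoeff_omega]

theorem derivative_flog [CharZero L] (F : FormalGroup L) :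
    PowerSeries.derivative L (flog F) = omega F := by
  ext n
  rw [PowerSeries.coeff_derivative, flog, PowerSeries.coeff_mk, Nat.add_sub_cancel]
  have h : ((n : L) + 1) ≠ 0 := Nat.cast_add_one_ne_zero n
  push_cast
  field_simp

/-- a series in two variables, independent of the second variable and vanishing at `Y = 0`. -/
theorem eq_zero_of_pderiv_one [CharZero L] (Φ : MvPowerSeries (Fin 2) L)
    (h1 : pderiv L 1 Φ = 0) (h0 : (subst ![PowerSeries.X, 0] Φ : PowerSeries L) = 0) :
    Φ = 0 := by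
  ext d
  rw [map_zero]
  by_cases hd : d 1 = 0
  · have h2 : d = Finsupp.single 0 (d 0) := by
      ext i
      fin_cases i
      · simp
      · simpa using hd
    rw [h2, C0.coeff_single_zero_eq, h0, map_zero]
  · have h2 := congrArg (coeff (d - Finsupp.single 1 1)) h1
    have h3 : d - Finsupp.single 1 1 + Finsupp.single 1 1 = d := by
      apply tsub_add_cancel_of_le
      intro i
      fin_cases i
      · simp
      · simpa using Nat.one_le_iff_ne_zero.2 hd
    rw [coeff_pderiv, h3, map_zero] at h2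
    have h4 : (((d - Finsupp.single 1 1 : Fin 2 →₀ ℕ) 1 : ℕ) : L) + 1 ≠ 0 :=
      Nat.cast_add_one_ne_zero _
    exact (mul_eq_zero.1 h2).resolve_right h4

theorem subst_X_zero_psubst {R : Type*} [CommRing R] {a : MvPowerSeries (Fin 2) R}
    (ha : constantCoeff a = 0)
    (l : PowerSeries R) : (subst ![PowerSeries.X, 0] (PowerSeries.subst a l) : PowerSeries R) =
      PowerSeries.subst (subst ![PowerSeries.X, 0] a : PowerSeries R) l := by
  rw [PowerSeries.subst_def, subst_comp_subst_apply (FA.hs ha).const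
    (FA.hasSubst_cons (τ := Unit) (a := (PowerSeries.X : PowerSeries R))
      PowerSeries.constantCoeff_X (map_zero _))]
  rfl

theorem subst_Ga {R : Type*} [CommRing R] {τ : Type*} {a b : MvPowerSeries τ R}
    (ha : constantCoeff a = 0) (hb : constantCoeff b = 0) :
    (FormalGroup.𝔾ₐ : FormalGroup R).toPowerSeries.subst ![a, b] = a + b := by
  have h := FA.hasSubst_cons ha hb
  rw [FormalGroup.𝔾ₐ_toPowerSeries, ← MvPowerSeries.coe_substAlgHom h, map_add,
    MvPowerSeries.coe_substAlgHom h]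
  rw [subst_X h, subst_X h]
  rfl

theorem isHom_Ga_iff {R : Type*} [CommRing R] {F : FormalGroup R} {l : PowerSeries R} :
    IsHom F FormalGroup.𝔾ₐ l ↔ PowerSeries.constantCoeff l = 0 ∧
      (PowerSeries.subst F.toPowerSeries l : MvPowerSeries (Fin 2) R) =
        PowerSeries.subst (X 0 : MvPowerSeries (Fin 2) R) l +
          PowerSeries.subst (X 1 : MvPowerSeries (Fin 2) R) l := by
  unfold IsHom
  constructor
  · rintro ⟨h0, h1⟩
    refine ⟨h0, ?_⟩
    rw [h1, subst_Ga (C0.cc_subst_X0 h0 0) (C0.cc_subst_X0 h0 1)]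
  · rintro ⟨h0, h1⟩
    refine ⟨h0, ?_⟩
    rw [h1, subst_Ga (C0.cc_subst_X0 h0 0) (C0.cc_subst_X0 h0 1)]

theorem subst_X_zero_FG {R : Type*} [CommRing R] (F : FormalGroup R) :
    (subst ![PowerSeries.X, 0] F.toPowerSeries : PowerSeries R) = PowerSeries.X :=
  F.Xzero_eq_X

theorem subst_X_zero_X0 {R : Type*} [CommRing R] :
    (subst ![PowerSeries.X, 0] (X 0 : MvPowerSeries (Fin 2) R) : PowerSeries R) =
      PowerSeries.X :=
  subst_X (FA.hasSubst_cons (τ := Unit) (a := (PowerSeries.X : PowerSeries R))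
      PowerSeries.constantCoeff_X (map_zero _)) 0

theorem subst_X_zero_X1 {R : Type*} [CommRing R] :
    (subst ![PowerSeries.X, 0] (X 1 : MvPowerSeries (Fin 2) R) : PowerSeries R) = 0 :=
  subst_X (FA.hasSubst_cons (τ := Unit) (a := (PowerSeries.X : PowerSeries R))
      PowerSeries.constantCoeff_X (map_zero _)) 1

/-- The formal logarithm is a homomorphism to the additive group. -/
theorem isHom_flog [CharZero L] (F : FormalGroup L) : IsHom F FormalGroup.𝔾ₐ (flog F) := by
  rw [isHom_Ga_iff]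
  have hX0 : constantCoeff (X 0 : MvPowerSeries (Fin 2) L) = 0 := by simp
  have hX1 : constantCoeff (X 1 : MvPowerSeries (Fin 2) L) = 0 := by simp
  refine ⟨constantCoeff_flog F, ?_⟩
  rw [← sub_eq_zero]
  apply eq_zero_of_pderiv_one
  · rw [map_sub, map_add, flog_pderiv_psubst F.zero_constantCoeff, flog_pderiv_psubst hX0,
      flog_pderiv_psubst hX1, derivative_flog, subst_FG_omega, pderiv_X_self,
      pderiv_X_of_ne (i := (1 : Fin 2)) (j := 0) (by decide)]
    ring
  · have h := FA.hasSubst_cons (τ := Unit) (a := (PowerSeries.X : PowerSeries L))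
      PowerSeries.constantCoeff_X (map_zero _)
    rw [← MvPowerSeries.coe_substAlgHom h, map_sub, map_add, MvPowerSeries.coe_substAlgHom h]
    rw [subst_X_zero_psubst F.zero_constantCoeff, subst_X_zero_psubst hX0,
      subst_X_zero_psubst hX1, subst_X_zero_FG, subst_X_zero_X0, subst_X_zero_X1,
      PowerSeries.subst_zero_of_constantCoeff_zero (constantCoeff_flog F), add_zero, sub_self]

/-- Every homomorphism to the additive group is a multiple of the formal logarithm. -/
theorem eq_flog_of_isHom [CharZero L] {F : FormalGroup L} {l : PowerSeries L}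
    (hl : IsHom F FormalGroup.𝔾ₐ l) :
    l = PowerSeries.C (PowerSeries.coeff 1 l) * flog F := by
  rw [isHom_Ga_iff] at hl
  obtain ⟨h0, h1⟩ := hl
  have hX0 : constantCoeff (X 0 : MvPowerSeries (Fin 2) L) = 0 := by simp
  have hX1 : constantCoeff (X 1 : MvPowerSeries (Fin 2) L) = 0 := by simp
  have h := FA.hasSubst_cons (τ := Unit) (a := (PowerSeries.X : PowerSeries L))
      PowerSeries.constantCoeff_X (map_zero _)
  have e1 := congrArg (pderiv L (1 : Fin 2)) h1
  rw [map_add, flog_pderiv_psubst F.zero_constantCoeff, flog_pderiv_psubst hX0,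
      flog_pderiv_psubst hX1, pderiv_X_self,
      pderiv_X_of_ne (i := (1 : Fin 2)) (j := 0) (by decide), mul_zero, zero_add, mul_one] at e1
  have e2 : (subst ![PowerSeries.X, 0] (PowerSeries.subst F.toPowerSeries
      (PowerSeries.derivative L l) * pderiv L 1 F.toPowerSeries) : PowerSeries L) =
      subst ![PowerSeries.X, 0] (PowerSeries.subst (X 1 : MvPowerSeries (Fin 2) L)
        (PowerSeries.derivative L l)) := by rw [e1]
  rw [subst_mul h, subst_X_zero_psubst F.zero_constantCoeff, subst_X_zero_psubst hX1,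
    subst_X_zero_FG, subst_X_zero_X1, ← omegaInv_eq_subst, PowerSeries.X_subst] at e2
  have e3 : (PowerSeries.subst (0 : PowerSeries L) (PowerSeries.derivative L l) :
      PowerSeries L) = PowerSeries.C (PowerSeries.coeff 1 l) := by
    have h4 : PowerSeries.constantCoeff (PowerSeries.derivative L l) = PowerSeries.coeff 1 l := by
      rw [← PowerSeries.coeff_zero_eq_constantCoeff_apply, PowerSeries.coeff_derivative]
      simp
    rw [← h4]
    exact PowerSeries.subst_zero_eq_C_constantCoeff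
  rw [e3] at e2
  have e4 : PowerSeries.derivative L l = PowerSeries.C (PowerSeries.coeff 1 l) * omega F := by
    rw [← e2, mul_assoc, omegaInv_mul_omega, mul_one]
  apply PowerSeries.derivative.ext
  · rw [e4, Derivation.leibniz, derivative_flog, PowerSeries.derivative_C]
    simp
  · rw [h0, map_mul, constantCoeff_flog, mul_zero]

end Flog

section Unbounded

/-- coefficients of the difference of two substitutions. -/
theorem coeff_subst_sub_mem {C : Type*} [CommRing C] (I J : Ideal C) {P Q : PowerSeries C}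
    (hP : PowerSeries.constantCoeff P = 0) (hQ : PowerSeries.constantCoeff Q = 0)
    (hPQ : ∀ d, PowerSeries.coeff d (P - Q) ∈ J) (η : PowerSeries C)
    (hη : ∀ d, PowerSeries.coeff d η ∈ I) (e : ℕ) :
    PowerSeries.coeff e (PowerSeries.subst P η : PowerSeries C) -
      PowerSeries.coeff e (PowerSeries.subst Q η : PowerSeries C) ∈ I * J := by
  have hP' := PowerSeries.HasSubst.of_constantCoeff_zero' hP
  have hQ' := PowerSeries.HasSubst.of_constantCoeff_zero' hQ
  have hPQ' : P - Q ∈ C0.CI Unit J := C0.mem_CI_ps.2 hPQ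
  rw [PowerSeries.coeff_subst' hP', PowerSeries.coeff_subst' hQ', ← finsum_sub_distrib
    (PowerSeries.coeff_subst_finite' hP' η e) (PowerSeries.coeff_subst_finite' hQ' η e)]
  refine finsum_induction (fun x => x ∈ I * J) (zero_mem _) (fun x y hx hy => add_mem hx hy) ?_
  intro d
  rw [smul_eq_mul, smul_eq_mul, ← mul_sub, ← map_sub]
  refine Ideal.mul_mem_mul (hη d) ?_
  have h1 : P ^ d - Q ^ d ∈ C0.CI Unit J :=
    Ideal.mem_of_dvd _ (sub_dvd_pow_sub_pow P Q d) hPQ'
  exact C0.mem_CI_ps.1 h1 e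

theorem flog_multSeries {L : Type*} [Field L] [CharZero L] (F : FormalGroup L) [F.IsComm]
    (m : ℕ) : (PowerSeries.subst (multSeries F m) (flog F) : PowerSeries L) =
      (m : PowerSeries L) * flog F := by
  have hh := isHom_Ga_iff.1 (isHom_flog F)
  have hlog : FA.IsLog F (flog F) := ⟨hh.1, by rw [coeff_one_flog]; exact isUnit_one, hh.2⟩
  have hX : MvPowerSeries.constantCoeff (PowerSeries.X : PowerSeries L) = 0 :=
    PowerSeries.constantCoeff_X
  obtain ⟨x, hx⟩ : ∃ x : FA.ZPt F Unit, x.val = (PowerSeries.X : PowerSeries L) :=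
    ⟨FA.ZPt.mk F (PowerSeries.X : PowerSeries L) hX, rfl⟩
  have h1 := hlog.subst_nsmul m x
  rw [FA.ZPt.val_nsmul, hx] at h1
  have h2 : (PowerSeries.subst (PowerSeries.X : PowerSeries L) (multSeries F m) :
      PowerSeries L) = multSeries F m := PowerSeries.X_subst _
  have h3 : (PowerSeries.subst (PowerSeries.X : PowerSeries L) (flog F) :
      PowerSeries L) = flog F := PowerSeries.X_subst _
  rw [h2, h3, nsmul_eq_mul] at h1
  exact h1

/-- The formal logarithm of a formal group law of finite height over a noetherian local domain is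
unbounded. -/
theorem flog_unbounded {C : Type*} [CommRing C] [IsDomain C] [IsLocalRing C] [IsNoetherianRing C]
    {L : Type*} [Field L] [CharZero L] [Algebra C L]
    (hinj : Function.Injective (algebraMap C L)) (p q : ℕ) (hq : 2 ≤ q)
    (hp : (p : C) ∈ IsLocalRing.maximalIdeal C) (F : FormalGroup C) [F.IsComm]
    (hF : (multSeries F p).map (IsLocalRing.residue C) = PowerSeries.X ^ q) (c : C) (hc : c ≠ 0)
    (eta : PowerSeries C) :
    PowerSeries.C (algebraMap C L c) * flog (F.map (algebraMap C L)) ≠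
      eta.map (algebraMap C L) := by
  intro heq
  have hinjP : Function.Injective (PowerSeries.map (algebraMap C L)) := by
    intro f g hfg
    ext n
    have h := congrArg (PowerSeries.coeff n) hfg
    rw [PowerSeries.coeff_map, PowerSeries.coeff_map] at h
    exact hinj h
  set P := multSeries F p with hPdef
  have hP0 : PowerSeries.constantCoeff P = 0 := FPt.constantCoeff_multSeries F p
  have hP' := PowerSeries.HasSubst.of_constantCoeff_zero' hP0
  -- `η(P) = p η`
  have e1 : (PowerSeries.subst P eta : PowerSeries C) = (p : PowerSeries C) * eta := by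
    apply hinjP
    have h1 : PowerSeries.map (algebraMap C L) (PowerSeries.subst P eta : PowerSeries C) =
        PowerSeries.subst (PowerSeries.map (algebraMap C L) P)
          (PowerSeries.map (algebraMap C L) eta) := PowerSeries.map_subst hP' eta
    have h2 : PowerSeries.map (algebraMap C L) P = multSeries (F.map (algebraMap C L)) p :=
      FA.map_multSeries _ _ _
    have : (F.map (algebraMap C L)).IsComm := FA.isComm_map _ F
    have h3 : PowerSeries.HasSubst (multSeries (F.map (algebraMap C L)) p) :=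
      PowerSeries.HasSubst.of_constantCoeff_zero' (FPt.constantCoeff_multSeries _ p)
    rw [h1, ← heq, h2, PowerSeries.subst_mul h3, flog_multSeries, map_mul, ← heq, map_natCast]
    have h4 : (PowerSeries.subst (multSeries (F.map (algebraMap C L)) p)
        (PowerSeries.C (algebraMap C L c)) : PowerSeries L) =
        PowerSeries.C (algebraMap C L c) := PowerSeries.subst_C _
    rw [h4]
    ring
  -- the ideal spanned by the coefficients of `η`
  set I : Ideal C := Ideal.span (Set.range fun d => PowerSeries.coeff d eta) with hI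
  have hη : ∀ d, PowerSeries.coeff d eta ∈ I := fun d => Ideal.subset_span ⟨d, rfl⟩
  have hq0 : q ≠ 0 := by omega
  have hQ0 : PowerSeries.constantCoeff ((PowerSeries.X : PowerSeries C) ^ q) = 0 := by
    rw [map_pow, PowerSeries.constantCoeff_X, zero_pow hq0]
  have hPQ : ∀ d, PowerSeries.coeff d (P - PowerSeries.X ^ q) ∈ IsLocalRing.maximalIdeal C := by
    intro d
    rw [← IsLocalRing.residue_eq_zero_iff, ← PowerSeries.coeff_map, map_sub, hF, map_pow,
      PowerSeries.map_X, sub_self, map_zero]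
  have hle : I ≤ IsLocalRing.maximalIdeal C * I := by
    rw [hI, Ideal.span_le]
    rintro _ ⟨d, rfl⟩
    have h1 := coeff_subst_sub_mem I (IsLocalRing.maximalIdeal C) hP0 hQ0 hPQ eta hη (q * d)
    rw [e1, PowerSeries.coeff_subst_X_pow hq0, if_pos (dvd_mul_right q d),
      Nat.mul_div_cancel_left d (Nat.pos_of_ne_zero hq0), mul_comm I] at h1
    have h2 : PowerSeries.coeff (q * d) ((p : PowerSeries C) * eta) ∈
        IsLocalRing.maximalIdeal C * I := by
      have h3 : ((p : PowerSeries C) * eta) = PowerSeries.C (p : C) * eta := by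
        rw [map_natCast]
      rw [h3, PowerSeries.coeff_C_mul]
      exact Ideal.mul_mem_mul hp (hη _)
    have h3 := sub_mem h2 h1
    rw [sub_sub_cancel] at h3
    exact h3
  have hbot : I = ⊥ := by
    apply Submodule.eq_bot_of_le_smul_of_le_jacobson_bot (IsLocalRing.maximalIdeal C) I
      (IsNoetherian.noetherian I)
    · rw [smul_eq_mul]
      exact hle
    · exact IsLocalRing.maximalIdeal_le_jacobson _
  have h1 : PowerSeries.coeff 1 eta = c := by
    have h2 := congrArg (PowerSeries.coeff 1) heq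
    rw [PowerSeries.coeff_C_mul, coeff_one_flog, mul_one, PowerSeries.coeff_map] at h2
    exact (hinj h2).symm
  have h2 := hη 1
  rw [hbot, h1] at h2
  exact hc ((Submodule.mem_bot C).1 h2)

end Unbounded

end Vale.Agent.P217
end
end

section

section

/-!
# P217: characteristic zero part, the automorphisms close to the identity
-/

namespace Vale.Agent.P217.C0

open MvPowerSeries Vale.Agent.P217

section Nilp

variable {A : Type*} [CommRing A]

theorem isAdicComplete_of_pow_eq_bot {I : Ideal A} {N : ℕ} (hN : I ^ N = ⊥) :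
    IsAdicComplete I A where
  haus' x hx := by
    have h := hx N
    rw [hN, smul_eq_mul, Ideal.bot_mul, SModEq.bot] at h
    exact h
  prec' f hf := by
    refine ⟨f N, fun m => ?_⟩
    rcases le_total m N with h | h
    · exact hf h
    · have h1 := hf h
      rw [hN, smul_eq_mul, Ideal.bot_mul, SModEq.bot] at h1
      rw [h1]

end Nilp

section Pt

variable {R S : Type*} [CommRing R] [CommRing S] {F G : FormalGroup R} {σ : Type*}

/-- a power series with zero constant coefficient as a point. -/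
noncomputable def pt (F : FormalGroup R) (b : PowerSeries R)
    (hb0 : PowerSeries.constantCoeff b = 0) : F.Point Unit := ⟨b, hasSubst_of_cc hb0⟩

@[simp] theorem pt_val (b : PowerSeries R) (hb0 : PowerSeries.constantCoeff b = 0) :
    (pt F b hb0).val = b := rfl

theorem cc_nsmul [F.IsComm] (m : ℕ) (z : F.Point Unit)
    (hz : PowerSeries.constantCoeff (z.val : PowerSeries R) = 0) :
    PowerSeries.constantCoeff ((m • z).val : PowerSeries R) = 0 := by
  rw [nsmul_val]
  exact PowerSeries.constantCoeff_subst_eq_zero hz _ (FPt.constantCoeff_multSeries F m)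

/-- the value of a series at a point of `F`. -/
noncomputable def compPt [F.IsComm] {τ : Type*} (c : MvPowerSeries τ R)
    (hc : PowerSeries.HasSubst c) : F.Point Unit →+ F.Point τ where
  toFun z := ⟨subst (fun _ => c) z.val, IsNilpotent_subst hc.const z.prop⟩
  map_zero' := by
    apply Subtype.ext
    exact ps_subst_zero hc
  map_add' z w := by
    apply Subtype.ext
    exact subst_pair_subst z.prop w.prop hc.const

@[simp] theorem compPt_val [F.IsComm] {τ : Type*} (c : MvPowerSeries τ R)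
    (hc : PowerSeries.HasSubst c) (z : F.Point Unit) :
    (compPt c hc z).val = PowerSeries.subst c z.val := rfl

theorem isHom_mod {p e : ℕ} (G : FormalGroup R) [G.IsComm] {m : Ideal R}
    (hm : m ^ e ≤ Ideal.span {(p : R)}) (c : PowerSeries R)
    (hc0 : PowerSeries.constantCoeff c = 0)
    (hc : IsHom (G.map (Ideal.Quotient.mk m)) (G.map (Ideal.Quotient.mk m))
      (PowerSeries.map (Ideal.Quotient.mk m) c)) (M : ℕ) :
    IsHom (G.map (Ideal.Quotient.mk (Ideal.span {(p : R)} ^ (M + 1))))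
      (G.map (Ideal.Quotient.mk (Ideal.span {(p : R)} ^ (M + 1))))
      (PowerSeries.map (Ideal.Quotient.mk (Ideal.span {(p : R)} ^ (M + 1)))
        (p ^ (M + e) • pt G c hc0 : G.Point Unit).val) := by
  set I := Ideal.span {(p : R)}
  set N := M + e
  have hX0 : PowerSeries.HasSubst (X 0 : MvPowerSeries (Fin 2) R) := hasSubst_of_cc (by simp)
  have hX1 : PowerSeries.HasSubst (X 1 : MvPowerSeries (Fin 2) R) := hasSubst_of_cc (by simp)
  have hGs : PowerSeries.HasSubst G.toPowerSeries := hasSubst_of_cc G.zero_constantCoeff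
  set P : G.Point (Fin 2) := compPt G.toPowerSeries hGs (pt G c hc0) with hP
  set P0 : G.Point (Fin 2) := compPt (X 0) hX0 (pt G c hc0) with hP0
  set P1 : G.Point (Fin 2) := compPt (X 1) hX1 (pt G c hc0) with hP1
  have h1 : P.val - (P0 + P1).val ∈ CI (Fin 2) m := by
    rw [sub_mem_CI_iff]
    have h2 : (P0 + P1).val.map (Ideal.Quotient.mk m) =
        subst ![(PowerSeries.subst (X 0 : MvPowerSeries (Fin 2) R) c).map (Ideal.Quotient.mk m),
          (PowerSeries.subst (X 1 : MvPowerSeries (Fin 2) R) c).map (Ideal.Quotient.mk m)]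
          (G.map (Ideal.Quotient.mk m)).toPowerSeries :=
      map_pair_subst _ P0.prop P1.prop _
    rw [h2, hP, compPt_val, pt_val, PowerSeries.map_subst hGs, PowerSeries.map_subst hX0,
      PowerSeries.map_subst hX1, map_X, map_X]
    exact hc.2
  have h3 : (p ^ N • P - p ^ N • (P0 + P1)).val ∈ CI (Fin 2) (I ^ (M + 1)) := by
    rw [← nsmul_sub]
    have h4 := nsmul_pow_mem_CI' (F := G) hm ((sub_val_mem_CI_iff _ _).mpr h1)
    rw [← pow_one (Ideal.span {(p : R)})] at h4
    have h5 := nsmul_pow_mem_CI (F := G) le_rfl h4 M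
    rw [← mul_nsmul', ← pow_add, add_comm 1 M] at h5
    exact h5
  rw [sub_val_mem_CI_iff, sub_mem_CI_iff, nsmul_add, hP, hP0, hP1, ← map_nsmul, ← map_nsmul,
    ← map_nsmul] at h3
  have hcN : PowerSeries.constantCoeff ((p ^ N • pt G c hc0 : G.Point Unit).val :
      PowerSeries R) = 0 := cc_nsmul _ _ hc0
  refine ⟨cc_map _ hcN, ?_⟩
  set w := (p ^ N • pt G c hc0 : G.Point Unit) with hw
  set mk := Ideal.Quotient.mk (I ^ (M + 1))
  have h6 : (PowerSeries.subst G.toPowerSeries w.val : MvPowerSeries (Fin 2) R).map mk =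
      PowerSeries.subst (G.map mk).toPowerSeries (PowerSeries.map mk w.val) :=
    PowerSeries.map_subst hGs _
  have h7 : (compPt (X 0) hX0 w + compPt (X 1) hX1 w : G.Point (Fin 2)).val.map mk =
      subst ![PowerSeries.subst (X 0 : MvPowerSeries (Fin 2) (R ⧸ I ^ (M + 1)))
        (PowerSeries.map mk w.val),
        PowerSeries.subst (X 1 : MvPowerSeries (Fin 2) (R ⧸ I ^ (M + 1)))
        (PowerSeries.map mk w.val)] (G.map mk).toPowerSeries := by
    have h8 : (compPt (X 0) hX0 w + compPt (X 1) hX1 w : G.Point (Fin 2)).val.map mk =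
      subst ![(PowerSeries.subst (X 0 : MvPowerSeries (Fin 2) R) w.val).map mk,
        (PowerSeries.subst (X 1 : MvPowerSeries (Fin 2) R) w.val).map mk]
        (G.map mk).toPowerSeries :=
      map_pair_subst _ (compPt (X 0) hX0 w : G.Point (Fin 2)).prop
        (compPt (X 1) hX1 w : G.Point (Fin 2)).prop _
    rw [h8, PowerSeries.map_subst hX0, PowerSeries.map_subst hX1, map_X, map_X]
  rw [← h6, ← h7]
  exact h3

end Pt

section Step

variable {p n : ℕ} [Fact p.Prime] {Γ : FormalGroup (ZMod p)} {F : FormalGroup (E0 p n)}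

theorem p_mem_maximalIdeal_E0 : (p : E0 p n) ∈ IsLocalRing.maximalIdeal (E0 p n) := by
  rw [← ker_red, RingHom.mem_ker, map_natCast]
  exact CharP.cast_eq_zero _ _

section

variable {C : Type} [CommRing C] [IsLocalRing C]

theorem residue_x_mem_maximalIdeal (x : E0 p n →+* C) (hx : Function.Surjective x) {r : E0 p n}
    (hr : r ∈ IsLocalRing.maximalIdeal (E0 p n)) : x r ∈ IsLocalRing.maximalIdeal C := by
  have h1 : (RingHom.ker ((IsLocalRing.residue C).comp x)).IsMaximal :=
    RingHom.ker_isMaximal_of_surjective _ (IsLocalRing.residue_surjective.comp hx)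
  rw [← IsLocalRing.eq_maximalIdeal h1, RingHom.mem_ker, RingHom.comp_apply,
    IsLocalRing.residue_eq_zero_iff] at hr
  exact hr

theorem p_mem_maximalIdeal (x : E0 p n →+* C) (hx : Function.Surjective x) :
    (p : C) ∈ IsLocalRing.maximalIdeal C := by
  have := residue_x_mem_maximalIdeal x hx p_mem_maximalIdeal_E0
  rwa [map_natCast] at this

end

variable [IsNoetherianRing (E0 p n)] [IsAdicComplete (IsLocalRing.maximalIdeal (E0 p n)) (E0 p n)]
variable {C : Type} [CommRing C] [IsLocalRing C] [IsNoetherianRing C]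

/-- the series `X +_F [p^N]_F(b)`. -/
noncomputable def bser (F : FormalGroup (E0 p n)) [F.IsComm] (b : PowerSeries (E0 p n))
    (hb0 : PowerSeries.constantCoeff b = 0) (N : ℕ) : PowerSeries (E0 p n) :=
  (ptX F () + p ^ N • pt F b hb0 : F.Point Unit).val

omit [IsNoetherianRing (E0 p n)]
  [IsAdicComplete (IsLocalRing.maximalIdeal (E0 p n)) (E0 p n)] in
theorem map_bser [F.IsComm] {S : Type*} [CommRing S] (x : E0 p n →+* S)
    (b : PowerSeries (E0 p n))
    (hb0 : PowerSeries.constantCoeff b = 0) (N : ℕ) :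
    PowerSeries.map x (bser F b hb0 N) = (subst ![PowerSeries.X,
      (PowerSeries.subst (PowerSeries.map x b) (multSeries (F.map x) (p ^ N)) : PowerSeries S)]
      (F.map x).toPowerSeries : PowerSeries S) := by
  have h1 : PowerSeries.map x (bser F b hb0 N) =
      (mapPt x (ptX F () + p ^ N • pt F b hb0 : F.Point Unit)).val := rfl
  rw [h1, map_add, map_nsmul, FormalGroup.add_apply, nsmul_val]
  congr! 3
  exact PowerSeries.map_X x

theorem exists_step (hF : IsUniversalDeformation p n Γ F) [F.IsComm] (x : E0 p n →+* C)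
    (hx : Function.Surjective x) {e : ℕ} (he : 1 ≤ e)
    (hm : IsLocalRing.maximalIdeal C ^ e ≤ Ideal.span {(p : C)})
    (b : PowerSeries (E0 p n)) (hb0 : PowerSeries.constantCoeff b = 0)
    (hb : IsHom (Γ.map (algebraMap (ZMod p) (GaloisField p n)))
      (Γ.map (algebraMap (ZMod p) (GaloisField p n))) (b.map (red p n))) (M : ℕ) :
    ∃ (φ : E0 p n ≃+* E0 p n) (ψ : PowerSeries (E0 p n)),
      IsIso F (F.map (φ : E0 p n →+* E0 p n)) ψ ∧
      (∀ r, x (φ r) - x r ∈ Ideal.span {(p : C)} ^ (M + 1)) ∧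
      PowerSeries.map x ψ - PowerSeries.map x (bser F b hb0 (M + e)) ∈
        CI Unit (Ideal.span {(p : C)} ^ (M + 1)) := by
  classical
  set Γk := Γ.map (algebraMap (ZMod p) (GaloisField p n)) with hΓk
  have hFr : F.map (red p n) = Γk := hF.reduction
  have hΓc : Γk.IsComm := by rw [← hFr]; infer_instance
  set I : Ideal C := Ideal.span {(p : C)} with hI
  set N := M + e with hN
  -- the quotient ring
  have hpm := p_mem_maximalIdeal x hx
  have hIm : I ≤ IsLocalRing.maximalIdeal C := by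
    rw [hI, Ideal.span_singleton_le_iff_mem]
    exact hpm
  have hJm : I ^ (M + 1) ≤ IsLocalRing.maximalIdeal C :=
    (Ideal.pow_le_self (Nat.succ_ne_zero M)).trans hIm
  have hJtop : I ^ (M + 1) ≠ ⊤ := fun h => by
    rw [h, top_le_iff] at hJm
    exact (IsLocalRing.maximalIdeal.isMaximal C).ne_top hJm
  let A := C ⧸ (I ^ (M + 1))
  have hAnt : Nontrivial A := Ideal.Quotient.nontrivial_iff.mpr hJtop
  let mk : C →+* A := Ideal.Quotient.mk (I ^ (M + 1))
  have hmk : Function.Surjective mk := Ideal.Quotient.mk_surjective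
  have hAl : IsLocalRing A := IsLocalRing.of_surjective' mk hmk
  have hAN : IsNoetherianRing A := isNoetherianRing_of_surjective C A mk hmk
  let xA : E0 p n →+* A := mk.comp x
  have hxA : Function.Surjective xA := hmk.comp hx
  have hmA : IsLocalRing.maximalIdeal A ≤ (IsLocalRing.maximalIdeal C).map mk := by
    intro a ha
    obtain ⟨c, rfl⟩ := hmk a
    refine Ideal.mem_map_of_mem _ ?_
    by_contra hc
    have hc' : IsUnit c := by
      by_contra h
      exact hc h
    exact ha (hc'.map mk)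
  have hAnil : IsLocalRing.maximalIdeal A ^ (e * (M + 1)) = ⊥ := by
    rw [eq_bot_iff]
    refine (Ideal.pow_right_mono hmA _).trans ?_
    rw [← Ideal.map_pow, pow_mul]
    refine (Ideal.map_mono (Ideal.pow_right_mono hm (M + 1))).trans ?_
    rw [Ideal.map_quotient_self]
  have hAc : IsAdicComplete (IsLocalRing.maximalIdeal A) A := isAdicComplete_of_pow_eq_bot hAnil
  obtain ⟨i, hi⟩ := exists_factor_red ((IsLocalRing.residue A).comp xA) (by
    intro r hr
    rw [RingHom.mem_ker, RingHom.comp_apply, IsLocalRing.residue_eq_zero_iff]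
    exact residue_x_mem_maximalIdeal xA hxA hr)
  -- the automorphism of `Γ`
  set g : PowerSeries (GaloisField p n) := PowerSeries.map (red p n) (bser F b hb0 N) with hg
  have hgiso : IsIso Γk Γk g := by
    have e1 := map_bser (red p n) b hb0 N (F := F)
    rw [hFr] at e1
    rw [hg, e1]
    have e2 : IsHom Γk Γk (PowerSeries.subst (PowerSeries.map (red p n) b)
        (multSeries Γk (p ^ N))) := hb.compC (isHom_multSeries (p ^ N))
    refine ⟨isHom_X.addC e2, ?_⟩
    rw [coeff_one_add PowerSeries.constantCoeff_X e2.1, coeff_one_subst hb.1,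
      coeff_one_multSeries, PowerSeries.coeff_one_X]
    have : ((p ^ N : ℕ) : GaloisField p n) = 0 := by
      rw [Nat.cast_pow, CharP.cast_eq_zero, zero_pow (by omega)]
    rw [this, mul_zero, add_zero]
    exact isUnit_one
  obtain ⟨φ, ψ, h1, h2, h3⟩ := exists_phi' hF g hgiso
  -- the automorphism of `F` over `A`
  set βA : PowerSeries A := PowerSeries.map xA (bser F b hb0 N) with hβA
  have hβiso : IsIso (F.map xA) (F.map xA) βA := by
    have e1 := map_bser xA b hb0 N (F := F)
    have hbx0 := cc_map x hb0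
    have e2 : IsHom (F.map xA) (F.map xA) (PowerSeries.subst (PowerSeries.map xA b)
        (multSeries (F.map xA) (p ^ N))) := by
      obtain ⟨j, hj⟩ := exists_factor_red ((Ideal.Quotient.mk (IsLocalRing.maximalIdeal C)).comp x)
        (by
          intro r hr
          rw [RingHom.mem_ker, RingHom.comp_apply, Ideal.Quotient.eq_zero_iff_mem]
          exact residue_x_mem_maximalIdeal x hx hr)
      have hbj := hb.mapC j
      rw [← hFr, FG_map_map, ps_map_comp, hj, ← FG_map_map, ← ps_map_comp] at hbj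
      have e3 := isHom_mod (F.map x) hm (PowerSeries.map x b) hbx0 hbj M
      have e4 : PowerSeries.map (Ideal.Quotient.mk (I ^ (M + 1)))
          (p ^ N • pt (F.map x) (PowerSeries.map x b) hbx0 : (F.map x).Point Unit).val =
          PowerSeries.subst (PowerSeries.map xA b) (multSeries (F.map xA) (p ^ N)) := by
        rw [nsmul_val, pt_val]
        refine (ps_map_subst _ hbx0 _).trans ?_
        rw [ps_map_comp, map_multSeries, FG_map_map]
      rw [e4, FG_map_map] at e3
      exact e3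
    rw [hβA, e1]
    refine ⟨isHom_X.addC e2, ?_⟩
    rw [coeff_one_add PowerSeries.constantCoeff_X e2.1, coeff_one_subst (cc_map xA hb0),
      coeff_one_multSeries, PowerSeries.coeff_one_X]
    have hpA : (p : A) ∈ IsLocalRing.maximalIdeal A := p_mem_maximalIdeal xA hxA
    have h6 : PowerSeries.coeff 1 (PowerSeries.map xA b) * ((p ^ N : ℕ) : A) ∈
        IsLocalRing.maximalIdeal A := by
      refine Ideal.mul_mem_left _ _ ?_
      rw [Nat.cast_pow]
      exact Ideal.pow_mem_of_mem _ hpA _ (by omega)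
    by_contra h7
    have h8 : (1 : A) ∈ IsLocalRing.maximalIdeal A := by
      have := Ideal.sub_mem _ (show 1 + PowerSeries.coeff 1 (PowerSeries.map xA b) *
        ((p ^ N : ℕ) : A) ∈ IsLocalRing.maximalIdeal A from h7) h6
      simpa using this
    exact (Ideal.ne_top_iff_one _).mp (IsLocalRing.maximalIdeal.isMaximal A).ne_top h8
  have h2A : IsIso (F.map xA) (F.map (xA.comp (φ : E0 p n →+* E0 p n))) (PowerSeries.map xA ψ) := by
    have := h2.mapC xA
    rwa [FG_map_map] at this
  obtain ⟨γ, hγ, hγ1, hγ2⟩ := hβiso.symmC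
  have hβr : PowerSeries.map (IsLocalRing.residue A) βA = PowerSeries.map i g := by
    rw [hβA, hg, ps_map_comp, ps_map_comp, hi]
  have hψr : PowerSeries.map (IsLocalRing.residue A) (PowerSeries.map xA ψ) =
      PowerSeries.map i g := by
    rw [← h3, ps_map_comp, ps_map_comp, hi]
  have hχ := rigid hF i (x := xA) (y := xA.comp (φ : E0 p n →+* E0 p n)) hi.symm
    (by rw [← RingHom.comp_assoc, ← hi, RingHom.comp_assoc, h1]) (hγ.compC h2A) (by
      rw [ps_map_subst _ hγ.1.1, hψr, ← hβr, ← ps_map_subst _ hγ.1.1, hγ2, PowerSeries.map_X])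
  have hψβ : PowerSeries.map xA ψ = βA := by
    have h4 := congrArg (PowerSeries.subst βA : PowerSeries A → PowerSeries A) hχ.2
    rw [PowerSeries.subst_comp_subst_apply (hasSubst_of_cc hγ.1.1)
      (hasSubst_of_cc hβiso.1.1), hγ1, PowerSeries.X_subst,
      PowerSeries.subst_X (hasSubst_of_cc hβiso.1.1)] at h4
    exact h4
  refine ⟨φ, ψ, h2, ?_, ?_⟩
  · intro r
    rw [← Ideal.Quotient.mk_eq_mk_iff_sub_mem]
    exact (RingHom.congr_fun hχ.1 r).symm
  · rw [sub_mem_CI_iff]
    have h5 : PowerSeries.map mk (PowerSeries.map x ψ) =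
        PowerSeries.map mk (PowerSeries.map x (bser F b hb0 N)) := by
      rw [ps_map_comp, ps_map_comp]
      exact hψβ
    exact h5

end Step

end Vale.Agent.P217.C0
end
end

section

section

/-!
# P217: characteristic zero part, the logarithm at points over a domain
-/

namespace Vale.Agent.P217.C0

open MvPowerSeries Vale.Agent.P217

section Dvd

variable {C : Type*} [CommRing C] [IsLocalRing C]

theorem isUnit_natCast_of_coprime {p u : ℕ} (hp : (p : C) ∈ IsLocalRing.maximalIdeal C)
    (h : Nat.Coprime u p) : IsUnit (u : C) := by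
  by_contra hu
  have hu' : (u : C) ∈ IsLocalRing.maximalIdeal C := hu
  have h1 : IsCoprime (u : ℤ) (p : ℤ) := Nat.isCoprime_iff_coprime.mpr h
  obtain ⟨a, b, hab⟩ := h1
  have h2 : (a : C) * (u : C) + (b : C) * (p : C) = 1 := by
    exact_mod_cast congrArg (Int.cast : ℤ → C) hab
  have h3 : (1 : C) ∈ IsLocalRing.maximalIdeal C := by
    rw [← h2]
    exact Ideal.add_mem _ (Ideal.mul_mem_left _ _ hu') (Ideal.mul_mem_left _ _ hp)
  exact (Ideal.ne_top_iff_one _).mp (IsLocalRing.maximalIdeal.isMaximal C).ne_top h3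

/-- `d` divides `p^(d-1)`. -/
theorem natCast_dvd_pow {p : ℕ} (hpp : p.Prime) (hp : (p : C) ∈ IsLocalRing.maximalIdeal C)
    {d : ℕ} (hd : d ≠ 0) : (d : C) ∣ (p : C) ^ (d - 1) := by
  obtain ⟨v, u, hu, hd'⟩ := Nat.exists_eq_pow_mul_and_not_dvd hd p hpp.ne_one
  have hcop : Nat.Coprime u p := ((Nat.Prime.coprime_iff_not_dvd hpp).mpr hu).symm
  obtain ⟨w, hw⟩ := isUnit_natCast_of_coprime hp hcop
  have hv : v ≤ d - 1 := by
    have h1 : v < p ^ v := Nat.lt_pow_self hpp.one_lt
    have h2 : p ^ v ≤ d := by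
      rw [hd']
      exact Nat.le_mul_of_pos_right _ (Nat.pos_of_ne_zero (by
        rintro rfl
        exact hu (dvd_zero _)))
    omega
  have h3 : (d : C) = (p : C) ^ v * w := by
    rw [hw, hd']
    push_cast
    ring
  rw [h3]
  refine ((Units.mul_right_dvd).mpr dvd_rfl).trans (pow_dvd_pow _ hv)

end Dvd

section LI

variable {C L : Type*} [CommRing C] [Field L] [Algebra C L]

/-- the image of the ideal `I` in `L`. -/
noncomputable def LI (L : Type*) [Field L] [Algebra C L] (I : Ideal C) : Submodule C L :=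
  Submodule.map (Algebra.linearMap C L) I

theorem mem_LI {I : Ideal C} {a : L} : a ∈ LI L I ↔ ∃ r ∈ I, algebraMap C L r = a := by
  rw [LI, Submodule.mem_map]
  rfl

theorem algebraMap_mem_LI {I : Ideal C} {r : C} (hr : r ∈ I) : algebraMap C L r ∈ LI L I :=
  mem_LI.mpr ⟨r, hr, rfl⟩

end LI

section LogPt

variable {C L : Type*} [CommRing C] [Field L] [Algebra C L] [CharZero L] {σ : Type*}
  (G : FormalGroup C) [G.IsComm]

omit [CharZero L] in
theorem Ga_add {σ : Type*} (a b : (FormalGroup.𝔾ₐ (R := L)).Point σ) :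
    (a + b).val = a.val + b.val := by
  have hs := hasSubst_pair a.prop b.prop
  rw [FormalGroup.add_apply]
  have h1 : (FormalGroup.𝔾ₐ (R := L)).toPowerSeries = X 0 + X 1 := rfl
  rw [h1, subst_add hs, subst_X hs, subst_X hs]
  rfl

/-- the logarithm on points. -/
noncomputable def logPt (L : Type*) [Field L] [Algebra C L] [CharZero L] (σ : Type*) :
    G.Point σ →+ MvPowerSeries σ L where
  toFun z := PowerSeries.subst (z.val.map (algebraMap C L)) (flog (G.map (algebraMap C L)))
  map_zero' := by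
    have h := map_zero (homPt (σ := σ) (flog (G.map (algebraMap C L)))
      (isHom_flog (G.map (algebraMap C L))))
    have h2 := congrArg Subtype.val h
    have h3 : (0 : G.Point σ).val.map (algebraMap C L) = 0 := map_zero _
    rw [h3]
    exact h2
  map_add' z w := by
    have h := map_add (homPt (σ := σ) (flog (G.map (algebraMap C L)))
      (isHom_flog (G.map (algebraMap C L)))) (mapPt (algebraMap C L) z) (mapPt (algebraMap C L) w)
    have h2 := congrArg Subtype.val h
    rw [← map_add, Ga_add] at h2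
    exact h2

theorem logPt_apply (z : G.Point σ) : logPt G L σ z =
    PowerSeries.subst (z.val.map (algebraMap C L)) (flog (G.map (algebraMap C L))) := rfl

theorem pow_mem_CI {I : Ideal C} {f : MvPowerSeries σ C} (hf : f ∈ CI σ I) (d : ℕ) :
    f ^ d ∈ CI σ (I ^ d) := by
  induction d with
  | zero =>
    rw [mem_CI]
    intro e
    simp
  | succ d ih =>
    rw [pow_succ, pow_succ]
    exact mul_mem_CI ih hf

theorem coeff_flog_map (d : ℕ) : PowerSeries.coeff d (flog (G.map (algebraMap C L))) =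
    algebraMap C L (PowerSeries.coeff (d - 1) (omega G)) / d := by
  rw [flog, PowerSeries.coeff_mk, ← map_omega, PowerSeries.coeff_map]

variable [IsLocalRing C]

/-- the logarithm of a point with coefficients in `(p)^s` has coefficients in `(p)^s`. -/
theorem logPt_mem {p s : ℕ} (hpp : p.Prime) (hp : (p : C) ∈ IsLocalRing.maximalIdeal C)
    (hs : 1 ≤ s) (z : G.Point σ) (hz : z.val ∈ CI σ (Ideal.span {(p : C)} ^ s)) (e : σ →₀ ℕ) :
    coeff e (logPt G L σ z) ∈ LI L (Ideal.span {(p : C)} ^ s) := by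
  rw [logPt_apply, PowerSeries.coeff_subst (hasSubst_map _ z.prop)]
  refine finsum_induction (p := fun a => a ∈ LI L (Ideal.span {(p : C)} ^ s)) (Submodule.zero_mem _)
    (fun a b ha hb => Submodule.add_mem _ ha hb) fun d => ?_
  rw [← map_pow, coeff_map, coeff_flog_map]
  have h1 := mem_CI.mp (pow_mem_CI hz d) e
  rw [← pow_mul, Ideal.span_singleton_pow, Ideal.mem_span_singleton'] at h1
  obtain ⟨r, hr⟩ := h1
  rw [← hr]
  rcases Nat.eq_zero_or_pos d with rfl | hd
  · simp
  have h2 : (d : C) ∣ (p : C) ^ (s * (d - 1)) :=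
    (natCast_dvd_pow hpp hp hd.ne').trans (pow_dvd_pow _ (Nat.le_mul_of_pos_left _ hs))
  obtain ⟨t, ht⟩ := h2
  have h3 : (p : C) ^ (s * d) = (p : C) ^ s * ((d : C) * t) := by
    rw [← ht, ← pow_add]
    congr 1
    obtain ⟨d', rfl⟩ : ∃ d', d = d' + 1 := ⟨d - 1, by omega⟩
    simp
    ring
  rw [mem_LI]
  refine ⟨(p : C) ^ s * (r * t * PowerSeries.coeff (d - 1) (omega G)), ?_, ?_⟩
  · refine Ideal.mul_mem_right _ _ ?_
    exact Ideal.pow_mem_pow (Ideal.mem_span_singleton_self _) s
  · rw [h3]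
    have hd0 : (d : L) ≠ 0 := by exact_mod_cast hd.ne'
    simp only [map_mul, map_pow, map_natCast, smul_eq_mul]
    field_simp

/-- if two points are congruent modulo `(p)^s`, so are their logarithms. -/
theorem logPt_sub_mem {p s : ℕ} (hpp : p.Prime) (hp : (p : C) ∈ IsLocalRing.maximalIdeal C)
    (hs : 1 ≤ s) (z w : G.Point σ) (hz : z.val - w.val ∈ CI σ (Ideal.span {(p : C)} ^ s))
    (e : σ →₀ ℕ) :
    coeff e (logPt G L σ z) - coeff e (logPt G L σ w) ∈ LI L (Ideal.span {(p : C)} ^ s) := by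
  rw [← map_sub, ← map_sub]
  exact logPt_mem G hpp hp hs _ ((sub_val_mem_CI_iff z w).mpr hz) e

/-- the logarithm of a point with coefficients in the maximal ideal is bounded. -/
theorem logPt_bounded {p N : ℕ} (hpp : p.Prime) (hp : (p : C) ∈ IsLocalRing.maximalIdeal C)
    (hm : IsLocalRing.maximalIdeal C ^ N ≤ Ideal.span {(p : C)}) (z : G.Point σ)
    (hz : z.val ∈ CI σ (IsLocalRing.maximalIdeal C)) (e : σ →₀ ℕ) :
    (p : L) ^ N * coeff e (logPt G L σ z) ∈ LI L (Ideal.span {(p : C)}) := by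
  have h1 := nsmul_pow_mem_CI' (F := G) hm hz
  rw [← pow_one (Ideal.span {(p : C)})] at h1
  have h2 := logPt_mem (L := L) G hpp hp le_rfl _ h1 e
  rw [map_nsmul, pow_one] at h2
  have h3 : coeff e (p ^ N • logPt G L σ z) = (p : L) ^ N * coeff e (logPt G L σ z) := by
    rw [map_nsmul, nsmul_eq_mul]
    push_cast
    rfl
  rwa [h3] at h2

end LogPt

end Vale.Agent.P217.C0
end
end

section

section

/-!
# P217: characteristic zero part, the limit of the automorphisms `1 + p^N b`
-/

namespace Vale.Agent.P217.C0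

open MvPowerSeries Vale.Agent.P217 Filter

section ULim

variable {C : Type*} [CommRing C] {I : Ideal C} {U : Ultrafilter ℕ}

/-- convergence along an ultrafilter in the `I`-adic topology. -/
def TendsC (I : Ideal C) (U : Ultrafilter ℕ) (v : ℕ → C) (c : C) : Prop :=
  ∀ j : ℕ, ∀ᶠ N in (U : Filter ℕ), v N - c ∈ I ^ j

theorem exists_tendsC (hfin : ∀ j, Finite (C ⧸ I ^ j))
    (hprec : ∀ f : ℕ → C, (∀ s, f (s + 1) - f s ∈ I ^ s) → ∃ l, ∀ s, l - f s ∈ I ^ s)
    (v : ℕ → C) : ∃ c, TendsC I U v c := by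
  have h1 : ∀ j, ∃ c : C, ∀ᶠ N in (U : Filter ℕ), v N - c ∈ I ^ j := by
    intro j
    have := hfin j
    obtain ⟨a, ha⟩ := Ultrafilter.eq_pure_of_finite (U.map fun N => Ideal.Quotient.mk (I ^ j) (v N))
    obtain ⟨c, rfl⟩ := Ideal.Quotient.mk_surjective a
    refine ⟨c, ?_⟩
    have h2 : {Ideal.Quotient.mk (I ^ j) c} ∈ U.map fun N => Ideal.Quotient.mk (I ^ j) (v N) := by
      rw [ha]
      exact Set.mem_singleton _
    rw [Ultrafilter.mem_map] at h2
    filter_upwards [h2] with N hN
    exact (Ideal.Quotient.mk_eq_mk_iff_sub_mem _ _).mp hN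
  choose f hf using h1
  obtain ⟨l, hl⟩ := hprec f (by
    intro s
    obtain ⟨N, h2, h3⟩ := ((hf s).and (hf (s + 1))).exists
    have h4 := Ideal.sub_mem _ h2 (Ideal.pow_le_pow_right (Nat.le_succ s) h3)
    have h5 : v N - f s - (v N - f (s + 1)) = f (s + 1) - f s := by ring
    rwa [h5] at h4)
  refine ⟨l, fun j => ?_⟩
  filter_upwards [hf j] with N hN
  have h2 := Ideal.sub_mem _ hN (hl j)
  have h3 : v N - f j - (l - f j) = v N - l := by ring
  rwa [h3] at h2

theorem tendsC_const (c : C) : TendsC I U (fun _ => c) c := fun j =>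
  Eventually.of_forall fun N => by simp

theorem TendsC.add {v w : ℕ → C} {a b : C} (hv : TendsC I U v a) (hw : TendsC I U w b) :
    TendsC I U (fun N => v N + w N) (a + b) := by
  intro j
  filter_upwards [hv j, hw j] with N h1 h2
  have h3 : v N + w N - (a + b) = (v N - a) + (w N - b) := by ring
  rw [h3]
  exact Ideal.add_mem _ h1 h2

theorem TendsC.mul {v w : ℕ → C} {a b : C} (hv : TendsC I U v a) (hw : TendsC I U w b) :
    TendsC I U (fun N => v N * w N) (a * b) := by
  intro j
  filter_upwards [hv j, hw j] with N h1 h2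
  have h3 : v N * w N - a * b = (v N - a) * w N + a * (w N - b) := by ring
  rw [h3]
  exact Ideal.add_mem _ (Ideal.mul_mem_right _ _ h1) (Ideal.mul_mem_left _ _ h2)

theorem TendsC.congr {v w : ℕ → C} {a : C} (hv : TendsC I U v a) (h : ∀ N, v N = w N) :
    TendsC I U w a := by
  have : v = w := funext h
  rwa [← this]

theorem tendsC_sum {ι : Type*} (s : Finset ι) {v : ι → ℕ → C} {a : ι → C}
    (h : ∀ i ∈ s, TendsC I U (v i) (a i)) :
    TendsC I U (fun N => ∑ i ∈ s, v i N) (∑ i ∈ s, a i) := by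
  classical
  induction s using Finset.induction_on with
  | empty => simpa using tendsC_const (I := I) (U := U) (0 : C)
  | insert i s hi ih =>
    simp only [Finset.sum_insert hi]
    exact (h i (Finset.mem_insert_self _ _)).add
      (ih fun j hj => h j (Finset.mem_insert_of_mem hj))

theorem TendsC.unique (hhaus : ∀ z : C, (∀ s, z ∈ I ^ s) → z = 0) {v : ℕ → C} {a b : C}
    (ha : TendsC I U v a) (hb : TendsC I U v b) : a = b := by
  rw [← sub_eq_zero]
  refine hhaus _ fun j => ?_
  obtain ⟨N, h1, h2⟩ := ((ha j).and (hb j)).exists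
  have h3 : a - b = (v N - b) - (v N - a) := by ring
  rw [h3]
  exact Ideal.sub_mem _ h2 h1

/-- coefficientwise convergence of power series. -/
def TendsP (I : Ideal C) (U : Ultrafilter ℕ) (v : ℕ → PowerSeries C) (c : PowerSeries C) : Prop :=
  ∀ m, TendsC I U (fun N => PowerSeries.coeff m (v N)) (PowerSeries.coeff m c)

theorem TendsP.mul {v w : ℕ → PowerSeries C} {a b : PowerSeries C} (hv : TendsP I U v a)
    (hw : TendsP I U w b) : TendsP I U (fun N => v N * w N) (a * b) := by
  intro m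
  simp only [PowerSeries.coeff_mul]
  exact tendsC_sum _ fun i _ => (hv _).mul (hw _)

theorem TendsP.pow {v : ℕ → PowerSeries C} {a : PowerSeries C} (hv : TendsP I U v a) (d : ℕ) :
    TendsP I U (fun N => v N ^ d) (a ^ d) := by
  induction d with
  | zero =>
    intro m
    simpa using tendsC_const (I := I) (U := U) _
  | succ d ih =>
    simp only [pow_succ]
    exact ih.mul hv

variable (L : Type*) [Field L] [Algebra C L]

/-- convergence in `L`. -/
def TendsL (I : Ideal C) (U : Ultrafilter ℕ) (v : ℕ → L) (c : L) : Prop :=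
  ∀ j : ℕ, ∀ᶠ N in (U : Filter ℕ), v N - c ∈ LI L (I ^ j)

variable {L}

theorem TendsC.toL {v : ℕ → C} {a : C} (hv : TendsC I U v a) :
    TendsL L I U (fun N => algebraMap C L (v N)) (algebraMap C L a) := by
  intro j
  filter_upwards [hv j] with N h
  rw [← map_sub]
  exact algebraMap_mem_LI h

theorem TendsL.add {v w : ℕ → L} {a b : L} (hv : TendsL L I U v a) (hw : TendsL L I U w b) :
    TendsL L I U (fun N => v N + w N) (a + b) := by
  intro j
  filter_upwards [hv j, hw j] with N h1 h2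
  have h3 : v N + w N - (a + b) = (v N - a) + (w N - b) := by ring
  rw [h3]
  exact Submodule.add_mem _ h1 h2

theorem tendsL_const (c : L) : TendsL L I U (fun _ => c) c := fun j =>
  Eventually.of_forall fun N => by simp

theorem tendsL_sum {ι : Type*} (s : Finset ι) {v : ι → ℕ → L} {a : ι → L}
    (h : ∀ i ∈ s, TendsL L I U (v i) (a i)) :
    TendsL L I U (fun N => ∑ i ∈ s, v i N) (∑ i ∈ s, a i) := by
  classical
  induction s using Finset.induction_on with
  | empty => simpa using tendsL_const (I := I) (U := U) (0 : L)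
  | insert i s hi ih =>
    simp only [Finset.sum_insert hi]
    exact (h i (Finset.mem_insert_self _ _)).add
      (ih fun j hj => h j (Finset.mem_insert_of_mem hj))

theorem TendsL.unique (hinj : Function.Injective (algebraMap C L))
    (hhaus : ∀ z : C, (∀ s, z ∈ I ^ s) → z = 0) {v : ℕ → L} {a b : L}
    (ha : TendsL L I U v a) (hb : TendsL L I U v b) : a = b := by
  rw [← sub_eq_zero]
  have h1 : ∀ j, ∃ r ∈ I ^ j, algebraMap C L r = a - b := by
    intro j
    obtain ⟨N, h1, h2⟩ := ((ha j).and (hb j)).exists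
    have h3 : a - b = (v N - b) - (v N - a) := by ring
    rw [← mem_LI, h3]
    exact Submodule.sub_mem _ h2 h1
  obtain ⟨r, -, hr⟩ := h1 0
  have h2 : ∀ j, r ∈ I ^ j := by
    intro j
    obtain ⟨r', hr', h3⟩ := h1 j
    rw [← hr] at h3
    rwa [← hinj h3]
  rw [← hr, hhaus r h2, map_zero]

theorem TendsL.div {p : ℕ} [IsLocalRing C] (hpp : p.Prime)
    (hp : (p : C) ∈ IsLocalRing.maximalIdeal C) [CharZero L] {v : ℕ → L} {a : L}
    (hv : TendsL L (Ideal.span {(p : C)}) U v a) (d : ℕ) :
    TendsL L (Ideal.span {(p : C)}) U (fun N => v N / d) (a / d) := by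
  rcases Nat.eq_zero_or_pos d with rfl | hd
  · simpa using tendsL_const (I := Ideal.span {(p : C)}) (U := U) (0 : L)
  intro j
  filter_upwards [hv (j + (d - 1))] with N h
  rw [mem_LI] at h ⊢
  obtain ⟨r, hr, h⟩ := h
  rw [Ideal.span_singleton_pow, Ideal.mem_span_singleton'] at hr
  obtain ⟨s, rfl⟩ := hr
  obtain ⟨t, ht⟩ := natCast_dvd_pow hpp hp hd.ne'
  refine ⟨(p : C) ^ j * (s * t), ?_, ?_⟩
  · exact Ideal.mul_mem_right _ _ (Ideal.pow_mem_pow (Ideal.mem_span_singleton_self _) j)
  · rw [← sub_div, ← h, pow_add, ht]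
    have hd0 : (d : L) ≠ 0 := by exact_mod_cast hd.ne'
    simp only [map_mul, map_pow, map_natCast]
    field_simp

end ULim

section NI

variable {R : Type*} [CommRing R]

/-- power series whose `m`-th coefficient lies in `I^(a-m)`. -/
def NI (I : Ideal R) (a : ℕ) : Ideal (PowerSeries R) where
  carrier := {f | ∀ m, PowerSeries.coeff m f ∈ I ^ (a - m)}
  add_mem' := by
    intro f g hf hg m
    rw [map_add]
    exact Ideal.add_mem _ (hf m) (hg m)
  zero_mem' := by
    intro m
    rw [map_zero]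
    exact Ideal.zero_mem _
  smul_mem' := by
    intro g f hf m
    rw [smul_eq_mul, PowerSeries.coeff_mul]
    refine Ideal.sum_mem _ fun x hx => Ideal.mul_mem_left _ _ ?_
    rw [Finset.HasAntidiagonal.mem_antidiagonal] at hx
    exact Ideal.pow_le_pow_right (by omega) (hf x.2)

theorem mem_NI {I : Ideal R} {a : ℕ} {f : PowerSeries R} :
    f ∈ NI I a ↔ ∀ m, PowerSeries.coeff m f ∈ I ^ (a - m) := Iff.rfl

theorem mul_mem_NI {I : Ideal R} {a b : ℕ} {f g : PowerSeries R} (hf : f ∈ NI I a)
    (hg : g ∈ NI I b) : f * g ∈ NI I (a + b) := by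
  intro m
  rw [PowerSeries.coeff_mul]
  refine Ideal.sum_mem _ fun x hx => ?_
  rw [Finset.HasAntidiagonal.mem_antidiagonal] at hx
  have h1 : a + b - m ≤ (a - x.1) + (b - x.2) := by omega
  refine Ideal.pow_le_pow_right h1 ?_
  rw [pow_add]
  exact Ideal.mul_mem_mul (hf x.1) (hg x.2)

theorem NI_anti {I : Ideal R} {a b : ℕ} (h : b ≤ a) : NI I a ≤ NI I b := fun f hf m =>
  Ideal.pow_le_pow_right (by omega) (hf m)

variable (G : FormalGroup R) [G.IsComm]

theorem nsmul_mem_NI {p a : ℕ} (ha : 1 ≤ a) (z : G.Point Unit)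
    (hz : (z.val : PowerSeries R) ∈ NI (Ideal.span {(p : R)}) a) :
    ((p • z).val : PowerSeries R) ∈ NI (Ideal.span {(p : R)}) (a + 1) := by
  obtain ⟨h, hh⟩ := exists_multSeries_decomp (F := G) p
  have e1 : ((p • z).val : PowerSeries R) = PowerSeries.C (p : R) * z.val +
      z.val ^ 2 * (PowerSeries.subst z.val h : PowerSeries R) := by
    rw [nsmul_val, hh, PowerSeries.subst_add z.prop, PowerSeries.subst_mul z.prop,
      PowerSeries.subst_mul z.prop, PowerSeries.subst_pow z.prop, PowerSeries.subst_X z.prop]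
    have e : (PowerSeries.subst z.val (PowerSeries.C (p : R) : PowerSeries R) :
        MvPowerSeries Unit R) = PowerSeries.C (p : R) := PowerSeries.subst_C _
    rw [e]
  rw [e1]
  refine Ideal.add_mem _ ?_ (Ideal.mul_mem_right _ _ ?_)
  · intro m
    rw [PowerSeries.coeff_C_mul]
    rcases le_or_gt m a with h1 | h1
    · have h2 : a + 1 - m = (a - m) + 1 := by omega
      rw [h2, pow_succ']
      exact Ideal.mul_mem_mul (Ideal.mem_span_singleton_self _) (hz m)
    · have h2 : a + 1 - m = 0 := by omega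
      rw [h2, pow_zero, Ideal.one_eq_top]
      exact Submodule.mem_top
  · rw [sq]
    exact NI_anti (by omega) (mul_mem_NI hz hz)

theorem nsmul_pow_mem_NI {p : ℕ} (z : G.Point Unit)
    (hz : PowerSeries.constantCoeff (z.val : PowerSeries R) = 0) (N : ℕ) :
    ((p ^ N • z).val : PowerSeries R) ∈ NI (Ideal.span {(p : R)}) (N + 1) := by
  induction N with
  | zero =>
    rw [pow_zero, one_nsmul]
    intro m
    rcases Nat.eq_zero_or_pos m with rfl | hm
    · rw [PowerSeries.coeff_zero_eq_constantCoeff_apply, hz]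
      exact Ideal.zero_mem _
    · have h2 : 0 + 1 - m = 0 := by omega
      rw [h2, pow_zero, Ideal.one_eq_top]
      exact Submodule.mem_top
  | succ N ih =>
    have e1 : p ^ (N + 1) • z = p • (p ^ N • z) := by rw [pow_succ', mul_nsmul']
    rw [e1]
    exact nsmul_mem_NI G (by omega) _ ih

omit [G.IsComm] in
theorem add_sub_mem_NI {I : Ideal R} {a : ℕ} (z w : G.Point Unit)
    (hw : (w.val : PowerSeries R) ∈ NI I a) :
    ((z + w).val : PowerSeries R) - z.val ∈ NI I a := by
  obtain ⟨H, hH⟩ := exists_FG_decomp G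
  have hS := hasSubst_pair z.prop w.prop
  have e1 : ((z + w).val : PowerSeries R) = z.val + w.val +
      z.val * w.val * (subst ![z.val, w.val] H : PowerSeries R) := by
    rw [FormalGroup.add_apply, hH, subst_add hS, subst_add hS, subst_mul hS, subst_mul hS,
      subst_X hS, subst_X hS]
    rfl
  rw [e1]
  have e2 : (z.val + w.val + z.val * w.val * (subst ![z.val, w.val] H : PowerSeries R)) - z.val =
      (1 + z.val * (subst ![z.val, w.val] H : PowerSeries R)) * w.val := by ring
  rw [e2]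
  exact Ideal.mul_mem_left _ _ hw

end NI

section Der

variable {p n : ℕ} [Fact p.Prime] {C : Type} [CommRing C]

/-- `δ` is a derivation along `x`. -/
structure IsDerX (x : E0 p n →+* C) (δ : E0 p n → C) : Prop where
  add : ∀ r s, δ (r + s) = δ r + δ s
  mul : ∀ r s, δ (r * s) = x r * δ s + x s * δ r

variable {x : E0 p n →+* C} {δ : E0 p n → C}

theorem IsDerX.zero (h : IsDerX x δ) : δ 0 = 0 := by
  have := h.add 0 0
  rw [add_zero] at this
  exact left_eq_add.mp this

theorem IsDerX.one (h : IsDerX x δ) : δ 1 = 0 := by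
  have := h.mul 1 1
  rw [mul_one, map_one, one_mul] at this
  exact left_eq_add.mp this

theorem IsDerX.natCast (h : IsDerX x δ) (m : ℕ) : δ m = 0 := by
  induction m with
  | zero => simpa using h.zero
  | succ m ih => rw [Nat.cast_succ, h.add, ih, h.one, add_zero]

theorem IsDerX.sum (h : IsDerX x δ) {ι : Type*} (s : Finset ι) (f : ι → E0 p n) :
    δ (∑ i ∈ s, f i) = ∑ i ∈ s, δ (f i) := by
  classical
  induction s using Finset.induction_on with
  | empty => simpa using h.zero
  | insert i s hi ih => rw [Finset.sum_insert hi, Finset.sum_insert hi, h.add, ih]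

theorem IsDerX.pow (h : IsDerX x δ) (r : E0 p n) (m : ℕ) :
    δ (r ^ m) = m * x r ^ (m - 1) * δ r := by
  induction m with
  | zero => simpa using h.one
  | succ m ih =>
    rw [pow_succ, h.mul, ih]
    rcases Nat.eq_zero_or_pos m with rfl | hm
    · simp
    · obtain ⟨m', rfl⟩ : ∃ m', m = m' + 1 := ⟨m - 1, by omega⟩
      simp only [Nat.add_sub_cancel, map_pow]
      push_cast
      ring

variable [IsLocalRing C]

theorem IsDerX.C_eq_zero (hn : 1 ≤ n) (h : IsDerX x δ) (hx : Function.Surjective x)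
    (hhaus : ∀ z : C, (∀ s, z ∈ Ideal.span {(p : C)} ^ s) → z = 0)
    (w : WittVector p (GaloisField p n)) : δ (MvPowerSeries.C w) = 0 := by
  have hp := p_mem_maximalIdeal x hx
  have hT : ∀ a : GaloisField p n, δ (MvPowerSeries.C (WittVector.teichmuller p a)) = 0 := by
    intro a
    set t : E0 p n := MvPowerSeries.C (WittVector.teichmuller p a) with ht
    have h1 : t ^ (p ^ n) = t := by
      rw [ht, ← map_pow, ← map_pow]
      congr 2
      have : Fintype (GaloisField p n) := Fintype.ofFinite _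
      have hc : Fintype.card (GaloisField p n) = p ^ n := by
        rw [← Nat.card_eq_fintype_card, GaloisField.card p n (by omega)]
      rw [← hc]
      exact FiniteField.pow_card a
    have h2 := h.pow t (p ^ n)
    rw [h1] at h2
    have h3 : (1 - ((p ^ n : ℕ) : C) * x t ^ (p ^ n - 1)) * δ t = 0 := by
      rw [sub_mul, one_mul, ← h2, sub_self]
    have h4 : IsUnit (1 - ((p ^ n : ℕ) : C) * x t ^ (p ^ n - 1)) := by
      by_contra hu
      have hu' : 1 - ((p ^ n : ℕ) : C) * x t ^ (p ^ n - 1) ∈ IsLocalRing.maximalIdeal C := hu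
      have h5 : ((p ^ n : ℕ) : C) * x t ^ (p ^ n - 1) ∈ IsLocalRing.maximalIdeal C := by
        refine Ideal.mul_mem_right _ _ ?_
        rw [Nat.cast_pow]
        exact Ideal.pow_mem_of_mem _ hp _ (by omega)
      have h6 := Ideal.add_mem _ hu' h5
      rw [sub_add_cancel] at h6
      exact (Ideal.ne_top_iff_one _).mp (IsLocalRing.maximalIdeal.isMaximal C).ne_top h6
    exact (h4.mul_right_eq_zero).mp h3
  have hstep : ∀ w : WittVector p (GaloisField p n), ∃ w', δ (MvPowerSeries.C w) =
      (p : C) * δ (MvPowerSeries.C w') := by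
    intro w
    have h1 : WittVector.constantCoeff (w - WittVector.teichmuller p (w.coeff 0)) = 0 := by
      rw [map_sub, sub_eq_zero]
      exact (WittVector.teichmuller_coeff_zero p (w.coeff 0)).symm
    have h2 : w - WittVector.teichmuller p (w.coeff 0) ∈
        RingHom.ker (WittVector.constantCoeff : WittVector p (GaloisField p n) →+* _) := h1
    rw [WittVector.ker_constantCoeff, Ideal.mem_span_singleton'] at h2
    obtain ⟨w', hw'⟩ := h2
    refine ⟨w', ?_⟩
    have h3 : w = WittVector.teichmuller p (w.coeff 0) + w' * (p : WittVector p (GaloisField p n)) :=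
      by rw [hw']; ring
    conv_lhs => rw [h3]
    rw [map_add, h.add, hT, map_mul, h.mul, map_natCast, h.natCast, map_natCast]
    ring
  refine hhaus _ fun s => ?_
  induction s generalizing w with
  | zero => simp
  | succ s ih =>
    obtain ⟨w', hw'⟩ := hstep w
    rw [hw', pow_succ']
    exact Ideal.mul_mem_mul (Ideal.mem_span_singleton_self _) (ih w')

/-- A derivation along `x` is a combination of the partial derivatives. -/
theorem IsDerX.eq_sum (hn : 1 ≤ n) (h : IsDerX x δ) (hx : Function.Surjective x)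
    (hhaus : ∀ z : C, (∀ s, z ∈ Ideal.span {(p : C)} ^ s) → z = 0)
    (hhaus' : ∀ z : C, (∀ s, z ∈ IsLocalRing.maximalIdeal C ^ s) → z = 0) (f : E0 p n) :
    δ f = ∑ i, δ (X i) * x (MvPowerSeries.pderiv (WittVector p (GaloisField p n)) i f) := by
  classical
  set δ' : E0 p n → C := fun f => δ f - ∑ i, δ (X i) *
    x (MvPowerSeries.pderiv (WittVector p (GaloisField p n)) i f) with hδ'
  have h' : IsDerX x δ' := by
    constructor
    · intro r s
      simp only [hδ', h.add, map_add, mul_add, Finset.sum_add_distrib]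
      ring
    · intro r s
      simp only [hδ', h.mul, Derivation.leibniz, smul_eq_mul, map_add, map_mul, mul_add,
        Finset.sum_add_distrib, mul_sub, Finset.mul_sum]
      have e1 : ∑ i, δ (X i) * (x r * x (MvPowerSeries.pderiv (WittVector p (GaloisField p n)) i s))
          = ∑ i, x r * (δ (X i) * x (MvPowerSeries.pderiv (WittVector p (GaloisField p n)) i s)) :=
        Finset.sum_congr rfl fun i _ => by ring
      have e2 : ∑ i, δ (X i) * (x s * x (MvPowerSeries.pderiv (WittVector p (GaloisField p n)) i r))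
          = ∑ i, x s * (δ (X i) * x (MvPowerSeries.pderiv (WittVector p (GaloisField p n)) i r)) :=
        Finset.sum_congr rfl fun i _ => by ring
      rw [e1, e2]
      ring
  have hX : ∀ i, δ' (X i) = 0 := by
    intro i
    simp only [hδ']
    rw [Finset.sum_eq_single i]
    · rw [pderiv_X_self, map_one, mul_one, sub_self]
    · intro j _ hj
      rw [pderiv_X_of_ne hj.symm, map_zero, mul_zero]
    · intro hi
      exact absurd (Finset.mem_univ _) hi
  have hall : ∀ s : ℕ, ∀ f, δ' f ∈ IsLocalRing.maximalIdeal C ^ s := by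
    intro s
    induction s with
    | zero => intro f; simp
    | succ s ih =>
      intro f
      obtain ⟨g, hg⟩ := exists_decomp f
      rw [hg, h'.add, h'.C_eq_zero hn hx hhaus, zero_add, h'.sum]
      refine Ideal.sum_mem _ fun i _ => ?_
      rw [h'.mul, hX, mul_zero, add_zero, pow_succ']
      refine Ideal.mul_mem_mul (residue_x_mem_maximalIdeal x hx ?_) (ih _)
      rw [← ker_red, RingHom.mem_ker, red, RingHom.comp_apply, constantCoeff_X, map_zero]
  have := hhaus' _ fun s => hall s f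
  exact sub_eq_zero.mp this

end Der

section Star

variable {p n : ℕ} [Fact p.Prime] {Γ : FormalGroup (ZMod p)} {F : FormalGroup (E0 p n)}
variable [IsNoetherianRing (E0 p n)] [IsAdicComplete (IsLocalRing.maximalIdeal (E0 p n)) (E0 p n)]

theorem coeff_subst_range {R : Type*} [CommRing R] {u : PowerSeries R}
    (hu : PowerSeries.constantCoeff u = 0) (f : PowerSeries R) (m : ℕ) :
    PowerSeries.coeff m (PowerSeries.subst u f : PowerSeries R) =
      ∑ d ∈ Finset.range (m + 1), PowerSeries.coeff d f * PowerSeries.coeff m (u ^ d) := by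
  rw [PowerSeries.coeff_subst' (hasSubst_of_cc hu)]
  refine (finsum_eq_sum_of_support_subset _ ?_).trans rfl
  intro d hd
  rw [Function.mem_support] at hd
  rw [Finset.coe_range, Set.mem_Iio]
  by_contra h
  apply hd
  have h1 : (PowerSeries.X : PowerSeries R) ^ d ∣ u ^ d :=
    pow_dvd_pow_of_dvd (PowerSeries.X_dvd_iff.mpr hu) d
  rw [(PowerSeries.X_pow_dvd_iff.mp h1) m (by omega), smul_zero]

theorem tendsC_of_eventually {C : Type*} [CommRing C] {I : Ideal C} {v : ℕ → C} {c : C}
    (h : ∀ j, ∃ M0, ∀ M ≥ M0, v M - c ∈ I ^ j) : TendsC I (hyperfilter ℕ) v c := by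
  intro j
  obtain ⟨M0, hM0⟩ := h j
  have h1 : ∀ᶠ M in atTop, v M - c ∈ I ^ j := eventually_atTop.mpr ⟨M0, hM0⟩
  rw [← Nat.cofinite_eq_atTop] at h1
  exact h1.filter_mono hyperfilter_le_cofinite

/-- **The limit identity.** -/
theorem star (hF : IsUniversalDeformation p n Γ F) [F.IsComm] {J : Ideal (E0 p n)}
    (hJ : IsInvariant p n F J) {C : Type} [CommRing C] [IsDomain C] [IsLocalRing C]
    [IsNoetherianRing C] (x : E0 p n →+* C) (hx : Function.Surjective x)
    (hJx : J ≤ RingHom.ker x) {e : ℕ} (he : 1 ≤ e)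
    (hm : IsLocalRing.maximalIdeal C ^ e ≤ Ideal.span {(p : C)}) (hp0 : (p : C) ≠ 0)
    (hfin : ∀ j, Finite (C ⧸ Ideal.span {(p : C)} ^ j))
    (hprec : ∀ f : ℕ → C, (∀ s, f (s + 1) - f s ∈ Ideal.span {(p : C)} ^ s) →
      ∃ l, ∀ s, l - f s ∈ Ideal.span {(p : C)} ^ s)
    (hhaus : ∀ z : C, (∀ s, z ∈ Ideal.span {(p : C)} ^ s) → z = 0)
    (L : Type) [Field L] [CharZero L] [Algebra C L]
    (hinj : Function.Injective (algebraMap C L))
    (b : PowerSeries (E0 p n)) (hb0 : PowerSeries.constantCoeff b = 0)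
    (hb : IsHom (Γ.map (algebraMap (ZMod p) (GaloisField p n)))
      (Γ.map (algebraMap (ZMod p) (GaloisField p n))) (PowerSeries.map (red p n) b)) :
    ∃ (α : C) (η : PowerSeries C) (δ : E0 p n → C), IsDerX x δ ∧ (∀ f ∈ J, δ f = 0) ∧
      ∀ m : ℕ, (p : L) ^ (e - 1) * PowerSeries.coeff m (logPt (F.map x) L Unit
          (pt (F.map x) (PowerSeries.map x b) (cc_map x hb0)) : PowerSeries L) +
        algebraMap C L (PowerSeries.coeff m η) +
        algebraMap C L (δ (PowerSeries.coeff (m - 1) (omega F))) / m =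
        algebraMap C L α * PowerSeries.coeff m (flog ((F.map x).map (algebraMap C L))) := by
  classical
  set I : Ideal C := Ideal.span {(p : C)} with hI
  set G := F.map x with hG
  set ι := algebraMap C L with hι
  set w := omega F with hw
  have hpp : p.Prime := Fact.out
  have hpm : (p : C) ∈ IsLocalRing.maximalIdeal C := p_mem_maximalIdeal x hx
  have hpM : ∀ M : ℕ, (p : C) ^ (M + 1) ≠ 0 := fun M => pow_ne_zero _ hp0
  have hpL : (p : L) ≠ 0 := by exact_mod_cast hpp.ne_zero
  choose φ ψ h2 h3 h4 using fun M => exists_step hF x hx he hm b hb0 hb M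
  have hδ' : ∀ (M : ℕ) (r : E0 p n), ∃ d : C, x (φ M r) = x r + (p : C) ^ (M + 1) * d := by
    intro M r
    have h := h3 M r
    rw [Ideal.span_singleton_pow, Ideal.mem_span_singleton'] at h
    obtain ⟨d, hd⟩ := h
    exact ⟨d, by rw [mul_comm, hd]; ring⟩
  choose δM hδM using hδ'
  have hMadd : ∀ M r s, δM M (r + s) = δM M r + δM M s := by
    intro M r s
    have h := hδM M (r + s)
    rw [map_add, map_add, map_add, hδM M r, hδM M s] at h
    have h5 : (p : C) ^ (M + 1) * (δM M (r + s)) = (p : C) ^ (M + 1) * (δM M r + δM M s) := by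
      linear_combination -h
    exact mul_left_cancel₀ (hpM M) h5
  have hMmul : ∀ M r s, δM M (r * s) = x r * δM M s + x s * δM M r +
      (p : C) ^ (M + 1) * (δM M r * δM M s) := by
    intro M r s
    have h := hδM M (r * s)
    rw [map_mul, map_mul, map_mul, hδM M r, hδM M s] at h
    have h5 : (p : C) ^ (M + 1) * (δM M (r * s)) = (p : C) ^ (M + 1) * (x r * δM M s +
        x s * δM M r + (p : C) ^ (M + 1) * (δM M r * δM M s)) := by
      linear_combination -h
    exact mul_left_cancel₀ (hpM M) h5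
  have hMJ : ∀ M, ∀ f ∈ J, δM M f = 0 := by
    intro M f hf
    have h5 : φ M f ∈ J := by
      have h6 := hJ (φ M) (ψ M) (h2 M)
      rw [← h6]
      exact Ideal.mem_map_of_mem _ hf
    have h7 := hδM M f
    rw [RingHom.mem_ker.mp (hJx hf), RingHom.mem_ker.mp (hJx h5), zero_add, eq_comm,
      mul_eq_zero] at h7
    exact h7.resolve_left (hpM M)
  set U : Ultrafilter ℕ := hyperfilter ℕ with hU
  choose δ hδ using fun r => exists_tendsC (U := U) hfin hprec (fun M => δM M r)
  have hpt : TendsC I U (fun M => (p : C) ^ (M + 1)) 0 := by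
    refine tendsC_of_eventually fun j => ⟨j, fun M hM => ?_⟩
    rw [sub_zero]
    exact Ideal.pow_le_pow_right (by omega) (Ideal.pow_mem_pow (Ideal.mem_span_singleton_self _) _)
  have hder : IsDerX x δ := by
    constructor
    · intro r s
      refine TendsC.unique hhaus (hδ (r + s)) ?_
      exact ((hδ r).add (hδ s)).congr fun M => (hMadd M r s).symm
    · intro r s
      refine TendsC.unique hhaus (hδ (r * s)) ?_
      have h5 := (((tendsC_const (x r)).mul (hδ s)).add ((tendsC_const (x s)).mul (hδ r))).add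
        (hpt.mul ((hδ r).mul (hδ s)))
      rw [zero_mul, add_zero] at h5
      exact h5.congr fun M => (hMmul M r s).symm
  have hJ0 : ∀ f ∈ J, δ f = 0 := by
    intro f hf
    refine TendsC.unique hhaus (hδ f) ?_
    exact (tendsC_const 0).congr fun M => (hMJ M f hf).symm
  -- the series
  have hψ0 : ∀ M, PowerSeries.constantCoeff (PowerSeries.map x (ψ M)) = 0 := fun M =>
    cc_map x (h2 M).1.1
  set z : ℕ → G.Point Unit := fun M => pt G (PowerSeries.map x (ψ M)) (hψ0 M) with hz
  set bC : G.Point Unit := pt G (PowerSeries.map x b) (cc_map x hb0) with hbC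
  have hβ : ∀ M, PowerSeries.map x (bser F b hb0 (M + e)) =
      (ptX G () + p ^ (M + e) • bC : G.Point Unit).val := by
    intro M
    have h5 : PowerSeries.map x (bser F b hb0 (M + e)) =
      (mapPt x (ptX F () + p ^ (M + e) • pt F b hb0 : F.Point Unit)).val := rfl
    rw [h5, map_add, map_nsmul]
    have h6 : mapPt x (ptX F ()) = (ptX G () : G.Point Unit) := Subtype.ext (map_X _ _)
    rw [h6]
    rfl
  have hlogX : logPt G L Unit (ptX G ()) = flog (G.map ι) := by
    rw [logPt_apply, ptX_val, map_X]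
    exact PowerSeries.X_subst _
  -- `η_M`
  have hη' : ∀ (M m : ℕ), ∃ η : C, PowerSeries.coeff m (logPt G L Unit (z M) : PowerSeries L) =
      PowerSeries.coeff m (flog (G.map ι)) + (p : L) ^ (M + e) *
        PowerSeries.coeff m (logPt G L Unit bC : PowerSeries L) +
        (p : L) ^ (M + 1) * ι η := by
    intro M m
    have h5 := h4 M
    rw [hβ M] at h5
    have h6 := logPt_sub_mem (L := L) G hpp hpm (Nat.le_add_left 1 M) (z M)
      (ptX G () + p ^ (M + e) • bC : G.Point Unit) h5 (Finsupp.single () m)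
    rw [mem_LI] at h6
    obtain ⟨r, hr, h6⟩ := h6
    rw [Ideal.span_singleton_pow, Ideal.mem_span_singleton'] at hr
    obtain ⟨η, rfl⟩ := hr
    refine ⟨η, ?_⟩
    rw [map_add, map_nsmul, hlogX, map_add, map_nsmul] at h6
    have h7 : PowerSeries.coeff m (logPt G L Unit (z M) : PowerSeries L) =
      MvPowerSeries.coeff (Finsupp.single () m) (logPt G L Unit (z M)) := rfl
    have h8 : PowerSeries.coeff m (logPt G L Unit bC : PowerSeries L) =
      MvPowerSeries.coeff (Finsupp.single () m) (logPt G L Unit bC) := rfl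
    have h9 : PowerSeries.coeff m (flog (G.map ι)) =
      MvPowerSeries.coeff (Finsupp.single () m) (flog (G.map ι)) := rfl
    rw [h7, h8, h9]
    rw [map_mul, map_pow, map_natCast, nsmul_eq_mul] at h6
    push_cast at h6
    linear_combination -h6
  choose ηM hηM using hη'
  -- `α_M`
  have hα' : ∀ M : ℕ, ∃ α : C, PowerSeries.coeff 1 (PowerSeries.map x (ψ M)) =
      1 + (p : C) ^ (M + 1) * α := by
    intro M
    have h5 := (mem_CI_ps.mp (h4 M)) 1
    have e2 : PowerSeries.constantCoeff (PowerSeries.subst (PowerSeries.map x b)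
        (multSeries G (p ^ (M + e))) : PowerSeries C) = 0 :=
      PowerSeries.constantCoeff_subst_eq_zero (cc_map x hb0) _ (FPt.constantCoeff_multSeries G _)
    rw [map_sub, map_bser, coeff_one_add PowerSeries.constantCoeff_X e2,
      coeff_one_subst (cc_map x hb0), coeff_one_multSeries, PowerSeries.coeff_one_X,
      Ideal.span_singleton_pow, Ideal.mem_span_singleton'] at h5
    obtain ⟨a, ha⟩ := h5
    obtain ⟨e', rfl⟩ : ∃ e', e = e' + 1 := ⟨e - 1, by omega⟩
    refine ⟨a + PowerSeries.coeff 1 (PowerSeries.map x b) * (p : C) ^ e', ?_⟩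
    have h6 : ((p ^ (M + (e' + 1)) : ℕ) : C) = (p : C) ^ (M + 1) * (p : C) ^ e' := by
      push_cast
      ring
    rw [h6] at ha
    linear_combination -ha
  choose αM hαM using hα'
  obtain ⟨α, hα⟩ := exists_tendsC (U := U) hfin hprec αM
  choose η hη using fun m => exists_tendsC (U := U) hfin hprec (fun M => ηM M m)
  refine ⟨α, PowerSeries.mk η, δ, hder, hJ0, ?_⟩
  -- the identity for finite `M`
  have hkey : ∀ M m : ℕ, (p : L) ^ (e - 1) *
      PowerSeries.coeff m (logPt G L Unit bC : PowerSeries L) + ι (ηM M m) +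
      ∑ d ∈ Finset.range (m + 1), ι (δM M (PowerSeries.coeff (d - 1) w) *
        PowerSeries.coeff m (PowerSeries.map x (ψ M) ^ d)) / d =
      ι (αM M) * PowerSeries.coeff m (flog (G.map ι)) := by
    intro M m
    have i1 := (h2 M).1.mapC (ι.comp x)
    have i2 := i1.compC (isHom_flog ((F.map (φ M : E0 p n →+* E0 p n)).map (ι.comp x)))
    have i3 := eq_flog_of_isHom i2
    rw [coeff_one_subst i1.1, coeff_one_flog, mul_one] at i3
    have i4 := congrArg (PowerSeries.coeff m) i3
    have hGy : F.map (ι.comp x) = G.map ι := (FG_map_map x ι).symm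
    rw [coeff_subst_range i1.1, PowerSeries.coeff_C_mul, hGy, ← ps_map_comp,
      PowerSeries.coeff_map, hαM M] at i4
    have k1 : ∀ d : ℕ, PowerSeries.coeff d
        (flog ((F.map (φ M : E0 p n →+* E0 p n)).map (ι.comp x))) =
        ι (x (PowerSeries.coeff (d - 1) w) + (p : C) ^ (M + 1) *
          δM M (PowerSeries.coeff (d - 1) w)) / d := by
      intro d
      rw [flog, PowerSeries.coeff_mk, ← map_omega, ← map_omega, PowerSeries.coeff_map,
        PowerSeries.coeff_map, ← hδM M]
      rfl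
    have k2 : ∀ d : ℕ, PowerSeries.coeff m ((PowerSeries.map ι (PowerSeries.map x (ψ M))) ^ d) =
        ι (PowerSeries.coeff m (PowerSeries.map x (ψ M) ^ d)) := by
      intro d
      rw [← map_pow, PowerSeries.coeff_map]
    have k3 : PowerSeries.coeff m (logPt G L Unit (z M) : PowerSeries L) =
        ∑ d ∈ Finset.range (m + 1), ι (x (PowerSeries.coeff (d - 1) w)) / d *
          ι (PowerSeries.coeff m (PowerSeries.map x (ψ M) ^ d)) := by
      have k4 : (logPt G L Unit (z M) : PowerSeries L) =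
          PowerSeries.subst (PowerSeries.map ι (PowerSeries.map x (ψ M))) (flog (G.map ι)) := rfl
      rw [k4, coeff_subst_range (cc_map ι (hψ0 M))]
      refine Finset.sum_congr rfl fun d _ => ?_
      rw [k2, coeff_flog_map, hG, ← map_omega, PowerSeries.coeff_map]
    have k5 : ∑ d ∈ Finset.range (m + 1), PowerSeries.coeff d
        (flog ((F.map (φ M : E0 p n →+* E0 p n)).map (ι.comp x))) *
        PowerSeries.coeff m ((PowerSeries.map ι (PowerSeries.map x (ψ M))) ^ d) =
        PowerSeries.coeff m (logPt G L Unit (z M) : PowerSeries L) + (p : L) ^ (M + 1) *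
        ∑ d ∈ Finset.range (m + 1), ι (δM M (PowerSeries.coeff (d - 1) w) *
          PowerSeries.coeff m (PowerSeries.map x (ψ M) ^ d)) / d := by
      rw [k3, Finset.mul_sum, ← Finset.sum_add_distrib]
      refine Finset.sum_congr rfl fun d _ => ?_
      rw [k1, k2]
      simp only [map_add, map_mul, map_pow, map_natCast]
      ring
    rw [k5, hηM M m, map_add, map_mul, map_one, map_pow, map_natCast] at i4
    have k6 : (p : L) ^ (M + e) = (p : L) ^ (M + 1) * (p : L) ^ (e - 1) := by
      rw [← pow_add]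
      congr 1
      omega
    rw [k6] at i4
    refine mul_left_cancel₀ (pow_ne_zero (M + 1) hpL) ?_
    linear_combination i4
  -- the limit
  have hψX : TendsP I U (fun M => PowerSeries.map x (ψ M)) PowerSeries.X := by
    intro m
    refine tendsC_of_eventually fun j => ⟨j + m, fun M hM => ?_⟩
    have l1 := (mem_CI_ps.mp (h4 M)) m
    have l2 : (ptX G () + p ^ (M + e) • bC : G.Point Unit).val - (ptX G () : G.Point Unit).val ∈
        NI I (M + e + 1) :=
      add_sub_mem_NI G _ _ (nsmul_pow_mem_NI G bC (cc_map x hb0) (M + e))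
    rw [← hβ M] at l2
    have l3 := mem_NI.mp l2 m
    rw [map_sub] at l1 l3
    have l4 := Ideal.add_mem _ (Ideal.pow_le_pow_right (show j ≤ M + 1 by omega) l1)
      (Ideal.pow_le_pow_right (show j ≤ M + e + 1 - m by omega) l3)
    have l5 : PowerSeries.coeff m (PowerSeries.map x (ψ M)) - PowerSeries.coeff m PowerSeries.X =
      (PowerSeries.coeff m (PowerSeries.map x (ψ M)) -
        PowerSeries.coeff m (PowerSeries.map x (bser F b hb0 (M + e)))) +
      (PowerSeries.coeff m (PowerSeries.map x (bser F b hb0 (M + e))) -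
        PowerSeries.coeff m (ptX G () : G.Point Unit).val) := by
      rw [sub_add_sub_cancel]
      rfl
    rw [l5]
    exact l4
  intro m
  rw [PowerSeries.coeff_mk]
  have n1 : TendsL L I U (fun M => (p : L) ^ (e - 1) *
      PowerSeries.coeff m (logPt G L Unit bC : PowerSeries L) + ι (ηM M m) +
      ∑ d ∈ Finset.range (m + 1), ι (δM M (PowerSeries.coeff (d - 1) w) *
        PowerSeries.coeff m (PowerSeries.map x (ψ M) ^ d)) / d)
      ((p : L) ^ (e - 1) * PowerSeries.coeff m (logPt G L Unit bC : PowerSeries L) + ι (η m) +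
      ∑ d ∈ Finset.range (m + 1), ι (δ (PowerSeries.coeff (d - 1) w) *
        PowerSeries.coeff m ((PowerSeries.X : PowerSeries C) ^ d)) / d) := by
    refine ((tendsL_const _).add (hη m).toL).add (tendsL_sum _ fun d _ => ?_)
    exact TendsL.div hpp hpm ((hδ _).mul (hψX.pow d m)).toL d
  have n2 : TendsL L I U (fun M => ι (αM M) * PowerSeries.coeff m (flog (G.map ι)))
      (ι α * PowerSeries.coeff m (flog (G.map ι))) := by
    have n3 : TendsL L I U (fun M => ι (αM M * PowerSeries.coeff (m - 1) (omega G)) / m)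
        (ι (α * PowerSeries.coeff (m - 1) (omega G)) / m) :=
      TendsL.div hpp hpm (hα.mul (tendsC_const _)).toL m
    have n4 : ∀ a : C, ι (a * PowerSeries.coeff (m - 1) (omega G)) / m =
        ι a * PowerSeries.coeff m (flog (G.map ι)) := by
      intro a
      rw [coeff_flog_map, map_mul]
      ring
    simp only [n4] at n3
    exact n3
  simp only [hkey] at n1
  have n5 := TendsL.unique hinj hhaus n1 n2
  rw [← n5]
  congr 1
  have n6 : ∑ d ∈ Finset.range (m + 1), ι (δ (PowerSeries.coeff (d - 1) w) *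
      PowerSeries.coeff m ((PowerSeries.X : PowerSeries C) ^ d)) / d =
      ι (δ (PowerSeries.coeff (m - 1) w)) / m := by
    rw [Finset.sum_eq_single m]
    · rw [PowerSeries.coeff_X_pow, if_pos rfl, mul_one]
    · intro d _ hd
      rw [PowerSeries.coeff_X_pow, if_neg (Ne.symm hd), mul_zero, map_zero, zero_div]
    · intro h
      exact absurd (Finset.mem_range.mpr (Nat.lt_succ_self m)) h
  exact n6.symm

end Star

end Vale.Agent.P217.C0
end
end

section

section

/-!
# P217: the cyclotomic relation in the group of points of a formal group over a field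
-/

namespace Vale.Agent.P217.FA

open MvPowerSeries

section Hom

variable {R S : Type*} [CommRing R] [CommRing S] {F G : FormalGroup R} {τ : Type*}

theorem IsHom_subst_add {f : PowerSeries R} (h : IsHom F G f)
    {a b : MvPowerSeries τ R} (ha : constantCoeff a = 0) (hb : constantCoeff b = 0) :
    PowerSeries.subst (F.toPowerSeries.subst ![a, b]) f =
      G.toPowerSeries.subst ![PowerSeries.subst a f, PowerSeries.subst b f] := by
  have hab := hasSubst_cons ha hb
  have h1 := congrArg (MvPowerSeries.subst ![a, b]) h.2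
  have c0 : constantCoeff (PowerSeries.subst (X 0 : MvPowerSeries (Fin 2) R) f) = 0 :=
    PowerSeries.constantCoeff_subst_eq_zero (by simp) f h.1
  have c1 : constantCoeff (PowerSeries.subst (X 1 : MvPowerSeries (Fin 2) R) f) = 0 :=
    PowerSeries.constantCoeff_subst_eq_zero (by simp) f h.1
  rw [subst_comp_subst_apply (hasSubst_cons c0 c1) hab, PowerSeries.subst_def,
    subst_comp_subst_apply (hs F.zero_constantCoeff).const hab] at h1
  rw [PowerSeries.subst_def, h1]
  congr 1
  funext i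
  fin_cases i
  · change MvPowerSeries.subst ![a, b] (PowerSeries.subst (X 0 : MvPowerSeries (Fin 2) R) f) = _
    rw [PowerSeries.subst_def, subst_comp_subst_apply (PowerSeries.HasSubst.X 0).const hab,
      subst_X hab]
    rfl
  · change MvPowerSeries.subst ![a, b] (PowerSeries.subst (X 1 : MvPowerSeries (Fin 2) R) f) = _
    rw [PowerSeries.subst_def, subst_comp_subst_apply (PowerSeries.HasSubst.X 1).const hab,
      subst_X hab]
    rfl

/-- a homomorphism of formal groups on points. -/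
noncomputable def ZPt.hom [F.IsComm] [G.IsComm] {f : PowerSeries R} (h : IsHom F G f) :
    ZPt F τ →+ ZPt G τ where
  toFun a := ZPt.mk G (PowerSeries.subst a.val f)
    (PowerSeries.constantCoeff_subst_eq_zero a.constantCoeff_val f h.1)
  map_zero' := by
    apply ZPt.ext
    exact PowerSeries.subst_zero_of_constantCoeff_zero h.1
  map_add' a b := by
    apply ZPt.ext
    exact IsHom_subst_add h a.constantCoeff_val b.constantCoeff_val

theorem ZPt.hom_val [F.IsComm] [G.IsComm] {f : PowerSeries R} (h : IsHom F G f) (a : ZPt F τ) :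
    (ZPt.hom h a).val = PowerSeries.subst a.val f := rfl

end Hom

section Cyc

variable {k : Type*} [Field k] {G : FormalGroup k}

theorem exists_add_decomp (G : FormalGroup k) (a b : ZPt G Unit) :
    ∃ h : PowerSeries k, ((a + b).val : PowerSeries k) = a.val + b.val + a.val * b.val * h := by
  obtain ⟨H, hH⟩ := exists_FG_decomp G
  have h := hasSubst_cons (τ := Unit) a.constantCoeff_val b.constantCoeff_val
  refine ⟨H.subst ![a.val, b.val], ?_⟩
  rw [ZPt.val_add, hH, ← sHom_apply h, map_add, map_add, map_mul, map_mul, sHom_X, sHom_X,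
    sHom_apply]
  rfl

theorem X_dvd_val (a : ZPt G Unit) : (PowerSeries.X : PowerSeries k) ∣ a.val :=
  PowerSeries.X_dvd_iff.mpr a.constantCoeff_val

/-- points divisible by `X^N`. -/
noncomputable def ZPt.div (G : FormalGroup k) [G.IsComm] (N : ℕ) :
    AddSubgroup (ZPt G Unit) where
  carrier := {a | (PowerSeries.X : PowerSeries k) ^ N ∣ a.val}
  zero_mem' := dvd_zero _
  add_mem' := by
    intro a b ha hb
    obtain ⟨h, hh⟩ := exists_add_decomp G a b
    change (PowerSeries.X : PowerSeries k) ^ N ∣ (a + b).val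
    rw [hh]
    exact dvd_add (dvd_add ha hb) ((ha.mul_right _).mul_right _)
  neg_mem' := by
    intro a ha
    obtain ⟨h, hh⟩ := exists_add_decomp G a (-a)
    rw [add_neg_cancel, ZPt.val_zero] at hh
    have h1 : (-a).val * (1 + a.val * h) = -(a.val : PowerSeries k) := by
      linear_combination -hh
    have h2 : IsUnit (1 + (a.val : PowerSeries k) * h) := by
      rw [PowerSeries.isUnit_iff_constantCoeff, map_add, map_mul, map_one]
      have : PowerSeries.constantCoeff (a.val : PowerSeries k) = 0 := a.constantCoeff_val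
      rw [this, zero_mul, add_zero]
      exact isUnit_one
    change (PowerSeries.X : PowerSeries k) ^ N ∣ (-a).val
    rw [← h2.dvd_mul_right, h1, dvd_neg]
    exact ha

theorem ZPt.mem_div [G.IsComm] {N : ℕ} {a : ZPt G Unit} :
    a ∈ ZPt.div G N ↔ (PowerSeries.X : PowerSeries k) ^ N ∣ a.val := Iff.rfl

/-- the leading coefficient. -/
noncomputable def ZPt.lead (G : FormalGroup k) [G.IsComm] (N : ℕ) :
    ZPt.div G N →+ k where
  toFun a := PowerSeries.coeff N a.1.val
  map_zero' := by
    change PowerSeries.coeff N (0 : PowerSeries k) = 0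
    exact map_zero _
  map_add' a b := by
    obtain ⟨h, hh⟩ := exists_add_decomp G a.1 b.1
    change PowerSeries.coeff N (a.1 + b.1).val = _
    rw [hh, map_add, map_add]
    have h1 : PowerSeries.coeff N ((a.1.val : PowerSeries k) * b.1.val * h) = 0 := by
      have h2 : (PowerSeries.X : PowerSeries k) ^ (N + 1) ∣ (a.1.val : PowerSeries k) * b.1.val :=
        by rw [pow_succ]; exact mul_dvd_mul a.2 (X_dvd_val b.1)
      exact (PowerSeries.X_pow_dvd_iff.mp (h2.mul_right h)) N (Nat.lt_succ_self N)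
    rw [h1, add_zero]

theorem ZPt.lead_apply [G.IsComm] {N : ℕ} (a : ZPt.div G N) :
    ZPt.lead G N a = PowerSeries.coeff N a.1.val := rfl

section End

variable {M : Type*} [AddCommGroup M] (f g : AddMonoid.End M) (a : M)

theorem end_mul_apply : (f * g) a = f (g a) := rfl

theorem end_add_apply : (f + g) a = f a + g a := rfl

theorem end_sub_apply : (f - g) a = f a - g a := rfl

theorem end_sum_apply {ι : Type*} (s : Finset ι) (F : ι → AddMonoid.End M) :
    (∑ i ∈ s, F i) a = ∑ i ∈ s, F i a := by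
  classical
  induction s using Finset.induction_on with
  | empty => rfl
  | insert i s hi ih => rw [Finset.sum_insert hi, Finset.sum_insert hi, end_add_apply, ih]

end End

variable [G.IsComm] {ζ : k}

theorem hom_C_mul_val (h : IsHom G G (PowerSeries.C ζ * PowerSeries.X)) (a : ZPt G Unit) :
    (ZPt.hom h a).val = PowerSeries.C ζ * a.val := by
  rw [ZPt.hom_val, psubst_C_mul _ _ a.constantCoeff_val, PowerSeries.subst_X
    (hs a.constantCoeff_val)]
  rfl

/-- multiplication by `ζ` as an endomorphism of the group of points. -/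
noncomputable def mulEnd (h : IsHom G G (PowerSeries.C ζ * PowerSeries.X)) :
    AddMonoid.End (ZPt G Unit) := ZPt.hom h

theorem mulEnd_val (h : IsHom G G (PowerSeries.C ζ * PowerSeries.X)) (a : ZPt G Unit) :
    (mulEnd h a).val = PowerSeries.C ζ * a.val := hom_C_mul_val h a

theorem mulEnd_pow_val (h : IsHom G G (PowerSeries.C ζ * PowerSeries.X)) (a : ZPt G Unit)
    (j : ℕ) : ((mulEnd h ^ j) a).val = PowerSeries.C (ζ ^ j) * a.val := by
  induction j with
  | zero => simp
  | succ j ih =>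
    rw [pow_succ', end_mul_apply, mulEnd_val, ih, ← mul_assoc, ← map_mul, pow_succ']

theorem aeval_mem_div (h : IsHom G G (PowerSeries.C ζ * PowerSeries.X)) {N : ℕ}
    (P : Polynomial ℤ) (a : ZPt G Unit) (ha : a ∈ ZPt.div G N) :
    ∃ hm : Polynomial.aeval (mulEnd h) P a ∈ ZPt.div G N,
      ZPt.lead G N ⟨_, hm⟩ = Polynomial.aeval ζ P * ZPt.lead G N ⟨a, ha⟩ := by
  induction P using Polynomial.induction_on' with
  | add P Q hP hQ =>
    obtain ⟨h1, h2⟩ := hP
    obtain ⟨h3, h4⟩ := hQ
    rw [map_add, map_add, end_add_apply]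
    refine ⟨(ZPt.div G N).add_mem h1 h3, ?_⟩
    rw [add_mul, ← h2, ← h4, ← map_add]
    rfl
  | monomial j c =>
    rw [← Polynomial.C_mul_X_pow_eq_monomial, map_mul, map_mul, map_pow, map_pow,
      Polynomial.aeval_X, Polynomial.aeval_X, Polynomial.aeval_C, Polynomial.aeval_C]
    have h1 : (mulEnd h ^ j) a ∈ ZPt.div G N := by
      rw [ZPt.mem_div, mulEnd_pow_val]
      exact (ZPt.mem_div.mp ha).mul_left _
    have h2 : (algebraMap ℤ (AddMonoid.End (ZPt G Unit)) c * mulEnd h ^ j) a =
        c • ((mulEnd h ^ j) a) := by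
      rw [← Algebra.smul_def]
      rfl
    rw [h2]
    refine ⟨(ZPt.div G N).zsmul_mem h1 c, ?_⟩
    have h3 : (⟨c • ((mulEnd h ^ j) a), (ZPt.div G N).zsmul_mem h1 c⟩ : ZPt.div G N) =
        c • (⟨(mulEnd h ^ j) a, h1⟩ : ZPt.div G N) := rfl
    have h4 : ((mulEnd h ^ j) a).val = PowerSeries.C (ζ ^ j) * a.val := mulEnd_pow_val h a j
    rw [h3, map_zsmul, ZPt.lead_apply, ZPt.lead_apply, h4, PowerSeries.coeff_C_mul,
      eq_intCast, zsmul_eq_mul]
    ring

/-- the cyclotomic relation. -/
theorem aeval_cyclotomic_eq_zero {m : ℕ} (hm : (m : k) ≠ 0) (hζ : IsPrimitiveRoot ζ m)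
    (h : IsHom G G (PowerSeries.C ζ * PowerSeries.X)) (a : ZPt G Unit) :
    Polynomial.aeval (mulEnd h) (Polynomial.cyclotomic m ℤ) a = 0 := by
  have hm0 : m ≠ 0 := by rintro rfl; simp at hm
  obtain ⟨Ψ, hΨ⟩ := Polynomial.cyclotomic.dvd_X_pow_sub_one m ℤ
  have hΦζ : Polynomial.aeval ζ (Polynomial.cyclotomic m ℤ) = 0 := by
    have : NeZero ((m : ℕ) : k) := ⟨hm⟩
    have h1 := (Polynomial.isRoot_cyclotomic_iff (n := m) (R := k) (μ := ζ)).mpr hζ
    rw [Polynomial.aeval_def, Polynomial.eval₂_eq_eval_map, Polynomial.map_cyclotomic]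
    exact h1
  have hΨζ : Polynomial.aeval ζ Ψ ≠ 0 := by
    intro h0
    have h1 := congrArg (fun P : Polynomial ℤ => Polynomial.aeval ζ (Polynomial.derivative P)) hΨ
    simp only [Polynomial.derivative_mul, map_add, map_mul, h0, hΦζ, mul_zero, zero_mul,
      add_zero] at h1
    rw [Polynomial.derivative_sub, Polynomial.derivative_X_pow, Polynomial.derivative_one,
      sub_zero, map_mul, map_pow, Polynomial.aeval_X, Polynomial.aeval_C] at h1
    have hζ0 : ζ ≠ 0 := hζ.ne_zero hm0
    rw [eq_intCast, Int.cast_natCast] at h1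
    exact (mul_ne_zero hm (pow_ne_zero _ hζ0)) h1
  set v := Polynomial.aeval (mulEnd h) (Polynomial.cyclotomic m ℤ) a with hv
  have h2 : Polynomial.aeval (mulEnd h) Ψ v = 0 := by
    rw [hv, ← end_mul_apply, ← map_mul, mul_comm, ← hΨ, map_sub, map_pow,
      Polynomial.aeval_X, map_one]
    apply ZPt.ext
    have h3 : (mulEnd h ^ m) a = a := by
      apply ZPt.ext
      rw [mulEnd_pow_val, hζ.pow_eq_one, map_one, one_mul]
    rw [end_sub_apply, h3, AddMonoid.End.one_apply, sub_self]
  by_contra hne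
  have hv0 : (v.val : PowerSeries k) ≠ 0 := fun h4 => hne (ZPt.ext h4)
  obtain ⟨N, hN1, hN2⟩ : ∃ N, PowerSeries.coeff N (v.val : PowerSeries k) ≠ 0 ∧
      ∀ i < N, PowerSeries.coeff i (v.val : PowerSeries k) = 0 := by
    classical
    have hex : ∃ m, PowerSeries.coeff m (v.val : PowerSeries k) ≠ 0 := by
      by_contra h
      push Not at h
      exact hv0 (PowerSeries.ext fun m => by simpa using h m)
    exact ⟨Nat.find hex, Nat.find_spec hex, fun i hi => by simpa using Nat.find_min hex hi⟩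
  have hN : 1 ≤ N := by
    rcases Nat.eq_zero_or_pos N with rfl | h
    · exfalso
      apply hN1
      rw [PowerSeries.coeff_zero_eq_constantCoeff_apply]
      exact v.constantCoeff_val
    · exact h
  have hvN : v ∈ ZPt.div G N := PowerSeries.X_pow_dvd_iff.mpr hN2
  obtain ⟨h5, h6⟩ := aeval_mem_div h Ψ v hvN
  rw [ZPt.lead_apply, ZPt.lead_apply] at h6
  simp only [h2, ZPt.val_zero] at h6
  have h7 : (0 : k) = Polynomial.aeval ζ Ψ * PowerSeries.coeff N (v.val : PowerSeries k) := by
    rw [← h6]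
    exact (map_zero _).symm
  exact (mul_ne_zero hΨζ hN1) h7.symm

end Cyc

end Vale.Agent.P217.FA
end
end

section

section

/-!
# P217: characteristic zero part, cyclotomic relation between the endomorphisms `[ζ]`
-/

namespace Vale.Agent.P217.C0

open MvPowerSeries Vale.Agent.P217

theorem cc_C_mul_X {R : Type*} [CommRing R] (a : R) :
    PowerSeries.constantCoeff (PowerSeries.C a * PowerSeries.X : PowerSeries R) = 0 := by
  simp

/-- comparison of the two groups of points. -/
noncomputable def zptToPoint {R : Type*} [CommRing R] (G : FormalGroup R) [G.IsComm]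
    (τ : Type*) : FA.ZPt G τ →+ G.Point τ where
  toFun a := ⟨a.val, hasSubst_of_cc a.constantCoeff_val⟩
  map_zero' := rfl
  map_add' _ _ := rfl

/-- In the formal group `G` over a field with endomorphism `ζ X`, `ζ` a primitive `N`-th root of
unity (`N` invertible), `Φ_N(ζ) = 0` holds in the endomorphism ring: `∑_G [c_j](ζ^j X) = 0` where
`Φ_N = ∑ c_j x^j`. -/
theorem cyclotomic_relation {k : Type*} [Field k] (G : FormalGroup k) [G.IsComm] (ζ : k) {N : ℕ}
    (hN : (N : k) ≠ 0) (hζ : IsPrimitiveRoot ζ N)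
    (hhom : IsHom G G (PowerSeries.C ζ * PowerSeries.X)) :
    ((Polynomial.cyclotomic N ℤ).sum fun j c =>
      c • pt G (PowerSeries.C (ζ ^ j) * PowerSeries.X) (cc_C_mul_X _)) = 0 := by
  obtain ⟨a, ha⟩ : ∃ a : FA.ZPt G Unit, a.val = (PowerSeries.X : PowerSeries k) :=
    ⟨FA.ZPt.mk G (PowerSeries.X : PowerSeries k) PowerSeries.constantCoeff_X, rfl⟩
  have h := FA.aeval_cyclotomic_eq_zero hN hζ hhom a
  have h1 : ((Polynomial.cyclotomic N ℤ).sum fun j c => c • (FA.mulEnd hhom ^ j) a) = 0 := by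
    rw [← h, Polynomial.aeval_eq_sum_range, Polynomial.sum_over_range, FA.end_sum_apply]
    · rfl
    · intro j
      exact zero_smul _ _
  have h2 := congrArg (zptToPoint G Unit) h1
  rw [map_zero, Polynomial.sum, map_sum] at h2
  rw [Polynomial.sum, ← h2]
  refine Finset.sum_congr rfl fun j _ => ?_
  rw [map_zsmul]
  congr 1
  apply Subtype.ext
  have h3 := FA.mulEnd_pow_val hhom a j
  rw [ha] at h3
  exact h3.symm

end Vale.Agent.P217.C0
end
end

section

section

/-!
# P217: the Honda formal group law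
-/

namespace Vale.Agent.P217.FA

open MvPowerSeries

section Log

variable (p n : ℕ) [hp : Fact p.Prime]

theorem one_lt_pow_n (hn : 1 ≤ n) : 1 < p ^ n := Nat.one_lt_pow (by omega) hp.out.one_lt

theorem coeff_hondaLog_pow (hn : 1 ≤ n) (i : ℕ) :
    PowerSeries.coeff (p ^ (n * i)) (hondaLog p n) = ((p : ℚ_[p]) ^ i)⁻¹ := by
  rw [hondaLog, PowerSeries.coeff_mk, Finset.sum_eq_single i]
  · simp
  · intro j _ hj
    rw [if_neg]
    intro h
    have := Nat.pow_right_injective hp.out.two_le h
    exact hj (Nat.eq_of_mul_eq_mul_left (by omega) this).symm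
  · intro h
    exfalso
    apply h
    rw [Finset.mem_range]
    have h1 : i < p ^ i := Nat.lt_pow_self hp.out.one_lt
    have h2 : p ^ i ≤ p ^ (n * i) := Nat.pow_le_pow_right hp.out.pos (Nat.le_mul_of_pos_left i hn)
    omega

theorem coeff_hondaLog_eq_zero (m : ℕ) (hm : ∀ i, m ≠ p ^ (n * i)) :
    PowerSeries.coeff m (hondaLog p n) = 0 := by
  rw [hondaLog, PowerSeries.coeff_mk]
  exact Finset.sum_eq_zero fun i _ => by rw [if_neg (hm i)]

theorem hondaLog_zero : PowerSeries.constantCoeff (hondaLog p n) = 0 := by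
  rw [← PowerSeries.coeff_zero_eq_constantCoeff_apply]
  exact coeff_hondaLog_eq_zero p n 0 fun i => (pow_pos hp.out.pos _).ne

theorem hondaLog_one (hn : 1 ≤ n) : PowerSeries.coeff 1 (hondaLog p n) = 1 := by
  simpa using coeff_hondaLog_pow p n hn 0

/-- the functional equation `p l(X) = p X + l(X^q)`. -/
theorem honda_fe (hn : 1 ≤ n) : PowerSeries.C (p : ℚ_[p]) * hondaLog p n =
    PowerSeries.C (p : ℚ_[p]) * PowerSeries.X +
      PowerSeries.subst (PowerSeries.X ^ (p ^ n) : PowerSeries ℚ_[p]) (hondaLog p n) := by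
  have hp0 : (p : ℚ_[p]) ≠ 0 := by exact_mod_cast hp.out.ne_zero
  have hq : p ^ n ≠ 0 := (pow_pos hp.out.pos _).ne'
  ext m
  rw [map_add, PowerSeries.coeff_C_mul, PowerSeries.coeff_C_mul,
    PowerSeries.coeff_subst_X_pow hq]
  by_cases hm : ∃ i, m = p ^ (n * i)
  · obtain ⟨i, rfl⟩ := hm
    rcases Nat.eq_zero_or_pos i with rfl | hi
    · rw [coeff_hondaLog_pow p n hn]
      have : ¬ p ^ n ∣ 1 := by
        rw [Nat.dvd_one]
        exact (one_lt_pow_n p n hn).ne'
      simp [this]
    · obtain ⟨j, rfl⟩ : ∃ j, i = j + 1 := ⟨i - 1, by omega⟩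
      have hdiv : p ^ (n * (j + 1)) / p ^ n = p ^ (n * j) := by
        rw [mul_add, mul_one, pow_add, Nat.mul_div_cancel _ (pow_pos hp.out.pos _)]
      have hdvd : p ^ n ∣ p ^ (n * (j + 1)) := by
        rw [mul_add, mul_one, pow_add]
        exact dvd_mul_left _ _
      have hne : p ^ (n * (j + 1)) ≠ 1 :=
        (Nat.one_lt_pow (Nat.mul_ne_zero (by omega) (by omega)) hp.out.one_lt).ne'
      rw [if_pos hdvd, hdiv, coeff_hondaLog_pow p n hn, coeff_hondaLog_pow p n hn,
        PowerSeries.coeff_X, if_neg hne, Algebra.algebraMap_self, RingHom.id_apply, pow_succ,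
        mul_zero, zero_add, mul_inv]
      field_simp
  · push Not at hm
    rw [coeff_hondaLog_eq_zero p n m hm, mul_zero, PowerSeries.coeff_X, if_neg (by
      simpa using hm 0), mul_zero, zero_add]
    split_ifs with hd
    · obtain ⟨k, rfl⟩ := hd
      rw [Nat.mul_div_cancel_left _ (pow_pos hp.out.pos _)]
      rw [coeff_hondaLog_eq_zero p n k, map_zero]
      rintro i rfl
      apply hm (i + 1)
      ring
    · rfl

end Log

section Main

variable {p n : ℕ} [hp : Fact p.Prime]

theorem pow_dvd_coeff_pow {R : Type*} [CommRing R] (π : R) (E : PowerSeries R) (m : ℕ)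
    (hE : ∀ i < m, π ∣ PowerSeries.coeff i E) :
    ∀ s N k, N < m * (s + 1 - k) → π ^ k ∣ PowerSeries.coeff N (E ^ s) := by
  intro s
  induction s with
  | zero =>
    intro N k h
    rcases Nat.eq_zero_or_pos k with rfl | hk
    · simp
    · have : 0 + 1 - k = 0 := by omega
      rw [this, mul_zero] at h
      omega
  | succ s ih =>
    intro N k h
    rcases Nat.eq_zero_or_pos k with rfl | hk
    · simp
    obtain ⟨k, rfl⟩ : ∃ j, k = j + 1 := ⟨k - 1, by omega⟩
    rw [pow_succ' E, PowerSeries.coeff_mul]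
    refine Finset.dvd_sum fun ij hij => ?_
    rw [Finset.HasAntidiagonal.mem_antidiagonal] at hij
    rcases lt_or_ge ij.1 m with hi | hi
    · rw [pow_succ']
      refine mul_dvd_mul (hE _ hi) (ih _ _ ?_)
      have : s + 1 + 1 - (k + 1) = s + 1 - k := by omega
      rw [this] at h
      omega
    · refine (ih ij.2 (k + 1) ?_).mul_left _
      have h1 : s + 1 + 1 - (k + 1) = s + 1 - k := by omega
      rw [h1] at h
      rcases Nat.lt_or_ge k (s + 1) with hks | hks
      · obtain ⟨j, hj⟩ : ∃ j, s + 1 - k = j + 1 := ⟨s - k, by omega⟩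
        have h2 : s + 1 - (k + 1) = j := by omega
        rw [hj, mul_add, mul_one] at h
        rw [h2]
        omega
      · have : s + 1 - k = 0 := by omega
        rw [this, mul_zero] at h
        omega

theorem aux_ineq {q : ℕ} (hq : 2 ≤ q) (i : ℕ) : q + (i + 2) ≤ q ^ (i + 2) := by
  have h1 : i + 1 < 2 ^ (i + 1) := Nat.lt_two_pow_self
  have h2 : 2 ^ (i + 1) ≤ q ^ (i + 1) := Nat.pow_le_pow_left hq _
  calc q + (i + 2) ≤ q * (i + 2) := by nlinarith
    _ ≤ q * q ^ (i + 1) := Nat.mul_le_mul_left _ (by omega)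
    _ = q ^ (i + 2) := by ring

theorem psubst_X_pow_comp {R : Type*} [CommRing R] {N : ℕ} (hN : N ≠ 0) (l : PowerSeries R)
    {E : PowerSeries R} (hE : PowerSeries.constantCoeff E = 0) :
    PowerSeries.subst E (PowerSeries.subst (PowerSeries.X ^ N : PowerSeries R) l :
      PowerSeries R) = PowerSeries.subst (E ^ N) l := by
  rw [psubst_comp (by rw [map_pow, PowerSeries.constantCoeff_X, zero_pow hN]) hE,
    PowerSeries.subst_pow (hs hE), PowerSeries.subst_X (hs hE)]

theorem honda_fe_subst (hn : 1 ≤ n) {E : PowerSeries ℚ_[p]}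
    (hE : PowerSeries.constantCoeff E = 0) :
    PowerSeries.C (p : ℚ_[p]) * PowerSeries.subst E (hondaLog p n) =
      PowerSeries.C (p : ℚ_[p]) * E + PowerSeries.subst (E ^ (p ^ n)) (hondaLog p n) := by
  have h := congrArg (PowerSeries.subst (R := ℚ_[p]) E) (honda_fe p n hn)
  rw [PowerSeries.subst_mul (hs hE), PowerSeries.subst_add (hs hE),
    PowerSeries.subst_mul (hs hE), PowerSeries.subst_X (hs hE),
    psubst_X_pow_comp (pow_pos hp.out.pos _).ne' _ hE] at h
  have hC : (PowerSeries.subst E (PowerSeries.C (p : ℚ_[p])) : PowerSeries ℚ_[p]) =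
      PowerSeries.C (p : ℚ_[p]) := PowerSeries.subst_C _
  rw [hC] at h
  exact h

theorem toZMod_eq_zero_of_log (hn : 1 ≤ n) (E : PowerSeries ℤ_[p])
    (hE0 : PowerSeries.constantCoeff E = 0)
    (hE : (PowerSeries.subst (E.map (algebraMap ℤ_[p] ℚ_[p])) (hondaLog p n) :
      PowerSeries ℚ_[p]) = PowerSeries.C (p : ℚ_[p]) * PowerSeries.X) :
    E.map (PadicInt.toZMod (p := p)) = 0 := by
  classical
  have hq2 : 2 ≤ p ^ n := one_lt_pow_n p n hn
  have hpQ : (p : ℚ_[p]) ≠ 0 := by exact_mod_cast hp.out.ne_zero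
  set q := p ^ n with hq
  set EQ : PowerSeries ℚ_[p] := E.map (algebraMap ℤ_[p] ℚ_[p]) with hEQ
  have hEQ0 : PowerSeries.constantCoeff EQ = 0 := by
    rw [hEQ, ← PowerSeries.coeff_zero_eq_constantCoeff_apply, PowerSeries.coeff_map,
      PowerSeries.coeff_zero_eq_constantCoeff_apply, hE0, map_zero]
  have hEQq : PowerSeries.constantCoeff (EQ ^ q) = 0 := by
    rw [map_pow, hEQ0, zero_pow (by omega)]
  have hEQqq : PowerSeries.constantCoeff (EQ ^ (q * q)) = 0 := by
    rw [map_pow, hEQ0, zero_pow (by positivity)]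
  have e1 := honda_fe_subst (p := p) hn hEQ0
  have e2 := honda_fe_subst (p := p) hn hEQq
  rw [← hq] at e1 e2
  rw [hE] at e1
  rw [← pow_mul] at e2
  by_contra hne
  obtain ⟨m, hm, hmin⟩ : ∃ m, PowerSeries.coeff m (E.map (PadicInt.toZMod (p := p))) ≠ 0 ∧
      ∀ i < m, PowerSeries.coeff i (E.map (PadicInt.toZMod (p := p))) = 0 := by
    have hex : ∃ m, PowerSeries.coeff m (E.map (PadicInt.toZMod (p := p))) ≠ 0 := by
      by_contra h
      push Not at h
      exact hne (by ext m; simpa using h m)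
    refine ⟨Nat.find hex, Nat.find_spec hex, fun i hi => ?_⟩
    have := Nat.find_min hex hi
    simpa using this
  have hm0 : 0 < m := by
    rcases Nat.eq_zero_or_pos m with rfl | h
    · exfalso
      apply hm
      rw [PowerSeries.coeff_map, PowerSeries.coeff_zero_eq_constantCoeff_apply, hE0, map_zero]
    · exact h
  have hdvd : ∀ x : ℤ_[p], PadicInt.toZMod x = 0 → (p : ℤ_[p]) ∣ x := by
    intro x hx
    have : x ∈ RingHom.ker (PadicInt.toZMod (p := p)) := hx
    rwa [PadicInt.ker_toZMod, PadicInt.maximalIdeal_eq_span_p, Ideal.mem_span_singleton] at this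
  have hlow : ∀ i < m, (p : ℤ_[p]) ∣ PowerSeries.coeff i E := fun i hi =>
    hdvd _ (by simpa using hmin i hi)
  set N := m * q with hN
  have hN1 : N ≠ 1 := by
    have : 2 ≤ N := by rw [hN]; nlinarith
    omega
  -- the last term
  obtain ⟨z, hz⟩ : ∃ z : ℤ_[p], (p : ℚ_[p]) ^ 2 * (z : ℚ_[p]) =
      PowerSeries.coeff N (PowerSeries.subst (EQ ^ (q * q)) (hondaLog p n) :
        PowerSeries ℚ_[p]) := by
    rw [PowerSeries.coeff_subst' (hs hEQqq)]
    refine finsum_induction (fun x : ℚ_[p] => ∃ z : ℤ_[p], (p : ℚ_[p]) ^ 2 * (z : ℚ_[p]) = x)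
      ⟨0, by simp⟩ ?_ ?_
    · rintro _ _ ⟨a, rfl⟩ ⟨b, rfl⟩
      exact ⟨a + b, by push_cast; ring⟩
    · intro d
      by_cases hd : ∃ i, d = p ^ (n * i)
      · obtain ⟨i, rfl⟩ := hd
        rw [coeff_hondaLog_pow p n hn]
        have h1 : (p : ℤ_[p]) ^ (i + 2) ∣ PowerSeries.coeff N (E ^ (q ^ (i + 2))) := by
          refine pow_dvd_coeff_pow _ E m hlow _ _ _ ?_
          rw [hN]
          refine Nat.mul_lt_mul_of_pos_left ?_ hm0
          have := aux_ineq hq2 i
          omega
        obtain ⟨w, hw⟩ := h1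
        refine ⟨w, ?_⟩
        have h2 : (EQ ^ (q * q)) ^ (p ^ (n * i)) = EQ ^ (q ^ (i + 2)) := by
          rw [← pow_mul, pow_mul p n i, ← hq]
          congr 1
          ring
        have h3 : PowerSeries.coeff N (EQ ^ (q ^ (i + 2))) =
            ((PowerSeries.coeff N (E ^ (q ^ (i + 2))) : ℤ_[p]) : ℚ_[p]) := by
          rw [hEQ, ← map_pow, PowerSeries.coeff_map]
          rfl
        rw [h2, h3, hw]
        push_cast
        rw [smul_eq_mul]
        field_simp
        ring
      · push Not at hd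
        rw [coeff_hondaLog_eq_zero p n d hd, zero_smul]
        exact ⟨0, by simp⟩
  have c1 := congrArg (PowerSeries.coeff N) e1
  have c2 := congrArg (PowerSeries.coeff N) e2
  rw [map_add, PowerSeries.coeff_C_mul, PowerSeries.coeff_C_mul, PowerSeries.coeff_C_mul,
    PowerSeries.coeff_X, if_neg hN1] at c1
  rw [map_add, PowerSeries.coeff_C_mul, PowerSeries.coeff_C_mul, ← hz] at c2
  have h3 : PowerSeries.coeff N (EQ ^ q) =
      ((PowerSeries.coeff N (E ^ q) : ℤ_[p]) : ℚ_[p]) := by
    rw [hEQ, ← map_pow, PowerSeries.coeff_map]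
    rfl
  have h4 : PowerSeries.coeff N EQ = ((PowerSeries.coeff N E : ℤ_[p]) : ℚ_[p]) := by
    rw [hEQ, PowerSeries.coeff_map]
    rfl
  rw [h4] at c1
  rw [h3] at c2
  have h5 : ((PowerSeries.coeff N (E ^ q) : ℤ_[p]) : ℚ_[p]) =
      ((-(p * (PowerSeries.coeff N E + z)) : ℤ_[p]) : ℚ_[p]) := by
    push_cast
    have : (p : ℚ_[p]) * ((PowerSeries.coeff N (E ^ q) : ℤ_[p]) : ℚ_[p]) =
        p * -(p * (((PowerSeries.coeff N E : ℤ_[p]) : ℚ_[p]) + z)) := by
      linear_combination (-1 : ℚ_[p]) * c2 - (p : ℚ_[p]) * c1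
    exact mul_left_cancel₀ hpQ this
  have h6 : PowerSeries.coeff N (E ^ q) = -(p * (PowerSeries.coeff N E + z)) := by
    exact Subtype.ext h5
  have h7 : PowerSeries.coeff N ((E.map (PadicInt.toZMod (p := p))) ^ q) = 0 := by
    rw [← map_pow, PowerSeries.coeff_map, h6]
    simp
  obtain ⟨B, hB⟩ := PowerSeries.X_pow_dvd_iff.mpr hmin
  rw [hB] at h7 hm
  rw [mul_pow, ← pow_mul, ← hN, mul_comm, ← Nat.zero_add N, PowerSeries.coeff_mul_X_pow',
    if_pos (by omega)] at h7
  rw [mul_comm, ← Nat.zero_add m, PowerSeries.coeff_mul_X_pow', if_pos (by omega)] at hm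
  simp only [Nat.zero_add, Nat.sub_self, PowerSeries.coeff_zero_eq_constantCoeff_apply,
    map_pow] at h7 hm
  exact hm (pow_eq_zero_iff (by omega) |>.mp h7)

/-- the data of a Honda group. -/
theorem _root_.Vale.Agent.P217.IsHonda.exists_log {Γ : FormalGroup (ZMod p)} (h : IsHonda p n Γ) (hn : 1 ≤ n) :
    ∃ H : FormalGroup ℤ_[p], H.map PadicInt.toZMod = Γ ∧
      IsLog (H.map (algebraMap ℤ_[p] ℚ_[p])) (hondaLog p n) := by
  obtain ⟨H, h1, h2⟩ := h
  exact ⟨H, h1, hondaLog_zero p n, by rw [hondaLog_one p n hn]; exact isUnit_one, h2⟩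

theorem algebraMap_injective : Function.Injective (algebraMap ℤ_[p] ℚ_[p]) :=
  fun _ _ h => Subtype.ext h

theorem _root_.Vale.Agent.P217.IsHonda.lift_comm {H : FormalGroup ℤ_[p]}
    (hl : IsLog (H.map (algebraMap ℤ_[p] ℚ_[p])) (hondaLog p n)) : H.IsComm where
  comm := by
    have h1 := hl.isComm.comm
    have h2 : (H.map (algebraMap ℤ_[p] ℚ_[p])).toPowerSeries =
        MvPowerSeries.map (algebraMap ℤ_[p] ℚ_[p])
          (H.toPowerSeries.subst ![(X 1 : MvPowerSeries (Fin 2) ℤ_[p]), X 0]) := by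
      rw [map_cons_subst _ H (by simp) (by simp), map_X, map_X]
      exact h1
    rw [map_toPowerSeries] at h2
    ext d
    have h3 := congrArg (coeff d) h2
    rw [coeff_map, coeff_map] at h3
    exact algebraMap_injective h3

theorem _root_.Vale.Agent.P217.IsHonda.isComm {Γ : FormalGroup (ZMod p)} (h : IsHonda p n Γ) (hn : 1 ≤ n) :
    Γ.IsComm := by
  obtain ⟨H, h1, h2⟩ := h.exists_log hn
  have := IsHonda.lift_comm h2
  rw [← h1]
  exact isComm_map _ H

theorem lift_multSeries (hn : 1 ≤ n) {H : FormalGroup ℤ_[p]}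
    (hl : IsLog (H.map (algebraMap ℤ_[p] ℚ_[p])) (hondaLog p n)) :
    PowerSeries.map (PadicInt.toZMod (p := p)) (multSeries H p) =
      (PowerSeries.X : PowerSeries (ZMod p)) ^ (p ^ n) := by
  have := IsHonda.lift_comm hl
  have := isComm_map (algebraMap ℤ_[p] ℚ_[p]) H
  have hq : p ^ n ≠ 0 := (pow_pos hp.out.pos _).ne'
  have hX0 : constantCoeff (PowerSeries.X : PowerSeries ℤ_[p]) = 0 :=
    PowerSeries.constantCoeff_X
  have hXq0 : constantCoeff ((PowerSeries.X : PowerSeries ℤ_[p]) ^ (p ^ n)) = 0 := by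
    rw [map_pow, hX0, zero_pow hq]
  have hXQ0 : constantCoeff (PowerSeries.X : PowerSeries ℚ_[p]) = 0 :=
    PowerSeries.constantCoeff_X
  have hXqQ0 : constantCoeff ((PowerSeries.X : PowerSeries ℚ_[p]) ^ (p ^ n)) = 0 := by
    rw [map_pow, hXQ0, zero_pow hq]
  let a : ZPt H Unit := ZPt.mk H PowerSeries.X hX0
  let b : ZPt H Unit := ZPt.mk H (PowerSeries.X ^ (p ^ n)) hXq0
  let e : ZPt H Unit := p • a - b
  have h1 : e + b = p • a := sub_add_cancel _ _
  have h2 : (p • a).val = multSeries H p := by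
    rw [ZPt.val_nsmul]
    exact PowerSeries.X_subst (multSeries H p)
  have h3 : H.toPowerSeries.subst ![e.val, (PowerSeries.X : PowerSeries ℤ_[p]) ^ (p ^ n)] =
      multSeries H p := by
    rw [← h2, ← h1, ZPt.val_add]
    rfl
  -- over `ℚ_p`
  have h4 := congrArg (MvPowerSeries.map (algebraMap ℤ_[p] ℚ_[p])) h3
  rw [map_cons_subst _ H e.constantCoeff_val hXq0, map_pow] at h4
  have hXX : MvPowerSeries.map (algebraMap ℤ_[p] ℚ_[p]) (PowerSeries.X : PowerSeries ℤ_[p]) =
      (PowerSeries.X : PowerSeries ℚ_[p]) := PowerSeries.map_X _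
  rw [hXX] at h4
  have h5 : MvPowerSeries.map (algebraMap ℤ_[p] ℚ_[p]) (multSeries H p) =
      multSeries (H.map (algebraMap ℤ_[p] ℚ_[p])) p := map_multSeries _ H p
  rw [h5] at h4
  have he0 : constantCoeff (MvPowerSeries.map (algebraMap ℤ_[p] ℚ_[p]) e.val) = 0 := by
    rw [constantCoeff_map, e.constantCoeff_val, map_zero]
  have h6 := congrArg (fun f : PowerSeries ℚ_[p] =>
    (PowerSeries.subst f (hondaLog p n) : PowerSeries ℚ_[p])) h4
  have h6' := hl.subst_add he0 hXqQ0
  have h7 := hl.subst_nsmul p (ZPt.mk (H.map (algebraMap ℤ_[p] ℚ_[p])) PowerSeries.X hXQ0)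
  rw [ZPt.val_nsmul] at h7
  have h8 : (PowerSeries.subst (ZPt.mk (H.map (algebraMap ℤ_[p] ℚ_[p])) PowerSeries.X hXQ0).val
      (multSeries (H.map (algebraMap ℤ_[p] ℚ_[p])) p) : PowerSeries ℚ_[p]) =
      multSeries (H.map (algebraMap ℤ_[p] ℚ_[p])) p := PowerSeries.X_subst _
  have h9 : (PowerSeries.subst (ZPt.mk (H.map (algebraMap ℤ_[p] ℚ_[p])) PowerSeries.X hXQ0).val
      (hondaLog p n) : PowerSeries ℚ_[p]) = hondaLog p n := PowerSeries.X_subst _
  have h10 : (PowerSeries.subst (MvPowerSeries.map (algebraMap ℤ_[p] ℚ_[p]) e.val)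
      (hondaLog p n) : PowerSeries ℚ_[p]) + PowerSeries.subst
      ((PowerSeries.X : PowerSeries ℚ_[p]) ^ (p ^ n)) (hondaLog p n) =
      p • hondaLog p n := by
    rw [h8, h9] at h7
    exact (h6'.symm.trans h6).trans h7
  have h11 := honda_fe p n hn
  have h12 : (PowerSeries.subst (MvPowerSeries.map (algebraMap ℤ_[p] ℚ_[p]) e.val)
      (hondaLog p n) : PowerSeries ℚ_[p]) = PowerSeries.C (p : ℚ_[p]) * PowerSeries.X := by
    rw [nsmul_eq_mul, ← map_natCast (PowerSeries.C (R := ℚ_[p])) p] at h10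
    rw [h11] at h10
    exact add_right_cancel h10
  have h13 := toZMod_eq_zero_of_log hn e.val e.constantCoeff_val h12
  -- reduction
  have h14 := congrArg (MvPowerSeries.map (PadicInt.toZMod (p := p))) h3
  rw [map_cons_subst _ H e.constantCoeff_val hXq0, map_pow] at h14
  have hXX' : MvPowerSeries.map (PadicInt.toZMod (p := p)) (PowerSeries.X : PowerSeries ℤ_[p]) =
      (PowerSeries.X : PowerSeries (ZMod p)) := PowerSeries.map_X _
  have h15 : MvPowerSeries.map (PadicInt.toZMod (p := p)) e.val = 0 := h13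
  rw [hXX', h15] at h14
  have h16 : PowerSeries.map (PadicInt.toZMod (p := p)) (multSeries H p) =
    MvPowerSeries.map (PadicInt.toZMod (p := p)) (multSeries H p) := rfl
  rw [h16, ← h14]
  refine FormalGroup.zero_add (H.map (PadicInt.toZMod (p := p))) (hs ?_)
  rw [map_pow]
  exact (congrArg (· ^ (p ^ n)) PowerSeries.constantCoeff_X).trans (zero_pow hq)

theorem hondaLog_rescale (hn : 1 ≤ n) {K : Type*} [Field K] (f : ℚ_[p] →+* K) {ω : K}
    (hω : ω ^ (p ^ n - 1) = 1) :
    PowerSeries.rescale ω (PowerSeries.map f (hondaLog p n)) =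
      PowerSeries.C ω * PowerSeries.map f (hondaLog p n) := by
  have hq : 1 < p ^ n := one_lt_pow_n p n hn
  have h1 : ω ^ (p ^ n) = ω := by
    have : p ^ n = (p ^ n - 1) + 1 := by omega
    rw [this, pow_succ, hω, one_mul]
  have h2 : ∀ i, ω ^ (p ^ (n * i)) = ω := by
    intro i
    induction i with
    | zero => simp
    | succ i ih => rw [mul_add, mul_one, pow_add, pow_mul, ih, h1]
  ext m
  rw [PowerSeries.coeff_rescale, PowerSeries.coeff_C_mul, PowerSeries.coeff_map]
  by_cases hm : ∃ i, m = p ^ (n * i)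
  · obtain ⟨i, rfl⟩ := hm
    rw [h2]
  · push Not at hm
    rw [coeff_hondaLog_eq_zero p n m hm, map_zero, mul_zero, mul_zero]

theorem IsLog.map {R S : Type*} [CommRing R] [CommRing S] (f : R →+* S) {F : FormalGroup R}
    {l : PowerSeries R} (h : IsLog F l) : IsLog (F.map f) (PowerSeries.map f l) where
  zero := by
    rw [← PowerSeries.coeff_zero_eq_constantCoeff_apply, PowerSeries.coeff_map,
      PowerSeries.coeff_zero_eq_constantCoeff_apply, h.zero, map_zero]
  unit := by
    rw [PowerSeries.coeff_map]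
    exact h.unit.map f
  add := by
    have := congrArg (MvPowerSeries.map f) h.add
    rw [map_add, PowerSeries.map_subst (hs F.zero_constantCoeff),
      PowerSeries.map_subst (hs (by simp)), PowerSeries.map_subst (hs (by simp)),
      map_X, map_X] at this
    exact this

theorem lift_coeff_eq_zero (hn : 1 ≤ n) {H : FormalGroup ℤ_[p]}
    (hl : IsLog (H.map (algebraMap ℤ_[p] ℚ_[p])) (hondaLog p n)) (d : Fin 2 →₀ ℕ)
    (hd : coeff d H.toPowerSeries ≠ 0) : ∃ k, d 0 + d 1 = 1 + (p ^ n - 1) * k := by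
  have hq : 1 < p ^ n := one_lt_pow_n p n hn
  have : NeZero (p ^ n - 1) := ⟨by omega⟩
  let K := AlgebraicClosure ℚ_[p]
  have : CharZero K := charZero_of_injective_algebraMap (algebraMap ℚ_[p] K).injective
  have : NeZero ((p ^ n - 1 : ℕ) : K) := ⟨by
    rw [Nat.cast_ne_zero]; omega⟩
  obtain ⟨ω, hω⟩ := HasEnoughRootsOfUnity.exists_primitiveRoot K (p ^ n - 1)
  have h1 := (hl.map (algebraMap ℚ_[p] K)).rescale_eq
    (hondaLog_rescale hn (algebraMap ℚ_[p] K) hω.pow_eq_one)
  have h2 := congrArg (coeff d) h1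
  rw [coeff_rescale_const, coeff_C_mul] at h2
  have h3 : coeff d ((H.map (algebraMap ℤ_[p] ℚ_[p])).map (algebraMap ℚ_[p] K)).toPowerSeries
      = algebraMap ℚ_[p] K (algebraMap ℤ_[p] ℚ_[p] (coeff d H.toPowerSeries)) := rfl
  have h4 : coeff d ((H.map (algebraMap ℤ_[p] ℚ_[p])).map (algebraMap ℚ_[p] K)).toPowerSeries
      ≠ 0 := by
    rw [h3, map_ne_zero]
    intro h
    exact hd (algebraMap_injective (by rw [h, map_zero]))
  have h5 := mul_right_cancel₀ h4 h2
  have h6 : d 0 + d 1 ≠ 0 := by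
    intro h
    apply hd
    have : d = 0 := by
      ext i
      fin_cases i
      · simp; omega
      · simp; omega
    rw [this, coeff_zero_eq_constantCoeff_apply, H.zero_constantCoeff]
  obtain ⟨m, hm⟩ := Nat.exists_eq_succ_of_ne_zero h6
  rw [hm, Nat.succ_eq_add_one, pow_succ] at h5
  have hω0 : ω ≠ 0 := hω.ne_zero (NeZero.ne _)
  have h7 : ω ^ m = 1 := by
    have : ω ^ m * ω = 1 * ω := by rw [h5, one_mul]
    exact mul_right_cancel₀ hω0 this
  obtain ⟨k, hk⟩ := hω.dvd_of_pow_eq_one _ h7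
  exact ⟨k, by rw [hm, hk, Nat.succ_eq_add_one, add_comm]⟩

variable {Γ : FormalGroup (ZMod p)}

theorem _root_.Vale.Agent.P217.IsHonda.coeff_eq_zero (h : IsHonda p n Γ) (hn : 1 ≤ n) (d : Fin 2 →₀ ℕ)
    (hd : coeff d Γ.toPowerSeries ≠ 0) : ∃ k, d 0 + d 1 = 1 + (p ^ n - 1) * k := by
  obtain ⟨H, h1, h2⟩ := h.exists_log hn
  refine lift_coeff_eq_zero hn h2 d fun h3 => hd ?_
  rw [← h1, map_toPowerSeries, coeff_map, h3, map_zero]

theorem _root_.Vale.Agent.P217.IsHonda.multSeries_eq (h : IsHonda p n Γ) (hn : 1 ≤ n) :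
    multSeries Γ p = PowerSeries.X ^ (p ^ n) := by
  obtain ⟨H, h1, h2⟩ := h.exists_log hn
  rw [← h1, ← map_multSeries]
  exact lift_multSeries hn h2

theorem _root_.Vale.Agent.P217.IsHonda.map_isComm (h : IsHonda p n Γ) (hn : 1 ≤ n) {k : Type*} [CommRing k]
    (f : ZMod p →+* k) : (Γ.map f).IsComm := by
  have := h.isComm hn
  exact isComm_map f Γ

theorem _root_.Vale.Agent.P217.IsHonda.map_multSeries_eq (h : IsHonda p n Γ) (hn : 1 ≤ n) {k : Type*} [CommRing k]
    (f : ZMod p →+* k) : multSeries (Γ.map f) p = PowerSeries.X ^ (p ^ n) := by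
  rw [← map_multSeries, h.multSeries_eq hn, map_pow, PowerSeries.map_X]

/-- the endomorphism `z X`. -/
theorem _root_.Vale.Agent.P217.IsHonda.isHom_C_mul (h : IsHonda p n Γ) (hn : 1 ≤ n) {k : Type*} [CommRing k]
    (f : ZMod p →+* k) (z : k) (hz : z ^ (p ^ n) = z) :
    IsHom (Γ.map f) (Γ.map f) (PowerSeries.C z * PowerSeries.X) := by
  have hq : 1 < p ^ n := one_lt_pow_n p n hn
  refine ⟨by simp, ?_⟩
  have e0 : (PowerSeries.subst (X 0 : MvPowerSeries (Fin 2) k)
      (PowerSeries.C z * PowerSeries.X) : MvPowerSeries (Fin 2) k) = C z * X 0 := by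
    rw [psubst_C_mul _ _ (by simp), PowerSeries.subst_X (hs (by simp))]
  have e1 : (PowerSeries.subst (X 1 : MvPowerSeries (Fin 2) k)
      (PowerSeries.C z * PowerSeries.X) : MvPowerSeries (Fin 2) k) = C z * X 1 := by
    rw [psubst_C_mul _ _ (by simp), PowerSeries.subst_X (hs (by simp))]
  rw [e0, e1, subst_cons_C_mul, psubst_C_mul _ _ (Γ.map f).zero_constantCoeff,
    PowerSeries.subst_X (hs (Γ.map f).zero_constantCoeff)]
  ext d
  rw [coeff_rescale_const, coeff_C_mul, map_toPowerSeries, coeff_map]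
  by_cases hd : coeff d Γ.toPowerSeries = 0
  · rw [hd, map_zero, mul_zero, mul_zero]
  · obtain ⟨j, hj⟩ := h.coeff_eq_zero hn d hd
    rw [hj]
    have : ∀ j, z ^ (1 + (p ^ n - 1) * j) = z := by
      intro j
      induction j with
      | zero => simp
      | succ j ih =>
        have : 1 + (p ^ n - 1) * (j + 1) = (1 + (p ^ n - 1) * j) + (p ^ n - 1) := by ring
        rw [this, pow_add, ih, ← pow_succ']
        have : p ^ n - 1 + 1 = p ^ n := by omega
        rw [this, hz]
    rw [this]

theorem isHom_X_pow (Γ : FormalGroup (ZMod p)) {k : Type*} [CommRing k] [CharP k p]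
    (f : ZMod p →+* k) (i : ℕ) :
    IsHom (Γ.map f) (Γ.map f) (PowerSeries.X ^ (p ^ i)) := by
  have hpi : p ^ i ≠ 0 := (pow_pos hp.out.pos _).ne'
  have : ExpChar k p := ExpChar.prime hp.out
  refine ⟨by rw [map_pow, PowerSeries.constantCoeff_X, zero_pow hpi], ?_⟩
  rw [PowerSeries.subst_pow (hs (Γ.map f).zero_constantCoeff),
    PowerSeries.subst_pow (hs (by simp)), PowerSeries.subst_pow (hs (by simp)),
    PowerSeries.subst_X (hs (Γ.map f).zero_constantCoeff), PowerSeries.subst_X (hs (by simp)),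
    PowerSeries.subst_X (hs (by simp))]
  have h1 := MvPowerSeries.map_iterateFrobenius_expand p hp.out.ne_zero
    (Γ.map f).toPowerSeries i
  rw [← h1, map_expand]
  have h2 : MvPowerSeries.map (iterateFrobenius k p i) (Γ.map f).toPowerSeries =
      (Γ.map f).toPowerSeries := by
    ext d
    rw [coeff_map, map_toPowerSeries, coeff_map, iterateFrobenius_def, ← map_pow,
      ZMod.pow_card_pow]
  rw [h2, expand, substAlgHom_apply]
  congr 1
  funext j
  fin_cases j <;> rfl


section Gal

theorem gal_pow_card (hn : 1 ≤ n) (z : GaloisField p n) : z ^ (p ^ n) = z := by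
  have h1 := GaloisField.card p n (by omega)
  have := Fintype.ofFinite (GaloisField p n)
  rw [Nat.card_eq_fintype_card] at h1
  rw [← h1]
  exact FiniteField.pow_card z

theorem _root_.Vale.Agent.P217.IsHonda.gal_isComm (h : IsHonda p n Γ) (hn : 1 ≤ n) :
    (Γ.map (algebraMap (ZMod p) (GaloisField p n))).IsComm := h.map_isComm hn _

/-- the endomorphism `z X` of the Honda group over `𝔽_{p^n}`. -/
theorem _root_.Vale.Agent.P217.IsHonda.gal_isHom_C_mul (h : IsHonda p n Γ) (hn : 1 ≤ n) (z : GaloisField p n) :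
    IsHom (Γ.map (algebraMap (ZMod p) (GaloisField p n)))
      (Γ.map (algebraMap (ZMod p) (GaloisField p n))) (PowerSeries.C z * PowerSeries.X) :=
  h.isHom_C_mul hn _ z (gal_pow_card hn z)

/-- the powers of the Frobenius. -/
theorem gal_isHom_X_pow (Γ : FormalGroup (ZMod p)) (i : ℕ) :
    IsHom (Γ.map (algebraMap (ZMod p) (GaloisField p n)))
      (Γ.map (algebraMap (ZMod p) (GaloisField p n))) (PowerSeries.X ^ (p ^ i)) :=
  isHom_X_pow Γ _ i

end Gal

end Main

end Vale.Agent.P217.FA
end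
end

section

section

/-!
# P217: characteristic zero part, `n` independent logarithms
-/

namespace Vale.Agent.P217.C0

open MvPowerSeries Vale.Agent.P217

section Bd

variable (C L : Type*) [CommRing C] [IsDomain C] [Field L] [Algebra C L] [IsFractionRing C L]

/-- The bounded power series. -/
noncomputable def Bd : Submodule L (PowerSeries L) where
  carrier := {ψ | ∃ c : C, c ≠ 0 ∧ ∃ η : PowerSeries C,
    PowerSeries.C (algebraMap C L c) * ψ = PowerSeries.map (algebraMap C L) η}
  add_mem' := by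
    rintro a b ⟨c, hc, η, h⟩ ⟨c', hc', η', h'⟩
    refine ⟨c * c', mul_ne_zero hc hc', PowerSeries.C c' * η + PowerSeries.C c * η', ?_⟩
    have e1 : PowerSeries.map (algebraMap C L) (PowerSeries.C c' * η + PowerSeries.C c * η') =
        PowerSeries.C (algebraMap C L c') * PowerSeries.map (algebraMap C L) η +
        PowerSeries.C (algebraMap C L c) * PowerSeries.map (algebraMap C L) η' := by
      rw [map_add, map_mul, map_mul, PowerSeries.map_C, PowerSeries.map_C]
    rw [e1, ← h, ← h', map_mul, map_mul]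
    ring
  zero_mem' := ⟨1, one_ne_zero, 0, by simp⟩
  smul_mem' := by
    rintro l a ⟨c, hc, η, h⟩
    obtain ⟨r, s, hs, rfl⟩ := IsFractionRing.div_surjective C l
    refine ⟨s * c, mul_ne_zero (nonZeroDivisors.ne_zero hs) hc, PowerSeries.C r * η, ?_⟩
    have hs0 : algebraMap C L s ≠ 0 := by
      have := nonZeroDivisors.ne_zero hs
      rwa [Ne, FaithfulSMul.algebraMap_eq_zero_iff]
    have e1 : PowerSeries.map (algebraMap C L) (PowerSeries.C r * η) =
        PowerSeries.C (algebraMap C L r) * PowerSeries.map (algebraMap C L) η := by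
      rw [map_mul, PowerSeries.map_C]
    rw [e1, ← h, PowerSeries.smul_eq_C_mul, map_mul, map_mul]
    have h2 : PowerSeries.C (algebraMap C L s) * PowerSeries.C (algebraMap C L r /
      algebraMap C L s) = PowerSeries.C (algebraMap C L r) := by
      rw [← map_mul]
      congr 1
      field_simp
    rw [← h2]
    ring

end Bd


section Proj

variable {R : Type*} [CommRing R]

/-- projection to the exponents congruent to `e` modulo `N`. -/
noncomputable def pr (R : Type*) [CommRing R] (N e : ℕ) : PowerSeries R →ₗ[R] PowerSeries R where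
  toFun ψ := PowerSeries.mk fun d => if d ≡ e [MOD N] then PowerSeries.coeff d ψ else 0
  map_add' a b := by
    ext d
    simp only [PowerSeries.coeff_mk, map_add]
    split_ifs <;> simp
  map_smul' c a := by
    ext d
    simp only [PowerSeries.coeff_mk, map_smul, RingHom.id_apply]
    split_ifs <;> simp

theorem coeff_pr (N e d : ℕ) (ψ : PowerSeries R) : PowerSeries.coeff d (pr R N e ψ) =
    if d ≡ e [MOD N] then PowerSeries.coeff d ψ else 0 := by
  rw [pr]
  simp only [LinearMap.coe_mk, AddHom.coe_mk, PowerSeries.coeff_mk]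

/-- extraction of the exponents divisible by `P`. -/
noncomputable def ex (R : Type*) [CommRing R] (P : ℕ) : PowerSeries R →ₗ[R] PowerSeries R where
  toFun ψ := PowerSeries.mk fun d => PowerSeries.coeff (d * P) ψ
  map_add' a b := by
    ext d
    simp only [PowerSeries.coeff_mk, map_add]
  map_smul' c a := by
    ext d
    simp only [PowerSeries.coeff_mk, map_smul, RingHom.id_apply]

theorem coeff_ex (P d : ℕ) (ψ : PowerSeries R) : PowerSeries.coeff d (ex R P ψ) =
    PowerSeries.coeff (d * P) ψ := by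
  rw [ex]
  simp only [LinearMap.coe_mk, AddHom.coe_mk, PowerSeries.coeff_mk]

/-- substitution of `X ^ P`. -/
noncomputable def bl (P : ℕ) (ψ : PowerSeries R) : PowerSeries R :=
  PowerSeries.mk fun m => if P ∣ m then PowerSeries.coeff (m / P) ψ else 0

theorem coeff_bl (P m : ℕ) (ψ : PowerSeries R) : PowerSeries.coeff m (bl P ψ) =
    if P ∣ m then PowerSeries.coeff (m / P) ψ else 0 := by
  rw [bl, PowerSeries.coeff_mk]

theorem ex_bl {P : ℕ} (hP : 0 < P) (ψ : PowerSeries R) : ex R P (bl P ψ) = ψ := by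
  ext d
  rw [coeff_ex, coeff_bl, if_pos (dvd_mul_left _ _), Nat.mul_div_cancel _ hP]

/-- projections of `bl P (pr e ψ)`. -/
theorem pr_bl_pr_self {N e P : ℕ} (ψ : PowerSeries R) :
    pr R N (e * P) (bl P (pr R N e ψ)) = bl P (pr R N e ψ) := by
  ext m
  rw [coeff_pr, coeff_bl]
  split_ifs with h1 h2 h2
  · rfl
  · rfl
  · rw [coeff_pr, if_neg]
    intro h3
    apply h1
    have h4 := h3.mul_right P
    rwa [Nat.div_mul_cancel h2] at h4
  · rfl

theorem pr_bl_pr_ne {N e P e' : ℕ} (h : ¬ e * P ≡ e' [MOD N]) (ψ : PowerSeries R) :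
    pr R N e' (bl P (pr R N e ψ)) = 0 := by
  ext m
  rw [coeff_pr, coeff_bl, map_zero]
  split_ifs with h1 h2
  · rw [coeff_pr, if_neg]
    intro h3
    apply h
    have h4 := h3.mul_right P
    rw [Nat.div_mul_cancel h2] at h4
    exact h4.symm.trans h1
  · rfl
  · rfl

theorem sum_pr {N : ℕ} (hN : 0 < N) (ψ : PowerSeries R) :
    ∑ e ∈ Finset.range N, pr R N e ψ = ψ := by
  ext d
  rw [map_sum, Finset.sum_eq_single (d % N)]
  · rw [coeff_pr, if_pos (Nat.mod_modEq d N).symm]
  · intro e he hne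
    rw [coeff_pr, if_neg]
    intro h
    apply hne
    have h1 : d % N = e % N := h
    rw [h1, Nat.mod_eq_of_lt (Finset.mem_range.mp he)]
  · intro h
    exact absurd (Finset.mem_range.mpr (Nat.mod_lt _ hN)) h

theorem pr_map {S : Type*} [CommRing S] (f : R →+* S) (N e : ℕ) (ψ : PowerSeries R) :
    pr S N e (PowerSeries.map f ψ) = PowerSeries.map f (pr R N e ψ) := by
  ext d
  rw [coeff_pr, PowerSeries.coeff_map, PowerSeries.coeff_map, coeff_pr]
  split_ifs <;> simp

theorem ex_map {S : Type*} [CommRing S] (f : R →+* S) (P : ℕ) (ψ : PowerSeries R) :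
    ex S P (PowerSeries.map f ψ) = PowerSeries.map f (ex R P ψ) := by
  ext d
  rw [coeff_ex, PowerSeries.coeff_map, PowerSeries.coeff_map, coeff_ex]

end Proj

section BdProj

variable {C L : Type*} [CommRing C] [IsDomain C] [Field L] [Algebra C L] [IsFractionRing C L]

theorem mem_Bd {ψ : PowerSeries L} : ψ ∈ Bd C L ↔ ∃ c : C, c ≠ 0 ∧ ∃ η : PowerSeries C,
    PowerSeries.C (algebraMap C L c) * ψ = PowerSeries.map (algebraMap C L) η := Iff.rfl

theorem pr_mem_Bd {ψ : PowerSeries L} (h : ψ ∈ Bd C L) (N e : ℕ) : pr L N e ψ ∈ Bd C L := by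
  obtain ⟨c, hc, η, h⟩ := mem_Bd.mp h
  refine mem_Bd.mpr ⟨c, hc, pr C N e η, ?_⟩
  rw [← pr_map, ← h, ← PowerSeries.smul_eq_C_mul, ← PowerSeries.smul_eq_C_mul, map_smul]

theorem ex_mem_Bd {ψ : PowerSeries L} (h : ψ ∈ Bd C L) (P : ℕ) : ex L P ψ ∈ Bd C L := by
  obtain ⟨c, hc, η, h⟩ := mem_Bd.mp h
  refine mem_Bd.mpr ⟨c, hc, ex C P η, ?_⟩
  rw [← ex_map, ← h, ← PowerSeries.smul_eq_C_mul, ← PowerSeries.smul_eq_C_mul, map_smul]

end BdProj

section LogPow

variable {C L : Type*} [CommRing C] [Field L] [Algebra C L] [CharZero L] (G : FormalGroup C)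
  [G.IsComm]

omit [CharZero L] in
theorem map_C_mul_X_pow {R S : Type*} [CommRing R] [CommRing S] (f : R →+* S) (r : R) (P : ℕ) :
    PowerSeries.map f (PowerSeries.C r * PowerSeries.X ^ P) =
      PowerSeries.C (f r) * PowerSeries.X ^ P := by
  rw [map_mul, PowerSeries.map_C, map_pow, PowerSeries.map_X]

theorem cc_C_mul_X_pow {R : Type*} [CommRing R] (a : R) {P : ℕ} (hP : 0 < P) :
    PowerSeries.constantCoeff (PowerSeries.C a * PowerSeries.X ^ P : PowerSeries R) = 0 := by
  rw [map_mul, map_pow, PowerSeries.constantCoeff_X, zero_pow hP.ne', mul_zero]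

theorem coeff_logPt_C_mul_X_pow (a : C) {P : ℕ} (hP : 0 < P) (m : ℕ) :
    PowerSeries.coeff m (logPt G L Unit (pt G (PowerSeries.C a * PowerSeries.X ^ P)
      (cc_C_mul_X_pow a hP)) : PowerSeries L) =
      if P ∣ m then algebraMap C L a ^ (m / P) *
        PowerSeries.coeff (m / P) (flog (G.map (algebraMap C L))) else 0 := by
  set l := flog (G.map (algebraMap C L))
  have h0 : (logPt G L Unit (pt G (PowerSeries.C a * PowerSeries.X ^ P)
      (cc_C_mul_X_pow a hP)) : PowerSeries L) = PowerSeries.subst (PowerSeries.map (algebraMap C L)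
        (PowerSeries.C a * PowerSeries.X ^ P)) l := rfl
  have h1 : PowerSeries.map (algebraMap C L) (PowerSeries.C a * PowerSeries.X ^ P) =
      PowerSeries.C (algebraMap C L a) * PowerSeries.X ^ P := by
    rw [map_mul, PowerSeries.map_C, map_pow, PowerSeries.map_X]
  rw [h0, h1]
  have hs : PowerSeries.HasSubst (PowerSeries.C (algebraMap C L a) * PowerSeries.X ^ P :
      PowerSeries L) := PowerSeries.HasSubst.of_constantCoeff_zero' (cc_C_mul_X_pow _ hP)
  rw [PowerSeries.coeff_subst' hs]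
  have h2 : ∀ d, PowerSeries.coeff m ((PowerSeries.C (algebraMap C L a) *
      PowerSeries.X ^ P : PowerSeries L) ^ d) = if m = P * d then algebraMap C L a ^ d else 0 := by
    intro d
    rw [mul_pow, ← map_pow, ← pow_mul, PowerSeries.coeff_C_mul, PowerSeries.coeff_X_pow]
    split_ifs <;> simp
  split_ifs with h
  · obtain ⟨d, rfl⟩ := h
    rw [finsum_eq_single _ d]
    · rw [h2, if_pos rfl, Nat.mul_div_cancel_left _ hP, smul_eq_mul, mul_comm]
    · intro d' hd'
      rw [h2, if_neg, smul_zero]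
      intro h3
      exact hd' (Nat.eq_of_mul_eq_mul_left hP h3).symm
  · rw [← finsum_zero (α := ℕ)]
    refine finsum_congr fun d => ?_
    rw [h2, if_neg, smul_zero]
    rintro rfl
    exact h (dvd_mul_right _ _)

end LogPow


section Cyc

variable {p n : ℕ} [Fact p.Prime] {Γ : FormalGroup (ZMod p)} {F : FormalGroup (E0 p n)}
  {C : Type} [CommRing C] [IsDomain C] [IsLocalRing C]

/-- the Teichmüller representative in `C`. -/
noncomputable def tw (x : E0 p n →+* C) (z : GaloisField p n) : C :=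
  x (MvPowerSeries.C (WittVector.teichmuller p z))

omit [IsDomain C] [IsLocalRing C] in
theorem tw_pow (x : E0 p n →+* C) (z : GaloisField p n) (j : ℕ) : tw x (z ^ j) = tw x z ^ j := by
  rw [tw, tw, map_pow, map_pow, map_pow]

omit [IsDomain C] [IsLocalRing C] in
theorem tw_one (x : E0 p n →+* C) : tw x (1 : GaloisField p n) = 1 := by
  rw [tw, map_one, map_one, map_one]

theorem red_C_teichmuller (z : GaloisField p n) :
    red p n (MvPowerSeries.C (WittVector.teichmuller p z)) = z := by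
  rw [red, RingHom.comp_apply, constantCoeff_C]
  exact WittVector.teichmuller_coeff_zero p z

omit [IsDomain C] in
theorem residue_factor (x : E0 p n →+* C) (hx : Function.Surjective x) :
    ∃ i : GaloisField p n →+* IsLocalRing.ResidueField C,
      i.comp (red p n) = (IsLocalRing.residue C).comp x := by
  refine exists_factor_red _ fun r hr => ?_
  rw [RingHom.mem_ker, RingHom.comp_apply, IsLocalRing.residue_eq_zero_iff]
  exact residue_x_mem_maximalIdeal x hx hr

omit [IsDomain C] in
theorem residue_tw {x : E0 p n →+* C} {i : GaloisField p n →+* IsLocalRing.ResidueField C}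
    (hi : i.comp (red p n) = (IsLocalRing.residue C).comp x) (z : GaloisField p n) :
    IsLocalRing.residue C (tw x z) = i z := by
  have h := congrArg (fun f : E0 p n →+* IsLocalRing.ResidueField C =>
    f (MvPowerSeries.C (WittVector.teichmuller p z))) hi
  simp only [RingHom.comp_apply, red_C_teichmuller] at h
  exact h.symm

omit [IsDomain C] in
theorem map_residue_eq (hF : IsUniversalDeformation p n Γ F) {x : E0 p n →+* C}
    {i : GaloisField p n →+* IsLocalRing.ResidueField C}
    (hi : i.comp (red p n) = (IsLocalRing.residue C).comp x) :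
    (F.map x).map (IsLocalRing.residue C) =
      Γ.map (i.comp (algebraMap (ZMod p) (GaloisField p n))) := by
  rw [FG_map_map, ← hi, ← FG_map_map, hF.reduction, FG_map_map]

theorem gal_card_ne {k : Type*} [CommRing k] [Nontrivial k] (hp0 : (p : k) = 0) (hn : 1 ≤ n) :
    ((p ^ n - 1 : ℕ) : k) ≠ 0 := by
  intro h
  have h1 : 1 ≤ p ^ n := Nat.one_le_pow _ _ (Fact.out : p.Prime).pos
  have h2 : ((p ^ n : ℕ) : k) = ((p ^ n - 1 : ℕ) : k) + 1 := by
    have : p ^ n = (p ^ n - 1) + 1 := by omega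
    rw [this]
    push_cast
    simp
  rw [h, zero_add, Nat.cast_pow, hp0, zero_pow (by omega)] at h2
  exact zero_ne_one h2

variable (L : Type) [Field L] [CharZero L] [Algebra C L] [IsFractionRing C L]

theorem cyc_mem_Bd (hn : 1 ≤ n) (hΓ : IsHonda p n Γ) (hF : IsUniversalDeformation p n Γ F)
    [F.IsComm] (x : E0 p n →+* C) (hx : Function.Surjective x) {e : ℕ}
    (hm : IsLocalRing.maximalIdeal C ^ e ≤ Ideal.span {(p : C)}) {ζ : GaloisField p n}
    (hζ : IsPrimitiveRoot ζ (p ^ n - 1)) :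
    (PowerSeries.mk fun d => Polynomial.aeval (algebraMap C L (tw x ζ) ^ d)
      (Polynomial.cyclotomic (p ^ n - 1) ℤ) *
      PowerSeries.coeff d (flog ((F.map x).map (algebraMap C L)))) ∈ Bd C L := by
  classical
  obtain ⟨i, hi⟩ := residue_factor x hx
  set N := p ^ n - 1 with hN
  set w := tw x ζ with hw
  set G := F.map x with hG
  have hp : (p : C) ∈ IsLocalRing.maximalIdeal C := by
    have := residue_x_mem_maximalIdeal x hx (p_mem_maximalIdeal_E0 (p := p) (n := n))
    rwa [map_natCast] at this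
  have hGres : G.map (IsLocalRing.residue C) =
      Γ.map (i.comp (algebraMap (ZMod p) (GaloisField p n))) := map_residue_eq hF hi
  have hwres : IsLocalRing.residue C w = i ζ := residue_tw hi ζ
  -- the relation
  let V : G.Point Unit := (Polynomial.cyclotomic N ℤ).sum fun j c =>
    c • pt G (PowerSeries.C (w ^ j) * PowerSeries.X) (cc_C_mul_X _)
  have hVd : V = ∑ j ∈ (Polynomial.cyclotomic N ℤ).support, (Polynomial.cyclotomic N ℤ).coeff j •
      pt G (PowerSeries.C (w ^ j) * PowerSeries.X) (cc_C_mul_X _) := rfl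
  have hV0 : mapPt (IsLocalRing.residue C) V = 0 := by
    have h1 : mapPt (IsLocalRing.residue C) V = (Polynomial.cyclotomic N ℤ).sum fun j c =>
        c • pt (G.map (IsLocalRing.residue C))
          (PowerSeries.C (i ζ ^ j) * PowerSeries.X) (cc_C_mul_X _) := by
      rw [Polynomial.sum_def, hVd, map_sum]
      refine Finset.sum_congr rfl fun j _ => ?_
      rw [map_zsmul]
      congr 1
      apply Subtype.ext
      rw [mapPt_val, pt_val, pt_val]
      have h2 : PowerSeries.map (IsLocalRing.residue C)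
          (PowerSeries.C (w ^ j) * PowerSeries.X) =
          PowerSeries.C (i ζ ^ j) * PowerSeries.X := by
        rw [map_mul, PowerSeries.map_C, PowerSeries.map_X, map_pow, hwres]
      exact h2
    rw [h1]
    refine cyclotomic_relation _ (i ζ) ?_ (hζ.map_of_injective i.injective) ?_
    · refine gal_card_ne ?_ hn
      have h3 : (p : GaloisField p n) = 0 := CharP.cast_eq_zero _ _
      have h4 := congrArg i h3
      rwa [map_natCast, map_zero] at h4
    · rw [hGres]
      refine hΓ.isHom_C_mul hn _ _ ?_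
      rw [← map_pow, FA.gal_pow_card hn]
  have hVm : V.val ∈ CI Unit (IsLocalRing.maximalIdeal C) := by
    refine mem_CI_ps.mpr fun d => ?_
    rw [← IsLocalRing.residue_eq_zero_iff]
    have h1 := congrArg Subtype.val hV0
    rw [mapPt_val] at h1
    have h2 := congrArg (fun f : PowerSeries (IsLocalRing.ResidueField C) =>
      PowerSeries.coeff d f) h1
    exact h2
  have hb := logPt_bounded (L := L) G Fact.out hp hm V hVm
  simp only [mem_LI] at hb
  choose r hr hr' using hb
  have hpe : (p : C) ^ e ≠ 0 := by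
    intro h
    have h1 := congrArg (algebraMap C L) h
    rw [map_pow, map_natCast, map_zero] at h1
    have h2 : (p : L) ≠ 0 := by exact_mod_cast (Fact.out : p.Prime).ne_zero
    exact pow_ne_zero _ h2 h1
  refine mem_Bd.mpr ⟨(p : C) ^ e, hpe, PowerSeries.mk fun d => r (Finsupp.single () d), ?_⟩
  ext d
  rw [PowerSeries.coeff_C_mul, PowerSeries.coeff_mk, PowerSeries.coeff_map, PowerSeries.coeff_mk,
    hr', map_pow, map_natCast]
  congr 1
  -- the coefficients
  have h5 : logPt G L Unit V = (Polynomial.cyclotomic N ℤ).sum fun j c =>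
      c • logPt G L Unit (pt G (PowerSeries.C (w ^ j) * PowerSeries.X) (cc_C_mul_X _)) := by
    rw [Polynomial.sum_def, hVd, map_sum]
    refine Finset.sum_congr rfl fun j _ => ?_
    rw [map_zsmul]
  have h6 : ∀ j, PowerSeries.coeff d (logPt G L Unit
      (pt G (PowerSeries.C (w ^ j) * PowerSeries.X) (cc_C_mul_X _)) : PowerSeries L) =
      (algebraMap C L w ^ d) ^ j * PowerSeries.coeff d (flog (G.map (algebraMap C L))) := by
    intro j
    have h7 := coeff_logPt_C_mul_X_pow (L := L) G (w ^ j) one_pos d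
    simp only [pow_one, one_dvd, if_true, Nat.div_one] at h7
    rw [h7, map_pow, ← pow_mul, ← pow_mul, mul_comm j d]
  have h8 : MvPowerSeries.coeff (Finsupp.single () d) (logPt G L Unit V) =
      PowerSeries.coeff d (logPt G L Unit V : PowerSeries L) := rfl
  rw [h8, h5, Polynomial.sum_def]
  have h9 : PowerSeries.coeff d ((∑ j ∈ (Polynomial.cyclotomic N ℤ).support,
      (Polynomial.cyclotomic N ℤ).coeff j • logPt G L Unit
        (pt G (PowerSeries.C (w ^ j) * PowerSeries.X) (cc_C_mul_X _)) : MvPowerSeries Unit L) :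
        PowerSeries L) = ∑ j ∈ (Polynomial.cyclotomic N ℤ).support,
      (Polynomial.cyclotomic N ℤ).coeff j • PowerSeries.coeff d (logPt G L Unit
        (pt G (PowerSeries.C (w ^ j) * PowerSeries.X) (cc_C_mul_X _)) : PowerSeries L) := by
    refine (map_sum (PowerSeries.coeff (R := L) d) _ _).trans ?_
    refine Finset.sum_congr rfl fun j _ => ?_
    exact map_zsmul (PowerSeries.coeff (R := L) d) _ _
  rw [h9, Polynomial.aeval_def, Polynomial.eval₂_eq_sum, Polynomial.sum_def, Finset.sum_mul]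
  refine Finset.sum_congr rfl fun j _ => ?_
  rw [h6, zsmul_eq_mul, ← mul_assoc]
  congr 1

end Cyc

/-- **`n` logarithms independent modulo bounded series.** -/
theorem exists_indep {p n : ℕ} [Fact p.Prime] (hn : 1 ≤ n) {Γ : FormalGroup (ZMod p)}
    (hΓ : IsHonda p n Γ) {F : FormalGroup (E0 p n)} (hF : IsUniversalDeformation p n Γ F)
    [F.IsComm] {C : Type} [CommRing C] [IsDomain C] [IsLocalRing C] [IsNoetherianRing C]
    (L : Type) [Field L] [CharZero L] [Algebra C L] [IsFractionRing C L]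
    (x : E0 p n →+* C) (hx : Function.Surjective x) {e : ℕ}
    (hm : IsLocalRing.maximalIdeal C ^ e ≤ Ideal.span {(p : C)}) :
    ∃ v : Fin n → PowerSeries L, LinearIndependent L (fun j => (Bd C L).mkQ (v j)) ∧
      ∀ j, v j ∈ Submodule.span L {l : PowerSeries L |
        ∃ (b : PowerSeries (E0 p n)) (hb0 : PowerSeries.constantCoeff b = 0),
          IsHom (Γ.map (algebraMap (ZMod p) (GaloisField p n)))
            (Γ.map (algebraMap (ZMod p) (GaloisField p n))) (PowerSeries.map (red p n) b) ∧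
          l = logPt (F.map x) L Unit (pt (F.map x) (PowerSeries.map x b) (cc_map x hb0))} := by
  classical
  have hpp : p.Prime := Fact.out
  set N := p ^ n - 1 with hN
  have hq1 : 1 < p ^ n := Nat.one_lt_pow (by omega) hpp.one_lt
  have hN0 : 0 < N := by omega
  -- primitive root
  obtain ⟨ζ, hζ⟩ : ∃ ζ : GaloisField p n, IsPrimitiveRoot ζ N := by
    obtain ⟨g, hg⟩ := IsCyclic.exists_generator (α := (GaloisField p n)ˣ)
    refine ⟨g, ?_⟩
    rw [IsPrimitiveRoot.coe_units_iff]
    have h1 : orderOf g = N := by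
      rw [orderOf_eq_card_of_forall_mem_zpowers hg, Nat.card_units,
        GaloisField.card p n (by omega)]
    rw [← h1]
    exact IsPrimitiveRoot.orderOf g
  obtain ⟨i, hi⟩ := residue_factor x hx
  set w := tw x ζ with hw
  have hinj : Function.Injective (algebraMap C L) := IsFractionRing.injective C L
  have hwN : w ^ N = 1 := by
    rw [hw, ← tw_pow, hζ.pow_eq_one, tw_one]
  have hwp : IsPrimitiveRoot w N := by
    rw [IsPrimitiveRoot.iff_def]
    refine ⟨hwN, fun l hl => ?_⟩
    have h1 := congrArg (IsLocalRing.residue C) hl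
    rw [map_pow, residue_tw hi, map_one, ← map_pow] at h1
    have h2 : ζ ^ l = 1 := i.injective (by rw [h1, map_one])
    exact hζ.dvd_of_pow_eq_one l h2
  set ω := algebraMap C L w with hω
  have hωp : IsPrimitiveRoot ω N := hwp.map_of_injective hinj
  set l := flog ((F.map x).map (algebraMap C L)) with hl
  have hNL : (N : L) ≠ 0 := by exact_mod_cast hN0.ne'
  have hpow : ∀ {b c : ℕ}, b ≡ c [MOD N] → ω ^ b = ω ^ c := by
    intro b c h
    have h1 : b % N = c % N := h
    rw [pow_eq_pow_mod b hωp.pow_eq_one, h1, ← pow_eq_pow_mod c hωp.pow_eq_one]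
  -- the logarithm is unbounded
  have hlB : l ∉ Bd C L := by
    intro h
    obtain ⟨c, hc, η, h⟩ := mem_Bd.mp h
    have hp : (p : C) ∈ IsLocalRing.maximalIdeal C := by
      have := residue_x_mem_maximalIdeal x hx (p_mem_maximalIdeal_E0 (p := p) (n := n))
      rwa [map_natCast] at this
    refine flog_unbounded hinj p (p ^ n) hq1 hp (F.map x) ?_ c hc η h
    have h1 : PowerSeries.map (IsLocalRing.residue C) (multSeries (F.map x) p) =
        multSeries ((F.map x).map (IsLocalRing.residue C)) p := map_multSeries _ _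
    rw [h1, map_residue_eq hF hi, hΓ.map_multSeries_eq hn]
  -- a good class
  obtain ⟨a, haN, haB⟩ : ∃ a ∈ Finset.range N, pr L N a l ∉ Bd C L := by
    by_contra hcon
    push Not at hcon
    apply hlB
    rw [← sum_pr hN0 l]
    exact Submodule.sum_mem _ hcon
  have hcop : Nat.Coprime a N := by
    by_contra hcop
    apply haB
    have h1 := pr_mem_Bd (cyc_mem_Bd L hn hΓ hF x hx hm hζ) N a
    have h2 : Polynomial.aeval (ω ^ a) (Polynomial.cyclotomic N ℤ) ≠ 0 := by
      intro h0
      have : NeZero (N : L) := ⟨hNL⟩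
      rw [Polynomial.aeval_def, Polynomial.eval₂_eq_eval_map, Polynomial.map_cyclotomic] at h0
      have h1 := Polynomial.isRoot_cyclotomic_iff.mp h0
      exact hcop ((hωp.pow_iff_coprime hN0 a).mp h1)
    have h3 : pr L N a (PowerSeries.mk fun d => Polynomial.aeval (algebraMap C L (tw x ζ) ^ d)
      (Polynomial.cyclotomic (p ^ n - 1) ℤ) *
      PowerSeries.coeff d (flog ((F.map x).map (algebraMap C L)))) =
        Polynomial.aeval (ω ^ a) (Polynomial.cyclotomic N ℤ) • pr L N a l := by
      ext d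
      rw [PowerSeries.coeff_smul, coeff_pr, coeff_pr, PowerSeries.coeff_mk]
      split_ifs with h4
      · have h5 : ω ^ d = ω ^ a := hpow h4
        rw [← hN, ← hw, ← hω, h5, smul_eq_mul]
      · rw [smul_zero]
    rw [h3] at h1
    exact ((Submodule.smul_mem_iff _ h2).mp h1)
  let v : Fin n → PowerSeries L := fun j => bl (p ^ (j : ℕ)) (pr L N a l)
  have hvB : ∀ j, v j ∉ Bd C L := by
    intro j h
    apply haB
    have h1 := ex_mem_Bd h (p ^ (j : ℕ))
    rwa [ex_bl (pow_pos hpp.pos _)] at h1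
  have hdist : ∀ j k : Fin n, j ≠ k → ¬ a * p ^ (j : ℕ) ≡ a * p ^ (k : ℕ) [MOD N] := by
    intro j k hjk h
    have hlt : ∀ j : Fin n, 1 ≤ p ^ (j : ℕ) ∧ p ^ (j : ℕ) - 1 < N := by
      intro j
      have h1 : p ^ (j : ℕ) < p ^ n := Nat.pow_lt_pow_right hpp.one_lt j.2
      have h2 : 1 ≤ p ^ (j : ℕ) := Nat.one_le_pow _ _ hpp.pos
      omega
    have h1 : p ^ (j : ℕ) ≡ p ^ (k : ℕ) [MOD N] :=
      Nat.ModEq.cancel_left_of_coprime (Nat.coprime_comm.mp hcop) h
    obtain ⟨h2, h3⟩ := hlt j
    obtain ⟨h4, h5⟩ := hlt k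
    have h6 : (p ^ (j : ℕ) - 1) + 1 ≡ (p ^ (k : ℕ) - 1) + 1 [MOD N] := by
      rwa [Nat.sub_add_cancel h2, Nat.sub_add_cancel h4]
    have h7 := (Nat.ModEq.add_right_cancel' 1 h6).eq_of_lt_of_lt h3 h5
    have h8 : p ^ (j : ℕ) = p ^ (k : ℕ) := by omega
    exact hjk (Fin.ext (Nat.pow_right_injective hpp.two_le h8))
  refine ⟨v, ?_, ?_⟩
  · rw [Fintype.linearIndependent_iff]
    intro g hg k
    have h1 : ∑ j, g j • v j ∈ Bd C L := by
      rw [← Submodule.Quotient.mk_eq_zero, ← Submodule.mkQ_apply, map_sum, ← hg]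
      exact Finset.sum_congr rfl fun j _ => map_smul _ _ _
    have h2 := pr_mem_Bd h1 N (a * p ^ (k : ℕ))
    rw [map_sum, Finset.sum_eq_single k] at h2
    · rw [map_smul, pr_bl_pr_self] at h2
      by_contra hgk
      exact hvB k ((Submodule.smul_mem_iff _ hgk).mp h2)
    · intro j _ hjk
      rw [map_smul, pr_bl_pr_ne (hdist j k hjk), smul_zero]
    · intro h
      exact absurd (Finset.mem_univ _) h
  · intro j
    have hP : 0 < p ^ (j : ℕ) := pow_pos hpp.pos _
    let b : ℕ → PowerSeries (E0 p n) := fun c =>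
      PowerSeries.C (MvPowerSeries.C (WittVector.teichmuller p (ζ ^ c))) *
        PowerSeries.X ^ (p ^ (j : ℕ))
    have hb0 : ∀ c, PowerSeries.constantCoeff (b c) = 0 := fun c => cc_C_mul_X_pow _ hP
    have hbx : ∀ c, PowerSeries.map x (b c) =
        PowerSeries.C (w ^ c) * PowerSeries.X ^ (p ^ (j : ℕ)) := by
      intro c
      rw [map_C_mul_X_pow, hw, ← tw_pow, tw]
    have hbr : ∀ c, PowerSeries.map (red p n) (b c) =
        PowerSeries.C (ζ ^ c) * PowerSeries.X ^ (p ^ (j : ℕ)) := by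
      intro c
      rw [map_C_mul_X_pow, red_C_teichmuller]
    have hΓc := hΓ.gal_isComm hn
    have hhom : ∀ c, IsHom (Γ.map (algebraMap (ZMod p) (GaloisField p n)))
        (Γ.map (algebraMap (ZMod p) (GaloisField p n))) (PowerSeries.map (red p n) (b c)) := by
      intro c
      have h1 := (FA.gal_isHom_X_pow (n := n) Γ (j : ℕ)).compC (hΓ.gal_isHom_C_mul hn (ζ ^ c))
      have hs : PowerSeries.HasSubst (PowerSeries.X ^ (p ^ (j : ℕ)) :
          PowerSeries (GaloisField p n)) := PowerSeries.HasSubst.of_constantCoeff_zero' (by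
            rw [map_pow, PowerSeries.constantCoeff_X, zero_pow hP.ne'])
      rw [PowerSeries.subst_mul hs, PowerSeries.subst_X hs] at h1
      have hC : (PowerSeries.subst (PowerSeries.X ^ (p ^ (j : ℕ)) : PowerSeries (GaloisField p n))
          (PowerSeries.C (ζ ^ c)) : PowerSeries (GaloisField p n)) = PowerSeries.C (ζ ^ c) :=
        PowerSeries.subst_C _
      rw [hC] at h1
      rw [hbr]
      exact h1
    have hv : v j = (N : L)⁻¹ • ∑ c ∈ Finset.range N, ((ω ^ a)⁻¹) ^ c •
        (logPt (F.map x) L Unit (pt (F.map x) (PowerSeries.map x (b c)) (cc_map x (hb0 c))) :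
          PowerSeries L) := by
      ext m
      rw [PowerSeries.coeff_smul, map_sum]
      have h1 : ∀ c, PowerSeries.coeff m (((ω ^ a)⁻¹) ^ c •
          (logPt (F.map x) L Unit (pt (F.map x) (PowerSeries.map x (b c)) (cc_map x (hb0 c))) :
          PowerSeries L)) = if p ^ (j : ℕ) ∣ m then ((ω ^ a)⁻¹ * ω ^ (m / p ^ (j : ℕ))) ^ c *
            PowerSeries.coeff (m / p ^ (j : ℕ)) l else 0 := by
        intro c
        have h2 : (pt (F.map x) (PowerSeries.map x (b c)) (cc_map x (hb0 c))) =
            pt (F.map x) (PowerSeries.C (w ^ c) * PowerSeries.X ^ (p ^ (j : ℕ)))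
              (cc_C_mul_X_pow _ hP) := by
          apply Subtype.ext
          exact hbx c
        rw [PowerSeries.coeff_smul, h2, coeff_logPt_C_mul_X_pow _ _ hP, smul_eq_mul]
        split_ifs
        · rw [map_pow, ← pow_mul, ← hω, ← hl, mul_pow, ← pow_mul, mul_comm c, mul_assoc]
        · rw [mul_zero]
      simp only [h1]
      simp only [v]
      rw [coeff_bl, coeff_pr]
      split_ifs with h3 h4
      · have h5 : (ω ^ a)⁻¹ * ω ^ (m / p ^ (j : ℕ)) = 1 := by
          rw [hpow h4]
          exact inv_mul_cancel₀ (pow_ne_zero _ (hωp.ne_zero hN0.ne'))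
        simp only [h5, one_pow, one_mul, Finset.sum_const, Finset.card_range, nsmul_eq_mul,
          smul_eq_mul]
        rw [← mul_assoc, inv_mul_cancel₀ hNL, one_mul]
      · rw [← Finset.sum_mul]
        have h5 : (ω ^ a)⁻¹ * ω ^ (m / p ^ (j : ℕ)) ≠ 1 := by
          intro h5
          apply h4
          have h6 : ω ^ (m / p ^ (j : ℕ)) = ω ^ a := by
            have := congrArg (fun y => ω ^ a * y) h5
            simpa [← mul_assoc, mul_inv_cancel₀ (pow_ne_zero a (hωp.ne_zero hN0.ne'))] using this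
          have h7 : m / p ^ (j : ℕ) % N = a % N := by
            refine hωp.pow_inj (Nat.mod_lt _ hN0) (Nat.mod_lt _ hN0) ?_
            rw [← pow_eq_pow_mod _ hωp.pow_eq_one, ← pow_eq_pow_mod _ hωp.pow_eq_one, h6]
          exact h7
        have h8 : ((ω ^ a)⁻¹ * ω ^ (m / p ^ (j : ℕ))) ^ N = 1 := by
          rw [mul_pow, inv_pow, ← pow_mul, ← pow_mul, mul_comm a, mul_comm (m / _), pow_mul,
            pow_mul, hωp.pow_eq_one, one_pow, one_pow, inv_one, one_mul]
        have h9 := geom_sum_eq h5 N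
        rw [h8, sub_self, zero_div] at h9
        rw [h9, zero_mul, smul_zero]
      · simp
    rw [hv]
    refine Submodule.smul_mem _ _ (Submodule.sum_mem _ fun c _ => Submodule.smul_mem _ _
      (Submodule.subset_span ⟨b c, hb0 c, hhom c, rfl⟩))

end Vale.Agent.P217.C0
end
end

section

section

/-!
# P217: characteristic zero part, conclusion
-/

namespace Vale.Agent.P217.C0

open MvPowerSeries Vale.Agent.P217

section Core

variable {p n : ℕ} [Fact p.Prime] {C : Type} [CommRing C] (L : Type) [Field L]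
  [Algebra C L]

/-- the derivative of the logarithm in the direction `i` -/
noncomputable def Dser (F : FormalGroup (E0 p n)) (x : E0 p n →+* C) (i : Fin (n - 1)) :
    PowerSeries L := PowerSeries.mk fun m =>
    algebraMap C L (x (MvPowerSeries.pderiv (WittVector p (GaloisField p n)) i
      (PowerSeries.coeff (m - 1) (omega F)))) / m

/-- `(α, τ) ↦ α ℓ - ∑ τ_i D_i`. -/
noncomputable def Theta0 (F : FormalGroup (E0 p n)) (x : E0 p n →+* C) :
    (L × (Fin (n - 1) → L)) →ₗ[L] PowerSeries L :=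
  (LinearMap.toSpanSingleton L (PowerSeries L) (flog ((F.map x).map (algebraMap C L)))).comp
      (LinearMap.fst L L (Fin (n - 1) → L)) -
    (Fintype.linearCombination L (Dser L F x)).comp (LinearMap.snd L L (Fin (n - 1) → L))

theorem Theta0_apply (F : FormalGroup (E0 p n)) (x : E0 p n →+* C)
    (u : L × (Fin (n - 1) → L)) : Theta0 L F x u =
      u.1 • flog ((F.map x).map (algebraMap C L)) - ∑ i, u.2 i • Dser L F x i := by
  change _ - Fintype.linearCombination L (Dser L F x) u.2 = _
  rw [Fintype.linearCombination_apply]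
  rfl

noncomputable def kappa (x : E0 p n →+* C) (f : E0 p n) : (L × (Fin (n - 1) → L)) →ₗ[L] L :=
  (Fintype.linearCombination L fun i => algebraMap C L
      (x (MvPowerSeries.pderiv (WittVector p (GaloisField p n)) i f))).comp
      (LinearMap.snd L L (Fin (n - 1) → L))

theorem kappa_apply (x : E0 p n →+* C) (f : E0 p n) (u : L × (Fin (n - 1) → L)) :
    kappa L x f u = ∑ i, u.2 i * algebraMap C L
      (x (MvPowerSeries.pderiv (WittVector p (GaloisField p n)) i f)) := by
  change Fintype.linearCombination L _ u.2 = _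
  rw [Fintype.linearCombination_apply]
  rfl

theorem finrank_ker_kappa [IsFractionRing C L] (x : E0 p n →+* C) (f : E0 p n) (i : Fin (n - 1))
    (hdf : x (MvPowerSeries.pderiv (WittVector p (GaloisField p n)) i f) ≠ 0) :
    Module.finrank L (LinearMap.ker (kappa L x f)) = n - 1 := by
  classical
  have hκ : LinearMap.range (kappa L x f) = ⊤ := by
    rw [LinearMap.range_eq_top]
    intro y
    have h1 : algebraMap C L (x (MvPowerSeries.pderiv (WittVector p (GaloisField p n)) i f)) ≠
        0 := by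
      intro h
      rw [map_eq_zero_iff _ (IsFractionRing.injective C L)] at h
      exact hdf h
    refine ⟨(0, Pi.single i (y / algebraMap C L
      (x (MvPowerSeries.pderiv (WittVector p (GaloisField p n)) i f)))), ?_⟩
    change Fintype.linearCombination L _ (Pi.single i _) = y
    rw [Fintype.linearCombination_apply_single, smul_eq_mul, div_mul_cancel₀ _ h1]
  have h1 := LinearMap.finrank_range_add_finrank_ker (kappa L x f)
  rw [hκ, finrank_top, Module.finrank_self, Module.finrank_prod, Module.finrank_self,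
    Module.finrank_fintype_fun_eq_card, Fintype.card_fin] at h1
  omega

end Core

theorem char0_core {p n : ℕ} [Fact p.Prime] {C : Type} [CommRing C] [IsDomain C] (L : Type)
    [Field L] [CharZero L] [Algebra C L] [IsFractionRing C L] [IsLocalRing C]
    [IsNoetherianRing C] (hn1 : 1 ≤ n) {Γ : FormalGroup (ZMod p)}
    (hΓ : IsHonda p n Γ) {F : FormalGroup (E0 p n)} (hF : IsUniversalDeformation p n Γ F)
    (J : Ideal (E0 p n)) (hJ : IsInvariant p n F J) (x : E0 p n →+* C)
    (hx : Function.Surjective x)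
    (hJx : J ≤ RingHom.ker x) {e : ℕ}
    (hm : IsLocalRing.maximalIdeal C ^ (e + 1) ≤ Ideal.span {(p : C)}) (hp0 : (p : C) ≠ 0)
    (hfin : ∀ j, Finite (C ⧸ Ideal.span {(p : C)} ^ j))
    (hprec : ∀ f : ℕ → C, (∀ s, f (s + 1) - f s ∈ Ideal.span {(p : C)} ^ s) →
      ∃ l, ∀ s, l - f s ∈ Ideal.span {(p : C)} ^ s)
    (hhaus : ∀ z : C, (∀ s, z ∈ Ideal.span {(p : C)} ^ s) → z = 0)
    (hhaus' : ∀ z : C, (∀ s, z ∈ IsLocalRing.maximalIdeal C ^ s) → z = 0)
    (f : E0 p n) (i : Fin (n - 1)) (hpf : (p : E0 p n) * f ∈ J)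
    (hdf : x (MvPowerSeries.pderiv (WittVector p (GaloisField p n)) i f) ≠ 0) : False := by
  classical
  have := CA.isAdicComplete_E0 (p := p) (n := n)
  have hc : F.IsComm := hF.comm
  have hpp : p.Prime := Fact.out
  have hK := finrank_ker_kappa L x f i hdf
  have hinj : Function.Injective (algebraMap C L) := IsFractionRing.injective C L
  set Θ : (L × (Fin (n - 1) → L)) →ₗ[L] (PowerSeries L ⧸ Bd C L) :=
    (Bd C L).mkQ.comp (Theta0 L F x) with hΘ
  obtain ⟨v, hv1, hv2⟩ := exists_indep hn1 hΓ hF L x hx hm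
  have hΛ : ∀ l ∈ {l : PowerSeries L |
        ∃ (b : PowerSeries (E0 p n)) (hb0 : PowerSeries.constantCoeff b = 0),
          IsHom (Γ.map (algebraMap (ZMod p) (GaloisField p n)))
            (Γ.map (algebraMap (ZMod p) (GaloisField p n))) (PowerSeries.map (red p n) b) ∧
          l = logPt (F.map x) L Unit (pt (F.map x) (PowerSeries.map x b) (cc_map x hb0))},
      (Bd C L).mkQ l ∈ (LinearMap.ker (kappa L x f)).map Θ := by
    rintro l ⟨b, hb0, hb, rfl⟩
    obtain ⟨α, η, δ, hδ, hδJ, hstar⟩ := star hF hJ x hx hJx (Nat.le_add_left 1 e) hm hp0 hfin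
      hprec hhaus L hinj b hb0 hb
    have hδf : δ f = 0 := by
      have h1 := hδ.mul (p : E0 p n) f
      rw [hδJ _ hpf, hδ.natCast, mul_zero, add_zero, map_natCast, eq_comm, mul_eq_zero] at h1
      exact h1.resolve_left hp0
    have hδs := fun g => hδ.eq_sum hn1 hx hhaus hhaus' g
    set u : L × (Fin (n - 1) → L) := (algebraMap C L α, fun i => algebraMap C L (δ (X i))) with hu
    have hu1 : u ∈ LinearMap.ker (kappa L x f) := by
      rw [LinearMap.mem_ker, kappa_apply]
      simp only [hu, ← map_mul, ← map_sum]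
      rw [← hδs f, hδf, map_zero]
    set Λ : PowerSeries L := logPt (F.map x) L Unit (pt (F.map x) (PowerSeries.map x b)
      (cc_map x hb0)) with hΛ
    have hΘ0 : Theta0 L F x u = (p : L) ^ e • Λ + PowerSeries.map (algebraMap C L) η := by
      rw [Theta0_apply]
      ext m
      have h3 := hstar m
      rw [Nat.add_sub_cancel] at h3
      have h4 : PowerSeries.coeff m (∑ i, u.2 i • Dser L F x i) =
          algebraMap C L (δ (PowerSeries.coeff (m - 1) (omega F))) / m := by
        rw [hδs (PowerSeries.coeff (m - 1) (omega F)), map_sum, map_sum, Finset.sum_div]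
        refine Finset.sum_congr rfl fun i _ => ?_
        rw [map_smul, Dser, PowerSeries.coeff_mk, smul_eq_mul, map_mul]
        ring
      rw [map_sub, h4, map_smul, map_add, map_smul, PowerSeries.coeff_map, smul_eq_mul,
        smul_eq_mul, ← h3]
      ring
    have hη : (Bd C L).mkQ (PowerSeries.map (algebraMap C L) η) = 0 := by
      rw [Submodule.mkQ_apply, Submodule.Quotient.mk_eq_zero]
      exact ⟨1, one_ne_zero, η, by rw [map_one, map_one, one_mul]⟩
    have hpL : (p : L) ^ e ≠ 0 := pow_ne_zero _ (by exact_mod_cast hpp.ne_zero)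
    refine ⟨((p : L) ^ e)⁻¹ • u, Submodule.smul_mem _ _ hu1, ?_⟩
    rw [map_smul]
    change ((p : L) ^ e)⁻¹ • (Bd C L).mkQ (Theta0 L F x u) = _
    rw [hΘ0, map_add, hη, add_zero, map_smul, smul_smul, inv_mul_cancel₀ hpL, one_smul]
  have hspan : Submodule.span L (Set.range fun j => (Bd C L).mkQ (v j)) ≤
      (LinearMap.ker (kappa L x f)).map Θ := by
    rw [Submodule.span_le]
    rintro _ ⟨j, rfl⟩
    have h1 : ∀ l ∈ Submodule.span L {l : PowerSeries L |
        ∃ (b : PowerSeries (E0 p n)) (hb0 : PowerSeries.constantCoeff b = 0),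
          IsHom (Γ.map (algebraMap (ZMod p) (GaloisField p n)))
            (Γ.map (algebraMap (ZMod p) (GaloisField p n))) (PowerSeries.map (red p n) b) ∧
          l = logPt (F.map x) L Unit (pt (F.map x) (PowerSeries.map x b) (cc_map x hb0))},
        l ∈ ((LinearMap.ker (kappa L x f)).map Θ).comap (Bd C L).mkQ := by
      rw [← SetLike.le_def, Submodule.span_le]
      exact hΛ
    exact h1 _ (hv2 j)
  have h1 := finrank_span_eq_card hv1
  have h2 := Submodule.finrank_mono hspan
  have h3 := Submodule.finrank_map_le Θ (LinearMap.ker (kappa L x f))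
  rw [h1, Fintype.card_fin] at h2
  rw [hK] at h3
  omega

theorem char0_part {p n : ℕ} [Fact p.Prime] {Γ : FormalGroup (ZMod p)} (hn1 : 1 ≤ n)
    (hΓ : IsHonda p n Γ) {F : FormalGroup (E0 p n)} (hF : IsUniversalDeformation p n Γ F)
    (J : Ideal (E0 p n)) (hJ : IsInvariant p n F J) (hrad : J.IsRadical)
    (hp : (p : E0 p n) ∉ J) : J = ⊥ := by
  classical
  by_contra hJ0
  have := CA.isAdicComplete_E0 (p := p) (n := n)
  have hpp : p.Prime := Fact.out
  obtain ⟨f, i, Q, e, hQ, hJQ, hpQ, hpf, hdf, hme⟩ := CA.exists_good_prime hrad hp hJ0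
  have hCdom : IsDomain (E0 p n ⧸ Q) := Ideal.Quotient.isDomain Q
  set x : E0 p n →+* (E0 p n ⧸ Q) := Ideal.Quotient.mk Q with hxdef
  have hx : Function.Surjective x := Ideal.Quotient.mk_surjective
  have hCloc : IsLocalRing (E0 p n ⧸ Q) := IsLocalRing.of_surjective' x hx
  have hCnoeth : IsNoetherianRing (E0 p n ⧸ Q) := isNoetherianRing_of_surjective _ _ x hx
  have hpm : (p : (E0 p n ⧸ Q)) ∈ IsLocalRing.maximalIdeal (E0 p n ⧸ Q) :=
    p_mem_maximalIdeal x hx
  have hp0 : (p : (E0 p n ⧸ Q)) ≠ 0 := by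
    intro h
    apply hpQ
    rw [← Ideal.Quotient.eq_zero_iff_mem, map_natCast]
    exact h
  have hItop : Ideal.span {(p : (E0 p n ⧸ Q))} ≠ ⊤ := by
    intro h
    have h1 : Ideal.span {(p : (E0 p n ⧸ Q))} ≤ IsLocalRing.maximalIdeal (E0 p n ⧸ Q) := by
      rw [Ideal.span_singleton_le_iff_mem]
      exact hpm
    rw [h, top_le_iff] at h1
    exact (IsLocalRing.maximalIdeal.isMaximal (E0 p n ⧸ Q)).ne_top h1
  have hmC : IsLocalRing.maximalIdeal (E0 p n ⧸ Q) ≤
      (IsLocalRing.maximalIdeal (E0 p n)).map x := by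
    intro a ha
    obtain ⟨c, rfl⟩ := hx a
    refine Ideal.mem_map_of_mem _ ?_
    by_contra hc'
    have hc'' : IsUnit c := by
      by_contra h
      exact hc' h
    exact ha (hc''.map x)
  have hm : IsLocalRing.maximalIdeal (E0 p n ⧸ Q) ^ (e + 1) ≤
      Ideal.span {(p : (E0 p n ⧸ Q))} := by
    refine (Ideal.pow_le_pow_right (Nat.le_succ e)).trans ?_
    refine (Ideal.pow_right_mono hmC e).trans ?_
    rw [← Ideal.map_pow]
    refine (Ideal.map_mono hme).trans ?_
    rw [Ideal.map_sup, Ideal.map_quotient_self, bot_sup_eq, Ideal.map_span, Set.image_singleton,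
      map_natCast]
  have hCchar : CharZero (E0 p n ⧸ Q) := by
    refine charZero_of_inj_zero fun m hm0 => ?_
    by_contra hm1
    obtain ⟨t, ht⟩ := natCast_dvd_pow hpp hpm hm1
    rw [hm0, zero_mul] at ht
    exact pow_ne_zero _ hp0 ht
  have hLchar : CharZero (FractionRing (E0 p n ⧸ Q)) :=
    charZero_of_injective_algebraMap (IsFractionRing.injective (E0 p n ⧸ Q) _)
  have hfin : ∀ j, Finite ((E0 p n ⧸ Q) ⧸ Ideal.span {(p : (E0 p n ⧸ Q))} ^ j) := by
    intro j
    have h1 := CA.finite_quotient_E0 (p := p) (n := n) ((e + 1) * j)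
    have h2 : ∀ r ∈ IsLocalRing.maximalIdeal (E0 p n) ^ ((e + 1) * j),
        (Ideal.Quotient.mk (Ideal.span {(p : (E0 p n ⧸ Q))} ^ j)).comp x r = 0 := by
      intro r hr
      rw [RingHom.comp_apply, Ideal.Quotient.eq_zero_iff_mem]
      have h3 : (IsLocalRing.maximalIdeal (E0 p n)).map x ≤
          IsLocalRing.maximalIdeal (E0 p n ⧸ Q) := by
        rw [Ideal.map_le_iff_le_comap]
        intro r hr
        exact residue_x_mem_maximalIdeal x hx hr
      have h4 := Ideal.mem_map_of_mem x hr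
      rw [Ideal.map_pow] at h4
      have h5 := Ideal.pow_right_mono h3 _ h4
      have h6 : IsLocalRing.maximalIdeal (E0 p n ⧸ Q) ^ ((e + 1) * j) =
          (IsLocalRing.maximalIdeal (E0 p n ⧸ Q) ^ (e + 1)) ^ j := pow_mul _ _ _
      rw [h6] at h5
      exact Ideal.pow_right_mono hm _ h5
    exact Finite.of_surjective (Ideal.Quotient.lift _ _ h2)
      (Ideal.Quotient.lift_surjective_of_surjective _ _
        (Ideal.Quotient.mk_surjective.comp hx))
  refine char0_core (FractionRing (E0 p n ⧸ Q)) hn1 hΓ hF J hJ x hx ?_ hm hp0 hfin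
    (CA.prec_quotient hx) (fun z hz => CA.eq_zero_of_forall_mem hItop hz)
    (fun z hz => CA.eq_zero_of_forall_mem
      (IsLocalRing.maximalIdeal.isMaximal (E0 p n ⧸ Q)).ne_top hz) f i hpf ?_
  · rw [hxdef, Ideal.mk_ker]
    exact hJQ
  · intro h
    rw [Ideal.Quotient.eq_zero_iff_mem] at h
    exact hdf h

end Vale.Agent.P217.C0
end
end

section

section

/-!
# P217: from the universal deformation over `E₀` to families over `𝔽_q[[u_h, …, u_{n-1}]]`
-/

namespace Vale.Agent.P217

open MvPowerSeries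

section BaseChange

variable {p n h : ℕ} [Fact p.Prime]

/-- Core theorem over the finite field `𝔽_q` (by base change to an algebraic closure). -/
theorem core_finite {Γ₀ : FormalGroup (GaloisField p n)} (hΓ₀ : HondaLike p n Γ₀)
    (A : FamFG p n h (GaloisField p n) Γ₀)
    (I : Ideal (MvPowerSeries (Fin (n - h)) (GaloisField p n))) (hI : X A.i0 ∉ I.radical)
    (hinv : ∀ ω : GaloisField p n, ∀ l : ℕ, 1 ≤ l →
      ∃ L : Lift A ω l, I ≤ I.comap (L.φ : MvPowerSeries (Fin (n - h)) (GaloisField p n) →+*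
        MvPowerSeries (Fin (n - h)) (GaloisField p n))) : I = ⊥ :=
  core_finite' hΓ₀ A I hI hinv

end BaseChange

section PiH

variable (p n : ℕ) [Fact p.Prime]

variable {p n}

/-- The reduction of the universal deformation modulo `I_h` is a family in the sense of `FamFG`. -/
theorem exists_famFG {Γ : FormalGroup (ZMod p)} (hn1 : 1 ≤ n) (hΓ : IsHonda p n Γ)
    {F : FormalGroup (E0 p n)} (hF : IsUniversalDeformation p n Γ F) (hH : HeightAdapted p n F)
    (h : ℕ) (hh : 1 ≤ h) (hhn : h < n) :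
    ∃ A : FamFG p n h (GaloisField p n) (Γ.map (algebraMap (ZMod p) (GaloisField p n))),
      A.G = F.map (piH p n h hh hhn.le) :=
  exists_famFG' hn1 (IsHonda.hondaLike hn1 hΓ _ _) hF hH h hh hhn

/-- Lifts of automorphisms of `Γ` (by universality). -/
theorem exists_phi {Γ : FormalGroup (ZMod p)}
    {F : FormalGroup (E0 p n)} (hF : IsUniversalDeformation p n Γ F)
    (g : PowerSeries (GaloisField p n))
    (hg : IsIso (Γ.map (algebraMap (ZMod p) (GaloisField p n)))
      (Γ.map (algebraMap (ZMod p) (GaloisField p n))) g) :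
    ∃ (φ : E0 p n ≃+* E0 p n) (ψ : PowerSeries (E0 p n)),
      (red p n).comp (φ : E0 p n →+* E0 p n) = red p n ∧
      IsIso F (F.map (φ : E0 p n →+* E0 p n)) ψ ∧ ψ.map (red p n) = g := by
  have := CA.isAdicComplete_E0 (p := p) (n := n)
  exact C0.exists_phi' hF g hg

/-- Lifts of `g_{ω,l}` to the family modulo `I_h`, compatible with an invariant ideal. -/
theorem exists_lift {Γ : FormalGroup (ZMod p)} (hn1 : 1 ≤ n) (hΓ : IsHonda p n Γ)
    {F : FormalGroup (E0 p n)} (hF : IsUniversalDeformation p n Γ F) (hH : HeightAdapted p n F)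
    (h : ℕ) (hh : 1 ≤ h) (hhn : h < n)
    (A : FamFG p n h (GaloisField p n) (Γ.map (algebraMap (ZMod p) (GaloisField p n))))
    (hA : A.G = F.map (piH p n h hh hhn.le)) (J : Ideal (E0 p n)) (hJ : IsInvariant p n F J)
    (ω : GaloisField p n) (l : ℕ) (hl : 1 ≤ l) :
    ∃ L : Lift A ω l, J.map (piH p n h hh hhn.le) ≤ (J.map (piH p n h hh hhn.le)).comap
      (L.φ : MvPowerSeries (Fin (n - h)) (GaloisField p n) →+*
        MvPowerSeries (Fin (n - h)) (GaloisField p n)) := by
  have hΓ₀ := IsHonda.hondaLike hn1 hΓ (GaloisField p n) (algebraMap (ZMod p) (GaloisField p n))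
  obtain ⟨φ, ψ, hred, hiso, hψ⟩ := exists_phi hF _ (isIso_gser hΓ₀ ω l hl)
  have hinv := isInvariant_heightIdeal hn1 hΓ hF hH h hhn.le φ ψ hiso
  obtain ⟨φ', hφ', hφ0⟩ := exists_descent hn1 h hh hhn.le (φ : E0 p n →+* E0 p n) hred hinv.le
  have hg : IsIso A.G (A.G.map (φ' : MvPowerSeries (Fin (n - h)) (GaloisField p n) →+*
      MvPowerSeries (Fin (n - h)) (GaloisField p n))) (ψ.map (piH p n h hh hhn.le)) := by
    have h1 := hiso.fbMap (piH p n h hh hhn.le)
    rw [fbMap_map, ← hφ', ← fbMap_map, ← hA] at h1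
    exact h1
  have hredg : (ψ.map (piH p n h hh hhn.le)).map MvPowerSeries.constantCoeff =
      gser p (Γ.map (algebraMap (ZMod p) (GaloisField p n))) ω l := by
    rw [← hψ]
    ext j
    rw [PowerSeries.coeff_map, PowerSeries.coeff_map, PowerSeries.coeff_map, constantCoeff_piH]
  refine ⟨⟨φ', hφ0, _, hg, hredg⟩, ?_⟩
  rw [Ideal.map_le_iff_le_comap]
  intro x hx
  rw [Ideal.mem_comap, Ideal.mem_comap]
  have h2 : (φ' : MvPowerSeries (Fin (n - h)) (GaloisField p n) →+*
      MvPowerSeries (Fin (n - h)) (GaloisField p n)) (piH p n h hh hhn.le x) =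
      piH p n h hh hhn.le (φ x) := RingHom.congr_fun hφ' x
  have h3 : φ x ∈ J := by
    have h4 := Ideal.mem_map_of_mem (φ : E0 p n →+* E0 p n) hx
    rw [hJ φ ψ hiso] at h4
    exact h4
  have h5 := Ideal.mem_map_of_mem (piH p n h hh hhn.le) h3
  rw [← h2] at h5
  exact h5

/-- The characteristic `p` part of the theorem. -/
theorem charP_part {Γ : FormalGroup (ZMod p)} (hn1 : 1 ≤ n) (hΓ : IsHonda p n Γ)
    {F : FormalGroup (E0 p n)} (hF : IsUniversalDeformation p n Γ F) (hH : HeightAdapted p n F)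
    (J : Ideal (E0 p n)) (hJ : IsInvariant p n F J) (hrad : J.IsRadical)
    (hp : (p : E0 p n) ∈ J) : J = ⊤ ∨ ∃ h, 1 ≤ h ∧ h ≤ n ∧ J = heightIdeal p n h := by
  classical
  by_cases htop : J = ⊤
  · exact Or.inl htop
  right
  -- the largest `h` with `I_h ≤ J`
  have h1 : heightIdeal p n 1 ≤ J := by
    rw [heightIdeal_of_pos le_rfl, mem_span_union_iff_le]
    refine ⟨hp, ?_⟩
    rintro x ⟨i, hi, rfl⟩
    omega
  let P : ℕ → Prop := fun h => 1 ≤ h ∧ heightIdeal p n h ≤ J
  have hP1 : P 1 := ⟨le_rfl, h1⟩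
  set h := Nat.findGreatest P n with hh_def
  have hPh : P h := Nat.findGreatest_spec hn1 hP1
  have hle : h ≤ n := Nat.findGreatest_le n
  rcases hle.eq_or_lt with heq | hlt
  · -- `I_n` is maximal
    refine ⟨n, hn1, le_rfl, ?_⟩
    have hmax : (heightIdeal p n n).IsMaximal := by
      rw [← ker_piH n hn1 le_rfl]
      have hbij : Function.Bijective
          (constantCoeff : MvPowerSeries (Fin (n - n)) (GaloisField p n) →+* GaloisField p n) := by
        refine ⟨?_, fun c => ⟨C c, constantCoeff_C c⟩⟩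
        intro a b hab
        ext d
        have hd : d = 0 := by
          ext i
          exact absurd i.2 (by simp)
        rw [hd, coeff_zero_eq_constantCoeff_apply, coeff_zero_eq_constantCoeff_apply, hab]
      have hker : RingHom.ker (piH p n n hn1 le_rfl) =
          RingHom.ker ((constantCoeff : MvPowerSeries (Fin (n - n)) (GaloisField p n) →+*
            GaloisField p n).comp (piH p n n hn1 le_rfl)) := by
        ext x
        rw [RingHom.mem_ker, RingHom.mem_ker, RingHom.comp_apply]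
        constructor
        · intro hx
          rw [hx, map_zero]
        · intro hx
          apply hbij.1
          rw [hx, map_zero]
      rw [hker]
      exact RingHom.ker_isMaximal_of_surjective _
        (hbij.2.comp (piH_surjective n hn1 le_rfl))
    rw [heq] at hPh
    exact (hmax.eq_of_le htop hPh.2).symm
  · refine ⟨h, hPh.1, hle, ?_⟩
    have hh := hPh.1
    obtain ⟨A, hA⟩ := exists_famFG hn1 hΓ hF hH h hh hlt
    have hΓ₀ := IsHonda.hondaLike hn1 hΓ (GaloisField p n)
      (algebraMap (ZMod p) (GaloisField p n))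
    -- `J` is the preimage of its image
    have hmemJ : ∀ x, piH p n h hh hlt.le x ∈ J.map (piH p n h hh hlt.le) → x ∈ J := by
      intro x hx
      rw [Ideal.mem_map_iff_of_surjective _ (piH_surjective h hh hlt.le)] at hx
      obtain ⟨y, hy, hxy⟩ := hx
      have hsub : x - y ∈ RingHom.ker (piH p n h hh hlt.le) := by
        rw [RingHom.mem_ker, map_sub, hxy, sub_self]
      rw [ker_piH] at hsub
      have := J.add_mem (hPh.2 hsub) hy
      rwa [sub_add_cancel] at this
    have hX : X A.i0 ∉ (J.map (piH p n h hh hlt.le)).radical := by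
      rintro ⟨N, hN⟩
      rw [← piH_X_emb h hh hlt.le, ← map_pow] at hN
      have hXJ : X (embH n h hh hlt.le A.i0) ∈ J := hrad ⟨N, hmemJ _ hN⟩
      -- then `I_{h+1} ≤ J`
      have hP' : P (h + 1) := by
        refine ⟨by omega, ?_⟩
        rw [heightIdeal_of_pos (by omega), mem_span_union_iff_le]
        refine ⟨hp, ?_⟩
        rintro x ⟨i, hi, rfl⟩
        by_cases hi' : (i : ℕ) + 1 < h
        · apply hPh.2
          rw [heightIdeal_of_pos hh]
          exact Ideal.subset_span (Or.inr ⟨i, hi', rfl⟩)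
        · have : i = embH n h hh hlt.le A.i0 := by
            apply Fin.ext
            rw [val_embH]
            have : ((A.i0 : Fin (n - h)) : ℕ) = 0 := rfl
            omega
          rw [this]
          exact hXJ
      have := Nat.le_findGreatest (P := P) (show h + 1 ≤ n by omega) hP'
      omega
    have hbot := core_finite hΓ₀ A (J.map (piH p n h hh hlt.le)) hX (fun ω l hl =>
      exists_lift hn1 hΓ hF hH h hh hlt A hA J hJ ω l hl)
    apply le_antisymm ?_ hPh.2
    intro x hx
    rw [← ker_piH h hh hlt.le, RingHom.mem_ker]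
    have := Ideal.mem_map_of_mem (piH p n h hh hlt.le) hx
    rw [hbot] at this
    exact this

/-- The characteristic `0` part of the theorem. -/
theorem char0_part {Γ : FormalGroup (ZMod p)} (hn1 : 1 ≤ n) (hΓ : IsHonda p n Γ)
    {F : FormalGroup (E0 p n)} (hF : IsUniversalDeformation p n Γ F) (hH : HeightAdapted p n F)
    (J : Ideal (E0 p n)) (hJ : IsInvariant p n F J) (hrad : J.IsRadical)
    (hp : (p : E0 p n) ∉ J) : J = ⊥ :=
  C0.char0_part hn1 hΓ hF J hJ hrad hp

/-- **Main theorem**: Chai's invariant ideal conjecture. -/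
theorem chai (hn1 : 1 ≤ n) : ChaiStatement p n := by
  intro Γ hΓ F hF hH J
  have key : J.IsRadical → IsInvariant p n F J →
      J = ⊤ ∨ ∃ h ≤ n, J = heightIdeal p n h := by
    intro hrad hJ
    by_cases hp : (p : E0 p n) ∈ J
    · rcases charP_part hn1 hΓ hF hH J hJ hrad hp with h | ⟨h, -, h2, h3⟩
      · exact Or.inl h
      · exact Or.inr ⟨h, h2, h3⟩
    · refine Or.inr ⟨0, Nat.zero_le _, ?_⟩
      rw [char0_part hn1 hΓ hF hH J hJ hrad hp]
      simp [heightIdeal]
  constructor
  · constructor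
    · rintro ⟨h1, h2⟩
      rcases key h1.isRadical h2 with h | h
      · exact absurd h h1.ne_top
      · exact h
    · rintro ⟨h, hh, rfl⟩
      exact ⟨isPrime_heightIdeal hn1 h hh, isInvariant_heightIdeal hn1 hΓ hF hH h hh⟩
  · constructor
    · rintro ⟨h1, h2⟩
      exact key h1 h2
    · rintro (rfl | ⟨h, hh, rfl⟩)
      · refine ⟨fun x _ => Submodule.mem_top, ?_⟩
        intro φ g _
        exact Ideal.map_top _
      · exact ⟨(isPrime_heightIdeal hn1 h hh).isRadical,
          isInvariant_heightIdeal hn1 hΓ hF hH h hh⟩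

end PiH

end Vale.Agent.P217
end
end

section

section

/-!
# P217: the action of the extended Morava stabilizer group on the universal deformation

For every `σ ∈ Gal(𝔽_{p^n}/𝔽_p)` and every automorphism `γ` of `Γ` over `𝔽_{p^n}` there is exactly
one pair `(φ, g)` (automorphism `φ` of `E₀`, isomorphism `g : F → φ_* F`) inducing `(σ, γ)` on the
residue field, and conversely every pair `(φ, g)` induces such a pair `(σ, γ)`.
-/

namespace Vale.Agent.P217.AC

open MvPowerSeries Vale.Agent.P217 Vale.Agent.P217.C0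

variable {p n : ℕ} [Fact p.Prime] {Γ : FormalGroup (ZMod p)} {F : FormalGroup (E0 p n)}

/-- `Γ` is defined over the prime field, so it is fixed by every endomorphism of the field. -/
theorem gamma_map (s : GaloisField p n →+* GaloisField p n) :
    (Γ.map (algebraMap (ZMod p) (GaloisField p n))).map s =
      Γ.map (algebraMap (ZMod p) (GaloisField p n)) := by
  rw [FG_map_map]
  congr 1
  exact Subsingleton.elim _ _

section

variable [IsNoetherianRing (E0 p n)] [IsAdicComplete (IsLocalRing.maximalIdeal (E0 p n)) (E0 p n)]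

/-- existence of the pair, `φ` being only a ring homomorphism. -/
theorem exists_pair_hom (hF : IsUniversalDeformation p n Γ F)
    (s : GaloisField p n →+* GaloisField p n) (g : PowerSeries (GaloisField p n))
    (hg : IsIso (Γ.map (algebraMap (ZMod p) (GaloisField p n)))
      (Γ.map (algebraMap (ZMod p) (GaloisField p n))) g) :
    ∃ (φ : E0 p n →+* E0 p n) (ψ : PowerSeries (E0 p n)),
      (red p n).comp φ = s.comp (red p n) ∧ IsIso F (F.map φ) ψ ∧ ψ.map (red p n) = g := by
  have hc : F.IsComm := hF.comm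
  obtain ⟨i, hi⟩ := exists_factor_red (IsLocalRing.residue (E0 p n)) (by
    rw [IsLocalRing.ker_residue])
  have hiinj : Function.Injective i := i.injective
  -- a lift of `g`
  obtain ⟨u, hu0, hug⟩ : ∃ u : PowerSeries (E0 p n), PowerSeries.constantCoeff u = 0 ∧
      u.map (red p n) = g := by
    refine ⟨PowerSeries.mk fun m => if m = 0 then 0 else
      Function.surjInv red_surjective (PowerSeries.coeff m g), ?_, ?_⟩
    · rw [← PowerSeries.coeff_zero_eq_constantCoeff_apply, PowerSeries.coeff_mk, if_pos rfl]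
    · ext m
      rw [PowerSeries.coeff_map, PowerSeries.coeff_mk]
      split_ifs with h
      · rw [h, map_zero, PowerSeries.coeff_zero_eq_constantCoeff_apply, hg.1.1]
      · exact Function.surjInv_eq red_surjective _
  have hu1 : IsUnit (PowerSeries.coeff 1 u) := by
    apply isUnit_of_red
    rw [← PowerSeries.coeff_map, hug]
    exact hg.2
  obtain ⟨G, hG, hFG⟩ := exists_transport F u hu0 hu1
  have hGred : G.map (red p n) = Γ.map (algebraMap (ZMod p) (GaloisField p n)) := by
    have h1 := hFG.mapC (red p n)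
    rw [hug, hF.reduction] at h1
    exact h1.targetC hg
  have hGres : G.map (IsLocalRing.residue (E0 p n)) =
      (Γ.map (algebraMap (ZMod p) (GaloisField p n))).map (i.comp s) := by
    rw [← hi, ← FG_map_map, hGred, ← FG_map_map, gamma_map]
  obtain ⟨⟨φ, ψ'⟩, ⟨h1, h2, h3⟩, -⟩ := hF.universal (E0 p n) (i.comp s) G hGres
  simp only at h1 h2 h3
  have hφ : (red p n).comp φ = s.comp (red p n) := by
    refine RingHom.ext fun a => hiinj ?_
    have e1 := RingHom.congr_fun h1 a
    have e2 := RingHom.congr_fun hi (φ a)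
    rw [RingHom.comp_apply, RingHom.comp_apply, RingHom.comp_apply] at e1
    rw [RingHom.comp_apply] at e2
    rw [RingHom.comp_apply, e2, e1, RingHom.comp_apply]
  have hψ' : ψ'.map (red p n) = PowerSeries.X := by
    have h4 : (ψ'.map (red p n)).map i = (PowerSeries.X : PowerSeries (GaloisField p n)).map i := by
      rw [ps_map_comp, hi, h3, PowerSeries.map_X]
    ext m
    have h5 := congrArg (PowerSeries.coeff m) h4
    rw [PowerSeries.coeff_map, PowerSeries.coeff_map] at h5
    exact hiinj h5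
  obtain ⟨v, hv, hv1, hv2⟩ := h2.symmC
  have hvr : v.map (red p n) = PowerSeries.X := by
    have h5 := congrArg (PowerSeries.map (red p n)) hv1
    rw [ps_map_subst _ h2.1.1, hψ', PowerSeries.X_subst, PowerSeries.map_X] at h5
    exact h5
  refine ⟨φ, PowerSeries.subst u v, hφ, hFG.compC hv, ?_⟩
  rw [ps_map_subst _ hu0, hvr, hug, PowerSeries.subst_X (hasSubst_of_cc hg.1.1)]

/-- the pairs compose. -/
theorem comp_eq_id (hF : IsUniversalDeformation p n Γ F)
    {s₁ s₂ : GaloisField p n →+* GaloisField p n} (hs : s₁.comp s₂ = RingHom.id _)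
    {g₁ g₂ : PowerSeries (GaloisField p n)} {φ₁ φ₂ : E0 p n →+* E0 p n}
    {ψ₁ ψ₂ : PowerSeries (E0 p n)} (r1 : (red p n).comp φ₁ = s₁.comp (red p n))
    (r2 : (red p n).comp φ₂ = s₂.comp (red p n))
    (i1 : IsIso F (F.map φ₁) ψ₁) (i2 : IsIso F (F.map φ₂) ψ₂) (e1 : ψ₁.map (red p n) = g₁)
    (e2 : ψ₂.map (red p n) = g₂)
    (h12 : PowerSeries.subst g₁ (g₂.map s₁) = (PowerSeries.X : PowerSeries (GaloisField p n))) :
    φ₁.comp φ₂ = RingHom.id _ := by
  have hc : F.IsComm := hF.comm
  obtain ⟨i, hi⟩ := exists_factor_red (IsLocalRing.residue (E0 p n)) (by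
    rw [IsLocalRing.ker_residue])
  have h3 : IsIso (F.map (RingHom.id _)) (F.map (φ₁.comp φ₂))
      (PowerSeries.subst ψ₁ (ψ₂.map φ₁)) := by
    rw [FG_map_id, ← FG_map_map]
    exact i1.compC (i2.mapC φ₁)
  refine ((rigid hF i ?_ ?_ h3 ?_).1).symm
  · rw [RingHom.comp_id, hi]
  · have h4 : (red p n).comp (φ₁.comp φ₂) = red p n := by
      rw [← RingHom.comp_assoc, r1, RingHom.comp_assoc, r2, ← RingHom.comp_assoc, hs,
        RingHom.id_comp]
    rw [← hi, RingHom.comp_assoc, h4]
  · rw [← hi, ← ps_map_comp, ps_map_subst _ i1.1.1, e1, ps_map_comp, r1, ← ps_map_comp, e2, h12,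
      PowerSeries.map_X]

theorem exists_unique_pair' (hF : IsUniversalDeformation p n Γ F)
    (σ : GaloisField p n ≃+* GaloisField p n) (γ : PowerSeries (GaloisField p n))
    (hγ : IsIso (Γ.map (algebraMap (ZMod p) (GaloisField p n)))
      (Γ.map (algebraMap (ZMod p) (GaloisField p n))) γ) :
    ∃! x : (E0 p n ≃+* E0 p n) × PowerSeries (E0 p n),
      (red p n).comp (x.1 : E0 p n →+* E0 p n) =
        (σ : GaloisField p n →+* GaloisField p n).comp (red p n) ∧
      IsIso F (F.map (x.1 : E0 p n →+* E0 p n)) x.2 ∧ x.2.map (red p n) = γ := by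
  have hc : F.IsComm := hF.comm
  obtain ⟨i, hi⟩ := exists_factor_red (IsLocalRing.residue (E0 p n)) (by
    rw [IsLocalRing.ker_residue])
  obtain ⟨γ', hγ', h1, h2⟩ := hγ.symmC
  have hγ2 : IsIso (Γ.map (algebraMap (ZMod p) (GaloisField p n)))
      (Γ.map (algebraMap (ZMod p) (GaloisField p n)))
      (γ'.map (σ.symm : GaloisField p n →+* GaloisField p n)) := by
    have h := hγ'.mapC (σ.symm : GaloisField p n →+* GaloisField p n)
    rwa [gamma_map] at h
  obtain ⟨φ, ψ, a1, a2, a3⟩ := exists_pair_hom hF (σ : GaloisField p n →+* GaloisField p n) γ hγ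
  obtain ⟨φ', ψ', b1, b2, b3⟩ := exists_pair_hom hF
    (σ.symm : GaloisField p n →+* GaloisField p n) _ hγ2
  have hs1 : (σ : GaloisField p n →+* GaloisField p n).comp
      (σ.symm : GaloisField p n →+* GaloisField p n) = RingHom.id _ := by
    ext a; simp
  have hs2 : (σ.symm : GaloisField p n →+* GaloisField p n).comp
      (σ : GaloisField p n →+* GaloisField p n) = RingHom.id _ := by
    ext a; simp
  have e1 : φ.comp φ' = RingHom.id _ := by
    refine comp_eq_id hF hs1 a1 b1 a2 b2 a3 b3 ?_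
    have h3 : (γ'.map (σ.symm : GaloisField p n →+* GaloisField p n)).map
        (σ : GaloisField p n →+* GaloisField p n) = γ' := by
      rw [ps_map_comp, hs1]
      ext m; simp
    rw [h3, h1]
  have e2 : φ'.comp φ = RingHom.id _ := by
    refine comp_eq_id hF hs2 b1 a1 b2 a2 b3 a3 ?_
    rw [← ps_map_subst _ hγ'.1.1, h2, PowerSeries.map_X]
  refine ⟨(RingEquiv.ofRingHom φ φ' e1 e2, ψ), ⟨a1, a2, a3⟩, ?_⟩
  rintro ⟨φ₂, ψ₂⟩ ⟨c1, c2, c3⟩
  simp only at c1 c2 c3
  obtain ⟨ψi, hψi, k1, k2⟩ := a2.symmC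
  have h5 : IsIso (F.map φ) (F.map (φ₂ : E0 p n →+* E0 p n)) (PowerSeries.subst ψi ψ₂) :=
    hψi.compC c2
  have h6 : PowerSeries.map (IsLocalRing.residue (E0 p n))
      (PowerSeries.subst ψi ψ₂ : PowerSeries (E0 p n)) = PowerSeries.X := by
    have h7 : PowerSeries.map (red p n) (PowerSeries.subst ψi ψ₂ : PowerSeries (E0 p n)) =
        PowerSeries.X := by
      rw [ps_map_subst _ hψi.1.1, c3, ← a3, ← ps_map_subst _ hψi.1.1, k2, PowerSeries.map_X]
    rw [← hi, ← ps_map_comp, h7, PowerSeries.map_X]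
  obtain ⟨r1, r2⟩ := rigid hF (i.comp (σ : GaloisField p n →+* GaloisField p n))
    (x := φ) (y := (φ₂ : E0 p n →+* E0 p n))
    (by rw [← hi, RingHom.comp_assoc, a1, RingHom.comp_assoc])
    (by rw [← hi, RingHom.comp_assoc, c1, RingHom.comp_assoc]) h5 h6
  have h8 : ψ₂ = ψ := by
    have h9 : (PowerSeries.subst ψ (PowerSeries.subst ψi ψ₂ : PowerSeries (E0 p n)) :
        PowerSeries (E0 p n)) = ψ := by
      rw [r2, PowerSeries.subst_X (hasSubst_of_cc a2.1.1)]
    rw [PowerSeries.subst_comp_subst_apply (hasSubst_of_cc hψi.1.1) (hasSubst_of_cc a2.1.1),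
      k1, PowerSeries.X_subst] at h9
    exact h9
  refine Prod.ext ?_ h8
  refine RingEquiv.ext fun a => ?_
  exact (RingHom.congr_fun r1 a).symm

end

/-- **The extended Morava stabilizer group acts**: for every automorphism `σ` of the residue field
and every automorphism `γ` of `Γ` over the residue field there is exactly one pair `(φ, g)`, `φ` an
automorphism of the ring `E₀` and `g : F → φ_* F` an isomorphism, which reduces to `(σ, γ)`. -/
theorem exists_unique_pair (hF : IsUniversalDeformation p n Γ F)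
    (σ : GaloisField p n ≃+* GaloisField p n) (γ : PowerSeries (GaloisField p n))
    (hγ : IsIso (Γ.map (algebraMap (ZMod p) (GaloisField p n)))
      (Γ.map (algebraMap (ZMod p) (GaloisField p n))) γ) :
    ∃! x : (E0 p n ≃+* E0 p n) × PowerSeries (E0 p n),
      (red p n).comp (x.1 : E0 p n →+* E0 p n) =
        (σ : GaloisField p n →+* GaloisField p n).comp (red p n) ∧
      IsIso F (F.map (x.1 : E0 p n →+* E0 p n)) x.2 ∧ x.2.map (red p n) = γ := by
  have := CA.isAdicComplete_E0 (p := p) (n := n)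
  exact exists_unique_pair' hF σ γ hγ

/-- an automorphism of `E₀` induces an automorphism of the residue field. -/
theorem exists_unique_residue (φ : E0 p n ≃+* E0 p n) :
    ∃! σ : GaloisField p n ≃+* GaloisField p n,
      (red p n).comp (φ : E0 p n →+* E0 p n) =
        (σ : GaloisField p n →+* GaloisField p n).comp (red p n) := by
  have key : ∀ φ : E0 p n ≃+* E0 p n, ∃ s : GaloisField p n →+* GaloisField p n,
      s.comp (red p n) = (red p n).comp (φ : E0 p n →+* E0 p n) := by
    intro φ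
    refine exists_factor_red _ ?_
    have h1 : Function.Surjective ((red p n).comp (φ : E0 p n →+* E0 p n)) :=
      red_surjective.comp φ.surjective
    exact (IsLocalRing.eq_maximalIdeal (RingHom.ker_isMaximal_of_surjective _ h1)).ge
  obtain ⟨s, hs⟩ := key φ
  obtain ⟨t, ht⟩ := key φ.symm
  have e1 : s.comp t = RingHom.id _ := by
    refine RingHom.ext fun a => ?_
    obtain ⟨b, rfl⟩ := red_surjective a
    have h1 := RingHom.congr_fun ht b
    have h2 := RingHom.congr_fun hs (φ.symm b)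
    simp only [RingHom.comp_apply, RingHom.coe_coe, RingEquiv.apply_symm_apply] at h1 h2
    rw [RingHom.comp_apply, h1, h2, RingHom.id_apply]
  have e2 : t.comp s = RingHom.id _ := by
    refine RingHom.ext fun a => ?_
    obtain ⟨b, rfl⟩ := red_surjective a
    have h1 := RingHom.congr_fun hs b
    have h2 := RingHom.congr_fun ht (φ b)
    simp only [RingHom.comp_apply, RingHom.coe_coe, RingEquiv.symm_apply_apply] at h1 h2
    rw [RingHom.comp_apply, h1, h2, RingHom.id_apply]
  refine ⟨RingEquiv.ofRingHom s t e1 e2, hs.symm, ?_⟩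
  intro σ' hσ'
  refine RingEquiv.ext fun a => ?_
  obtain ⟨b, rfl⟩ := red_surjective a
  exact (RingHom.congr_fun (hs.trans hσ') b).symm

/-- Conversely every pair `(φ, g)`, `φ` an automorphism of the ring `E₀` and `g : F → φ_* F` an
isomorphism, reduces to an automorphism `σ` of the residue field and an automorphism of `Γ` over
the residue field. -/
theorem exists_unique_reduction (hF : IsUniversalDeformation p n Γ F) (φ : E0 p n ≃+* E0 p n)
    (g : PowerSeries (E0 p n)) (hg : IsIso F (F.map (φ : E0 p n →+* E0 p n)) g) :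
    ∃! σ : GaloisField p n ≃+* GaloisField p n,
      (red p n).comp (φ : E0 p n →+* E0 p n) =
        (σ : GaloisField p n →+* GaloisField p n).comp (red p n) ∧
      IsIso (Γ.map (algebraMap (ZMod p) (GaloisField p n)))
        (Γ.map (algebraMap (ZMod p) (GaloisField p n))) (g.map (red p n)) := by
  obtain ⟨σ, hσ, huniq⟩ := exists_unique_residue φ
  refine ⟨σ, ⟨hσ, ?_⟩, fun σ' h => huniq σ' h.1⟩
  have h := hg.mapC (red p n)
  rwa [FG_map_map, hσ, ← FG_map_map, hF.reduction, gamma_map] at h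

end Vale.Agent.P217.AC
end
end

section

section

/-!
# P217: the Honda logarithm, uniqueness and congruence lemmas
-/

namespace Vale.Agent.P217

open MvPowerSeries Finsupp

section Agree

variable {τ L : Type*} [CommRing L]

/-- `A` and `B` agree in degrees `< d`. -/
def AgreeLT (d : ℕ) (A B : MvPowerSeries τ L) : Prop :=
  ∀ e : τ →₀ ℕ, degree e < d → coeff e A = coeff e B

/-- If `A`, `B` have no constant term and agree in degrees `< d` then their `k`-th powers agree in
degrees `≤ d` when `k ≥ 2`. -/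
theorem AgreeLT.pow {d : ℕ} {A B : MvPowerSeries τ L} (h : AgreeLT d A B)
    (hA : constantCoeff A = 0) (hB : constantCoeff B = 0) {k : ℕ} (hk : 2 ≤ k) :
    AgreeLT (d + 1) (A ^ k) (B ^ k) := by
  intro e he
  have h1 : (d : ℕ∞) ≤ (A - B).order := by
    apply nat_le_order
    intro f hf
    rw [map_sub, h f hf, sub_self]
  have h2 : (1 : ℕ∞) ≤ (∑ i ∈ Finset.range k, A ^ i * B ^ (k - 1 - i)).order := by
    rw [one_le_order_iff_constCoeff_eq_zero, map_sum]
    apply Finset.sum_eq_zero
    intro i hi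
    rw [Finset.mem_range] at hi
    rw [map_mul, map_pow, map_pow, hA, hB]
    rcases Nat.eq_zero_or_pos i with rfl | hi0
    · rw [zero_pow (by omega : k - 1 - 0 ≠ 0), mul_zero]
    · rw [zero_pow (by omega : i ≠ 0), zero_mul]
  have h3 : ((d + 1 : ℕ) : ℕ∞) ≤ (A ^ k - B ^ k).order := by
    rw [← (Commute.all A B).mul_geom_sum₂]
    refine le_trans ?_ (le_order_mul)
    push_cast
    exact add_le_add h1 h2
  have h4 : coeff e (A ^ k - B ^ k) = 0 := by
    apply coeff_of_lt_order
    refine lt_of_lt_of_le ?_ h3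
    exact_mod_cast he
  rw [map_sub] at h4
  exact sub_eq_zero.1 h4

/-- powers agree in the same range. -/
theorem AgreeLT.pow' {d : ℕ} {A B : MvPowerSeries τ L} (h : AgreeLT d A B) (k : ℕ) :
    AgreeLT d (A ^ k) (B ^ k) := by
  intro e he
  have h1 : (d : ℕ∞) ≤ (A - B).order := by
    apply nat_le_order
    intro f hf
    rw [map_sub, h f hf, sub_self]
  have h3 : (d : ℕ∞) ≤ (A ^ k - B ^ k).order := by
    rw [← (Commute.all A B).mul_geom_sum₂]
    refine le_trans ?_ (le_order_mul)
    exact h1.trans (le_add_right le_rfl)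
  have h4 : coeff e (A ^ k - B ^ k) = 0 := by
    apply coeff_of_lt_order
    refine lt_of_lt_of_le ?_ h3
    exact_mod_cast he
  rw [map_sub] at h4
  exact sub_eq_zero.1 h4

end Agree

section Log

variable {τ L : Type*} [CommRing L]

/-- The series `∑ c_i X^(q^i)`. -/
noncomputable def lser (q : ℕ) (c : ℕ → L) : PowerSeries L :=
  PowerSeries.mk fun m => ∑ i ∈ Finset.range (m + 1), if m = q ^ i then c i else 0

theorem coeff_lser_pow {q : ℕ} (hq : 2 ≤ q) (c : ℕ → L) (i : ℕ) :
    PowerSeries.coeff (q ^ i) (lser q c) = c i := by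
  rw [lser, PowerSeries.coeff_mk, Finset.sum_eq_single i]
  · simp
  · intro j _ hj
    rw [if_neg]
    intro h
    exact hj (Nat.pow_right_injective hq h).symm
  · intro h
    exfalso
    apply h
    rw [Finset.mem_range]
    have := Nat.lt_pow_self (n := i) hq
    omega

theorem coeff_lser_of_ne {q : ℕ} (c : ℕ → L) {m : ℕ} (hm : ∀ i, m ≠ q ^ i) :
    PowerSeries.coeff m (lser q c) = 0 := by
  rw [lser, PowerSeries.coeff_mk]
  exact Finset.sum_eq_zero fun i _ => if_neg (hm i)

/-- **(LF)** The coefficients of `ℓ(A)`. -/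
theorem coeff_subst_lser {q : ℕ} (hq : 2 ≤ q) (c : ℕ → L) {A : MvPowerSeries τ L}
    (hA : constantCoeff A = 0) (e : τ →₀ ℕ) {M : ℕ} (hM : degree e < M) :
    coeff e (PowerSeries.subst A (lser q c) : MvPowerSeries τ L) =
      ∑ i ∈ Finset.range M, c i * coeff e (A ^ (q ^ i)) := by
  have hs : PowerSeries.HasSubst A := PowerSeries.HasSubst.of_constantCoeff_zero hA
  rw [PowerSeries.coeff_subst hs]
  have hinj : Set.InjOn (fun i => q ^ i) (Finset.range M : Set ℕ) :=
    fun a _ b _ h => Nat.pow_right_injective hq h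
  rw [finsum_eq_sum_of_support_subset (s := (Finset.range M).image (fun i => q ^ i)),
    Finset.sum_image hinj]
  · refine Finset.sum_congr rfl (fun i _ => ?_)
    rw [coeff_lser_pow hq, smul_eq_mul]
  · intro m hm
    rw [Function.mem_support] at hm
    rw [Finset.coe_image, Set.mem_image]
    by_cases h : ∃ i, m = q ^ i
    · obtain ⟨i, rfl⟩ := h
      refine ⟨i, ?_, rfl⟩
      rw [Finset.coe_range, Set.mem_Iio]
      by_contra hi
      apply hm
      have h1 : coeff e (A ^ (q ^ i)) = 0 := by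
        apply coeff_eq_zero_of_constantCoeff_nilpotent (m := 1) (by rw [hA]; simp)
        have := Nat.lt_pow_self (n := i) hq
        omega
      rw [h1, smul_zero]
    · exfalso
      apply hm
      rw [coeff_lser_of_ne c (fun i hi => h ⟨i, hi⟩), zero_smul]

/-- separating the first term. -/
theorem coeff_subst_lser' {q : ℕ} (hq : 2 ≤ q) (c : ℕ → L) (hc : c 0 = 1)
    {A : MvPowerSeries τ L} (hA : constantCoeff A = 0) (e : τ →₀ ℕ) :
    coeff e (PowerSeries.subst A (lser q c) : MvPowerSeries τ L) =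
      coeff e A + ∑ i ∈ Finset.range (degree e), c (i + 1) * coeff e (A ^ (q ^ (i + 1))) := by
  rw [coeff_subst_lser hq c hA e (Nat.lt_succ_self _), Finset.sum_range_succ', hc, pow_zero,
    pow_one, one_mul, add_comm]

/-- **Uniqueness**: `ℓ` is injective on series without constant term. -/
theorem lser_injective {q : ℕ} (hq : 2 ≤ q) (c : ℕ → L) (hc : c 0 = 1)
    {A B : MvPowerSeries τ L} (hA : constantCoeff A = 0) (hB : constantCoeff B = 0)
    (h : (PowerSeries.subst A (lser q c) : MvPowerSeries τ L) = PowerSeries.subst B (lser q c)) :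
    A = B := by
  have key : ∀ d : ℕ, AgreeLT d A B := by
    intro d
    induction d with
    | zero => intro e he; omega
    | succ d ih =>
      intro e he
      have h1 := congrArg (coeff e) h
      rw [coeff_subst_lser' hq c hc hA, coeff_subst_lser' hq c hc hB] at h1
      have h2 : ∑ i ∈ Finset.range (degree e), c (i + 1) * coeff e (A ^ (q ^ (i + 1))) =
          ∑ i ∈ Finset.range (degree e), c (i + 1) * coeff e (B ^ (q ^ (i + 1))) := by
        refine Finset.sum_congr rfl (fun i _ => ?_)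
        congr 1
        have hk : 2 ≤ q ^ (i + 1) := by
          calc 2 ≤ q := hq
            _ = q ^ 1 := (pow_one q).symm
            _ ≤ q ^ (i + 1) := Nat.pow_le_pow_right (by omega) (by omega)
        exact ih.pow hA hB hk e he
      rw [h2] at h1
      exact add_right_cancel h1
  ext e
  exact key (degree e + 1) e (Nat.lt_succ_self _)

/-- **Existence**: every series without constant term is of the form `ℓ(A)`. -/
theorem lser_surjective {q : ℕ} (hq : 2 ≤ q) (c : ℕ → L) (hc : c 0 = 1)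
    (R : MvPowerSeries τ L) (hR : constantCoeff R = 0) :
    ∃ A : MvPowerSeries τ L, constantCoeff A = 0 ∧
      (PowerSeries.subst A (lser q c) : MvPowerSeries τ L) = R := by
  -- one step of the iteration
  let step : MvPowerSeries τ L → MvPowerSeries τ L := fun G e =>
    coeff e R - ∑ i ∈ Finset.range (degree e), c (i + 1) * coeff e (G ^ (q ^ (i + 1)))
  have hstep : ∀ G e, coeff e (step G) =
      coeff e R - ∑ i ∈ Finset.range (degree e), c (i + 1) * coeff e (G ^ (q ^ (i + 1))) :=
    fun _ _ => rfl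
  have hstep0 : ∀ G, constantCoeff (step G) = 0 := by
    intro G
    rw [← coeff_zero_eq_constantCoeff_apply, hstep]
    simp [hR]
  let G : ℕ → MvPowerSeries τ L := fun k => step^[k] 0
  have hG0 : ∀ k, constantCoeff (G k) = 0 := by
    intro k
    cases k with
    | zero => simp [G]
    | succ k =>
      simp only [G, Function.iterate_succ_apply']
      exact hstep0 _
  have hGs : ∀ k, G (k + 1) = step (G k) := by
    intro k
    simp only [G, Function.iterate_succ_apply']
  have hpow : ∀ i, 2 ≤ q ^ (i + 1) := by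
    intro i
    calc 2 ≤ q := hq
      _ = q ^ 1 := (pow_one q).symm
      _ ≤ q ^ (i + 1) := Nat.pow_le_pow_right (by omega) (by omega)
  have hstepA : ∀ (d : ℕ) (A B : MvPowerSeries τ L), constantCoeff A = 0 → constantCoeff B = 0 →
      AgreeLT d A B → AgreeLT (d + 1) (step A) (step B) := by
    intro d A B hA hB h e he
    rw [hstep, hstep]
    congr 1
    refine Finset.sum_congr rfl (fun i _ => ?_)
    congr 1
    exact h.pow hA hB (hpow i) e he
  have hcons : ∀ k, AgreeLT k (G k) (G (k + 1)) := by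
    intro k
    induction k with
    | zero => intro e he; omega
    | succ k ih =>
      rw [hGs k, hGs (k + 1)]
      exact hstepA k _ _ (hG0 _) (hG0 _) ih
  have hcons2 : ∀ k j, AgreeLT k (G k) (G (k + j)) := by
    intro k j
    induction j with
    | zero => intro e _; rfl
    | succ j ih =>
      intro e he
      rw [ih e he]
      exact hcons (k + j) e (by omega)
  let A : MvPowerSeries τ L := fun e => coeff e (G (degree e + 1))
  have hA : ∀ e, coeff e A = coeff e (G (degree e + 1)) := fun _ => rfl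
  have hAG : ∀ k, AgreeLT k A (G k) := by
    intro k e he
    rw [hA]
    obtain ⟨j, rfl⟩ := Nat.exists_eq_add_of_le (Nat.succ_le_of_lt he)
    exact hcons2 (degree e + 1) j e (by omega)
  have hA0 : constantCoeff A = 0 := by
    rw [← coeff_zero_eq_constantCoeff_apply, hA, coeff_zero_eq_constantCoeff_apply, hG0]
  refine ⟨A, hA0, ?_⟩
  ext e
  rw [coeff_subst_lser' hq c hc hA0, hA, hGs, hstep]
  have h2 : ∑ i ∈ Finset.range (degree e), c (i + 1) * coeff e (A ^ (q ^ (i + 1))) =
      ∑ i ∈ Finset.range (degree e), c (i + 1) * coeff e (G (degree e) ^ (q ^ (i + 1))) := by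
    refine Finset.sum_congr rfl (fun i _ => ?_)
    congr 1
    exact (hAG (degree e)).pow hA0 (hG0 _) (hpow i) e (Nat.lt_succ_self _)
  rw [h2, sub_add_cancel]

end Log

section Congruence

variable {τ : Type*} {S : Type*} [CommRing S]

/-- congruence modulo `p` in degrees `< d`. -/
def CongLT (p d : ℕ) (A B : MvPowerSeries τ S) : Prop :=
  ∀ e : τ →₀ ℕ, degree e < d → (p : S) ∣ coeff e A - coeff e B

theorem coeff_natCast_pow_mul (p k : ℕ) (C' : MvPowerSeries τ S) (e : τ →₀ ℕ) :
    coeff e ((p : MvPowerSeries τ S) ^ k * C') = (p : S) ^ k * coeff e C' := by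
  have h1 : (p : MvPowerSeries τ S) ^ k = C ((p : S) ^ k) := by
    rw [map_pow, map_natCast]
  rw [h1, coeff_C_mul]

theorem dvd_pow_sub_pow {p : ℕ} {A B : MvPowerSeries τ S}
    (h : ∀ e, (p : S) ∣ coeff e A - coeff e B) (k : ℕ) (e : τ →₀ ℕ) :
    (p : S) ^ (k + 1) ∣ coeff e (A ^ (p ^ k)) - coeff e (B ^ (p ^ k)) := by
  have h1 : (p : MvPowerSeries τ S) ∣ A - B := by
    choose g hg using h
    refine ⟨fun e => g e, ?_⟩
    ext e
    have := coeff_natCast_pow_mul (τ := τ) p 1 (fun e => g e : MvPowerSeries τ S) e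
    rw [pow_one, pow_one] at this
    rw [this, map_sub, hg e]
    rfl
  obtain ⟨D, hD⟩ := dvd_sub_pow_of_dvd_sub h1 k
  rw [← map_sub, hD, coeff_natCast_pow_mul]
  exact Dvd.intro _ rfl

/-- If `A ≡ B mod p` in degrees `< d`, no constant terms, then `A^(p^k) ≡ B^(p^k) mod p^(k+1)` in
degrees `≤ d`, for `k ≥ 1`. -/
theorem CongLT.pow {p : ℕ} (hp : 2 ≤ p) {d : ℕ} {A B : MvPowerSeries τ S} (h : CongLT p d A B)
    (hA : constantCoeff A = 0) (hB : constantCoeff B = 0) {k : ℕ} (hk : 1 ≤ k) (e : τ →₀ ℕ)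
    (he : degree e ≤ d) : (p : S) ^ (k + 1) ∣ coeff e (A ^ (p ^ k)) - coeff e (B ^ (p ^ k)) := by
  classical
  let B' : MvPowerSeries τ S := fun f => if degree f < d then coeff f B else coeff f A
  have hB' : ∀ f, coeff f B' = if degree f < d then coeff f B else coeff f A := fun _ => rfl
  have hB'0 : constantCoeff B' = 0 := by
    rw [← coeff_zero_eq_constantCoeff_apply, hB']
    split_ifs
    · rw [coeff_zero_eq_constantCoeff_apply, hB]
    · rw [coeff_zero_eq_constantCoeff_apply, hA]
  have h1 : ∀ f, (p : S) ∣ coeff f A - coeff f B' := by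
    intro f
    rw [hB']
    split_ifs with hf
    · exact h f hf
    · rw [sub_self]; exact dvd_zero _
  have h2 : AgreeLT d B' B := by
    intro f hf
    rw [hB', if_pos hf]
  have hpk : 2 ≤ p ^ k := by
    calc 2 ≤ p := hp
      _ = p ^ 1 := (pow_one p).symm
      _ ≤ p ^ k := Nat.pow_le_pow_right (by omega) hk
  rw [← h2.pow hB'0 hB hpk e (Nat.lt_succ_of_le he)]
  exact dvd_pow_sub_pow h1 k e

end Congruence

section Padic

variable (p n : ℕ) [Fact p.Prime]

theorem hondaLog_eq : hondaLog p n = lser (p ^ n) (fun i => ((p : ℚ_[p]) ^ i)⁻¹) := by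
  ext m
  rw [hondaLog, lser, PowerSeries.coeff_mk, PowerSeries.coeff_mk]
  refine Finset.sum_congr rfl (fun i _ => ?_)
  rw [pow_mul]

variable {p n}

/-- coercion of power series. -/
noncomputable abbrev toQ {τ : Type*} (A : MvPowerSeries τ ℤ_[p]) : MvPowerSeries τ ℚ_[p] :=
  A.map (algebraMap ℤ_[p] ℚ_[p])

theorem two_le_q (hn : 1 ≤ n) : 2 ≤ p ^ n := by
  calc 2 ≤ p := (Fact.out : p.Prime).two_le
    _ = p ^ 1 := (pow_one p).symm
    _ ≤ p ^ n := Nat.pow_le_pow_right (Fact.out : p.Prime).pos hn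

/-- If `A ≡ B mod p` in degrees `< d` then the tails of the logarithms are congruent mod `p` in
degrees `≤ d`. -/
theorem tail_congr {τ : Type*} (hn : 1 ≤ n) {d : ℕ} {A B : MvPowerSeries τ ℤ_[p]}
    (h : CongLT p d A B) (hA : constantCoeff A = 0) (hB : constantCoeff B = 0) (e : τ →₀ ℕ)
    (he : degree e ≤ d) (i : ℕ) : ∃ z : ℤ_[p],
    ((p : ℚ_[p]) ^ (i + 1))⁻¹ * coeff e (toQ A ^ ((p ^ n) ^ (i + 1))) -
      ((p : ℚ_[p]) ^ (i + 1))⁻¹ * coeff e (toQ B ^ ((p ^ n) ^ (i + 1))) = (p : ℚ_[p]) * z := by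
  have hp := (Fact.out : p.Prime)
  have hk : 1 ≤ n * (i + 1) := Nat.mul_pos hn (Nat.succ_pos _)
  obtain ⟨w, hw⟩ := h.pow hp.two_le hA hB hk e he
  have hle : i + 1 + 1 ≤ n * (i + 1) + 1 := by
    have : i + 1 ≤ n * (i + 1) := Nat.le_mul_of_pos_left _ hn
    omega
  have h1 : coeff e (toQ A ^ ((p ^ n) ^ (i + 1))) - coeff e (toQ B ^ ((p ^ n) ^ (i + 1))) =
      (p : ℚ_[p]) ^ (n * (i + 1) + 1) * (w : ℚ_[p]) := by
    have h2 : ∀ C' : MvPowerSeries τ ℤ_[p], coeff e (toQ C' ^ ((p ^ n) ^ (i + 1))) =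
        algebraMap ℤ_[p] ℚ_[p] (coeff e (C' ^ (p ^ (n * (i + 1))))) := by
      intro C'
      rw [toQ, ← map_pow, coeff_map, ← pow_mul]
    rw [h2, h2, ← map_sub, hw, map_mul, map_pow, map_natCast]
    rfl
  refine ⟨(p : ℤ_[p]) ^ (n * (i + 1) + 1 - (i + 1 + 1)) * w, ?_⟩
  rw [← mul_sub, h1]
  have hp0 : (p : ℚ_[p]) ≠ 0 := by exact_mod_cast hp.ne_zero
  have h3 : (p : ℚ_[p]) ^ (n * (i + 1) + 1) =
      (p : ℚ_[p]) ^ (n * (i + 1) + 1 - (i + 1 + 1)) * (p : ℚ_[p]) ^ (i + 1 + 1) := by
    rw [← pow_add, Nat.sub_add_cancel hle]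
  rw [h3]
  push_cast
  rw [pow_succ (p : ℚ_[p]) (i + 1)]
  field_simp

end Padic

end Vale.Agent.P217
end
end

section

section

/-!
# P217: existence of the Honda formal group law
-/

namespace Vale.Agent.P217

open MvPowerSeries Finsupp

section Agree2

variable {τ L : Type*} [CommRing L]

theorem AgreeLT.lser {q : ℕ} (hq : 2 ≤ q) (c : ℕ → L) {d : ℕ} {A B : MvPowerSeries τ L}
    (h : AgreeLT d A B) (hA : constantCoeff A = 0) (hB : constantCoeff B = 0) :
    AgreeLT d (PowerSeries.subst A (lser q c) : MvPowerSeries τ L)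
      (PowerSeries.subst B (lser q c)) := by
  intro e he
  rw [coeff_subst_lser hq c hA e (Nat.lt_succ_self _),
    coeff_subst_lser hq c hB e (Nat.lt_succ_self _)]
  refine Finset.sum_congr rfl (fun i _ => ?_)
  rw [h.pow' _ e he]

theorem degree_smul (q : ℕ) (g : τ →₀ ℕ) : degree (q • g) = q * degree g := by
  rw [map_nsmul, smul_eq_mul]

theorem AgreeLT.expand {q : ℕ} (hq : 2 ≤ q) {d : ℕ} {A B : MvPowerSeries τ L}
    (h : AgreeLT d A B) (hA : constantCoeff A = 0) (hB : constantCoeff B = 0) :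
    AgreeLT (d + 1) (MvPowerSeries.expand q (by omega) A) (MvPowerSeries.expand q (by omega) B) := by
  intro e he
  by_cases hdvd : ∀ i, q ∣ e i
  · obtain ⟨g, rfl⟩ : ∃ g : τ →₀ ℕ, e = q • g := by
      refine ⟨e.mapRange (fun m => m / q) (Nat.zero_div _), ?_⟩
      ext i
      rw [Finsupp.smul_apply, Finsupp.mapRange_apply, smul_eq_mul, Nat.mul_div_cancel' (hdvd i)]
    rw [coeff_expand_smul, coeff_expand_smul]
    rw [degree_smul] at he
    rcases Nat.eq_zero_or_pos (degree g) with h0 | h0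
    · have hg : g = 0 := (Finsupp.degree_eq_zero_iff g).1 h0
      rw [hg, coeff_zero_eq_constantCoeff_apply, coeff_zero_eq_constantCoeff_apply, hA, hB]
    · apply h
      nlinarith
  · push Not at hdvd
    obtain ⟨i, hi⟩ := hdvd
    rw [coeff_expand_of_not_dvd q _ _ hi, coeff_expand_of_not_dvd q _ _ hi]

/-- in degree one the logarithm is the identity. -/
theorem coeff_subst_lser_of_degree_one {q : ℕ} (hq : 2 ≤ q) (c : ℕ → L) (hc : c 0 = 1)
    {A : MvPowerSeries τ L} (hA : constantCoeff A = 0) {e : τ →₀ ℕ} (he : degree e = 1) :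
    coeff e (PowerSeries.subst A (lser q c) : MvPowerSeries τ L) = coeff e A := by
  rw [coeff_subst_lser' hq c hc hA, he, Finset.sum_range_one]
  have h1 : coeff e (A ^ (q ^ (0 + 1))) = 0 := by
    apply coeff_eq_zero_of_constantCoeff_nilpotent (m := 1) (by rw [hA]; simp)
    rw [he, zero_add, pow_one]
    omega
  rw [h1, mul_zero, add_zero]

end Agree2

section Padic2

variable {p n : ℕ} [Fact p.Prime]

/-- `p * tail = ℓ(A^q)` coefficientwise, i.e. `p ℓ(A) = p A + ℓ(A^q)`. -/
theorem p_mul_log {τ : Type*} (hn : 1 ≤ n) {A : MvPowerSeries τ ℚ_[p]}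
    (hA : constantCoeff A = 0) (e : τ →₀ ℕ) :
    (p : ℚ_[p]) * coeff e (PowerSeries.subst A (hondaLog p n) : MvPowerSeries τ ℚ_[p]) =
      (p : ℚ_[p]) * coeff e A +
        coeff e (PowerSeries.subst (A ^ (p ^ n)) (hondaLog p n) : MvPowerSeries τ ℚ_[p]) := by
  have hq := two_le_q (p := p) hn
  have hp0 : (p : ℚ_[p]) ≠ 0 := by exact_mod_cast (Fact.out : p.Prime).ne_zero
  have hAq : constantCoeff (A ^ (p ^ n)) = 0 := by
    rw [map_pow, hA, zero_pow (by omega)]
  have hlast : coeff e ((A ^ (p ^ n)) ^ ((p ^ n) ^ (degree e))) = 0 := by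
    apply coeff_eq_zero_of_constantCoeff_nilpotent (m := 1) (by rw [hAq]; simp)
    have := Nat.lt_pow_self (n := degree e) (show 1 < p ^ n by omega)
    omega
  rw [hondaLog_eq, coeff_subst_lser' hq _ (by simp) hA, mul_add,
    coeff_subst_lser hq _ hAq e (Nat.lt_succ_self _), Finset.sum_range_succ, hlast, mul_zero,
    add_zero, Finset.mul_sum]
  congr 1
  refine Finset.sum_congr rfl (fun i _ => ?_)
  have h1 : A ^ ((p ^ n) ^ (i + 1)) = (A ^ (p ^ n)) ^ ((p ^ n) ^ i) := by
    rw [pow_succ' (p ^ n) i, pow_mul A]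
  rw [h1, pow_succ (p : ℚ_[p]) i]
  field_simp

/-- reduction of `F̃(X^q)` and `F̃^q`. -/
theorem dvd_expand_sub_pow {τ : Type*} (hq0 : p ^ n ≠ 0) (A : MvPowerSeries τ ℤ_[p])
    (e : τ →₀ ℕ) :
    (p : ℤ_[p]) ∣ coeff e (MvPowerSeries.expand (p ^ n) hq0 A) - coeff e (A ^ (p ^ n)) := by
  have h1 : (MvPowerSeries.expand (p ^ n) hq0 A).map PadicInt.toZMod =
      (A ^ (p ^ n)).map PadicInt.toZMod := by
    have hp : p ≠ 0 := (Fact.out : p.Prime).ne_zero
    have h0 := map_iterateFrobenius_expand p hp (A.map (PadicInt.toZMod (p := p))) n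
    have h1 : iterateFrobenius (ZMod p) p n = RingHom.id (ZMod p) := by
      ext x
      rw [iterateFrobenius_def, RingHom.id_apply]
      exact ZMod.pow_card_pow x
    rw [h1, map_id] at h0
    rw [map_expand, map_pow]
    exact h0
  have h2 := congrArg (coeff e) h1
  rw [coeff_map, coeff_map, ← sub_eq_zero, ← map_sub] at h2
  have h3 : coeff e (MvPowerSeries.expand (p ^ n) hq0 A) - coeff e (A ^ (p ^ n)) ∈
      RingHom.ker (PadicInt.toZMod (p := p)) := h2
  rw [PadicInt.ker_toZMod, PadicInt.maximalIdeal_eq_span_p, Ideal.mem_span_singleton] at h3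
  exact h3

/-- the solution of `ℓ(F) = ℓ(X) + ℓ(Y)`. -/
theorem exists_FQ (hn : 1 ≤ n) : ∃ F : MvPowerSeries (Fin 2) ℚ_[p], constantCoeff F = 0 ∧
    (PowerSeries.subst F (hondaLog p n) : MvPowerSeries (Fin 2) ℚ_[p]) =
      PowerSeries.subst (X 0 : MvPowerSeries (Fin 2) ℚ_[p]) (hondaLog p n) +
        PowerSeries.subst (X 1 : MvPowerSeries (Fin 2) ℚ_[p]) (hondaLog p n) := by
  have hq := two_le_q (p := p) hn
  have h0 : ∀ i : Fin 2, constantCoeff (PowerSeries.subst (X i : MvPowerSeries (Fin 2) ℚ_[p])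
      (hondaLog p n) : MvPowerSeries (Fin 2) ℚ_[p]) = 0 := by
    intro i
    rw [← coeff_zero_eq_constantCoeff_apply, hondaLog_eq,
      coeff_subst_lser hq _ (constantCoeff_X i) 0 (M := 1) (by simp)]
    simp
  have h1 := lser_surjective hq (fun i => ((p : ℚ_[p]) ^ i)⁻¹) (by simp)
    (PowerSeries.subst (X 0 : MvPowerSeries (Fin 2) ℚ_[p]) (hondaLog p n) +
        PowerSeries.subst (X 1 : MvPowerSeries (Fin 2) ℚ_[p]) (hondaLog p n))
    (by rw [map_add, h0, h0, add_zero])
  rw [← hondaLog_eq] at h1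
  exact h1

theorem expand_log {τ : Type*} (hq0 : p ^ n ≠ 0) {A : MvPowerSeries τ ℚ_[p]}
    (hA : constantCoeff A = 0) (f : PowerSeries ℚ_[p]) :
    MvPowerSeries.expand (p ^ n) hq0 (PowerSeries.subst A f : MvPowerSeries τ ℚ_[p]) =
      PowerSeries.subst (MvPowerSeries.expand (p ^ n) hq0 A) f := by
  rw [PowerSeries.subst_def, PowerSeries.subst_def]
  have hs : PowerSeries.HasSubst A := PowerSeries.HasSubst.of_constantCoeff_zero hA
  exact expand_subst (p ^ n) hq0 hs.const

/-- integrality. -/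
theorem integral_FQ (hn : 1 ≤ n) {F : MvPowerSeries (Fin 2) ℚ_[p]} (hF0 : constantCoeff F = 0)
    (hF : (PowerSeries.subst F (hondaLog p n) : MvPowerSeries (Fin 2) ℚ_[p]) =
      PowerSeries.subst (X 0 : MvPowerSeries (Fin 2) ℚ_[p]) (hondaLog p n) +
        PowerSeries.subst (X 1 : MvPowerSeries (Fin 2) ℚ_[p]) (hondaLog p n)) :
    ∀ e, ∃ z : ℤ_[p], coeff e F = (z : ℚ_[p]) := by
  classical
  have hq := two_le_q (p := p) hn
  have hq0 : p ^ n ≠ 0 := by omega
  have hp0 : (p : ℚ_[p]) ≠ 0 := by exact_mod_cast (Fact.out : p.Prime).ne_zero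
  have key : ∀ d : ℕ, ∀ e : Fin 2 →₀ ℕ, degree e < d → ∃ z : ℤ_[p], coeff e F = (z : ℚ_[p]) := by
    intro d
    induction d with
    | zero => intro e he; omega
    | succ d ih =>
      intro e he
      -- the truncated lift
      choose z hz using ih
      let Ft : MvPowerSeries (Fin 2) ℤ_[p] := fun f => if h : degree f < d then z f h else 0
      have hFt : ∀ f, coeff f Ft = if h : degree f < d then z f h else 0 := fun _ => rfl
      have hcoe : Function.Injective (fun z : ℤ_[p] => (z : ℚ_[p])) := Subtype.coe_injective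
      have hFt0 : constantCoeff Ft = 0 := by
        rw [← coeff_zero_eq_constantCoeff_apply, hFt]
        split_ifs with h
        · apply hcoe
          show (z 0 h : ℚ_[p]) = ((0 : ℤ_[p]) : ℚ_[p])
          rw [← hz, coeff_zero_eq_constantCoeff_apply, hF0]
          simp
        · rfl
      have hagree : AgreeLT d (toQ Ft) F := by
        intro f hf
        rw [toQ, coeff_map, hFt, dif_pos hf, hz f hf]
        rfl
      have hFtQ0 : constantCoeff (toQ Ft) = 0 := by
        rw [toQ, constantCoeff_map, hFt0, map_zero]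
      -- the two sides
      set A : MvPowerSeries (Fin 2) ℤ_[p] := MvPowerSeries.expand (p ^ n) hq0 Ft with hAdef
      set B : MvPowerSeries (Fin 2) ℤ_[p] := Ft ^ (p ^ n) with hBdef
      have hA0 : constantCoeff A = 0 := by rw [hAdef, constantCoeff_expand, hFt0]
      have hB0 : constantCoeff B = 0 := by rw [hBdef, map_pow, hFt0, zero_pow hq0]
      have hAQ : toQ A = MvPowerSeries.expand (p ^ n) hq0 (toQ Ft) := by
        rw [hAdef, toQ, map_expand]
      have hBQ : toQ B = toQ Ft ^ (p ^ n) := by rw [hBdef, toQ, map_pow]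
      have hcong : CongLT p (degree e) A B := fun f _ => dvd_expand_sub_pow hq0 Ft f
      have hA0' : constantCoeff (toQ A) = 0 := by rw [toQ, constantCoeff_map, hA0, map_zero]
      have hB0' : constantCoeff (toQ B) = 0 := by rw [toQ, constantCoeff_map, hB0, map_zero]
      have hFe0 : constantCoeff (MvPowerSeries.expand (p ^ n) hq0 F) = 0 := by
        rw [constantCoeff_expand, hF0]
      have hFq0 : constantCoeff (F ^ (p ^ n)) = 0 := by rw [map_pow, hF0, zero_pow hq0]
      -- replace by truncations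
      have h1 : coeff e (PowerSeries.subst (MvPowerSeries.expand (p ^ n) hq0 F) (hondaLog p n) :
          MvPowerSeries (Fin 2) ℚ_[p]) =
          coeff e (PowerSeries.subst (toQ A) (hondaLog p n) : MvPowerSeries (Fin 2) ℚ_[p]) := by
        rw [hondaLog_eq]
        refine (AgreeLT.lser hq _ (d := d + 1) ?_ hFe0 hA0') e he
        rw [hAQ]
        intro f hf
        exact (hagree.expand hq hFtQ0 hF0 f hf).symm
      have h2 : coeff e (PowerSeries.subst (F ^ (p ^ n)) (hondaLog p n) :
          MvPowerSeries (Fin 2) ℚ_[p]) =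
          coeff e (PowerSeries.subst (toQ B) (hondaLog p n) : MvPowerSeries (Fin 2) ℚ_[p]) := by
        rw [hondaLog_eq]
        refine (AgreeLT.lser hq _ (d := d + 1) ?_ hFq0 hB0') e he
        rw [hBQ]
        intro f hf
        exact (hagree.pow hFtQ0 hF0 hq f hf).symm
      -- the main equation
      have h3 := p_mul_log hn hF0 e
      have h4 : (p : ℚ_[p]) * coeff e (PowerSeries.subst F (hondaLog p n) :
          MvPowerSeries (Fin 2) ℚ_[p]) = (p : ℚ_[p]) * coeff e (X 0 + X 1) +
          coeff e (PowerSeries.subst (MvPowerSeries.expand (p ^ n) hq0 F) (hondaLog p n) :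
            MvPowerSeries (Fin 2) ℚ_[p]) := by
        have h4' : MvPowerSeries.expand (p ^ n) hq0
            (PowerSeries.subst (X 0 : MvPowerSeries (Fin 2) ℚ_[p]) (hondaLog p n) +
              PowerSeries.subst (X 1 : MvPowerSeries (Fin 2) ℚ_[p]) (hondaLog p n)) =
            PowerSeries.subst ((X 0 : MvPowerSeries (Fin 2) ℚ_[p]) ^ (p ^ n)) (hondaLog p n) +
              PowerSeries.subst ((X 1 : MvPowerSeries (Fin 2) ℚ_[p]) ^ (p ^ n))
                (hondaLog p n) := by
          rw [map_add, expand_log hq0 (constantCoeff_X 0),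
            expand_log hq0 (constantCoeff_X 1), expand_X, expand_X]
        rw [← expand_log hq0 hF0, hF, h4', map_add, map_add, map_add, mul_add,
          p_mul_log hn (constantCoeff_X 0), p_mul_log hn (constantCoeff_X 1)]
        ring
      -- difference of the logarithms
      obtain ⟨w0, hw0⟩ := dvd_expand_sub_pow hq0 Ft e
      have h5 := fun i => tail_congr hn hcong hA0 hB0 e le_rfl i
      choose w hw using h5
      have h6 : coeff e (PowerSeries.subst (toQ A) (hondaLog p n) :
            MvPowerSeries (Fin 2) ℚ_[p]) -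
          coeff e (PowerSeries.subst (toQ B) (hondaLog p n) : MvPowerSeries (Fin 2) ℚ_[p]) =
          (p : ℚ_[p]) * ((w0 + ∑ i ∈ Finset.range (degree e), w i : ℤ_[p]) : ℚ_[p]) := by
        rw [hondaLog_eq, coeff_subst_lser' hq _ (by simp) hA0',
          coeff_subst_lser' hq _ (by simp) hB0']
        have h7 : ∑ i ∈ Finset.range (degree e),
              ((p : ℚ_[p]) ^ (i + 1))⁻¹ * coeff e (toQ A ^ ((p ^ n) ^ (i + 1))) -
            ∑ i ∈ Finset.range (degree e),
              ((p : ℚ_[p]) ^ (i + 1))⁻¹ * coeff e (toQ B ^ ((p ^ n) ^ (i + 1))) =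
            (p : ℚ_[p]) * ((∑ i ∈ Finset.range (degree e), w i : ℤ_[p]) : ℚ_[p]) := by
          rw [← Finset.sum_sub_distrib, PadicInt.coe_sum, Finset.mul_sum]
          exact Finset.sum_congr rfl (fun i _ => hw i)
        have h8 : coeff e (toQ A) - coeff e (toQ B) = (p : ℚ_[p]) * (w0 : ℚ_[p]) := by
          have h9 : coeff e (toQ A) = ((coeff e A : ℤ_[p]) : ℚ_[p]) := by rw [toQ, coeff_map]; rfl
          have h10 : coeff e (toQ B) = ((coeff e B : ℤ_[p]) : ℚ_[p]) := by
            rw [toQ, coeff_map]; rfl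
          rw [h9, h10, ← PadicInt.coe_sub, hAdef, hBdef, hw0, PadicInt.coe_mul,
            PadicInt.coe_natCast]
        rw [PadicInt.coe_add, mul_add]
        linear_combination h7 + h8
      have h11 : coeff e F = coeff e (X 0 + X 1 : MvPowerSeries (Fin 2) ℚ_[p]) +
          ((w0 + ∑ i ∈ Finset.range (degree e), w i : ℤ_[p]) : ℚ_[p]) := by
        apply mul_left_cancel₀ hp0
        rw [mul_add, ← h6, ← h1, ← h2]
        linear_combination h4 - h3
      refine ⟨coeff e (X 0 + X 1 : MvPowerSeries (Fin 2) ℤ_[p]) +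
        (w0 + ∑ i ∈ Finset.range (degree e), w i), ?_⟩
      rw [h11, PadicInt.coe_add]
      congr 1
      have h12 : (X 0 + X 1 : MvPowerSeries (Fin 2) ℚ_[p]) =
          toQ (X 0 + X 1 : MvPowerSeries (Fin 2) ℤ_[p]) := by
        rw [toQ, map_add, map_X, map_X]
      rw [h12, toQ, coeff_map]
      rfl
  intro e
  exact key (degree e + 1) e (Nat.lt_succ_self _)

/-- additivity of the logarithm for general arguments. -/
theorem log_subst {τ : Type*} {F : MvPowerSeries (Fin 2) ℚ_[p]} (hF0 : constantCoeff F = 0)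
    (hF : (PowerSeries.subst F (hondaLog p n) : MvPowerSeries (Fin 2) ℚ_[p]) =
      PowerSeries.subst (X 0 : MvPowerSeries (Fin 2) ℚ_[p]) (hondaLog p n) +
        PowerSeries.subst (X 1 : MvPowerSeries (Fin 2) ℚ_[p]) (hondaLog p n))
    {a b : MvPowerSeries τ ℚ_[p]} (ha : constantCoeff a = 0) (hb : constantCoeff b = 0) :
    (PowerSeries.subst (MvPowerSeries.subst ![a, b] F) (hondaLog p n) : MvPowerSeries τ ℚ_[p]) =
      PowerSeries.subst a (hondaLog p n) + PowerSeries.subst b (hondaLog p n) := by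
  have hs : MvPowerSeries.HasSubst ![a, b] := by
    apply hasSubst_of_constantCoeff_zero
    intro i
    fin_cases i
    · exact ha
    · exact hb
  have hsF : PowerSeries.HasSubst F := PowerSeries.HasSubst.of_constantCoeff_zero hF0
  have h1 : ∀ (G : MvPowerSeries (Fin 2) ℚ_[p]) (hG : constantCoeff G = 0),
      MvPowerSeries.subst ![a, b] (PowerSeries.subst G (hondaLog p n) :
        MvPowerSeries (Fin 2) ℚ_[p]) =
      PowerSeries.subst (MvPowerSeries.subst ![a, b] G) (hondaLog p n) := by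
    intro G hG
    rw [PowerSeries.subst_def, PowerSeries.subst_def]
    exact subst_comp_subst_apply (PowerSeries.HasSubst.of_constantCoeff_zero hG).const hs _
  rw [← h1 F hF0, hF, subst_add hs, h1 _ (constantCoeff_X 0), h1 _ (constantCoeff_X 1),
    subst_X hs, subst_X hs]
  rfl

/-- **The Honda formal group law exists.** -/
theorem exists_isHonda (hn : 1 ≤ n) : ∃ Γ : FormalGroup (ZMod p), IsHonda p n Γ := by
  obtain ⟨F, hF0, hF⟩ := exists_FQ (p := p) hn
  have hint := integral_FQ hn hF0 hF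
  choose z hz using hint
  have hq := two_le_q (p := p) hn
  have hcoe : Function.Injective (algebraMap ℤ_[p] ℚ_[p]) := Subtype.coe_injective
  let Hs : MvPowerSeries (Fin 2) ℤ_[p] := fun e => z e
  have hHs : toQ Hs = F := by
    ext e
    rw [toQ, coeff_map, hz e]
    rfl
  have hHs0 : constantCoeff Hs = 0 := by
    apply hcoe
    rw [← constantCoeff_map, map_zero]
    exact (congrArg _ hHs).trans hF0
  have hlin : ∀ i : Fin 2, coeff (single i 1) F = 1 := by
    intro i
    have hd : degree (single i 1 : Fin 2 →₀ ℕ) = 1 := by simp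
    have h1 := congrArg (coeff (single i 1)) hF
    rw [hondaLog_eq, map_add, coeff_subst_lser_of_degree_one hq _ (by simp) hF0 hd,
      coeff_subst_lser_of_degree_one hq _ (by simp) (constantCoeff_X 0) hd,
      coeff_subst_lser_of_degree_one hq _ (by simp) (constantCoeff_X 1) hd] at h1
    rw [h1]
    fin_cases i
    · simp [coeff_index_single_X]
    · simp [coeff_index_single_X]
  have hlin' : ∀ i : Fin 2, coeff (single i 1) Hs = 1 := by
    intro i
    apply hcoe
    rw [← coeff_map, map_one]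
    exact (congrArg _ hHs).trans (hlin i)
  have hmap2 : ∀ (τ : Type) (a b : MvPowerSeries τ ℤ_[p]), constantCoeff a = 0 →
      constantCoeff b = 0 → toQ (MvPowerSeries.subst ![a, b] Hs) =
        MvPowerSeries.subst ![toQ a, toQ b] F := by
    intro τ a b ha hb
    have hs : MvPowerSeries.HasSubst ![a, b] := by
      apply hasSubst_of_constantCoeff_zero
      intro i
      fin_cases i
      · exact ha
      · exact hb
    rw [toQ, map_subst hs]
    have h1 : (fun i => MvPowerSeries.map (algebraMap ℤ_[p] ℚ_[p]) (![a, b] i)) =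
        ![toQ a, toQ b] := by
      ext1 i
      fin_cases i <;> rfl
    rw [h1]
    exact congrArg _ hHs
  have hc2 : ∀ (τ : Type) (a b : MvPowerSeries τ ℤ_[p]), constantCoeff a = 0 →
      constantCoeff b = 0 → constantCoeff (MvPowerSeries.subst ![a, b] Hs) = 0 := by
    intro τ a b ha hb
    apply constantCoeff_subst_eq_zero
    · apply hasSubst_of_constantCoeff_zero
      intro i
      fin_cases i
      · exact ha
      · exact hb
    · intro i
      fin_cases i
      · exact ha
      · exact hb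
    · exact hHs0
  have hQ0 : ∀ (τ : Type) (a : MvPowerSeries τ ℤ_[p]), constantCoeff a = 0 →
      constantCoeff (toQ a) = 0 := by
    intro τ a ha
    rw [toQ, constantCoeff_map, ha, map_zero]
  have hinjQ : ∀ (τ : Type) (a b : MvPowerSeries τ ℤ_[p]), toQ a = toQ b → a = b := by
    intro τ a b hab
    ext1 e
    apply hcoe
    rw [← coeff_map, ← coeff_map]
    exact congrArg _ hab
  let H : FormalGroup ℤ_[p] :=
    { toPowerSeries := Hs
      zero_constantCoeff := hHs0
      lin_coeff_X := hlin' 0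
      lin_coeff_Y := hlin' 1
      assoc := by
        have hX : ∀ i : Fin 3, constantCoeff (X i : MvPowerSeries (Fin 3) ℤ_[p]) = 0 :=
          fun i => constantCoeff_X i
        have h01 := hc2 (Fin 3) (X 0) (X 1) (hX 0) (hX 1)
        have h12 := hc2 (Fin 3) (X 1) (X 2) (hX 1) (hX 2)
        apply hinjQ
        rw [hmap2 _ _ _ h01 (hX 2), hmap2 _ _ _ (hX 0) h12, hmap2 _ _ _ (hX 0) (hX 1),
          hmap2 _ _ _ (hX 1) (hX 2)]
        have hA0 : constantCoeff (MvPowerSeries.subst ![toQ (X 0 : MvPowerSeries (Fin 3) ℤ_[p]),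
            toQ (X 1)] F) = 0 := by
          rw [← hmap2 _ _ _ (hX 0) (hX 1)]
          exact hQ0 _ _ h01
        have hB0 : constantCoeff (MvPowerSeries.subst ![toQ (X 1 : MvPowerSeries (Fin 3) ℤ_[p]),
            toQ (X 2)] F) = 0 := by
          rw [← hmap2 _ _ _ (hX 1) (hX 2)]
          exact hQ0 _ _ h12
        have hL0 : constantCoeff (MvPowerSeries.subst ![MvPowerSeries.subst
            ![toQ (X 0 : MvPowerSeries (Fin 3) ℤ_[p]), toQ (X 1)] F, toQ (X 2)] F) = 0 := by
          rw [← hmap2 _ _ _ (hX 0) (hX 1), ← hmap2 _ _ _ h01 (hX 2)]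
          exact hQ0 _ _ (hc2 _ _ _ h01 (hX 2))
        have hR0 : constantCoeff (MvPowerSeries.subst
            ![toQ (X 0 : MvPowerSeries (Fin 3) ℤ_[p]), MvPowerSeries.subst
            ![toQ (X 1 : MvPowerSeries (Fin 3) ℤ_[p]), toQ (X 2)] F] F) = 0 := by
          rw [← hmap2 _ _ _ (hX 1) (hX 2), ← hmap2 _ _ _ (hX 0) h12]
          exact hQ0 _ _ (hc2 _ _ _ (hX 0) h12)
        apply lser_injective hq (fun i => ((p : ℚ_[p]) ^ i)⁻¹) (by simp) hL0 hR0
        rw [← hondaLog_eq, log_subst hF0 hF hA0 (hQ0 _ _ (hX 2)),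
          log_subst hF0 hF (hQ0 _ _ (hX 0)) (hQ0 _ _ (hX 1)),
          log_subst hF0 hF (hQ0 _ _ (hX 0)) hB0,
          log_subst hF0 hF (hQ0 _ _ (hX 1)) (hQ0 _ _ (hX 2)), add_assoc] }
  refine ⟨H.map PadicInt.toZMod, H, rfl, ?_⟩
  have h1 : (H.map (algebraMap ℤ_[p] ℚ_[p])).toPowerSeries = F := hHs
  rw [h1]
  exact hF

end Padic2

end Vale.Agent.P217
end
end

section

section

/-!
# P217: the final statement (version 2) from the main theorem
-/

namespace Vale.Agent.P217.LTC

open MvPowerSeries Vale.Agent.P217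

theorem isIso_iff {R : Type*} [CommRing R] {F G : FormalGroup R} {g : PowerSeries R} :
    LT.IsIso F G g ↔ P217.IsIso F G g := by
  constructor
  · rintro ⟨h1, h2, h3⟩
    exact ⟨⟨h1, h3⟩, h2⟩
  · rintro ⟨⟨h1, h3⟩, h2⟩
    exact ⟨h1, h2, h3⟩

variable {p n : ℕ} [Fact p.Prime] {Γ : FormalGroup (ZMod p)} {F : FormalGroup (P217.E0 p n)}

theorem isHonda_iff : LT.IsHonda p n Γ ↔ P217.IsHonda p n Γ := Iff.rfl

theorem heightAdapted_iff : LT.HeightAdapted p n F ↔ P217.HeightAdapted p n F := Iff.rfl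

theorem isUniversal_iff : LT.IsUniversal p n Γ F ↔ P217.IsUniversalDeformation p n Γ F := by
  constructor
  · rintro ⟨h1, h2, h3⟩
    refine ⟨h1, h2, ?_⟩
    intro A _ _ _ _ i G hG hred
    refine (existsUnique_congr fun x => ?_).1 (h3 A i G hG hred)
    rw [LT.Lifts, isIso_iff]
    exact Iff.rfl
  · rintro ⟨h1, h2, h3⟩
    refine ⟨h1, h2, ?_⟩
    intro A _ _ _ _ i G hG hred
    refine (existsUnique_congr fun x => ?_).2 (@h3 A _ _ _ _ i G hG hred)
    rw [LT.Lifts, isIso_iff]
    exact Iff.rfl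

/-- the action of `G_n`. -/
theorem acts_iff (hF : P217.IsUniversalDeformation p n Γ F)
    (σ : GaloisField p n ≃+* GaloisField p n) (γ : PowerSeries (GaloisField p n))
    (hγ : LT.IsIso (LT.base p n Γ) (LT.base p n Γ) γ) :
    ∃ φ : P217.E0 p n ≃+* P217.E0 p n, (∃ g, P217.IsIso F (F.map (φ : P217.E0 p n →+* P217.E0 p n)) g) ∧
      ∀ ψ : P217.E0 p n →+* P217.E0 p n, LT.Acts p n Γ F σ γ ψ ↔ ψ = φ := by
  have hc : F.IsComm := hF.comm
  have := CA.isAdicComplete_E0 (p := p) (n := n)
  obtain ⟨i, hi⟩ := C0.exists_factor_red (IsLocalRing.residue (P217.E0 p n)) (by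
    rw [IsLocalRing.ker_residue])
  obtain ⟨γ', hγ', h1, h2⟩ := (isIso_iff.1 hγ).symmC
  obtain ⟨⟨φ, g⟩, ⟨a1, a2, a3⟩, -⟩ := AC.exists_unique_pair hF σ γ' hγ'
  simp only at a1 a2 a3
  obtain ⟨g', hg', k1, k2⟩ := a2.symmC
  have b1 : g'.map (red p n) = γ := by
    have h3 : PowerSeries.map (red p n) (PowerSeries.subst g g' : PowerSeries (P217.E0 p n)) =
        PowerSeries.X := by rw [k1, PowerSeries.map_X]
    have h4 : PowerSeries.map (red p n) (PowerSeries.subst g' g : PowerSeries (P217.E0 p n)) =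
        PowerSeries.X := by rw [k2, PowerSeries.map_X]
    rw [C0.ps_map_subst _ a2.1.1, a3] at h3
    -- `g'(γ'(X)) = X` so `g' = γ`
    have h5 := congrArg (fun s : PowerSeries (GaloisField p n) =>
      (PowerSeries.subst γ s : PowerSeries (GaloisField p n))) h3
    rw [PowerSeries.subst_comp_subst_apply (C0.hasSubst_of_cc hγ'.1.1)
      (C0.hasSubst_of_cc hγ.1), h1, PowerSeries.subst_X (C0.hasSubst_of_cc hγ.1),
      PowerSeries.X_subst] at h5
    exact h5
  refine ⟨φ, ⟨g, a2⟩, fun ψ => ⟨?_, ?_⟩⟩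
  · rintro ⟨-, f, c1, c2, c3⟩
    have c2' := isIso_iff.1 c2
    have h5 : P217.IsIso (F.map ψ) (F.map (φ : P217.E0 p n →+* P217.E0 p n))
        (PowerSeries.subst f g) := c2'.compC a2
    have h6 : PowerSeries.map (IsLocalRing.residue (P217.E0 p n))
        (PowerSeries.subst f g : PowerSeries (P217.E0 p n)) = PowerSeries.X := by
      have h7 : PowerSeries.map (red p n)
          (PowerSeries.subst f g : PowerSeries (P217.E0 p n)) = PowerSeries.X := by
        have c3' : PowerSeries.map (red p n) f = γ := c3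
        rw [C0.ps_map_subst _ c2'.1.1, c3', a3, h1]
      rw [← hi, ← C0.ps_map_comp, h7, PowerSeries.map_X]
    exact (C0.rigid hF (i.comp (σ : GaloisField p n →+* GaloisField p n))
      (x := ψ) (y := (φ : P217.E0 p n →+* P217.E0 p n))
      (by
        have c1' : (red p n).comp ψ =
          (σ : GaloisField p n →+* GaloisField p n).comp (red p n) := c1
        rw [← hi, RingHom.comp_assoc, c1', RingHom.comp_assoc])
      (by rw [← hi, RingHom.comp_assoc, a1, RingHom.comp_assoc]) h5 h6).1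
  · rintro rfl
    exact ⟨hγ, g', a1, isIso_iff.2 hg', b1⟩

theorem isInvariant_iff (hF : P217.IsUniversalDeformation p n Γ F) (J : Ideal (P217.E0 p n)) :
    LT.IsInvariant p n Γ F J ↔ P217.IsInvariant p n F J := by
  constructor
  · intro hJ φ g hg
    obtain ⟨σ, ⟨s1, s2⟩, -⟩ := AC.exists_unique_reduction hF φ g hg
    obtain ⟨g', hg', k1, k2⟩ := hg.symmC
    refine hJ σ (g'.map (red p n)) φ ⟨?_, g', s1, isIso_iff.2 hg', rfl⟩
    have h := hg'.mapC (red p n)
    rw [C0.FG_map_map, s1, ← C0.FG_map_map, hF.reduction, AC.gamma_map] at h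
    exact isIso_iff.2 h
  · intro hJ σ γ ψ hψ
    obtain ⟨φ, ⟨g, hg⟩, hφ⟩ := acts_iff hF σ γ hψ.1
    rw [(hφ ψ).1 hψ]
    exact hJ φ g hg

theorem honda_series (hn : 1 ≤ n) (hΓ : LT.IsHonda p n Γ) :
    LT.multSeries Γ p = PowerSeries.X ^ p ^ n := by
  have h := (IsHonda.hondaLike hn (isHonda_iff.1 hΓ) (ZMod p) (RingHom.id _)).series
  rw [C0.FG_map_id] at h
  exact h

theorem fg_ext {R : Type*} [CommRing R] {F G : FormalGroup R}
    (h : F.toPowerSeries = G.toPowerSeries) : F = G := by
  cases F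
  cases G
  congr

theorem exists_unique_honda (hn : 1 ≤ n) : ∃! Γ, LT.IsHonda p n Γ := by
  obtain ⟨Γ, hΓ⟩ := exists_isHonda (p := p) hn
  refine ⟨Γ, isHonda_iff.2 hΓ, ?_⟩
  rintro Γ' ⟨H', hH', hlog'⟩
  obtain ⟨H, hH, hlog⟩ := hΓ
  rw [← hH', ← hH]
  congr 1
  apply fg_ext
  have h1 : (H'.map (algebraMap ℤ_[p] ℚ_[p])).toPowerSeries =
      (H.map (algebraMap ℤ_[p] ℚ_[p])).toPowerSeries :=
    hc_injective p n hn (FormalGroup.zero_constantCoeff _) (FormalGroup.zero_constantCoeff _)
      (hlog'.trans hlog.symm)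
  ext d
  have h2 := congrArg (MvPowerSeries.coeff d) h1
  rw [C0.FG_map_toPowerSeries, C0.FG_map_toPowerSeries, coeff_map, coeff_map] at h2
  exact FaithfulSMul.algebraMap_injective ℤ_[p] ℚ_[p] h2

/-- everything except the existence of `F`. -/
theorem main (hn : 1 ≤ n) (hΓ : LT.IsHonda p n Γ) (hF : LT.IsUniversal p n Γ F)
    (hH : LT.HeightAdapted p n F) :
    (∀ σ γ, LT.IsIso (LT.base p n Γ) (LT.base p n Γ) γ →
      ∃ φ : LT.E0 p n ≃+* LT.E0 p n, ∀ ψ, LT.Acts p n Γ F σ γ ψ ↔ ψ = φ) ∧
    ∀ J : Ideal (LT.E0 p n),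
      ((J.IsPrime ∧ LT.IsInvariant p n Γ F J) ↔ ∃ h ≤ n, J = LT.heightIdeal p n h) ∧
      ((J.IsRadical ∧ LT.IsInvariant p n Γ F J) ↔
        (J = ⊤ ∨ ∃ h ≤ n, J = LT.heightIdeal p n h)) := by
  have hF' := isUniversal_iff.1 hF
  refine ⟨fun σ γ hγ => ?_, fun J => ?_⟩
  · obtain ⟨φ, -, h⟩ := acts_iff hF' σ γ hγ
    exact ⟨φ, h⟩
  · rw [isInvariant_iff hF' J]
    exact chai hn Γ (isHonda_iff.1 hΓ) F hF' (heightAdapted_iff.1 hH) J

end Vale.Agent.P217.LTC
end
end

section

section

/-!
# P217 (27d1): square-zero thickenings of formal group laws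

`ρ : B → k` a surjection onto a field, `t ∈ ker ρ` with `Ann t = ker ρ`. If `G`, `G0` are
commutative formal group laws over `B`, congruent modulo `t`, then
`G(x,y) = x +_{G0} y +_{G0} τ(D(x̄,ȳ))` for a unique `D ∈ k[[X,Y]]`, where `τ(ā) = t a`, and `D` is
a symmetric 2-cocycle of `Γ = G0 mod ρ`.
-/

namespace Vale.Agent.P217

open MvPowerSeries Vale.Agent.P217.C0

/-- Set-up of a small extension: `ρ : B → k` onto a field, `t ∈ ker ρ`, `Ann t = ker ρ`. -/
structure SmallExt {B k : Type*} [CommRing B] [Field k] (ρ : B →+* k) (t : B) : Prop where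
  surj : Function.Surjective ρ
  ann : ∀ x, t * x = 0 ↔ ρ x = 0
  map_t : ρ t = 0

/-- the case of a local ring. -/
theorem SmallExt.of_isLocalRing {B : Type*} [CommRing B] [IsLocalRing B] {t : B} (ht0 : t ≠ 0)
    (htm : ∀ x ∈ IsLocalRing.maximalIdeal B, t * x = 0) (htm' : t ∈ IsLocalRing.maximalIdeal B) :
    SmallExt (IsLocalRing.residue B) t where
  surj := IsLocalRing.residue_surjective
  ann := fun x => by
    rw [IsLocalRing.residue_eq_zero_iff]
    refine ⟨fun h => ?_, htm x⟩
    by_contra hx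
    have hu : IsUnit x := by
      by_contra hu
      exact hx ((IsLocalRing.mem_maximalIdeal x).mpr hu)
    exact ht0 (by simpa using (hu.mul_left_eq_zero).mp h)
  map_t := (IsLocalRing.residue_eq_zero_iff t).mpr htm'

namespace SmallExt

variable {B k : Type*} [CommRing B] [Field k] {ρ : B →+* k} {t : B} (h : SmallExt ρ t)
  {σ τ : Type*}

include h in
theorem t_mul_congr {x y : B} (hxy : ρ x = ρ y) : t * x = t * y := by
  rw [← sub_eq_zero, ← mul_sub, h.ann, map_sub, hxy, sub_self]

/-- `τ(ā) = t a`. -/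
noncomputable def tau (h : SmallExt ρ t) : k →+ B where
  toFun x := t * Function.surjInv h.surj x
  map_zero' := by
    rw [h.ann]
    exact Function.surjInv_eq h.surj 0
  map_add' x y := by
    rw [← mul_add]
    refine h.t_mul_congr ?_
    rw [map_add, Function.surjInv_eq h.surj, Function.surjInv_eq h.surj,
      Function.surjInv_eq h.surj]

theorem tau_map (x : B) : h.tau (ρ x) = t * x :=
  h.t_mul_congr (Function.surjInv_eq h.surj _)

theorem tau_injective : Function.Injective h.tau := by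
  intro x y hxy
  obtain ⟨a, rfl⟩ := h.surj x
  obtain ⟨b, rfl⟩ := h.surj y
  rw [h.tau_map, h.tau_map, ← sub_eq_zero, ← mul_sub, h.ann, map_sub, sub_eq_zero] at hxy
  exact hxy

theorem dvd_iff (x : B) : t ∣ x ↔ ∃ a, x = h.tau a := by
  constructor
  · rintro ⟨y, rfl⟩
    exact ⟨ρ y, (h.tau_map y).symm⟩
  · rintro ⟨a, rfl⟩
    exact Dvd.intro _ rfl

include h in
theorem exists_map (D : MvPowerSeries σ k) : ∃ A : MvPowerSeries σ B, A.map ρ = D := by
  refine ⟨fun d => Function.surjInv h.surj (coeff d D), ?_⟩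
  ext d
  exact Function.surjInv_eq h.surj _

/-- `τ` on power series, coefficientwise. -/
noncomputable def tauS (h : SmallExt ρ t) : MvPowerSeries σ k →+ MvPowerSeries σ B where
  toFun D := fun d => h.tau (coeff d D)
  map_zero' := by
    ext d
    exact map_zero h.tau
  map_add' D E := by
    ext d
    exact map_add h.tau _ _

theorem coeff_tauS (D : MvPowerSeries σ k) (d : σ →₀ ℕ) :
    coeff d (h.tauS D) = h.tau (coeff d D) := rfl

theorem ps_coeff_tauS (D : PowerSeries k) (n : ℕ) :
    PowerSeries.coeff n (h.tauS D : PowerSeries B) = h.tau (PowerSeries.coeff n D) := rfl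

theorem tauS_map (A : MvPowerSeries σ B) : h.tauS (A.map ρ) = C t * A := by
  ext d
  rw [coeff_tauS, coeff_map, coeff_C_mul, h.tau_map]

theorem tauS_injective : Function.Injective (h.tauS (σ := σ)) := by
  intro D E hDE
  ext d
  exact h.tau_injective (congrArg (coeff d) hDE)

theorem mul_tauS (A : MvPowerSeries σ B) (D : MvPowerSeries σ k) :
    A * h.tauS D = h.tauS (A.map ρ * D) := by
  obtain ⟨E, rfl⟩ := h.exists_map D
  rw [← map_mul, h.tauS_map, h.tauS_map]
  ring

theorem tauS_mul (A : MvPowerSeries σ B) (D : MvPowerSeries σ k) :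
    h.tauS D * A = h.tauS (D * A.map ρ) := by
  rw [mul_comm, h.mul_tauS, mul_comm]

theorem map_tauS (D : MvPowerSeries σ k) : (h.tauS D).map ρ = 0 := by
  obtain ⟨E, rfl⟩ := h.exists_map D
  rw [h.tauS_map, map_mul, map_C, h.map_t, map_zero, zero_mul]

theorem tauS_mul_tauS (D E : MvPowerSeries σ k) : h.tauS D * h.tauS E = 0 := by
  rw [h.mul_tauS, h.map_tauS, zero_mul, map_zero]

theorem exists_tauS (A : MvPowerSeries σ B) (hA : ∀ d, t ∣ coeff d A) :
    ∃ D, A = h.tauS D := by
  choose f hf using fun d => (h.dvd_iff _).mp (hA d)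
  refine ⟨f, ?_⟩
  ext d
  rw [hf d]
  rfl

theorem hasSubst_tauS (D : MvPowerSeries σ k) : PowerSeries.HasSubst (h.tauS D) := by
  refine ⟨2, ?_⟩
  have := congrArg constantCoeff (h.tauS_mul_tauS D D)
  rwa [map_mul, map_zero, ← sq] at this

/-- `τ` commutes with substitutions. -/
theorem subst_tauS {a : σ → MvPowerSeries τ B} (ha : HasSubst a) (D : MvPowerSeries σ k) :
    subst a (h.tauS D) = h.tauS (subst (fun s => (a s).map ρ) D) := by
  obtain ⟨A, rfl⟩ := h.exists_map D
  rw [h.tauS_map, ← map_subst ha, h.tauS_map, subst_mul ha]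
  congr 1
  exact subst_C t


theorem subst_pair_tauS {a b : MvPowerSeries σ B} (ha : PowerSeries.HasSubst a)
    (hb : PowerSeries.HasSubst b) (D : MvPowerSeries (Fin 2) k) :
    (subst ![a, b] (h.tauS D) : MvPowerSeries σ B) = h.tauS (subst ![a.map ρ, b.map ρ] D) := by
  rw [h.subst_tauS (hasSubst_pair ha hb)]
  congr! 2
  funext s
  fin_cases s <;> rfl

theorem ps_subst_tauS {a : MvPowerSeries σ B} (ha : PowerSeries.HasSubst a) (D : PowerSeries k) :
    (PowerSeries.subst a (h.tauS D : PowerSeries B) : MvPowerSeries σ B) =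
      h.tauS (PowerSeries.subst (a.map ρ) D) :=
  h.subst_tauS ha.const D

end SmallExt

section Gser

variable {k : Type*} [Field k] (Γ : FormalGroup k)

/-- `g(T) = (∂Γ/∂Y)(T, 0)`. -/
noncomputable def dYser : PowerSeries k :=
  PowerSeries.mk fun i => coeff (Finsupp.single 0 i + Finsupp.single 1 1) Γ.toPowerSeries

theorem constantCoeff_dYser : PowerSeries.constantCoeff (dYser Γ) = 1 := by
  rw [← PowerSeries.coeff_zero_eq_constantCoeff_apply, dYser, PowerSeries.coeff_mk,
    Finsupp.single_zero, zero_add, Γ.lin_coeff_Y]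

theorem dYser_eq {H : MvPowerSeries (Fin 2) k}
    (hH : Γ.toPowerSeries = X 0 + X 1 + X 0 * X 1 * H) :
    dYser Γ = 1 + PowerSeries.X * (subst ![PowerSeries.X, 0] H : PowerSeries k) := by
  classical
  ext n
  rw [dYser, PowerSeries.coeff_mk]
  rcases n with _ | n
  · rw [Finsupp.single_zero, zero_add, Γ.lin_coeff_Y]
    simp
  · rw [map_add, PowerSeries.coeff_one, if_neg (Nat.succ_ne_zero n), zero_add,
      PowerSeries.coeff_succ_X_mul, ← coeff_single_zero_eq, hH]
    have hX : (X 0 * X 1 : MvPowerSeries (Fin 2) k) =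
        monomial (Finsupp.single 0 1 + Finsupp.single 1 1) 1 := by
      simp [X, monomial_mul_monomial]
    have hle : (Finsupp.single 0 1 + Finsupp.single 1 1 : Fin 2 →₀ ℕ) ≤
        Finsupp.single 0 (n + 1) + Finsupp.single 1 1 := by
      intro i
      fin_cases i <;> simp
    have hsub : (Finsupp.single 0 (n + 1) + Finsupp.single 1 1 : Fin 2 →₀ ℕ) -
        (Finsupp.single 0 1 + Finsupp.single 1 1) = Finsupp.single 0 n := by
      ext i
      fin_cases i <;> simp
    rw [map_add, hX, coeff_monomial_mul, if_pos hle, hsub, one_mul, map_add, coeff_X, coeff_X,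
      if_neg, if_neg, zero_add, zero_add]
    · intro h
      have := DFunLike.congr_fun h 0
      simp at this
    · intro h
      have := DFunLike.congr_fun h 1
      simp at this

/-- the unit `g(Γ(X,Y))`. -/
noncomputable def dYserG : MvPowerSeries (Fin 2) k :=
  PowerSeries.subst Γ.toPowerSeries (dYser Γ)

theorem constantCoeff_dYserG : constantCoeff (dYserG Γ) = 1 := by
  have hΓ : PowerSeries.HasSubst Γ.toPowerSeries := hasSubst_of_cc Γ.zero_constantCoeff
  have h1 : dYser Γ = 1 + (dYser Γ - 1) := by ring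
  have h2 : PowerSeries.constantCoeff (dYser Γ - 1) = 0 := by
    rw [map_sub, constantCoeff_dYser, map_one, sub_self]
  rw [dYserG, h1, PowerSeries.subst_add hΓ, map_add]
  have h3 : constantCoeff (PowerSeries.subst Γ.toPowerSeries (dYser Γ - 1)) = 0 :=
    constantCoeff_subst_eq_zero hΓ.const (fun _ => Γ.zero_constantCoeff) h2
  rw [h3, add_zero, ← PowerSeries.coe_substAlgHom hΓ, map_one, map_one]

theorem dYserG_mul_inv : dYserG Γ * (dYserG Γ)⁻¹ = 1 :=
  MvPowerSeries.mul_inv_cancel _ (by rw [constantCoeff_dYserG]; exact one_ne_zero)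

end Gser

section Swap

variable {R : Type*} [CommRing R]

theorem usq_coeff_swap (D : MvPowerSeries (Fin 2) R) (i j : ℕ) :
    coeff (Finsupp.single 0 i + Finsupp.single 1 j)
      (subst ![(X 1 : MvPowerSeries (Fin 2) R), X 0] D) =
      coeff (Finsupp.single 0 j + Finsupp.single 1 i) D := by
  classical
  have key : ∀ d : Fin 2 →₀ ℕ, (d.prod fun s e =>
      (![(X 1 : MvPowerSeries (Fin 2) R), X 0] s) ^ e) =
      monomial (Finsupp.single 0 (d 1) + Finsupp.single 1 (d 0)) 1 := by
    intro d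
    rw [Finsupp.prod_fintype _ _ (by simp), Fin.prod_univ_two]
    simp only [Matrix.cons_val_zero, Matrix.cons_val_one, X_pow_eq, monomial_mul_monomial,
      mul_one]
    rw [add_comm]
  rw [coeff_subst (hasSubst_pair (hasSubst_of_cc (by simp)) (hasSubst_of_cc (by simp))),
    finsum_eq_single _ (Finsupp.single 0 j + Finsupp.single 1 i)]
  · rw [key, coeff_monomial, if_pos (by simp), smul_eq_mul, mul_one]
  · intro d hd
    rw [key, coeff_monomial, if_neg, smul_zero]
    intro h
    apply hd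
    have h0 := DFunLike.congr_fun h 0
    have h1 := DFunLike.congr_fun h 1
    simp at h0 h1
    ext s
    fin_cases s
    · simp [h1]
    · simp [h0]

theorem usq_pt_ext {F : FormalGroup R} {σ : Type*} {x y : F.Point σ} (h : x.val = y.val) :
    x = y := Subtype.ext h

theorem usq_subst_id (D : MvPowerSeries (Fin 2) R) :
    subst ![(X 0 : MvPowerSeries (Fin 2) R), X 1] D = D := by
  have : (![X 0, X 1] : Fin 2 → MvPowerSeries (Fin 2) R) = X := by
    funext s; fin_cases s <;> rfl
  rw [this, subst_self]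
  rfl

end Swap

namespace SmallExt

variable {B k : Type*} [CommRing B] [Field k] {ρ : B →+* k} {t : B} (h : SmallExt ρ t)
  {σ τ : Type*} (G0 G : FormalGroup B)

/-- `τ(D)` as a point of the formal group law. -/
noncomputable def tauPt [G0.IsComm] : MvPowerSeries σ k →+ G0.Point σ where
  toFun D := ⟨h.tauS D, h.hasSubst_tauS D⟩
  map_zero' := Subtype.ext (map_zero _)
  map_add' D E := by
    apply Subtype.ext
    obtain ⟨H, hH⟩ := exists_FG_decomp G0
    have hS : HasSubst ![h.tauS D, h.tauS E] := hasSubst_pair (h.hasSubst_tauS D)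
      (h.hasSubst_tauS E)
    change h.tauS (D + E) = subst ![h.tauS D, h.tauS E] G0.toPowerSeries
    rw [hH, subst_add hS, subst_add hS, subst_mul hS, subst_mul hS,
      subst_X hS, subst_X hS]
    simp only [Matrix.cons_val_zero, Matrix.cons_val_one]
    rw [h.tauS_mul_tauS, zero_mul, add_zero, map_add]

theorem tauPt_val [G0.IsComm] (D : MvPowerSeries σ k) : (h.tauPt G0 D).val = h.tauS D := rfl

theorem tauPt_injective [G0.IsComm] : Function.Injective (h.tauPt G0 (σ := σ)) := fun _ _ hDE =>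
  h.tauS_injective (congrArg Subtype.val hDE)

/-- (1a) `a +_{G0} τ(D) = a + τ(g(ā) D)`. -/
theorem add_tauPt_val [G0.IsComm] (x : G0.Point σ) (D : MvPowerSeries σ k) :
    (x + h.tauPt G0 D).val =
      x.val + h.tauS (PowerSeries.subst (x.val.map ρ) (dYser (G0.map ρ)) * D) := by
  obtain ⟨H, hH⟩ := exists_FG_decomp G0
  have hH' : (G0.map ρ).toPowerSeries = X 0 + X 1 + X 0 * X 1 * H.map ρ := by
    rw [FG_map_toPowerSeries, hH]
    simp
  have hx := x.prop
  have hxm : PowerSeries.HasSubst (x.val.map ρ) := hasSubst_map ρ hx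
  have hS : HasSubst ![x.val, h.tauS D] := hasSubst_pair hx (h.hasSubst_tauS D)
  have hS' : HasSubst ![(PowerSeries.X : PowerSeries k), 0] := HasSubst.X_zero
  have e1 : PowerSeries.subst (x.val.map ρ) (dYser (G0.map ρ)) =
      1 + x.val.map ρ * (subst ![x.val, h.tauS D] H).map ρ := by
    rw [dYser_eq _ hH', PowerSeries.subst_add hxm, PowerSeries.subst_mul hxm,
      PowerSeries.subst_X hxm, map_pair_subst ρ hx (h.hasSubst_tauS D), h.map_tauS]
    congr 1
    · rw [← PowerSeries.coe_substAlgHom hxm, map_one]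
    · congr 1
      rw [PowerSeries.subst, subst_comp_subst_apply hS' hxm.const]
      congr! 1
      funext s
      fin_cases s
      · exact PowerSeries.subst_X hxm
      · exact ps_subst_zero hxm
  rw [FormalGroup.add_apply, tauPt_val, hH, subst_add hS, subst_add hS, subst_mul hS,
    subst_mul hS, subst_X hS, subst_X hS, e1]
  simp only [Matrix.cons_val_zero, Matrix.cons_val_one]
  rw [add_mul, map_add, one_mul, ← map_mul, ← h.mul_tauS, add_assoc]
  ring

/-- `G = G0 +_{G0} τ(D)`. -/
def IsDiff (D : MvPowerSeries (Fin 2) k) : Prop :=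
  G.toPowerSeries = G0.toPowerSeries + h.tauS (dYserG (G0.map ρ) * D)

/-- (1b) formal group laws congruent mod `t`. -/
theorem exists_isDiff (hG : ∀ d, t ∣ coeff d G.toPowerSeries - coeff d G0.toPowerSeries) :
    ∃! D, h.IsDiff G0 G D := by
  obtain ⟨E, hE⟩ := h.exists_tauS (G.toPowerSeries - G0.toPowerSeries)
    (fun d => by rw [map_sub]; exact hG d)
  have hinv := dYserG_mul_inv (G0.map ρ)
  refine ⟨(dYserG (G0.map ρ))⁻¹ * E, ?_, ?_⟩
  · change G.toPowerSeries = G0.toPowerSeries +
      h.tauS (dYserG (G0.map ρ) * ((dYserG (G0.map ρ))⁻¹ * E))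
    rw [← mul_assoc, hinv, one_mul, ← hE]
    ring
  · intro D hD
    have hD' : G.toPowerSeries = G0.toPowerSeries + h.tauS (dYserG (G0.map ρ) * D) := hD
    have h1 : h.tauS (dYserG (G0.map ρ) * D) = h.tauS E := by
      rw [← hE, hD']
      ring
    rw [← h.tauS_injective h1, ← mul_assoc, mul_comm (dYserG (G0.map ρ))⁻¹, hinv, one_mul]

variable {G0 G}

variable {h} in
theorem IsDiff.map_eq {D : MvPowerSeries (Fin 2) k} (hD : h.IsDiff G0 G D) :
    G.map ρ = G0.map ρ := by
  have hD' : G.toPowerSeries = G0.toPowerSeries + h.tauS (dYserG (G0.map ρ) * D) := hD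
  apply FormalGroup.ext
  rw [FG_map_toPowerSeries, FG_map_toPowerSeries, hD', map_add, h.map_tauS, add_zero]

variable {h} in
/-- (1b) `G(x,y) = x +_{G0} y +_{G0} τ(D(x̄,ȳ))`. -/
theorem IsDiff.subst_eq [G0.IsComm] {D : MvPowerSeries (Fin 2) k} (hD : h.IsDiff G0 G D)
    (x y : G0.Point σ) : (subst ![x.val, y.val] G.toPowerSeries : MvPowerSeries σ B) =
      (x + y + h.tauPt G0 (subst ![x.val.map ρ, y.val.map ρ] D)).val := by
  have hD' : G.toPowerSeries = G0.toPowerSeries + h.tauS (dYserG (G0.map ρ) * D) := hD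
  have hS := hasSubst_pair x.prop y.prop
  have hxm : PowerSeries.HasSubst (x.val.map ρ) := hasSubst_map ρ x.prop
  have hym : PowerSeries.HasSubst (y.val.map ρ) := hasSubst_map ρ y.prop
  have hSm := hasSubst_pair hxm hym
  have hΓ : PowerSeries.HasSubst (G0.map ρ).toPowerSeries :=
    hasSubst_of_cc (G0.map ρ).zero_constantCoeff
  rw [h.add_tauPt_val, hD', subst_add hS, h.subst_pair_tauS x.prop y.prop, subst_mul hSm]
  congr 3
  rw [dYserG, PowerSeries.subst, subst_comp_subst_apply hΓ.const hSm, PowerSeries.subst]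
  congr! 1
  funext _
  rw [FormalGroup.add_apply, map_pair_subst ρ x.prop y.prop]
  rfl

variable {h} in
/-- (2) `D` is a symmetric 2-cocycle of `Γ`. -/
theorem IsDiff.isCocycle [G0.IsComm] [G.IsComm] {D : MvPowerSeries (Fin 2) k}
    (hD : h.IsDiff G0 G D) : IsCocycle (G0.map ρ) D := by
  have hX : ∀ {n : ℕ} (s : Fin n), PowerSeries.HasSubst (X s : MvPowerSeries (Fin n) B) :=
    fun s => hasSubst_of_cc (by simp)
  have hXk : ∀ {n : ℕ} (s : Fin n), PowerSeries.HasSubst (X s : MvPowerSeries (Fin n) k) :=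
    fun s => hasSubst_of_cc (by simp)
  have hmap := hD.map_eq
  refine ⟨fun i => ?_, fun i j => ?_, ?_⟩
  · have hx : PowerSeries.HasSubst (PowerSeries.X : PowerSeries B) :=
      hasSubst_of_cc PowerSeries.constantCoeff_X
    let x : G0.Point Unit := ⟨PowerSeries.X, hx⟩
    have e1 := hD.subst_eq x 0
    have e2 : (subst ![x.val, (0 : G0.Point Unit).val] G.toPowerSeries : PowerSeries B) =
      x.val := G.add_zero hx
    rw [e2, add_zero] at e1
    have e3 : x = x + h.tauPt G0 (subst ![x.val.map ρ, (0 : G0.Point Unit).val.map ρ] D) :=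
      Subtype.ext e1
    rw [left_eq_add] at e3
    have e4 := h.tauPt_injective G0 (e3.trans (map_zero _).symm)
    have e5 : (![x.val.map ρ, (0 : G0.Point Unit).val.map ρ] : Fin 2 → PowerSeries k) =
        ![PowerSeries.X, 0] := by
      funext s
      fin_cases s
      · exact PowerSeries.map_X ρ
      · exact map_zero _
    rw [e5] at e4
    rw [coeff_single_zero_eq, e4, map_zero]
  · have e1 := hD.subst_eq (ptX G0 (0 : Fin 2)) (ptX G0 1)
    have e2 := hD.subst_eq (ptX G0 (1 : Fin 2)) (ptX G0 0)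
    rw [ptX_val, ptX_val, map_X, map_X] at e1 e2
    rw [G.comm' (hX 0) (hX 1), e2] at e1
    have e3 := usq_pt_ext e1
    rw [add_comm (ptX G0 (1 : Fin 2)) (ptX G0 0), add_right_inj] at e3
    have e4 := h.tauPt_injective G0 e3
    rw [usq_subst_id] at e4
    rw [← usq_coeff_swap D j i, e4]
  · have hΓ : ∀ a b : G0.Point (Fin 3), (subst ![a.val, b.val] G.toPowerSeries :
        MvPowerSeries (Fin 3) B).map ρ =
        subst ![a.val.map ρ, b.val.map ρ] (G0.map ρ).toPowerSeries := by
      intro a b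
      rw [map_pair_subst ρ a.prop b.prop, ← FG_map_toPowerSeries, hmap]
    let u : G0.Point (Fin 3) := ⟨subst ![X 0, X 1] G.toPowerSeries, hasSubst_FG (hX 0) (hX 1)⟩
    let v : G0.Point (Fin 3) := ⟨subst ![X 1, X 2] G.toPowerSeries, hasSubst_FG (hX 1) (hX 2)⟩
    have hu := hD.subst_eq (ptX G0 (0 : Fin 3)) (ptX G0 1)
    have hv := hD.subst_eq (ptX G0 (1 : Fin 3)) (ptX G0 2)
    have hu' : u = _ := usq_pt_ext hu
    have hv' : v = _ := usq_pt_ext hv
    have e1 := hD.subst_eq u (ptX G0 2)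
    have e2 := hD.subst_eq (ptX G0 0) v
    have e3 : (subst ![u.val, (ptX G0 (2 : Fin 3)).val] G.toPowerSeries :
        MvPowerSeries (Fin 3) B) = subst ![(ptX G0 0).val, v.val] G.toPowerSeries :=
      G.assoc' (hX 0) (hX 1) (hX 2)
    have hum : u.val.map ρ = subst ![X 0, X 1] (G0.map ρ).toPowerSeries := by
      have := hΓ (ptX G0 0) (ptX G0 1)
      rw [ptX_val, ptX_val, map_X, map_X] at this
      exact this
    have hvm : v.val.map ρ = subst ![X 1, X 2] (G0.map ρ).toPowerSeries := by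
      have := hΓ (ptX G0 1) (ptX G0 2)
      rw [ptX_val, ptX_val, map_X, map_X] at this
      exact this
    rw [e1, e2, hum, hvm, hu', hv'] at e3
    simp only [ptX_val, map_X] at e3
    have e4 := usq_pt_ext e3
    have e5 : ptX G0 0 + ptX G0 1 + ptX G0 2 + h.tauPt G0
        (subst ![(X 0 : MvPowerSeries (Fin 3) k), X 1] D +
          subst ![subst ![(X 0 : MvPowerSeries (Fin 3) k), X 1] (G0.map ρ).toPowerSeries, X 2] D) =
        ptX G0 0 + ptX G0 1 + ptX G0 2 + h.tauPt G0
        (subst ![(X 1 : MvPowerSeries (Fin 3) k), X 2] D +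
          subst ![(X 0 : MvPowerSeries (Fin 3) k),
            subst ![X 1, X 2] (G0.map ρ).toPowerSeries] D) := by
      rw [map_add, map_add]
      refine Eq.trans ?_ (e4.trans ?_)
      · abel
      · abel
    rw [add_right_inj] at e5
    have e6 := h.tauPt_injective G0 e5
    linear_combination -e6

/-- `g(x̄)` has constant coefficient `1`. -/
theorem _root_.Vale.Agent.P217.constantCoeff_subst_dYser {k : Type*} [Field k]
    {Γ : FormalGroup k} {σ : Type*} {x : MvPowerSeries σ k} (hx : PowerSeries.HasSubst x) :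
    constantCoeff (PowerSeries.subst x (dYser Γ)) = 1 := by
  have h0 : constantCoeff x = 0 := IsNilpotent.eq_zero hx
  have h1 : dYser Γ = 1 + (dYser Γ - 1) := by ring
  have h2 : PowerSeries.constantCoeff (dYser Γ - 1) = 0 := by
    rw [map_sub, constantCoeff_dYser, map_one, sub_self]
  rw [h1, PowerSeries.subst_add hx, map_add]
  have h3 : constantCoeff (PowerSeries.subst x (dYser Γ - 1)) = 0 :=
    constantCoeff_subst_eq_zero hx.const (fun _ => h0) h2
  rw [h3, add_zero, ← PowerSeries.coe_substAlgHom hx, map_one, map_one]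

/-- series congruent mod `t` -/
theorem exists_add_tauPt [G0.IsComm] (x : G0.Point σ) (y : MvPowerSeries σ B)
    (hxy : ∀ d, t ∣ coeff d y - coeff d x.val) : ∃! D, y = (x + h.tauPt G0 D).val := by
  obtain ⟨E, hE⟩ := h.exists_tauS (y - x.val) (fun d => by rw [map_sub]; exact hxy d)
  set g := PowerSeries.subst (x.val.map ρ) (dYser (G0.map ρ)) with hg
  have hinv : g * g⁻¹ = 1 := MvPowerSeries.mul_inv_cancel _ (by
    rw [hg, constantCoeff_subst_dYser (hasSubst_map ρ x.prop)]
    exact one_ne_zero)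
  refine ⟨g⁻¹ * E, ?_, ?_⟩
  · change y = (x + h.tauPt G0 (g⁻¹ * E)).val
    rw [h.add_tauPt_val, ← hg, ← mul_assoc, hinv, one_mul, ← hE]
    ring
  · intro D hD
    rw [h.add_tauPt_val, ← hg] at hD
    have h1 : h.tauS (g * D) = h.tauS E := by
      rw [← hE, hD]
      ring
    rw [← h.tauS_injective h1, ← mul_assoc, mul_comm g⁻¹, hinv, one_mul]

/-- a homomorphism `≡ X` is the identity on `τ(D)`. -/
theorem homPt_tauPt {F0 G0 : FormalGroup B} [F0.IsComm] [G0.IsComm] {ψ : PowerSeries B}
    (hψ : IsHom F0 G0 ψ) (hψX : ψ.map ρ = PowerSeries.X) (D : MvPowerSeries σ k) :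
    homPt ψ hψ (h.tauPt F0 D) = h.tauPt G0 D := by
  obtain ⟨w, hw⟩ := PowerSeries.X_dvd_iff.mpr hψ.1
  have hw1 : w.map ρ = 1 := by
    rw [hw, map_mul, PowerSeries.map_X] at hψX
    exact mul_left_cancel₀ PowerSeries.X_ne_zero (hψX.trans (mul_one _).symm)
  have hs := h.hasSubst_tauS D
  apply usq_pt_ext
  rw [homPt_val, tauPt_val, tauPt_val, hw, PowerSeries.subst_mul hs, PowerSeries.subst_X hs,
    h.tauS_mul]
  congr 1
  have e : MvPowerSeries.map ρ (PowerSeries.subst (h.tauS D) w) =
      PowerSeries.subst (MvPowerSeries.map ρ (h.tauS D)) (PowerSeries.map ρ w) :=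
    PowerSeries.map_subst hs w
  have h0 : PowerSeries.HasSubst (0 : MvPowerSeries σ k) := hasSubst_of_cc (map_zero _)
  rw [e, hw1, h.map_tauS, ← PowerSeries.coe_substAlgHom h0, map_one, mul_one]

/-- The homomorphism `ψ +_{G0} τ(χ)`. -/
theorem isHom_iff {F0 F1 : FormalGroup B} [F0.IsComm] [F1.IsComm] [G0.IsComm] [G.IsComm]
    {D1 D : MvPowerSeries (Fin 2) k} (hD1 : h.IsDiff F0 F1 D1) (hD : h.IsDiff G0 G D)
    {ψ : PowerSeries B} (hψ : IsHom F0 G0 ψ) (hψX : ψ.map ρ = PowerSeries.X)
    {χ : PowerSeries k} (hχ : PowerSeries.constantCoeff χ = 0) :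
    IsHom F1 G (subst ![ψ, h.tauS χ] G0.toPowerSeries : PowerSeries B) ↔
      D1 = D + cobd (G0.map ρ) χ := by
  have hX : ∀ s : Fin 2, PowerSeries.HasSubst (X s : MvPowerSeries (Fin 2) B) :=
    fun s => hasSubst_of_cc (by simp)
  have hXk : ∀ s : Fin 2, PowerSeries.HasSubst (X s : MvPowerSeries (Fin 2) k) :=
    fun s => hasSubst_of_cc (by simp)
  have hψs : PowerSeries.HasSubst ψ := hasSubst_of_cc hψ.1
  have hτs : PowerSeries.HasSubst (h.tauS χ : PowerSeries B) := h.hasSubst_tauS χ
  set ψ1 : PowerSeries B := subst ![ψ, h.tauS χ] G0.toPowerSeries with hψ1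
  have hcc : PowerSeries.constantCoeff ψ1 = 0 := by
    refine constantCoeff_subst_eq_zero (hasSubst_pair hψs hτs) ?_ G0.zero_constantCoeff
    intro s
    fin_cases s
    · exact hψ.1
    · change PowerSeries.constantCoeff (h.tauS χ : PowerSeries B) = 0
      rw [← PowerSeries.coeff_zero_eq_constantCoeff_apply, ps_coeff_tauS,
        PowerSeries.coeff_zero_eq_constantCoeff_apply, hχ, map_zero]
  have key : ∀ x : F0.Point (Fin 2), (PowerSeries.subst x.val ψ1 : MvPowerSeries (Fin 2) B) =
      (homPt ψ hψ x + h.tauPt G0 (PowerSeries.subst (x.val.map ρ) χ)).val := by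
    intro x
    rw [hψ1, PowerSeries.subst, subst_pair_subst hψs hτs x.prop.const]
    have := h.ps_subst_tauS x.prop χ
    rw [PowerSeries.subst] at this
    rw [this]
    rfl
  have hFG : F0.map ρ = G0.map ρ := by
    have e := hψ.mapC ρ
    have e' : PowerSeries.map ρ ψ = PowerSeries.X := hψX
    rw [e'] at e
    apply FormalGroup.ext
    have e1 := e.2
    rw [PowerSeries.subst_X (hasSubst_of_cc (F0.map ρ).zero_constantCoeff),
      PowerSeries.subst_X (hXk 0), PowerSeries.subst_X (hXk 1), usq_subst_id] at e1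
    exact e1
  have hF1 : F1.map ρ = G0.map ρ := hD1.map_eq.trans hFG
  let p1 : F0.Point (Fin 2) := ⟨F1.toPowerSeries, hasSubst_of_cc F1.zero_constantCoeff⟩
  have hp1 : p1 = ptX F0 0 + ptX F0 1 + h.tauPt F0 D1 := by
    apply usq_pt_ext
    have e := hD1.subst_eq (ptX F0 (0 : Fin 2)) (ptX F0 1)
    rw [ptX_val, ptX_val, map_X, map_X, usq_subst_id, usq_subst_id] at e
    exact e
  have hL : (PowerSeries.subst F1.toPowerSeries ψ1 : MvPowerSeries (Fin 2) B) =
      (homPt ψ hψ (ptX F0 0) + homPt ψ hψ (ptX F0 1) + h.tauPt G0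
        (D1 + PowerSeries.subst (G0.map ρ).toPowerSeries χ)).val := by
    have e := key p1
    have e2 : p1.val.map ρ = (G0.map ρ).toPowerSeries := by
      rw [← hF1]
      rfl
    have e3 : homPt ψ hψ p1 + h.tauPt G0 (PowerSeries.subst (p1.val.map ρ) χ) =
        homPt ψ hψ (ptX F0 0) + homPt ψ hψ (ptX F0 1) + h.tauPt G0
          (D1 + PowerSeries.subst (G0.map ρ).toPowerSeries χ) := by
      rw [e2, hp1, map_add, map_add, h.homPt_tauPt hψ hψX, map_add, add_assoc]
    exact e.trans (congrArg Subtype.val e3)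
  have hval : ∀ s : Fin 2, (homPt ψ hψ (ptX F0 s) + h.tauPt G0
      (PowerSeries.subst (X s : MvPowerSeries (Fin 2) k) χ)).val.map ρ = X s := by
    intro s
    have e : MvPowerSeries.map ρ (PowerSeries.subst (X s : MvPowerSeries (Fin 2) B) ψ) =
        PowerSeries.subst (MvPowerSeries.map ρ (X s)) (PowerSeries.map ρ ψ) :=
      PowerSeries.map_subst (hX s) ψ
    rw [h.add_tauPt_val, map_add, h.map_tauS, add_zero, homPt_val, ptX_val, e, hψX, map_X,
      PowerSeries.subst_X (hXk s)]
  have hψX' : ∀ s : Fin 2, (PowerSeries.subst (X s : MvPowerSeries (Fin 2) B) ψ1 :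
      MvPowerSeries (Fin 2) B) = (homPt ψ hψ (ptX F0 s) + h.tauPt G0
      (PowerSeries.subst (X s : MvPowerSeries (Fin 2) k) χ)).val := by
    intro s
    have e := key (ptX F0 s)
    rw [ptX_val, map_X] at e
    exact e
  have hR : (subst ![(PowerSeries.subst (X 0 : MvPowerSeries (Fin 2) B) ψ1 :
      MvPowerSeries (Fin 2) B), PowerSeries.subst (X 1 : MvPowerSeries (Fin 2) B) ψ1]
      G.toPowerSeries : MvPowerSeries (Fin 2) B) =
      (homPt ψ hψ (ptX F0 0) + homPt ψ hψ (ptX F0 1) + h.tauPt G0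
        (D + (PowerSeries.subst (X 0 : MvPowerSeries (Fin 2) k) χ +
          PowerSeries.subst (X 1 : MvPowerSeries (Fin 2) k) χ))).val := by
    rw [hψX' 0, hψX' 1, hD.subst_eq, hval, hval, usq_subst_id]
    refine congrArg Subtype.val ?_
    rw [map_add, map_add]
    abel
  constructor
  · intro hh
    have e := hh.2
    rw [hL, hR] at e
    have e2 := usq_pt_ext e
    rw [add_right_inj] at e2
    have e3 := h.tauPt_injective G0 e2
    rw [cobd]
    linear_combination e3
  · intro hh
    refine ⟨hcc, ?_⟩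
    rw [hL, hR, hh, cobd]
    congr 3
    ring

end SmallExt

end Vale.Agent.P217
end
end

section

section

/-!
# P217: homomorphisms from `E₀` to artinian local rings (T27e)
-/

namespace Vale.Agent.P217

open MvPowerSeries

namespace UH

section Nilp

variable {B : Type*} [CommRing B] [IsLocalRing B]

theorem exists_pow_eq_bot [IsArtinianRing B] :
    ∃ M : ℕ, (IsLocalRing.maximalIdeal B) ^ M = ⊥ := by
  have h := IsArtinianRing.isNilpotent_jacobson_bot (R := B)
  rw [IsLocalRing.jacobson_eq_maximalIdeal ⊥ bot_ne_top] at h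
  exact h

variable {p : ℕ}

theorem p_mem {k : Type*} [Field k] [CharP k p] (i : k →+* IsLocalRing.ResidueField B) :
    (p : B) ∈ IsLocalRing.maximalIdeal B := by
  rw [← IsLocalRing.residue_eq_zero_iff, map_natCast, ← map_natCast i, CharP.cast_eq_zero,
    map_zero]

/-- `x ≡ y mod m ^ (j + 1)` implies `x ^ p ≡ y ^ p mod m ^ (j + 2)`. -/
theorem pow_sub_pow_mem (hp : (p : B) ∈ IsLocalRing.maximalIdeal B) {x y : B} {j : ℕ}
    (h : x - y ∈ IsLocalRing.maximalIdeal B ^ (j + 1)) :
    x ^ p - y ^ p ∈ IsLocalRing.maximalIdeal B ^ (j + 2) := by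
  have h1 : x - y ∈ IsLocalRing.maximalIdeal B := by
    have := Ideal.pow_le_self (Nat.succ_ne_zero j) h
    exact this
  have h2 : ∑ i ∈ Finset.range p, x ^ i * y ^ (p - 1 - i) ∈ IsLocalRing.maximalIdeal B := by
    rw [← IsLocalRing.residue_eq_zero_iff] at h1 ⊢
    rw [map_sub, sub_eq_zero] at h1
    rw [map_sum]
    have h3 : ∀ i ∈ Finset.range p, IsLocalRing.residue B (x ^ i * y ^ (p - 1 - i)) =
        IsLocalRing.residue B y ^ (p - 1) := by
      intro i hi
      rw [map_mul, map_pow, map_pow, h1, ← pow_add]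
      congr 1
      have := Finset.mem_range.1 hi
      omega
    rw [Finset.sum_congr rfl h3, Finset.sum_const, Finset.card_range, nsmul_eq_mul,
      ← map_natCast (IsLocalRing.residue B), (IsLocalRing.residue_eq_zero_iff _).2 hp, zero_mul]
  have h4 : x ^ p - y ^ p = (x - y) * ∑ i ∈ Finset.range p, x ^ i * y ^ (p - 1 - i) := by
    rw [mul_comm]
    exact (Commute.all x y).geom_sum₂_mul p |>.symm
  rw [h4, pow_succ]
  exact Ideal.mul_mem_mul h h2

theorem pow_pow_sub_mem (hp : (p : B) ∈ IsLocalRing.maximalIdeal B) {x y : B}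
    (h : x - y ∈ IsLocalRing.maximalIdeal B) (j : ℕ) :
    x ^ (p ^ j) - y ^ (p ^ j) ∈ IsLocalRing.maximalIdeal B ^ (j + 1) := by
  induction j with
  | zero => simpa using h
  | succ j ih =>
    have e : ∀ z : B, z ^ (p ^ (j + 1)) = (z ^ (p ^ j)) ^ p := fun z => by
      rw [pow_succ, pow_mul]
    rw [e, e]
    exact pow_sub_pow_mem hp ih

/-- Two elements fixed by a power of Frobenius which agree mod the maximal ideal are equal. -/
theorem eq_of_fixed [IsArtinianRing B] (hp : (p : B) ∈ IsLocalRing.maximalIdeal B) {x y : B}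
    (h : x - y ∈ IsLocalRing.maximalIdeal B) {r : ℕ} (hr : 1 ≤ r) (hx : x ^ (p ^ r) = x)
    (hy : y ^ (p ^ r) = y) : x = y := by
  obtain ⟨M, hM⟩ := exists_pow_eq_bot (B := B)
  have key : ∀ z : B, z ^ (p ^ r) = z → ∀ N : ℕ, z ^ (p ^ (r * N)) = z := by
    intro z hz N
    induction N with
    | zero => simp
    | succ N ih => rw [Nat.mul_succ, pow_add, pow_mul, ih, hz]
  have h1 := pow_pow_sub_mem hp h (r * M)
  rw [key x hx, key y hy] at h1
  have h2 : IsLocalRing.maximalIdeal B ^ (r * M + 1) ≤ ⊥ := by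
    rw [← hM]
    exact Ideal.pow_le_pow_right ((Nat.le_mul_of_pos_left M hr).trans (Nat.le_succ _))
  exact sub_eq_zero.1 ((Submodule.mem_bot B).1 (h2 h1))

variable [Fact p.Prime]

/-- The ghost components kill Witt vectors over the maximal ideal. -/
theorem ghost_kills {M : ℕ} (hM : (IsLocalRing.maximalIdeal B) ^ M = ⊥)
    (hp : (p : B) ∈ IsLocalRing.maximalIdeal B) (x : WittVector p B)
    (hx : ∀ i, x.coeff i ∈ IsLocalRing.maximalIdeal B) : WittVector.ghostComponent M x = 0 := by
  rw [WittVector.ghostComponent_apply, aeval_wittPolynomial]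
  refine Finset.sum_eq_zero fun i hi => ?_
  have hi' : i ≤ M := Nat.lt_succ_iff.1 (Finset.mem_range.1 hi)
  have h1 : (p : B) ^ i * x.coeff i ^ p ^ (M - i) ∈
      IsLocalRing.maximalIdeal B ^ (i + p ^ (M - i)) := by
    rw [pow_add]
    exact Ideal.mul_mem_mul (Ideal.pow_mem_pow hp i) (Ideal.pow_mem_pow (hx i) _)
  have h2 : M ≤ i + p ^ (M - i) := by
    have := Nat.lt_pow_self (Fact.out : p.Prime).one_lt (n := M - i)
    omega
  have h3 : IsLocalRing.maximalIdeal B ^ (i + p ^ (M - i)) ≤ ⊥ := by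
    rw [← hM]
    exact Ideal.pow_le_pow_right h2
  exact (Submodule.mem_bot B).1 (h3 h1)

/-- The homomorphism `W(B/m) → B` induced by a ghost component. -/
theorem exists_theta [IsArtinianRing B] (hp : (p : B) ∈ IsLocalRing.maximalIdeal B) :
    ∃ (M : ℕ) (θ : WittVector p (IsLocalRing.ResidueField B) →+* B),
      ∀ x, IsLocalRing.residue B (θ x) = x.coeff 0 ^ (p ^ M) := by
  obtain ⟨M, hM⟩ := exists_pow_eq_bot (B := B)
  have hsurj : Function.Surjective (WittVector.map (p := p) (IsLocalRing.residue B)) :=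
    WittVector.map_surjective _ IsLocalRing.residue_surjective
  have hker : RingHom.ker (WittVector.map (p := p) (IsLocalRing.residue B)) ≤
      RingHom.ker (WittVector.ghostComponent M : WittVector p B →+* B) := by
    intro x hx
    rw [RingHom.mem_ker] at hx ⊢
    refine ghost_kills hM hp x fun i => ?_
    rw [← IsLocalRing.residue_eq_zero_iff, ← WittVector.map_coeff, hx, WittVector.zero_coeff]
  refine ⟨M, RingHom.liftOfSurjective _ hsurj ⟨_, hker⟩, fun x => ?_⟩
  obtain ⟨y, rfl⟩ := hsurj x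
  rw [RingHom.liftOfRightInverse_comp_apply]
  change IsLocalRing.residue B (WittVector.ghostComponent M y) = _
  rw [WittVector.ghostComponent_apply, aeval_wittPolynomial, map_sum,
    Finset.sum_eq_single 0]
  · rw [pow_zero, one_mul, map_pow, Nat.sub_zero, WittVector.map_coeff]
  · intro i _ hi
    rw [map_mul, map_pow, (IsLocalRing.residue_eq_zero_iff _).2 hp, zero_pow hi, zero_mul]
  · intro h
    exact absurd (Finset.mem_range.2 (Nat.succ_pos M)) h

/-- Existence of the homomorphism `W(k) → B` lifting `k → B/m`. -/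
theorem exists_witt_hom [IsArtinianRing B] {k : Type*} [Field k] [CharP k p] [Finite k]
    (i : k →+* IsLocalRing.ResidueField B) :
    ∃ φ : WittVector p k →+* B, ∀ x, IsLocalRing.residue B (φ x) = i (x.coeff 0) := by
  have hp := p_mem i
  obtain ⟨M, θ, hθ⟩ := exists_theta hp
  refine ⟨θ.comp (WittVector.map (i.comp (iterateFrobeniusEquiv k p M).symm.toRingHom)),
    fun x => ?_⟩
  rw [RingHom.comp_apply, hθ, WittVector.map_coeff, RingHom.comp_apply, ← map_pow]
  congr 1
  rw [← iterateFrobeniusEquiv_def]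
  exact RingEquiv.apply_symm_apply _ _

/-- Uniqueness of the homomorphism `W(k) → B`. -/
theorem witt_hom_unique [IsArtinianRing B] {k : Type*} [Field k] [CharP k p] [Finite k]
    (i : k →+* IsLocalRing.ResidueField B) (φ ψ : WittVector p k →+* B)
    (hφ : ∀ x, IsLocalRing.residue B (φ x) = i (x.coeff 0))
    (hψ : ∀ x, IsLocalRing.residue B (ψ x) = i (x.coeff 0)) : φ = ψ := by
  have hp := p_mem i
  obtain ⟨M, hM⟩ := exists_pow_eq_bot (B := B)
  have hnil : IsNilpotent (p : B) := by
    refine ⟨M, ?_⟩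
    have := Ideal.pow_mem_pow hp M
    rw [hM] at this
    exact (Submodule.mem_bot B).1 this
  refine WittVector.eq_of_apply_teichmuller_eq φ ψ hnil fun a => ?_
  have := Fintype.ofFinite k
  obtain ⟨r, hr, ha⟩ : ∃ r : ℕ, 1 ≤ r ∧ a ^ (p ^ r) = a := by
    obtain ⟨r, -, hcard⟩ := FiniteField.card k p
    refine ⟨r, r.2, ?_⟩
    rw [← hcard]
    exact FiniteField.pow_card a
  refine eq_of_fixed hp ?_ hr ?_ ?_
  · rw [← IsLocalRing.residue_eq_zero_iff, map_sub, hφ, hψ, sub_self]
  · rw [← map_pow, ← map_pow, ha]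
  · rw [← map_pow, ← map_pow, ha]

/-- Evaluation of power series at nilpotent elements. -/
theorem exists_eval [IsArtinianRing B] {σ : Type*} [Finite σ] {W : Type*} [CommRing W]
    (φ : W →+* B) (b : σ → B) (hb : ∀ j, b j ∈ IsLocalRing.maximalIdeal B) :
    ∃ Φ : MvPowerSeries σ W →+* B, (∀ c, Φ (C c) = φ c) ∧ ∀ j, Φ (X j) = b j := by
  obtain ⟨M, hM⟩ := exists_pow_eq_bot (B := B)
  let _ : UniformSpace W := ⊥
  have _ : DiscreteUniformity W := ⟨rfl⟩
  let _ : UniformSpace B := ⊥
  have _ : DiscreteUniformity B := ⟨rfl⟩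
  have hc : Continuous φ := continuous_of_discreteTopology
  have hev : MvPowerSeries.HasEval b := by
    refine ⟨fun j => ?_, by simp⟩
    refine tendsto_atTop_of_eventually_const (i₀ := M) fun N hN => ?_
    have h1 := Ideal.pow_mem_pow (hb j) N
    have h2 : IsLocalRing.maximalIdeal B ^ N ≤ ⊥ := by
      rw [← hM]
      exact Ideal.pow_le_pow_right hN
    exact (Submodule.mem_bot B).1 (h2 h1)
  refine ⟨MvPowerSeries.eval₂Hom hc hev, ?_, ?_⟩
  · intro c
    simp [coe_eval₂Hom]
  · intro i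
    simp [coe_eval₂Hom]

/-- Ring homomorphisms on power series rings to artinian rings are determined by the values on
constants and variables. -/
theorem ringHom_ext_artin [IsArtinianRing B] {σ : Type*} [Finite σ] {W : Type*} [CommRing W]
    {φ ψ : MvPowerSeries σ W →+* B} (hC : ∀ c, φ (C c) = ψ (C c)) (hX : ∀ j, φ (X j) = ψ (X j))
    (hm : ∀ j, φ (X j) ∈ IsLocalRing.maximalIdeal B) : φ = ψ := by
  have := Fintype.ofFinite σ
  obtain ⟨M, hM⟩ := exists_pow_eq_bot (B := B)
  have key : ∀ N : ℕ, ∀ f, φ f - ψ f ∈ IsLocalRing.maximalIdeal B ^ N := by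
    intro N
    induction N with
    | zero => intro f; simp
    | succ N ih =>
      intro f
      obtain ⟨g, hg⟩ := exists_decomp f
      have h1 : φ f - ψ f = ∑ j, φ (X j) * (φ (g j) - ψ (g j)) := by
        rw [hg]
        simp only [map_add, map_sum, map_mul, hC, ← hX, mul_sub, Finset.sum_sub_distrib]
        ring
      rw [h1, pow_succ']
      exact Ideal.sum_mem _ fun j _ => Ideal.mul_mem_mul (hm j) (ih (g j))
  ext f
  have := key M f
  rw [hM] at this
  exact sub_eq_zero.1 ((Submodule.mem_bot B).1 this)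

end Nilp

end UH

section Artin

variable (p n : ℕ) [Fact p.Prime]

/-- 27e: homomorphisms from `E₀` to artinian local rings. -/
theorem exists_unique_hom (B : Type) [CommRing B] [IsLocalRing B] [IsArtinianRing B]
    (i : GaloisField p n →+* IsLocalRing.ResidueField B) (b : Fin (n - 1) → B)
    (hb : ∀ j, b j ∈ IsLocalRing.maximalIdeal B) :
    ∃! φ : E0 p n →+* B, (IsLocalRing.residue B).comp φ = i.comp (red p n) ∧
      ∀ j, φ (X j) = b j := by
  obtain ⟨φ₀, hφ₀⟩ := UH.exists_witt_hom (p := p) i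
  obtain ⟨Φ, hΦC, hΦX⟩ := UH.exists_eval φ₀ b hb
  have hredC : ∀ c, red p n (C c) = c.coeff 0 := by
    intro c
    rw [red, RingHom.comp_apply, constantCoeff_C]
    rfl
  have hredX : ∀ j, red p n (X j) = 0 := by
    intro j
    rw [red, RingHom.comp_apply, constantCoeff_X, map_zero]
  refine ⟨Φ, ⟨?_, hΦX⟩, ?_⟩
  · refine UH.ringHom_ext_artin (fun c => ?_) (fun j => ?_) (fun j => ?_)
    · rw [RingHom.comp_apply, RingHom.comp_apply, hΦC, hφ₀, hredC]
    · rw [RingHom.comp_apply, RingHom.comp_apply, hΦX, hredX, map_zero,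
        (IsLocalRing.residue_eq_zero_iff _).2 (hb j)]
    · rw [RingHom.comp_apply, hΦX, (IsLocalRing.residue_eq_zero_iff _).2 (hb j)]
      exact Ideal.zero_mem _
  · rintro ψ ⟨hψ1, hψ2⟩
    refine UH.ringHom_ext_artin (fun c => ?_) (fun j => ?_) (fun j => ?_)
    · have h1 : ψ.comp C = Φ.comp C := by
        refine UH.witt_hom_unique (p := p) i _ _ (fun x => ?_) (fun x => ?_)
        · have := RingHom.congr_fun hψ1 (C x)
          rw [RingHom.comp_apply, RingHom.comp_apply, hredC] at this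
          exact this
        · rw [RingHom.comp_apply, hΦC, hφ₀]
      exact RingHom.congr_fun h1 c
    · rw [hψ2, hΦX]
    · rw [hψ2]
      exact hb j

end Artin

end Vale.Agent.P217
end
end

section

section

/-!
# P217 (sanity part): infinitesimal deformations of `F` (T27d2)
-/

namespace Vale.Agent.P217

open MvPowerSeries IsLocalRing

namespace UD

theorem hasLead_map {κ κ' : Type*} [Field κ] [Field κ'] (f : κ →+* κ') {p N : ℕ} {lam : κ}
    {D : MvPowerSeries (Fin 2) κ} (h : HasLead p N lam D) :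
    HasLead p N (f lam) (D.map f) := by
  refine ⟨fun i j hij => ?_, fun i j hi hj hij => ?_⟩
  · rw [coeff_map, h.1 i j hij, map_zero]
  · rw [coeff_map, h.2 i j hi hj hij, map_mul, map_natCast]

theorem eq_single_add (d : Fin 2 →₀ ℕ) :
    d = Finsupp.single 0 (d 0) + Finsupp.single 1 (d 1) := by
  ext i
  fin_cases i <;> simp

theorem hasLead_mul {κ : Type*} [Field κ] {p N : ℕ} {lam : κ} {D u : MvPowerSeries (Fin 2) κ}
    (h : HasLead p N lam D) (hu : constantCoeff u = 1) : HasLead p N lam (D * u) := by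
  classical
  refine ⟨fun i j hij => ?_, fun i j hi hj hij => ?_⟩
  · rw [coeff_mul]
    refine Finset.sum_eq_zero fun x hx => ?_
    rw [Finset.HasAntidiagonal.mem_antidiagonal] at hx
    have h0 := DFunLike.congr_fun hx 0
    have h1 := DFunLike.congr_fun hx 1
    simp only [Finsupp.coe_add, Pi.add_apply, Finsupp.single_eq_same] at h0 h1
    have e1 : (Finsupp.single (1 : Fin 2) j) 0 = 0 := by simp
    have e2 : (Finsupp.single (0 : Fin 2) i) 1 = 0 := by simp
    rw [e1] at h0
    rw [e2] at h1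
    rw [eq_single_add x.1, h.1 (x.1 0) (x.1 1) (by omega), zero_mul]
  · rw [coeff_mul, Finset.sum_eq_single (Finsupp.single 0 i + Finsupp.single 1 j, 0)]
    · rw [h.2 i j hi hj hij, coeff_zero_eq_constantCoeff_apply, hu, mul_one]
    · rintro x hx hne
      rw [Finset.HasAntidiagonal.mem_antidiagonal] at hx
      have h0 := DFunLike.congr_fun hx 0
      have h1 := DFunLike.congr_fun hx 1
      simp only [Finsupp.coe_add, Pi.add_apply, Finsupp.single_eq_same] at h0 h1
      have e1 : (Finsupp.single (1 : Fin 2) j) 0 = 0 := by simp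
      have e2 : (Finsupp.single (0 : Fin 2) i) 1 = 0 := by simp
      rw [e1] at h0
      rw [e2] at h1
      by_cases hx2 : x.2 = 0
      · exfalso
        apply hne
        refine Prod.ext ?_ hx2
        rw [← hx, hx2, add_zero]
      · have h3 : x.1 0 + x.1 1 < N := by
          by_contra h4
          apply hx2
          have h5 : x.2 0 = 0 := by omega
          have h6 : x.2 1 = 0 := by omega
          rw [eq_single_add x.2, h5, h6]
          simp
        rw [eq_single_add x.1, h.1 _ _ h3, zero_mul]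
    · intro hn
      exfalso
      apply hn
      simp

section Lin

variable {p n : ℕ} [Fact p.Prime]

theorem lin_apply (j : Fin (n - 1)) (x : E0 p n) :
    lin p n j x = WittVector.constantCoeff (coeff (Finsupp.single j 1) x) := rfl

theorem lin_one (j : Fin (n - 1)) : lin p n j 1 = 0 := by
  classical
  rw [lin_apply, coeff_one, if_neg, map_zero]
  intro h
  have := DFunLike.congr_fun h j
  simp at this

theorem lin_mul (j : Fin (n - 1)) (x y : E0 p n) :
    lin p n j (x * y) = red p n x * lin p n j y + red p n y * lin p n j x := by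
  classical
  rw [lin_apply, lin_apply, lin_apply, coeff_mul, Finsupp.antidiagonal_single]
  have h1 : Finset.HasAntidiagonal.antidiagonal 1 = {((0 : ℕ), 1), (1, 0)} := rfl
  rw [h1]
  simp only [Finset.map_insert, Finset.map_singleton, Function.Embedding.prodMap,
    Function.Embedding.coeFn_mk, Prod.map, Finsupp.single_zero]
  rw [Finset.sum_insert, Finset.sum_singleton]
  · simp only [map_add, map_mul, coeff_zero_eq_constantCoeff_apply, red, RingHom.comp_apply]
    ring
  · rw [Finset.mem_singleton]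
    intro h
    have := DFunLike.congr_fun (congrArg Prod.fst h) j
    simp at this

theorem lin_X (j j' : Fin (n - 1)) : lin p n j (X j') = if j = j' then 1 else 0 := by
  classical
  rw [lin_apply, coeff_X]
  by_cases h : j = j'
  · rw [if_pos h, if_pos (by rw [h]), map_one]
  · rw [if_neg h, if_neg, map_zero]
    intro h2
    apply h
    exact (Finsupp.single_left_inj one_ne_zero).1 h2

end Lin

end UD

section Der

variable (p n : ℕ) [Fact p.Prime]

/-- the cocycle of `Γ` given by the tangent vector `∂/∂u_{j+1}` of `F`. -/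
noncomputable def DeltaF (F : FormalGroup (E0 p n)) {k : Type*} [Field k]
    (i : GaloisField p n →+* k) (j : Fin (n - 1)) : MvPowerSeries (Fin 2) k :=
  (linF p n F j).map i * (dYserG ((F.map (red p n)).map i))⁻¹

variable {p n}

theorem hasLead_DeltaF {k : Type*} [Field k] {Γ : FormalGroup (ZMod p)} {F : FormalGroup (E0 p n)}
    (hF : GoodF p n Γ F) (i : GaloisField p n →+* k) (j : Fin (n - 1)) :
    HasLead p (p ^ ((j : ℕ) + 1)) (-1) (DeltaF p n F i j) := by
  have h := UD.hasLead_map i (hF.lead j)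
  rw [map_neg, map_one] at h
  refine UD.hasLead_mul h ?_
  have h2 := congrArg constantCoeff (dYserG_mul_inv ((F.map (red p n)).map i))
  rwa [map_mul, constantCoeff_dYserG, one_mul, map_one] at h2

variable {B : Type} {t : B} [CommRing B] [IsLocalRing B]
  (h : SmallExt (IsLocalRing.residue B) t)
  (i : GaloisField p n →+* IsLocalRing.ResidueField B)

theorem UD.mul_tau (x : B) (a : ResidueField B) :
    x * h.tau a = h.tau (residue B x * a) := by
  obtain ⟨y, rfl⟩ := h.surj a
  rw [h.tau_map, ← map_mul, h.tau_map]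
  ring

theorem UD.tau_mul_tau (a b : ResidueField B) : h.tau a * h.tau b = 0 := by
  obtain ⟨y, rfl⟩ := h.surj a
  rw [UD.mul_tau, h.tau_map, (residue B).map_mul, h.map_t, zero_mul, zero_mul, map_zero]

theorem exists_hom_add_lin (φ0 : E0 p n →+* B)
    (hφ0 : (IsLocalRing.residue B).comp φ0 = i.comp (red p n))
    (c : Fin (n - 1) → IsLocalRing.ResidueField B) :
    ∃ φ1 : E0 p n →+* B, ∀ x, φ1 x = φ0 x + h.tau (∑ j, c j * i (lin p n j x)) := by
  have hφ : ∀ x, residue B (φ0 x) = i (red p n x) := fun x => RingHom.congr_fun hφ0 x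
  refine ⟨{ toFun := fun x => φ0 x + h.tau (∑ j, c j * i (lin p n j x))
            map_one' := ?_
            map_mul' := ?_
            map_zero' := ?_
            map_add' := ?_ }, fun x => rfl⟩
  · simp only [UD.lin_one, map_zero, mul_zero, Finset.sum_const_zero, add_zero, map_one]
  · intro x y
    have e : ∑ j, c j * i (lin p n j (x * y)) =
        residue B (φ0 x) * ∑ j, c j * i (lin p n j y) +
          residue B (φ0 y) * ∑ j, c j * i (lin p n j x) := by
      rw [Finset.mul_sum, Finset.mul_sum, ← Finset.sum_add_distrib]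
      refine Finset.sum_congr rfl fun j _ => ?_
      rw [UD.lin_mul, map_add, map_mul, map_mul, hφ, hφ]
      ring
    rw [e, map_add, ← UD.mul_tau, ← UD.mul_tau, map_mul]
    have e2 := UD.tau_mul_tau h (∑ j, c j * i (lin p n j x)) (∑ j, c j * i (lin p n j y))
    linear_combination (-1 : B) * e2
  · simp
  · intro x y
    simp only [map_add, mul_add, Finset.sum_add_distrib]
    ring

theorem exists_hom_diff [IsArtinianRing B] (φ0 φ1 : E0 p n →+* B)
    (hφ0 : (IsLocalRing.residue B).comp φ0 = i.comp (red p n))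
    (hφ1 : (IsLocalRing.residue B).comp φ1 = i.comp (red p n))
    (hcong : ∀ x, t ∣ φ1 x - φ0 x) :
    ∃ c : Fin (n - 1) → IsLocalRing.ResidueField B,
      ∀ x, φ1 x = φ0 x + h.tau (∑ j, c j * i (lin p n j x)) := by
  choose c hc using fun j => (h.dvd_iff _).1 (hcong (X j))
  obtain ⟨φ2, hφ2⟩ := exists_hom_add_lin h i φ0 hφ0 c
  refine ⟨c, ?_⟩
  have hb : ∀ j, φ1 (X j) ∈ maximalIdeal B := by
    intro j
    rw [← residue_eq_zero_iff]
    have := RingHom.congr_fun hφ1 (X j)
    rw [RingHom.comp_apply, RingHom.comp_apply, red, RingHom.comp_apply, constantCoeff_X,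
      map_zero, map_zero] at this
    exact this
  obtain ⟨φ3, -, hu⟩ := exists_unique_hom p n B i (fun j => φ1 (X j)) hb
  have h1 := hu φ1 ⟨hφ1, fun j => rfl⟩
  have h2 := hu φ2 ⟨?_, fun j => ?_⟩
  · intro x
    rw [h1, ← h2, hφ2]
  · rw [← hφ0]
    ext1 x
    rw [RingHom.comp_apply, RingHom.comp_apply, hφ2, map_add]
    obtain ⟨y, hy⟩ := (h.dvd_iff (h.tau (∑ j, c j * i (lin p n j x)))).2 ⟨_, rfl⟩
    rw [hy, map_mul, h.map_t, zero_mul, add_zero]
  · rw [hφ2]
    have e : ∑ j', c j' * i (lin p n j' (X j)) = c j := by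
      rw [Finset.sum_eq_single j]
      · rw [UD.lin_X, if_pos rfl, map_one, mul_one]
      · intro j' _ hj'
        rw [UD.lin_X, if_neg hj', map_zero, mul_zero]
      · intro hj
        exact absurd (Finset.mem_univ j) hj
    rw [e, ← hc]
    ring

theorem isDiff_add_lin (F : FormalGroup (E0 p n)) (φ0 φ1 : E0 p n →+* B)
    (hφ0 : (IsLocalRing.residue B).comp φ0 = i.comp (red p n))
    (c : Fin (n - 1) → IsLocalRing.ResidueField B)
    (hc : ∀ x, φ1 x = φ0 x + h.tau (∑ j, c j * i (lin p n j x))) :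
    h.IsDiff (F.map φ0) (F.map φ1) (∑ j, C (c j) * DeltaF p n F i j) := by
  have e1 : (F.map φ0).map (residue B) = (F.map (red p n)).map i := by
    rw [C0.FG_map_map, hφ0, C0.FG_map_map]
  rw [SmallExt.IsDiff, e1]
  have e2 : dYserG ((F.map (red p n)).map i) * ∑ j, C (c j) * DeltaF p n F i j =
      ∑ j, C (c j) * (linF p n F j).map i := by
    rw [Finset.mul_sum]
    refine Finset.sum_congr rfl fun j _ => ?_
    rw [DeltaF]
    linear_combination (C (c j) * (linF p n F j).map i) *
      dYserG_mul_inv ((F.map (red p n)).map i)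
  rw [e2]
  ext d
  rw [map_add, h.coeff_tauS, map_sum]
  have e3 : ∀ φ : E0 p n →+* B, coeff d (F.map φ).toPowerSeries = φ (coeff d F.toPowerSeries) :=
    fun φ => rfl
  rw [e3, e3, hc]
  congr 2
  refine Finset.sum_congr rfl fun j _ => ?_
  rw [coeff_C_mul, coeff_map]
  rfl

include h in
theorem isCocycle_DeltaF (F : FormalGroup (E0 p n)) [F.IsComm] (φ0 : E0 p n →+* B)
    (hφ0 : (IsLocalRing.residue B).comp φ0 = i.comp (red p n)) (j : Fin (n - 1)) :
    IsCocycle ((F.map (red p n)).map i) (DeltaF p n F i j) := by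
  classical
  obtain ⟨φ1, hφ1⟩ := exists_hom_add_lin h i φ0 hφ0 (Pi.single j 1)
  have hD := isDiff_add_lin h i F φ0 φ1 hφ0 (Pi.single j 1) hφ1
  have e1 : (F.map φ0).map (residue B) = (F.map (red p n)).map i := by
    rw [C0.FG_map_map, hφ0, C0.FG_map_map]
  have hco := hD.isCocycle
  rw [e1, Finset.sum_eq_single j] at hco
  · rwa [Pi.single_eq_same, map_one, one_mul] at hco
  · intro j' _ hj'
    rw [Pi.single_eq_of_ne hj', map_zero, zero_mul]
  · intro hj
    exact absurd (Finset.mem_univ j) hj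

end Der

end Vale.Agent.P217
end
end

section

section

/-!
# P217 (sanity part): the universal property for artinian and complete noetherian local rings,
from the case of small extensions
-/

namespace Vale.Agent.P217

namespace UnivT

open MvPowerSeries IsLocalRing

variable {p n : ℕ} [Fact p.Prime]

/-- a solution of the deformation problem. -/
def IsSol (F : FormalGroup (E0 p n)) {A : Type} [CommRing A] [IsLocalRing A]
    (i : GaloisField p n →+* ResidueField A) (G : FormalGroup A)
    (x : (E0 p n →+* A) × PowerSeries A) : Prop :=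
  (residue A).comp x.1 = i.comp (red p n) ∧ IsIso (F.map x.1) G x.2 ∧
    x.2.map (residue A) = PowerSeries.X

theorem ps_map_map {R S T : Type*} [CommRing R] [CommRing S] [CommRing T] (f : R →+* S)
    (g : S →+* T) (x : PowerSeries R) : (x.map f).map g = x.map (g.comp f) := by
  ext j
  simp [PowerSeries.coeff_map]

theorem IsSol.map {F : FormalGroup (E0 p n)} {A B : Type} [CommRing A] [IsLocalRing A]
    [CommRing B] [IsLocalRing B] {i : GaloisField p n →+* ResidueField A} {G : FormalGroup A}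
    {x : (E0 p n →+* A) × PowerSeries A} (h : IsSol F i G x) (f : A →+* B) [IsLocalHom f] :
    IsSol F ((ResidueField.map f).comp i) (G.map f) (f.comp x.1, x.2.map f) := by
  refine ⟨?_, ?_, ?_⟩
  · change (residue B).comp (f.comp x.1) = _
    rw [← RingHom.comp_assoc, ← ResidueField.map_comp_residue, RingHom.comp_assoc, h.1,
      RingHom.comp_assoc]
  · have := h.2.1.mapC f
    rwa [C0.FG_map_map] at this
  · change (x.2.map f).map (residue B) = _
    rw [ps_map_map, ← ResidueField.map_comp_residue, ← ps_map_map, h.2.2, PowerSeries.map_X]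

/-- the special fibre of `G.map f`. -/
theorem fibre_map {Γ : FormalGroup (ZMod p)} {A B : Type} [CommRing A] [IsLocalRing A]
    [CommRing B] [IsLocalRing B] {i : GaloisField p n →+* ResidueField A} {G : FormalGroup A}
    (h : G.map (residue A) = (Γ.map (algebraMap (ZMod p) (GaloisField p n))).map i)
    (f : A →+* B) [IsLocalHom f] :
    (G.map f).map (residue B) = (Γ.map (algebraMap (ZMod p) (GaloisField p n))).map
      ((ResidueField.map f).comp i) := by
  rw [C0.FG_map_map, ← ResidueField.map_comp_residue, ← C0.FG_map_map, h, C0.FG_map_map]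

/-- Base case: the maximal ideal is zero. -/
theorem hasUniv_of_maximalIdeal_eq_bot {Γ : FormalGroup (ZMod p)} {F : FormalGroup (E0 p n)}
    (hred : F.map (red p n) = Γ.map (algebraMap (ZMod p) (GaloisField p n)))
    (A : Type) [CommRing A] [IsLocalRing A] (h0 : maximalIdeal A = ⊥) :
    HasUniv p n Γ F A := by
  intro i G _ hG
  have hinj : Function.Injective (residue A) := by
    rw [RingHom.injective_iff_ker_eq_bot, ker_residue, h0]
  let ρ : A ≃+* ResidueField A := RingEquiv.ofBijective (residue A) ⟨hinj, residue_surjective⟩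
  have hρ1 : (residue A).comp (ρ.symm : ResidueField A →+* A) = RingHom.id _ := by
    ext1 y
    exact ρ.apply_symm_apply y
  have hρ2 : (ρ.symm : ResidueField A →+* A).comp (residue A) = RingHom.id _ := by
    ext1 y
    exact ρ.symm_apply_apply y
  refine ⟨((ρ.symm : ResidueField A →+* A).comp (i.comp (red p n)), PowerSeries.X), ⟨?_, ?_, ?_⟩,
    ?_⟩
  · change (residue A).comp ((ρ.symm : ResidueField A →+* A).comp (i.comp (red p n))) = _
    rw [← RingHom.comp_assoc, hρ1, RingHom.id_comp]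
  · have : F.map ((ρ.symm : ResidueField A →+* A).comp (i.comp (red p n))) = G := by
      rw [← C0.FG_map_map, ← C0.FG_map_map, hred, ← hG, C0.FG_map_map, hρ2, C0.FG_map_id]
    change IsIso (F.map _) G PowerSeries.X
    rw [this]
    exact C0.isIso_X
  · change PowerSeries.map _ PowerSeries.X = _
    rw [PowerSeries.map_X]
  · rintro ⟨φ, ψ⟩ ⟨h1, -, h3⟩
    refine Prod.ext ?_ ?_
    · change φ = (ρ.symm : ResidueField A →+* A).comp (i.comp (red p n))
      rw [← h1]
      change φ = (ρ.symm : ResidueField A →+* A).comp ((residue A).comp φ)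
      rw [← RingHom.comp_assoc, hρ2, RingHom.id_comp]
    · change ψ = PowerSeries.X
      change ψ.map (residue A) = PowerSeries.X at h3
      have h4 : (ψ.map (residue A)).map (ρ.symm : ResidueField A →+* A) = PowerSeries.X := by
        rw [h3, PowerSeries.map_X]
      rw [ps_map_map, hρ2] at h4
      rw [← h4]
      ext j
      simp

/-- the hypothesis: small extensions. -/
def StepHyp (p n : ℕ) [Fact p.Prime] (Γ : FormalGroup (ZMod p)) (F : FormalGroup (E0 p n)) :
    Prop :=
  ∀ (B B' : Type) [CommRing B] [IsLocalRing B] [IsArtinianRing B] [CommRing B'] [IsLocalRing B']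
    (π : B →+* B'), Function.Surjective π → ∀ t : B, RingHom.ker π = Ideal.span {t} → t ≠ 0 →
    (∀ x ∈ maximalIdeal B, t * x = 0) → t ∈ maximalIdeal B → HasUniv p n Γ F B' →
    HasUniv p n Γ F B

/-- A nonzero socle element of an artinian local ring which is not a field. -/
theorem exists_socle (B : Type) [CommRing B] [IsLocalRing B] [IsArtinianRing B]
    (h0 : maximalIdeal B ≠ ⊥) :
    ∃ t : B, t ≠ 0 ∧ (∀ x ∈ maximalIdeal B, t * x = 0) ∧ t ∈ maximalIdeal B := by
  have hnil : IsNilpotent (maximalIdeal B) :=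
    (isArtinianRing_iff_isNilpotent_maximalIdeal B).mp inferInstance
  classical
  have hex : ∃ N, maximalIdeal B ^ N = ⊥ := hnil
  have hN := Nat.find_spec hex
  set N := Nat.find hex with hNdef
  have hN2 : 2 ≤ N := by
    by_contra hlt
    have : N = 0 ∨ N = 1 := by omega
    rcases this with h | h
    · rw [h, pow_zero, Ideal.one_eq_top] at hN
      exact top_ne_bot hN
    · rw [h, pow_one] at hN
      exact h0 hN
  have hpred : maximalIdeal B ^ (N - 1) ≠ ⊥ := Nat.find_min hex (by omega)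
  obtain ⟨t, ht, ht0⟩ := Submodule.exists_mem_ne_zero_of_ne_bot hpred
  refine ⟨t, ht0, fun x hx => ?_, ?_⟩
  · have h1 : t * x ∈ maximalIdeal B ^ (N - 1 + 1) := by
      rw [pow_succ]
      exact Ideal.mul_mem_mul ht hx
    rw [show N - 1 + 1 = N by omega, hN] at h1
    exact h1
  · have h1 := Ideal.pow_le_pow_right (I := maximalIdeal B) (show 1 ≤ N - 1 by omega) ht
    rwa [pow_one] at h1

/-- Artinian local rings: all quotients. -/
theorem hasUniv_quotient {Γ : FormalGroup (ZMod p)} {F : FormalGroup (E0 p n)}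
    (hred : F.map (red p n) = Γ.map (algebraMap (ZMod p) (GaloisField p n)))
    (hstep : StepHyp p n Γ F) (B : Type) [CommRing B] [IsLocalRing B] [IsArtinianRing B] :
    ∀ (I : Ideal B) [IsLocalRing (B ⧸ I)], HasUniv p n Γ F (B ⧸ I) := by
  intro I
  induction I using WellFoundedGT.induction with
  | ind I ih =>
    intro _
    by_cases h0 : maximalIdeal (B ⧸ I) = ⊥
    · exact hasUniv_of_maximalIdeal_eq_bot hred _ h0
    · obtain ⟨t, ht0, htm, htmem⟩ := exists_socle (B ⧸ I) h0
      obtain ⟨s, rfl⟩ := Ideal.Quotient.mk_surjective t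
      have hle : I ≤ I ⊔ Ideal.span {s} := le_sup_left
      have hlt : I < I ⊔ Ideal.span {s} := by
        refine lt_of_le_of_ne hle fun h => ht0 ?_
        rw [Ideal.Quotient.eq_zero_iff_mem, h]
        exact Ideal.mem_sup_right (Ideal.subset_span rfl)
      have hker : RingHom.ker (Ideal.Quotient.factor hle) =
          Ideal.span {Ideal.Quotient.mk I s} := by
        rw [Ideal.Quotient.factor_ker, Ideal.map_sup, Ideal.map_quotient_self, bot_sup_eq,
          Ideal.map_span, Set.image_singleton]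
      have hnt : Nontrivial (B ⧸ (I ⊔ Ideal.span {s})) := by
        rw [Ideal.Quotient.nontrivial_iff]
        intro htop
        have h1 : (1 : B ⧸ I) ∈ RingHom.ker (Ideal.Quotient.factor hle) := by
          rw [RingHom.mem_ker, map_one]
          have : Subsingleton (B ⧸ (I ⊔ Ideal.span {s})) :=
            Ideal.Quotient.subsingleton_iff.mpr htop
          exact Subsingleton.elim _ _
        rw [hker] at h1
        have h2 : Ideal.span {Ideal.Quotient.mk I s} ≤ maximalIdeal (B ⧸ I) := by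
          rw [Ideal.span_singleton_le_iff_mem]
          exact htmem
        exact (Ideal.ne_top_iff_one _).mp (maximalIdeal.isMaximal (B ⧸ I)).ne_top (h2 h1)
      have hloc : IsLocalRing (B ⧸ (I ⊔ Ideal.span {s})) :=
        IsLocalRing.of_surjective' (Ideal.Quotient.factor hle)
          (Ideal.Quotient.factor_surjective hle)
      exact hstep _ _ (Ideal.Quotient.factor hle) (Ideal.Quotient.factor_surjective hle)
        (Ideal.Quotient.mk I s) hker ht0 htm htmem (ih _ hlt)

/-- 27f1: artinian rings. -/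
theorem hasUniv_artinian_of_step {Γ : FormalGroup (ZMod p)} {F : FormalGroup (E0 p n)}
    (hred : F.map (red p n) = Γ.map (algebraMap (ZMod p) (GaloisField p n)))
    (hstep : StepHyp p n Γ F) (B : Type) [CommRing B] [IsLocalRing B] [IsArtinianRing B] :
    HasUniv p n Γ F B := by
  by_cases h0 : maximalIdeal B = ⊥
  · exact hasUniv_of_maximalIdeal_eq_bot hred _ h0
  · obtain ⟨t, ht0, htm, htmem⟩ := exists_socle B h0
    have hker : RingHom.ker (Ideal.Quotient.mk (Ideal.span {t})) = Ideal.span {t} :=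
      Ideal.mk_ker
    have hnt : Nontrivial (B ⧸ Ideal.span {t}) := by
      rw [Ideal.Quotient.nontrivial_iff]
      intro htop
      have h2 : Ideal.span {t} ≤ maximalIdeal B := by
        rw [Ideal.span_singleton_le_iff_mem]
        exact htmem
      rw [htop, top_le_iff] at h2
      exact (maximalIdeal.isMaximal B).ne_top h2
    have hloc : IsLocalRing (B ⧸ Ideal.span {t}) :=
      IsLocalRing.of_surjective' (Ideal.Quotient.mk _) Ideal.Quotient.mk_surjective
    exact hstep _ _ (Ideal.Quotient.mk (Ideal.span {t})) Ideal.Quotient.mk_surjective t hker ht0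
      htm htmem (hasUniv_quotient hred hstep B _)

section Complete

variable {Γ : FormalGroup (ZMod p)} {F : FormalGroup (E0 p n)}
variable {A : Type} [CommRing A] [IsLocalRing A]

theorem isLocalRing_quot (r : ℕ) : IsLocalRing (A ⧸ (maximalIdeal A) ^ (r + 1)) := by
  have hnt : Nontrivial (A ⧸ (maximalIdeal A) ^ (r + 1)) := by
    rw [Ideal.Quotient.nontrivial_iff]
    intro htop
    have h2 : (maximalIdeal A) ^ (r + 1) ≤ maximalIdeal A := Ideal.pow_le_self (by omega)
    rw [htop, top_le_iff] at h2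
    exact (maximalIdeal.isMaximal A).ne_top h2
  exact IsLocalRing.of_surjective' (Ideal.Quotient.mk _) Ideal.Quotient.mk_surjective

theorem isArtinianRing_quot [IsNoetherianRing A] (r : ℕ) :
    IsArtinianRing (A ⧸ (maximalIdeal A) ^ (r + 1)) := by
  have := isLocalRing_quot (A := A) r
  have := IsLocalHom.of_surjective (Ideal.Quotient.mk ((maximalIdeal A) ^ (r + 1)))
    Ideal.Quotient.mk_surjective
  rw [isArtinianRing_iff_isNilpotent_maximalIdeal]
  refine ⟨r + 1, ?_⟩
  have h1 : (maximalIdeal A).map (Ideal.Quotient.mk ((maximalIdeal A) ^ (r + 1))) =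
      maximalIdeal (A ⧸ (maximalIdeal A) ^ (r + 1)) := by
    apply le_antisymm
    · rw [Ideal.map_le_iff_le_comap]
      intro a ha
      rw [Ideal.mem_comap, mem_maximalIdeal, mem_nonunits_iff]
      rw [mem_maximalIdeal, mem_nonunits_iff] at ha
      exact fun hu => ha (isUnit_of_map_unit _ _ hu)
    · intro x hx
      obtain ⟨y, rfl⟩ := Ideal.Quotient.mk_surjective x
      refine Ideal.mem_map_of_mem _ ?_
      rw [mem_maximalIdeal, mem_nonunits_iff] at hx ⊢
      exact fun hy => hx (hy.map _)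
  rw [← h1, ← Ideal.map_pow, Ideal.map_quotient_self]
  rfl

variable [IsAdicComplete (maximalIdeal A) A]

theorem eq_of_mk_eq {a b : A} (h : ∀ r : ℕ, Ideal.Quotient.mk ((maximalIdeal A) ^ (r + 1)) a =
    Ideal.Quotient.mk ((maximalIdeal A) ^ (r + 1)) b) : a = b := by
  rw [← sub_eq_zero]
  refine IsHausdorff.haus (inferInstance : IsHausdorff (maximalIdeal A) A) _ fun r => ?_
  rw [SModEq.zero, smul_eq_mul, Ideal.mul_top]
  refine Ideal.pow_le_pow_right (Nat.le_succ r) ?_
  rw [← Ideal.Quotient.eq_zero_iff_mem, map_sub, h, sub_self]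

theorem exists_limit (x : ∀ r : ℕ, A ⧸ (maximalIdeal A) ^ (r + 1))
    (hx : ∀ r, Ideal.Quotient.factor (Ideal.pow_le_pow_right (Nat.le_succ (r + 1))) (x (r + 1)) =
      x r) :
    ∃ a : A, ∀ r, Ideal.Quotient.mk ((maximalIdeal A) ^ (r + 1)) a = x r := by
  choose y hy using fun r => Ideal.Quotient.mk_surjective (x r)
  have hstep : ∀ r, y (r + 1) - y r ∈ (maximalIdeal A) ^ (r + 1) := by
    intro r
    rw [← Ideal.Quotient.eq_zero_iff_mem, map_sub, hy r, ← hx r, ← hy (r + 1),
      Ideal.Quotient.factor_mk, sub_self]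
  have hle : ∀ {m n : ℕ}, m ≤ n → y m ≡ y n [SMOD ((maximalIdeal A) ^ m • ⊤ :
      Submodule A A)] := by
    intro m n hmn
    induction n, hmn using Nat.le_induction with
    | base => exact SModEq.refl _
    | succ n hmn ih =>
      refine ih.trans ?_
      rw [SModEq.sub_mem, smul_eq_mul, Ideal.mul_top, ← Submodule.neg_mem_iff, neg_sub]
      exact Ideal.pow_le_pow_right (hmn.trans (Nat.le_succ n)) (hstep n)
  obtain ⟨a, ha⟩ := IsPrecomplete.prec
    (inferInstance : IsPrecomplete (maximalIdeal A) A) hle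
  refine ⟨a, fun r => ?_⟩
  have h1 := ha (r + 1)
  rw [SModEq.sub_mem, smul_eq_mul, Ideal.mul_top, ← Ideal.Quotient.eq_zero_iff_mem, map_sub,
    sub_eq_zero] at h1
  rw [← h1, ← hy r, ← sub_eq_zero, ← map_sub, Ideal.Quotient.eq_zero_iff_mem]
  exact hstep r

theorem existsUnique_sol (hart : ∀ (r : ℕ) [IsLocalRing (A ⧸ (maximalIdeal A) ^ (r + 1))],
      HasUniv p n Γ F (A ⧸ (maximalIdeal A) ^ (r + 1))) : HasUniv p n Γ F A := by
  intro i G hGcomm hG
  -- notations
  have hloc : ∀ r : ℕ, IsLocalRing (A ⧸ (maximalIdeal A) ^ (r + 1)) := isLocalRing_quot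
  have hlh : ∀ r : ℕ, IsLocalHom (Ideal.Quotient.mk ((maximalIdeal A) ^ (r + 1))) := fun r =>
    IsLocalHom.of_surjective _ Ideal.Quotient.mk_surjective
  let fac : ∀ r : ℕ, (A ⧸ (maximalIdeal A) ^ (r + 1 + 1)) →+* (A ⧸ (maximalIdeal A) ^ (r + 1)) :=
    fun r => Ideal.Quotient.factor (Ideal.pow_le_pow_right (Nat.le_succ (r + 1)))
  have hfac : ∀ r, (fac r).comp (Ideal.Quotient.mk ((maximalIdeal A) ^ (r + 1 + 1))) =
      Ideal.Quotient.mk ((maximalIdeal A) ^ (r + 1)) := fun r =>
    Ideal.Quotient.factor_comp_mk _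
  have hlf : ∀ r : ℕ, IsLocalHom (fac r) := fun r =>
    IsLocalHom.of_surjective _ (Ideal.Quotient.factor_surjective _)
  let ir : ∀ r : ℕ, GaloisField p n →+* ResidueField (A ⧸ (maximalIdeal A) ^ (r + 1)) := fun r =>
    (ResidueField.map (Ideal.Quotient.mk ((maximalIdeal A) ^ (r + 1)))).comp i
  have hex : ∀ r : ℕ, ∃! x : (E0 p n →+* (A ⧸ (maximalIdeal A) ^ (r + 1))) ×
      PowerSeries (A ⧸ (maximalIdeal A) ^ (r + 1)),
      IsSol F (ir r) (G.map (Ideal.Quotient.mk ((maximalIdeal A) ^ (r + 1)))) x := by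
    intro r
    have : (G.map (Ideal.Quotient.mk ((maximalIdeal A) ^ (r + 1)))).IsComm :=
      C0.FG_map_isComm _
    exact hart r (ir r) _ (fibre_map hG _)
  choose x hx hxu using hex
  -- compatibility
  have hir : ∀ r, (ResidueField.map (fac r)).comp (ir (r + 1)) = ir r := by
    intro r
    ext1 z
    obtain ⟨w, hw⟩ := residue_surjective (i z)
    change ResidueField.map (fac r) (ResidueField.map _ (i z)) = ResidueField.map _ (i z)
    rw [← hw, ResidueField.map_residue, ResidueField.map_residue, ResidueField.map_residue]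
    congr 1
  have hcomp : ∀ r, ((fac r).comp (x (r + 1)).1, (x (r + 1)).2.map (fac r)) = x r := by
    intro r
    refine hxu r _ ?_
    have h1 := (hx (r + 1)).map (fac r)
    rw [hir, C0.FG_map_map, hfac] at h1
    exact h1
  have hcomp1 : ∀ r f, fac r ((x (r + 1)).1 f) = (x r).1 f := fun r f => by
    have := congrArg (fun z : (E0 p n →+* (A ⧸ (maximalIdeal A) ^ (r + 1))) ×
      PowerSeries (A ⧸ (maximalIdeal A) ^ (r + 1)) => z.1 f) (hcomp r)
    exact this
  have hcomp2 : ∀ r j, fac r (PowerSeries.coeff j (x (r + 1)).2) = PowerSeries.coeff j (x r).2 :=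
    fun r j => by
    have := congrArg (fun z : (E0 p n →+* (A ⧸ (maximalIdeal A) ^ (r + 1))) ×
      PowerSeries (A ⧸ (maximalIdeal A) ^ (r + 1)) => PowerSeries.coeff j z.2) (hcomp r)
    change PowerSeries.coeff j ((x (r + 1)).2.map (fac r)) = _ at this
    rwa [PowerSeries.coeff_map] at this
  -- the limits
  choose φ hφ using fun f => exists_limit (fun r => (x r).1 f) (fun r => hcomp1 r f)
  choose ψ hψ using fun j => exists_limit (fun r => PowerSeries.coeff j (x r).2)
    (fun r => hcomp2 r j)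
  let Φ : E0 p n →+* A :=
    { toFun := φ
      map_one' := eq_of_mk_eq fun r => by rw [hφ, map_one, map_one]
      map_zero' := eq_of_mk_eq fun r => by rw [hφ, map_zero, map_zero]
      map_mul' := fun a b => eq_of_mk_eq fun r => by rw [hφ, map_mul, map_mul, hφ, hφ]
      map_add' := fun a b => eq_of_mk_eq fun r => by rw [hφ, map_add, map_add, hφ, hφ] }
  let Ψ : PowerSeries A := PowerSeries.mk ψ
  have hΦ : ∀ r, (Ideal.Quotient.mk ((maximalIdeal A) ^ (r + 1))).comp Φ = (x r).1 := by
    intro r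
    ext1 f
    exact hφ f r
  have hΨ : ∀ r, Ψ.map (Ideal.Quotient.mk ((maximalIdeal A) ^ (r + 1))) = (x r).2 := by
    intro r
    ext j
    rw [PowerSeries.coeff_map, PowerSeries.coeff_mk, hψ]
  have hinj0 : Function.Injective
      (ResidueField.map (Ideal.Quotient.mk ((maximalIdeal A) ^ (0 + 1)))) := RingHom.injective _
  have hmv : ∀ {P P' : MvPowerSeries (Fin 2) A},
      (∀ r : ℕ, MvPowerSeries.map (Ideal.Quotient.mk ((maximalIdeal A) ^ (r + 1))) P =
        MvPowerSeries.map (Ideal.Quotient.mk ((maximalIdeal A) ^ (r + 1))) P') → P = P' := by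
    intro P P' h
    ext d
    refine eq_of_mk_eq fun r => ?_
    rw [← MvPowerSeries.coeff_map, ← MvPowerSeries.coeff_map, h]
  have hsol : IsSol F i G (Φ, Ψ) := by
    refine ⟨?_, ⟨⟨?_, ?_⟩, ?_⟩, ?_⟩
    · -- residue of `Φ`
      ext1 f
      apply hinj0
      have h1 := RingHom.congr_fun (hx 0).1 f
      rw [← hΦ 0] at h1
      change residue _ (Ideal.Quotient.mk _ (Φ f)) = ResidueField.map _ (i (red p n f)) at h1
      rw [← ResidueField.map_residue] at h1
      exact h1
    · -- constant coefficient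
      refine eq_of_mk_eq fun r => ?_
      have h1 := (hx r).2.1.1.1
      rw [← hΨ r, ← PowerSeries.coeff_zero_eq_constantCoeff_apply, PowerSeries.coeff_map,
        PowerSeries.coeff_zero_eq_constantCoeff_apply] at h1
      rw [h1, map_zero]
    · -- homomorphism
      have hΨ0 : PowerSeries.constantCoeff Ψ = 0 := by
        refine eq_of_mk_eq fun r => ?_
        have h1 := (hx r).2.1.1.1
        rw [← hΨ r, ← PowerSeries.coeff_zero_eq_constantCoeff_apply, PowerSeries.coeff_map,
          PowerSeries.coeff_zero_eq_constantCoeff_apply] at h1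
        rw [h1, map_zero]
      refine hmv fun r => ?_
      have hX0 : PowerSeries.HasSubst (X 0 : MvPowerSeries (Fin 2) A) :=
        C0.hasSubst_of_cc (by simp)
      have hX1 : PowerSeries.HasSubst (X 1 : MvPowerSeries (Fin 2) A) :=
        C0.hasSubst_of_cc (by simp)
      rw [C0.map_pair_subst _ (C0.subst_hasSubst hΨ0 hX0) (C0.subst_hasSubst hΨ0 hX1),
        PowerSeries.map_subst hX0, PowerSeries.map_subst hX1, map_X, map_X,
        PowerSeries.map_subst (C0.hasSubst_of_cc (F.map Φ).zero_constantCoeff)]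
      have h1 := (hx r).2.1.1.2
      rw [← hΨ r, ← hΦ r, ← C0.FG_map_map] at h1
      exact h1
    · -- unit
      have h1 := (hx 0).2.1.2
      rw [← hΨ 0, PowerSeries.coeff_map] at h1
      exact isUnit_of_map_unit (Ideal.Quotient.mk ((maximalIdeal A) ^ (0 + 1))) _ h1
    · -- reduction
      have h1 := (hx 0).2.2
      rw [← hΨ 0, ps_map_map, ← ResidueField.map_comp_residue, ← ps_map_map] at h1
      ext j
      apply hinj0
      have h2 := congrArg (PowerSeries.coeff j) h1
      rw [PowerSeries.coeff_map] at h2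
      rw [h2, PowerSeries.coeff_X, PowerSeries.coeff_X]
      split_ifs <;> simp
  refine ⟨(Φ, Ψ), hsol, ?_⟩
  rintro ⟨Φ', Ψ'⟩ (h' : IsSol F i G (Φ', Ψ'))
  have hr : ∀ r, ((Ideal.Quotient.mk ((maximalIdeal A) ^ (r + 1))).comp Φ',
      Ψ'.map (Ideal.Quotient.mk ((maximalIdeal A) ^ (r + 1)))) = x r := fun r =>
    hxu r _ (h'.map (Ideal.Quotient.mk ((maximalIdeal A) ^ (r + 1))))
  refine Prod.ext ?_ ?_
  · ext1 f
    refine eq_of_mk_eq fun r => ?_
    have h1 := congrArg (fun z : (E0 p n →+* (A ⧸ (maximalIdeal A) ^ (r + 1))) ×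
      PowerSeries (A ⧸ (maximalIdeal A) ^ (r + 1)) => z.1 f) (hr r)
    exact h1.trans (hφ f r).symm
  · ext j
    refine eq_of_mk_eq fun r => ?_
    have h1 := congrArg (fun z : (E0 p n →+* (A ⧸ (maximalIdeal A) ^ (r + 1))) ×
      PowerSeries (A ⧸ (maximalIdeal A) ^ (r + 1)) => PowerSeries.coeff j z.2) (hr r)
    change PowerSeries.coeff j (Ψ'.map (Ideal.Quotient.mk ((maximalIdeal A) ^ (r + 1)))) = _ at h1
    rw [PowerSeries.coeff_map] at h1
    change Ideal.Quotient.mk _ (PowerSeries.coeff j Ψ') =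
      Ideal.Quotient.mk _ (PowerSeries.coeff j Ψ)
    rw [h1, PowerSeries.coeff_mk, hψ]

end Complete

/-- 27f2: complete noetherian rings. -/
theorem isUniversalDeformation_of_step {Γ : FormalGroup (ZMod p)} {F : FormalGroup (E0 p n)}
    (hcomm : F.IsComm)
    (hred : F.map (red p n) = Γ.map (algebraMap (ZMod p) (GaloisField p n)))
    (hstep : StepHyp p n Γ F) : IsUniversalDeformation p n Γ F := by
  refine ⟨hcomm, hred, ?_⟩
  intro A _ _ _ _ i G _ hG
  refine existsUnique_sol (Γ := Γ) (F := F) (A := A) (fun r _ => ?_) i G hG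
  have := isArtinianRing_quot (A := A) r
  exact hasUniv_artinian_of_step hred hstep _

end UnivT

end Vale.Agent.P217
end
end

section

section

/-!
# P217 (sanity part): the universal property, step for small extensions (T27d3)
-/

namespace Vale.Agent.P217

open MvPowerSeries IsLocalRing

namespace US

variable {p n : ℕ} [Fact p.Prime]

/-- the decomposition of the cocycles of `Γ` (over fields containing `𝔽_{p^n}`); it is proved in
`UnivStepFinal.lean`. -/
def DecHyp (p n : ℕ) [Fact p.Prime] (F : FormalGroup (E0 p n)) : Prop :=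
  ∀ (k : Type) [Field k] (i : GaloisField p n →+* k),
    (∀ j, IsCocycle ((F.map (red p n)).map i) (DeltaF p n F i j)) →
    ∀ D : MvPowerSeries (Fin 2) k, IsCocycle ((F.map (red p n)).map i) D →
    ∃! x : (Fin (n - 1) → k) × PowerSeries k, PowerSeries.constantCoeff x.2 = 0 ∧
      D = ∑ j, MvPowerSeries.C (x.1 j) * DeltaF p n F i j +
        cobd ((F.map (red p n)).map i) x.2

theorem cobd_neg {κ : Type*} [Field κ] (Γ : FormalGroup κ) (χ : PowerSeries κ) :
    cobd Γ (-χ) = -cobd Γ χ := by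
  have key : ∀ x : MvPowerSeries (Fin 2) κ, PowerSeries.HasSubst x →
      (PowerSeries.subst x (-χ) : MvPowerSeries (Fin 2) κ) = -PowerSeries.subst x χ := by
    intro x hx
    rw [← PowerSeries.coe_substAlgHom hx, map_neg]
  rw [cobd, cobd, key _ (C0.hasSubst_of_cc (by simp)), key _ (C0.hasSubst_of_cc (by simp)),
    key _ (C0.hasSubst_of_cc Γ.zero_constantCoeff)]
  ring

theorem cobd_zero {κ : Type*} [Field κ] (Γ : FormalGroup κ) : cobd Γ 0 = 0 := by
  rw [cobd, C0.ps_subst_zero (C0.hasSubst_of_cc (by simp)),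
    C0.ps_subst_zero (C0.hasSubst_of_cc (by simp)),
    C0.ps_subst_zero (C0.hasSubst_of_cc Γ.zero_constantCoeff)]
  simp

section Lift

variable {B B' : Type} [CommRing B] [IsLocalRing B] [IsArtinianRing B] [CommRing B']
  [IsLocalRing B'] (π : B →+* B') (hπ : Function.Surjective π) [IsLocalHom π]

include hπ

/-- lifting of homomorphisms from `E₀` along a surjection. -/
theorem exists_lift_hom (i : GaloisField p n →+* ResidueField B) (φ' : E0 p n →+* B')
    (hφ' : (residue B').comp φ' = ((ResidueField.map π).comp i).comp (red p n)) :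
    ∃ φ0 : E0 p n →+* B, (residue B).comp φ0 = i.comp (red p n) ∧ π.comp φ0 = φ' := by
  have : IsArtinianRing B' := hπ.isArtinianRing
  have hredX : ∀ j, red p n (X j) = 0 := by
    intro j
    rw [red, RingHom.comp_apply, constantCoeff_X, map_zero]
  have hb' : ∀ j, φ' (X j) ∈ maximalIdeal B' := by
    intro j
    rw [← residue_eq_zero_iff]
    have := RingHom.congr_fun hφ' (X j)
    rw [RingHom.comp_apply, RingHom.comp_apply, hredX, map_zero] at this
    exact this
  choose b hb using fun j => hπ (φ' (X j))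
  have hbm : ∀ j, b j ∈ maximalIdeal B := by
    intro j
    rw [mem_maximalIdeal, mem_nonunits_iff]
    intro hu
    have h1 := hu.map π
    rw [hb] at h1
    exact (mem_nonunits_iff.1 ((mem_maximalIdeal _).1 (hb' j))) h1
  obtain ⟨φ0, ⟨h1, h2⟩, -⟩ := exists_unique_hom p n B i b hbm
  refine ⟨φ0, h1, ?_⟩
  obtain ⟨φ1, -, h4⟩ := exists_unique_hom p n B' ((ResidueField.map π).comp i)
    (fun j => φ' (X j)) hb'
  rw [h4 φ' ⟨hφ', fun j => rfl⟩, h4 (π.comp φ0) ⟨?_, fun j => ?_⟩]
  · rw [← RingHom.comp_assoc, ← ResidueField.map_comp_residue, RingHom.comp_assoc, h1,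
      RingHom.comp_assoc]
  · change π (φ0 (X j)) = φ' (X j)
    rw [h2, hb]

omit [IsArtinianRing B] in
/-- lifting of star-isomorphisms. -/
theorem exists_lift_ser (ψ' : PowerSeries B') (h0 : PowerSeries.constantCoeff ψ' = 0)
    (hX : ψ'.map (residue B') = PowerSeries.X) : ∃ ψ : PowerSeries B,
      PowerSeries.constantCoeff ψ = 0 ∧ ψ.map π = ψ' ∧ ψ.map (residue B) = PowerSeries.X := by
  choose a ha using fun m => hπ (PowerSeries.coeff m ψ')
  refine ⟨PowerSeries.mk fun m => if m = 0 then 0 else a m, ?_, ?_, ?_⟩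
  · rw [← PowerSeries.coeff_zero_eq_constantCoeff_apply, PowerSeries.coeff_mk, if_pos rfl]
  · ext m
    rw [PowerSeries.coeff_map, PowerSeries.coeff_mk]
    split_ifs with hm
    · rw [hm, map_zero, PowerSeries.coeff_zero_eq_constantCoeff_apply, h0]
    · exact ha m
  · ext m
    rw [PowerSeries.coeff_map, PowerSeries.coeff_mk]
    apply (ResidueField.map π).injective
    have h1 : ∀ x : B, ResidueField.map π (residue B x) = residue B' (π x) := fun x =>
      ResidueField.map_residue π x
    have h2 := congrArg (PowerSeries.coeff m) hX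
    rw [PowerSeries.coeff_map] at h2
    rw [h1]
    split_ifs with hm
    · subst hm
      simp
    · rw [ha, h2, PowerSeries.coeff_X, PowerSeries.coeff_X]
      split_ifs <;> simp

end Lift

section Step

variable {B B' : Type} [CommRing B] [IsLocalRing B] [IsArtinianRing B] [CommRing B']
  [IsLocalRing B'] {t : B} (h : SmallExt (residue B) t)

include h

/-- uniqueness -/
theorem sol_unique {Γ : FormalGroup (ZMod p)}
    {F : FormalGroup (E0 p n)} (hdec : DecHyp p n F) (hF : GoodF p n Γ F) (i : GaloisField p n →+* ResidueField B)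
    (G : FormalGroup B) [G.IsComm]
    (hG : G.map (residue B) = (Γ.map (algebraMap (ZMod p) (GaloisField p n))).map i)
    (φ1 φ2 : E0 p n →+* B) (ψ1 ψ2 : PowerSeries B)
    (h1 : UnivT.IsSol F i G (φ1, ψ1)) (h2 : UnivT.IsSol F i G (φ2, ψ2))
    (hφ : ∀ x, t ∣ φ2 x - φ1 x) (hψ : ∀ d, t ∣ PowerSeries.coeff d ψ2 - PowerSeries.coeff d ψ1) :
    φ2 = φ1 ∧ ψ2 = ψ1 := by
  have := hF.comm
  obtain ⟨c, hc⟩ := exists_hom_diff h i φ1 φ2 h1.1 h2.1 hφ
  have hD1 := isDiff_add_lin h i F φ1 φ2 h1.1 c hc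
  have hΓk : G.map (residue B) = (F.map (red p n)).map i := by rw [hG, hF.reduction]
  have hD : h.IsDiff G G 0 := by
    rw [SmallExt.IsDiff, mul_zero, map_zero, add_zero]
  have hψ1 : IsHom (F.map φ1) G ψ1 := h1.2.1.1
  have hψ1X : ψ1.map (residue B) = PowerSeries.X := h1.2.2
  let x1 : G.Point Unit := ⟨ψ1, C0.hasSubst_of_cc hψ1.1⟩
  obtain ⟨χ, hχ, -⟩ := h.exists_add_tauPt x1 ψ2 (by
    intro d
    have := hψ (d ())
    rwa [PowerSeries.coeff_def rfl] at this)
  have hχ0 : PowerSeries.constantCoeff χ = 0 := by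
    rw [h.add_tauPt_val] at hχ
    have e1 := congrArg PowerSeries.constantCoeff hχ
    have e2 : PowerSeries.constantCoeff ψ2 = 0 := h2.2.1.1.1
    have e3 : PowerSeries.constantCoeff ψ1 = 0 := hψ1.1
    have e4 : (PowerSeries.subst (x1.val.map (residue B)) (dYser (G.map (residue B))) :
        PowerSeries (ResidueField B)) = dYser (G.map (residue B)) := by
      change (PowerSeries.subst (ψ1.map (residue B)) (dYser (G.map (residue B))) :
        PowerSeries (ResidueField B)) = _
      rw [hψ1X]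
      exact PowerSeries.X_subst _
    rw [e4] at e1
    have e5 : PowerSeries.constantCoeff (x1.val : PowerSeries B) = 0 := e3
    rw [map_add, e2, e5, zero_add] at e1
    have e6 := h.ps_coeff_tauS (dYser (G.map (residue B)) * χ : PowerSeries (ResidueField B)) 0
    rw [PowerSeries.coeff_zero_eq_constantCoeff_apply] at e6
    rw [e6, PowerSeries.coeff_zero_eq_constantCoeff_apply, map_mul, constantCoeff_dYser,
      one_mul] at e1
    exact h.tau_injective (by rw [← e1, map_zero])
  have h3 : (x1 + h.tauPt G χ).val = subst ![ψ1, h.tauS χ] G.toPowerSeries := by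
    rw [FormalGroup.add_apply, h.tauPt_val]
  have h4 := (h.isHom_iff hD1 hD hψ1 hψ1X hχ0).1 (by
    rw [← h3, ← hχ]
    exact h2.2.1.1)
  rw [zero_add, hΓk] at h4
  have hco : ∀ j, IsCocycle ((F.map (red p n)).map i) (DeltaF p n F i j) := fun j =>
    isCocycle_DeltaF h i F φ1 h1.1 j
  obtain ⟨x, hx, hux⟩ := hdec _ i hco 0 (by
    have := hD.isCocycle
    rwa [hΓk] at this)
  have h5 := hux (c, -χ) ⟨by simp [hχ0], by rw [cobd_neg, h4]; ring⟩
  have h6 := hux (0, 0) ⟨by simp, by rw [cobd_zero]; simp⟩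
  rw [← h6] at h5
  have hc0 : c = 0 := congrArg Prod.fst h5
  have hχ00 : χ = 0 := by
    have : -χ = 0 := congrArg Prod.snd h5
    simpa using this
  constructor
  · ext1 x
    rw [hc, hc0]
    simp
  · rw [hχ, hχ00, map_zero, add_zero]

omit [IsArtinianRing B] in
/-- existence -/
theorem sol_exists {Γ : FormalGroup (ZMod p)}
    {F : FormalGroup (E0 p n)} (hdec : DecHyp p n F) (hF : GoodF p n Γ F) (i : GaloisField p n →+* ResidueField B)
    (G : FormalGroup B) [G.IsComm]
    (hG : G.map (residue B) = (Γ.map (algebraMap (ZMod p) (GaloisField p n))).map i)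
    (φ0 : E0 p n →+* B) (hφ0 : (residue B).comp φ0 = i.comp (red p n)) (ψ0 : PowerSeries B)
    (hψ0X : ψ0.map (residue B) = PowerSeries.X)
    (G0 : FormalGroup B) [G0.IsComm] (hψ0 : IsHom (F.map φ0) G0 ψ0)
    (hG0 : ∀ d, t ∣ coeff d G.toPowerSeries - coeff d G0.toPowerSeries) :
    ∃ x, UnivT.IsSol F i G x := by
  have := hF.comm
  obtain ⟨D, hD, -⟩ := h.exists_isDiff G0 G hG0
  have hΓk : G.map (residue B) = (F.map (red p n)).map i := by rw [hG, hF.reduction]
  have hG0k : G0.map (residue B) = (F.map (red p n)).map i := by rw [← hΓk, hD.map_eq]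
  have hco : ∀ j, IsCocycle ((F.map (red p n)).map i) (DeltaF p n F i j) := fun j =>
    isCocycle_DeltaF h i F φ0 hφ0 j
  obtain ⟨⟨c, χ⟩, ⟨hχ0, hx⟩, -⟩ := hdec _ i hco D (by
    have := hD.isCocycle
    rwa [hG0k] at this)
  obtain ⟨φ1, hφ1⟩ := exists_hom_add_lin h i φ0 hφ0 c
  have hD1 := isDiff_add_lin h i F φ0 φ1 hφ0 c hφ1
  have hχ0' : PowerSeries.constantCoeff (-χ) = 0 := by
    rw [map_neg, neg_eq_zero]
    exact hχ0
  have h1 := (h.isHom_iff hD1 hD hψ0 hψ0X hχ0').2 (by
    rw [hG0k, cobd_neg]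
    simp only at hx
    rw [hx]
    ring)
  have hS : HasSubst ![ψ0, (h.tauS (-χ) : PowerSeries B)] :=
    C0.hasSubst_pair (C0.hasSubst_of_cc hψ0.1) (h.hasSubst_tauS _)
  have h2 : PowerSeries.map (residue B)
      (subst ![ψ0, (h.tauS (-χ) : PowerSeries B)] G0.toPowerSeries : PowerSeries B) =
        PowerSeries.X := by
    have e1 : (h.tauS (-χ) : PowerSeries B).map (residue B) = 0 := h.map_tauS _
    refine (C0.map_pair_subst (residue B) (C0.hasSubst_of_cc hψ0.1) (h.hasSubst_tauS _)
      G0.toPowerSeries).trans ?_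
    rw [show MvPowerSeries.map (residue B) ψ0 = PowerSeries.X from hψ0X,
      show MvPowerSeries.map (residue B) (h.tauS (-χ)) = 0 from e1]
    exact (G0.map (residue B)).add_zero (C0.hasSubst_of_cc PowerSeries.constantCoeff_X)
  have h3 : (residue B).comp φ1 = i.comp (red p n) := by
    rw [← hφ0]
    ext1 x
    rw [RingHom.comp_apply, RingHom.comp_apply, hφ1, map_add]
    have h5 : t ∣ h.tau (∑ j, c j * i (lin p n j x)) := (h.dvd_iff _).2 ⟨_, rfl⟩
    obtain ⟨y, hy⟩ := h5
    rw [hy, map_mul, h.map_t, zero_mul, add_zero]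
  obtain ⟨ψ1, hψ1⟩ : ∃ ψ1 : PowerSeries B,
    ψ1 = (subst ![ψ0, (h.tauS (-χ) : PowerSeries B)] G0.toPowerSeries : PowerSeries B) := ⟨_, rfl⟩
  rw [← hψ1] at h1 h2
  refine ⟨(φ1, ψ1), h3, ⟨h1, ?_⟩, h2⟩
  have h4 := congrArg (PowerSeries.coeff 1) h2
  rw [PowerSeries.coeff_map, PowerSeries.coeff_one_X] at h4
  exact (isUnit_map_iff (residue B) _).1 (h4 ▸ isUnit_one)

end Step

end US

/-- 27d: small extensions. -/
theorem HasUniv.step_of (p n : ℕ) [Fact p.Prime] (Γ : FormalGroup (ZMod p))
    (F : FormalGroup (E0 p n)) (hdec : US.DecHyp p n F) (hF : GoodF p n Γ F) (B B' : Type) [CommRing B] [IsLocalRing B]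
    [IsArtinianRing B] [CommRing B'] [IsLocalRing B'] (π : B →+* B')
    (hπ : Function.Surjective π) (t : B) (ht : RingHom.ker π = Ideal.span {t})
    (ht0 : t ≠ 0) (htm : ∀ x ∈ IsLocalRing.maximalIdeal B, t * x = 0)
    (htm' : t ∈ IsLocalRing.maximalIdeal B)
    (h : HasUniv p n Γ F B') : HasUniv p n Γ F B := by
  have hs := SmallExt.of_isLocalRing ht0 htm htm'
  have : IsLocalHom π := IsLocalHom.of_surjective π hπ
  have := hF.comm
  have hdvd : ∀ x y : B, π x = π y → t ∣ x - y := by
    intro x y hxy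
    rw [← Ideal.mem_span_singleton, ← ht, RingHom.mem_ker, map_sub, hxy, sub_self]
  intro i G _ hG
  have hG' := UnivT.fibre_map hG π
  obtain ⟨⟨φ', ψ'⟩, hsol', huniq'⟩ := h ((ResidueField.map π).comp i) (G.map π) hG'
  obtain ⟨φ0, hφ0, hφ0'⟩ := US.exists_lift_hom π hπ i φ' hsol'.1
  obtain ⟨ψ0, hψ00, hψ0', hψ0X⟩ := US.exists_lift_ser π hπ ψ' hsol'.2.1.1.1 hsol'.2.2
  have hu : IsUnit (PowerSeries.coeff 1 ψ0) := by
    have h4 := congrArg (PowerSeries.coeff 1) hψ0X
    rw [PowerSeries.coeff_map, PowerSeries.coeff_one_X] at h4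
    exact (isUnit_map_iff (residue B) _).1 (h4 ▸ isUnit_one)
  obtain ⟨G0, hG0c, hG0⟩ := C0.exists_transport (F.map φ0) ψ0 hψ00 hu
  have hG0π : G0.map π = G.map π := by
    have h5 := hG0.mapC π
    rw [C0.FG_map_map, hφ0', hψ0'] at h5
    exact h5.targetC hsol'.2.1
  have hG0G : ∀ d, t ∣ coeff d G.toPowerSeries - coeff d G0.toPowerSeries := by
    intro d
    apply hdvd
    have := congrArg (fun A : FormalGroup B' => coeff d A.toPowerSeries) hG0π
    exact this.symm
  obtain ⟨⟨φ1, ψ1⟩, hsol⟩ := US.sol_exists hs hdec hF i G hG φ0 hφ0 ψ0 hψ0X G0 hG0.1 hG0G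
  refine ⟨(φ1, ψ1), hsol, ?_⟩
  rintro ⟨φ2, ψ2⟩ hsol2
  have e1 := huniq' _ (UnivT.IsSol.map hsol π)
  have e2 := huniq' _ (UnivT.IsSol.map (x := (φ2, ψ2)) hsol2 π)
  rw [← e1] at e2
  have e3 : π.comp φ2 = π.comp φ1 := congrArg Prod.fst e2
  have e4 : ψ2.map π = ψ1.map π := congrArg Prod.snd e2
  obtain ⟨e5, e6⟩ := US.sol_unique hs hdec hF i G hG φ1 φ2 ψ1 ψ2 hsol hsol2
    (fun x => hdvd _ _ (RingHom.congr_fun e3 x)) (fun d => hdvd _ _ (by
      have := congrArg (PowerSeries.coeff d) e4
      rwa [PowerSeries.coeff_map, PowerSeries.coeff_map] at this))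
  rw [e5, e6]

end Vale.Agent.P217
end
end

section

section

/-!
# P217 (sanity part): decomposition of symmetric cocycles of a formal group law
-/

namespace Vale.Agent.P217

open MvPowerSeries C0

section CocGen

variable {R : Type*} [CommRing R] {σ : Type*}

theorem uc_exp2 (d : Fin 2 →₀ ℕ) : Finsupp.single 0 (d 0) + Finsupp.single 1 (d 1) = d := by
  ext s
  fin_cases s <;> simp

theorem uc_degree2 (d : Fin 2 →₀ ℕ) : d.degree = d 0 + d 1 := by
  rw [Finsupp.degree_eq_sum, Fin.sum_univ_two]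

theorem uc_degree3 (d : Fin 3 →₀ ℕ) : d.degree = d 0 + d 1 + d 2 := by
  rw [Finsupp.degree_eq_sum, Fin.sum_univ_three]

theorem uc_coeff_add_pow2 (m : ℕ) (e : Fin 2 →₀ ℕ) :
    coeff e (((X 0 : MvPowerSeries (Fin 2) R) + X 1) ^ m) =
      if e 0 + e 1 = m then (m.choose (e 0) : R) else 0 := by
  classical
  rw [add_pow, map_sum]
  have key : ∀ l : ℕ, coeff e ((X 0 : MvPowerSeries (Fin 2) R) ^ l * X 1 ^ (m - l) *
      (m.choose l : MvPowerSeries (Fin 2) R)) =
      if e = Finsupp.single 0 l + Finsupp.single 1 (m - l) then (m.choose l : R) else 0 := by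
    intro l
    rw [X_pow_eq, X_pow_eq, monomial_mul_monomial, one_mul, ← map_natCast (C (σ := Fin 2) (R := R)),
      mul_comm, coeff_C_mul, coeff_monomial]
    split_ifs <;> simp
  simp only [key]
  by_cases h : e 0 + e 1 = m
  · rw [if_pos h, Finset.sum_eq_single (e 0)]
    · rw [if_pos]
      rw [← h, Nat.add_sub_cancel_left, uc_exp2]
    · intro l _ hl
      rw [if_neg]
      intro he
      apply hl
      rw [he]
      simp
    · intro hl
      rw [Finset.mem_range] at hl
      omega
  · rw [if_neg h]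
    refine Finset.sum_eq_zero fun l hl => ?_
    rw [if_neg]
    intro he
    apply h
    rw [he]
    rw [Finset.mem_range] at hl
    simp
    omega

theorem uc_coeff_add_pow_left (m k : ℕ) (e : Fin 3 →₀ ℕ) :
    coeff e (((X 0 : MvPowerSeries (Fin 3) R) + X 1) ^ m * X 2 ^ k) =
      if e 0 + e 1 = m ∧ e 2 = k then (m.choose (e 0) : R) else 0 := by
  classical
  rw [add_pow, Finset.sum_mul, map_sum]
  have key : ∀ l : ℕ, coeff e ((X 0 : MvPowerSeries (Fin 3) R) ^ l * X 1 ^ (m - l) *
      (m.choose l : MvPowerSeries (Fin 3) R) * X 2 ^ k) =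
      if e = Finsupp.single 0 l + Finsupp.single 1 (m - l) + Finsupp.single 2 k
      then (m.choose l : R) else 0 := by
    intro l
    rw [X_pow_eq, X_pow_eq, X_pow_eq, monomial_mul_monomial, one_mul,
      ← map_natCast (C (σ := Fin 3) (R := R)), mul_right_comm, monomial_mul_monomial, one_mul,
      mul_comm, coeff_C_mul, coeff_monomial]
    split_ifs <;> simp
  simp only [key]
  by_cases h : e 0 + e 1 = m ∧ e 2 = k
  · rw [if_pos h, Finset.sum_eq_single (e 0)]
    · rw [if_pos]
      rw [← h.1, ← h.2, Nat.add_sub_cancel_left]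
      ext s
      fin_cases s <;> simp
    · intro l _ hl
      rw [if_neg]
      intro he
      apply hl
      rw [he]
      simp
    · intro hl
      rw [Finset.mem_range] at hl
      omega
  · rw [if_neg h]
    refine Finset.sum_eq_zero fun l hl => ?_
    rw [if_neg]
    intro he
    apply h
    rw [he]
    rw [Finset.mem_range] at hl
    simp
    omega

theorem uc_coeff_add_pow_right (m k : ℕ) (e : Fin 3 →₀ ℕ) :
    coeff e ((X 0 : MvPowerSeries (Fin 3) R) ^ k * (X 1 + X 2) ^ m) =
      if e 1 + e 2 = m ∧ e 0 = k then (m.choose (e 1) : R) else 0 := by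
  classical
  rw [add_pow, Finset.mul_sum, map_sum]
  have key : ∀ l : ℕ, coeff e ((X 0 : MvPowerSeries (Fin 3) R) ^ k * (X 1 ^ l * X 2 ^ (m - l) *
      (m.choose l : MvPowerSeries (Fin 3) R))) =
      if e = Finsupp.single 0 k + (Finsupp.single 1 l + Finsupp.single 2 (m - l))
      then (m.choose l : R) else 0 := by
    intro l
    rw [X_pow_eq, X_pow_eq, X_pow_eq, monomial_mul_monomial, one_mul,
      ← map_natCast (C (σ := Fin 3) (R := R)), ← mul_assoc, monomial_mul_monomial, one_mul,
      mul_comm, coeff_C_mul, coeff_monomial]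
    split_ifs <;> simp
  simp only [key]
  by_cases h : e 1 + e 2 = m ∧ e 0 = k
  · rw [if_pos h, Finset.sum_eq_single (e 1)]
    · rw [if_pos]
      rw [← h.1, ← h.2, Nat.add_sub_cancel_left]
      ext s
      fin_cases s <;> simp
    · intro l _ hl
      rw [if_neg]
      intro he
      apply hl
      rw [he]
      simp
    · intro hl
      rw [Finset.mem_range] at hl
      omega
  · rw [if_neg h]
    refine Finset.sum_eq_zero fun l hl => ?_
    rw [if_neg]
    intro he
    apply h
    rw [he]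
    rw [Finset.mem_range] at hl
    simp
    omega

theorem uc_coeff_swap (D : MvPowerSeries (Fin 2) R) (i j : ℕ) :
    coeff (Finsupp.single 0 i + Finsupp.single 1 j)
      (subst ![(X 1 : MvPowerSeries (Fin 2) R), X 0] D) =
      coeff (Finsupp.single 0 j + Finsupp.single 1 i) D := by
  classical
  have key : ∀ d : Fin 2 →₀ ℕ, (d.prod fun s e =>
      (![(X 1 : MvPowerSeries (Fin 2) R), X 0] s) ^ e) =
      monomial (Finsupp.single 0 (d 1) + Finsupp.single 1 (d 0)) 1 := by
    intro d
    rw [Finsupp.prod_fintype _ _ (by simp), Fin.prod_univ_two]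
    simp only [Matrix.cons_val_zero, Matrix.cons_val_one, X_pow_eq, monomial_mul_monomial,
      mul_one]
    rw [add_comm]
  rw [coeff_subst (hasSubst_pair (hasSubst_of_cc (by simp)) (hasSubst_of_cc (by simp))),
    finsum_eq_single _ (Finsupp.single 0 j + Finsupp.single 1 i)]
  · rw [key, coeff_monomial, if_pos (by simp), smul_eq_mul, mul_one]
  · intro d hd
    rw [key, coeff_monomial, if_neg, smul_zero]
    intro h
    apply hd
    have h0 := DFunLike.congr_fun h 0
    have h1 := DFunLike.congr_fun h 1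
    simp at h0 h1
    ext s
    fin_cases s
    · simp [h1]
    · simp [h0]

theorem uc_order_pow_sub {A B : MvPowerSeries σ R} (hB : 1 ≤ B.order)
    (hA : 1 ≤ A.order) (h : 2 ≤ (B - A).order) (m : ℕ) :
    ((m + 1 : ℕ) : ℕ∞) ≤ (B ^ m - A ^ m).order := by
  induction m with
  | zero => simp
  | succ m ih =>
    have e : B ^ (m + 1) - A ^ (m + 1) = B * (B ^ m - A ^ m) + (B - A) * A ^ m := by ring
    rw [e]
    refine le_trans ?_ min_order_le_add
    refine le_min ?_ ?_
    · refine le_trans ?_ le_order_mul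
      refine le_trans ?_ (add_le_add hB ih)
      push_cast
      rw [add_comm]
    · refine le_trans ?_ le_order_mul
      have h1 : (m : ℕ∞) ≤ (A ^ m).order := by
        refine le_trans ?_ (le_order_pow m)
        rw [nsmul_eq_mul]
        calc (m : ℕ∞) = m * 1 := (mul_one _).symm
          _ ≤ _ := mul_le_mul_right hA _
      refine le_trans ?_ (add_le_add h h1)
      push_cast
      rw [add_comm, add_comm (m : ℕ∞) 1, ← add_assoc, one_add_one_eq_two]

end CocGen

section CocE

variable {κ : Type*} [Field κ] (Γ : FormalGroup κ)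

/-- `X^m + Y^m - Γ(X,Y)^m` -/
noncomputable def ucE (m : ℕ) : MvPowerSeries (Fin 2) κ :=
  (X 0 : MvPowerSeries (Fin 2) κ) ^ m + (X 1 : MvPowerSeries (Fin 2) κ) ^ m - Γ.toPowerSeries ^ m

theorem uc_coeff_cobd (χ : PowerSeries κ) (d : Fin 2 →₀ ℕ) :
    coeff d (cobd Γ χ) = ∑ᶠ m : ℕ, PowerSeries.coeff m χ * coeff d (ucE Γ m) := by
  have h0 : PowerSeries.HasSubst (X 0 : MvPowerSeries (Fin 2) κ) := hasSubst_of_cc (by simp)
  have h1 : PowerSeries.HasSubst (X 1 : MvPowerSeries (Fin 2) κ) := hasSubst_of_cc (by simp)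
  have hΓ : PowerSeries.HasSubst Γ.toPowerSeries := hasSubst_of_cc Γ.zero_constantCoeff
  rw [cobd, map_sub, map_add, PowerSeries.coeff_subst h0, PowerSeries.coeff_subst h1,
    PowerSeries.coeff_subst hΓ,
    ← finsum_add_distrib (PowerSeries.coeff_subst_finite h0 χ d)
      (PowerSeries.coeff_subst_finite h1 χ d), ← finsum_sub_distrib _
      (PowerSeries.coeff_subst_finite hΓ χ d)]
  · refine finsum_congr fun m => ?_
    simp only [ucE, map_sub, map_add, smul_eq_mul]
    ring
  · exact Set.Finite.subset ((PowerSeries.coeff_subst_finite h0 χ d).union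
      (PowerSeries.coeff_subst_finite h1 χ d)) (Function.support_add _ _)

variable {Γ}

theorem uc_order_lead {p N : ℕ} {c : κ} {D : MvPowerSeries (Fin 2) κ} (h : HasLead p N c D) :
    (N : ℕ∞) ≤ D.order := by
  refine nat_le_order fun d hd => ?_
  rw [uc_degree2] at hd
  rw [← uc_exp2 d]
  exact h.1 _ _ hd

theorem uc_one_le_order {σ : Type*} {A : MvPowerSeries σ κ} (h : constantCoeff A = 0) :
    1 ≤ A.order := one_le_order_iff_constCoeff_eq_zero.mpr h

theorem uc_two_le_order {p n : ℕ} [Fact p.Prime] (hn : 1 ≤ n)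
    (hlead : HasLead p (p ^ n) (-1) (Γ.toPowerSeries - (X 0 : MvPowerSeries (Fin 2) κ) - X 1)) :
    2 ≤ (Γ.toPowerSeries - ((X 0 : MvPowerSeries (Fin 2) κ) + X 1)).order := by
  rw [← sub_sub]
  refine le_trans ?_ (uc_order_lead hlead)
  have h2 : 2 ≤ p ^ n := (Fact.out : p.Prime).two_le.trans (Nat.le_self_pow (by omega) p)
  exact_mod_cast h2

theorem uc_E_lead_not {p n : ℕ} [Fact p.Prime] (hn : 1 ≤ n)
    (hlead : HasLead p (p ^ n) (-1) (Γ.toPowerSeries - (X 0 : MvPowerSeries (Fin 2) κ) - X 1))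
    (m : ℕ) (hm : ¬ ∃ r, m = p ^ r) : HasLead p m (-1) (ucE Γ m) := by
  classical
  have hG : ∀ d : Fin 2 →₀ ℕ, d 0 + d 1 ≤ m → coeff d (Γ.toPowerSeries ^ m) =
      if d 0 + d 1 = m then (m.choose (d 0) : κ) else 0 := by
    intro d hd
    rw [← uc_coeff_add_pow2, ← sub_eq_zero, ← map_sub]
    refine coeff_of_lt_order (lt_of_lt_of_le ?_ (uc_order_pow_sub
      (uc_one_le_order Γ.zero_constantCoeff) (uc_one_le_order (by simp))
      (uc_two_le_order hn hlead) m))
    rw [uc_degree2]
    exact_mod_cast Nat.lt_succ_of_le hd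
  have h0 : ∀ i j : ℕ, coeff (Finsupp.single 0 i + Finsupp.single 1 j)
      ((X 0 : MvPowerSeries (Fin 2) κ) ^ m) = if i = m ∧ j = 0 then 1 else 0 := by
    intro i j
    rw [X_pow_eq, coeff_monomial]
    congr 1
    rw [eq_iff_iff]
    constructor
    · intro h
      have h1 := DFunLike.congr_fun h 0
      have h2 := DFunLike.congr_fun h 1
      simp at h1 h2
      exact ⟨h1, h2⟩
    · rintro ⟨rfl, rfl⟩
      simp
  have h1 : ∀ i j : ℕ, coeff (Finsupp.single 0 i + Finsupp.single 1 j)
      ((X 1 : MvPowerSeries (Fin 2) κ) ^ m) = if i = 0 ∧ j = m then 1 else 0 := by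
    intro i j
    rw [X_pow_eq, coeff_monomial]
    congr 1
    rw [eq_iff_iff]
    constructor
    · intro h
      have h1 := DFunLike.congr_fun h 0
      have h2 := DFunLike.congr_fun h 1
      simp at h1 h2
      exact ⟨h1, h2⟩
    · rintro ⟨rfl, rfl⟩
      simp
  constructor
  · intro i j hij
    rw [ucE, map_sub, map_add, h0, h1, hG _ (by simp; omega), if_neg (by omega),
      if_neg (by omega), if_neg (by simp; omega)]
    simp
  · intro i j hi hj hij
    rw [ucE, map_sub, map_add, h0, h1, hG _ (by simp; omega), if_neg (by omega),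
      if_neg (by omega), if_pos (by simpa using hij), lz_cbar_of_not hm]
    simp

theorem uc_E_pow (p : ℕ) [Fact p.Prime] [CharP κ p] (j : ℕ) :
    ucE Γ (p ^ j) =
      -(Γ.toPowerSeries - (X 0 : MvPowerSeries (Fin 2) κ) - X 1) ^ (p ^ j) := by
  have : CharP (MvPowerSeries (Fin 2) κ) p :=
    charP_of_injective_algebraMap (algebraMap κ (MvPowerSeries (Fin 2) κ)).injective p
  rw [sub_pow_char_pow, sub_pow_char_pow, ucE]
  ring

theorem uc_E_lead_pow {p n : ℕ} [Fact p.Prime] [CharP κ p] (hn : 1 ≤ n)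
    (hlead : HasLead p (p ^ n) (-1) (Γ.toPowerSeries - (X 0 : MvPowerSeries (Fin 2) κ) - X 1))
    (j : ℕ) : HasLead p (p ^ (n + j)) 1 (ucE Γ (p ^ j)) := by
  have hp0 : p ≠ 0 := (Fact.out : p.Prime).ne_zero
  have hpj : p ^ j ≠ 0 := pow_ne_zero j hp0
  have : ExpChar κ p := ExpChar.prime Fact.out
  set H : MvPowerSeries (Fin 2) κ := Γ.toPowerSeries - (X 0 : MvPowerSeries (Fin 2) κ) - X 1
    with hH
  have key : ∀ d : Fin 2 →₀ ℕ, coeff d (ucE Γ (p ^ j)) =
      -(coeff d (expand (p ^ j) hpj H)) ^ (p ^ j) := by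
    intro d
    rw [uc_E_pow, ← hH, ← map_iterateFrobenius_expand p hp0 H j, map_neg, coeff_map,
      iterateFrobenius_def]
  have key2 : ∀ i k : ℕ, coeff (Finsupp.single 0 i + Finsupp.single 1 k) (ucE Γ (p ^ j)) =
      if p ^ j ∣ i ∧ p ^ j ∣ k then
        -(coeff (Finsupp.single 0 (i / p ^ j) + Finsupp.single 1 (k / p ^ j)) H) ^ (p ^ j)
      else 0 := by
    intro i k
    rw [key]
    split_ifs with h
    · obtain ⟨⟨a, rfl⟩, ⟨b, rfl⟩⟩ := h
      have e : Finsupp.single (0 : Fin 2) (p ^ j * a) + Finsupp.single 1 (p ^ j * b) =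
          p ^ j • (Finsupp.single 0 a + Finsupp.single 1 b) := by
        ext s
        fin_cases s <;> simp
      rw [e, coeff_expand_smul, Nat.mul_div_cancel_left _ (Nat.pos_of_ne_zero hpj),
        Nat.mul_div_cancel_left _ (Nat.pos_of_ne_zero hpj)]
    · rw [not_and_or] at h
      rcases h with h | h
      · rw [coeff_expand_of_not_dvd (i := (0 : Fin 2)) _ _ _ (by simpa using h),
          zero_pow hpj, neg_zero]
      · rw [coeff_expand_of_not_dvd (i := (1 : Fin 2)) _ _ _ (by simpa using h),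
          zero_pow hpj, neg_zero]
  have hfr : ∀ c : ℕ, (c : κ) ^ (p ^ j) = c := by
    intro c
    rw [← iterateFrobenius_def, map_natCast]
  constructor
  · intro i k hik
    rw [key2]
    split_ifs with h
    · obtain ⟨⟨a, rfl⟩, ⟨b, rfl⟩⟩ := h
      rw [Nat.mul_div_cancel_left _ (Nat.pos_of_ne_zero hpj),
        Nat.mul_div_cancel_left _ (Nat.pos_of_ne_zero hpj), hlead.1 a b, zero_pow hpj, neg_zero]
      rw [← mul_add, add_comm n j, pow_add] at hik
      exact lt_of_mul_lt_mul_left hik (Nat.zero_le _)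
    · rfl
  · intro i k hi hk hik
    rw [key2, one_mul, cbar_pow_mul p n j hn i (by omega)]
    by_cases h : p ^ j ∣ i
    · have h' : p ^ j ∣ k := by
        rw [← Nat.dvd_add_right h, hik, add_comm n j, pow_add]
        exact dvd_mul_right _ _
      rw [if_pos ⟨h, h'⟩, if_pos h]
      obtain ⟨a, rfl⟩ := h
      obtain ⟨b, rfl⟩ := h'
      rw [Nat.mul_div_cancel_left _ (Nat.pos_of_ne_zero hpj),
        Nat.mul_div_cancel_left _ (Nat.pos_of_ne_zero hpj), hlead.2 a b]
      · have h1 : (-1 : κ) * (cbar p (p ^ n) a : κ) = -(cbar p (p ^ n) a : κ) := by ring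
        rw [h1]
        rw [neg_pow, hfr]
        have h2 : (-1 : κ) ^ (p ^ j) = -1 := by
          rw [← iterateFrobenius_def, map_neg, map_one]
        rw [h2]
        ring
      · exact Nat.pos_of_ne_zero fun h => by simp [h] at hi
      · exact Nat.pos_of_ne_zero fun h => by simp [h] at hk
      · rw [← mul_add, add_comm n j, pow_add] at hik
        exact Nat.eq_of_mul_eq_mul_left (Nat.pos_of_ne_zero hpj) hik
    · rw [if_neg (fun h' => h h'.1), if_neg h]

end CocE

section CocAlg

variable {κ : Type*} [Field κ] {Γ : FormalGroup κ}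

theorem uc_hasSubst_left : HasSubst
    ![Γ.toPowerSeries.subst ![(X 0 : MvPowerSeries (Fin 3) κ), X 1], X 2] :=
  HasSubst.cons_subst_zero_left (0 : Fin 3) 1 2 Γ.zero_constantCoeff

theorem uc_hasSubst_right : HasSubst ![(X 0 : MvPowerSeries (Fin 3) κ),
    Γ.toPowerSeries.subst ![(X 1 : MvPowerSeries (Fin 3) κ), X 2]] :=
  HasSubst.cons_subst_zero_right (0 : Fin 3) 1 2 Γ.zero_constantCoeff

theorem uc_subst_zero {σ τ : Type*} {a : σ → MvPowerSeries τ κ} (ha : HasSubst a) :
    subst a (0 : MvPowerSeries σ κ) = 0 := by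
  rw [← coe_substAlgHom ha, map_zero]

theorem uc_zero : IsCocycle Γ 0 where
  zero i := by simp
  symm i j := by simp
  cocycle := by
    rw [uc_subst_zero HasSubst.X_X, uc_subst_zero uc_hasSubst_left,
      uc_subst_zero uc_hasSubst_right, uc_subst_zero HasSubst.X_X]
    simp

theorem uc_add {D E : MvPowerSeries (Fin 2) κ} (hD : IsCocycle Γ D) (hE : IsCocycle Γ E) :
    IsCocycle Γ (D + E) where
  zero i := by rw [map_add, hD.zero, hE.zero, add_zero]
  symm i j := by rw [map_add, map_add, hD.symm, hE.symm]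
  cocycle := by
    rw [subst_add HasSubst.X_X, subst_add uc_hasSubst_left, subst_add uc_hasSubst_right,
      subst_add HasSubst.X_X]
    linear_combination hD.cocycle + hE.cocycle

theorem uc_smul {D : MvPowerSeries (Fin 2) κ} (c : κ) (hD : IsCocycle Γ D) :
    IsCocycle Γ (C c * D) where
  zero i := by rw [coeff_C_mul, hD.zero, mul_zero]
  symm i j := by rw [coeff_C_mul, coeff_C_mul, hD.symm]
  cocycle := by
    rw [subst_mul HasSubst.X_X, subst_mul uc_hasSubst_left, subst_mul uc_hasSubst_right,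
      subst_mul HasSubst.X_X, subst_C, subst_C, subst_C, subst_C]
    linear_combination C c * hD.cocycle

theorem uc_sub {D E : MvPowerSeries (Fin 2) κ} (hD : IsCocycle Γ D) (hE : IsCocycle Γ E) :
    IsCocycle Γ (D - E) := by
  have h := uc_add hD (uc_smul (-1) hE)
  rw [map_neg, map_one, neg_one_mul, ← sub_eq_add_neg] at h
  exact h

theorem uc_sum {ι : Type*} (s : Finset ι) {D : ι → MvPowerSeries (Fin 2) κ}
    (hD : ∀ i, IsCocycle Γ (D i)) : IsCocycle Γ (∑ i ∈ s, D i) := by
  classical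
  induction s using Finset.induction_on with
  | empty => rw [Finset.sum_empty]; exact uc_zero
  | insert i s hi ih => rw [Finset.sum_insert hi]; exact uc_add (hD i) ih

theorem uc_cobd (hcomm : Γ.IsComm) {χ : PowerSeries κ}
    (hχ : PowerSeries.constantCoeff χ = 0) : IsCocycle Γ (cobd Γ χ) := by
  have hΓ0 := Γ.zero_constantCoeff
  -- substitution into the coboundary
  have key : ∀ {τ : Type} (a b : MvPowerSeries τ κ), constantCoeff a = 0 → constantCoeff b = 0 →
      subst ![a, b] (cobd Γ χ) = PowerSeries.subst a χ + PowerSeries.subst b χ -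
        PowerSeries.subst (subst ![a, b] Γ.toPowerSeries : MvPowerSeries τ κ) χ := by
    intro τ a b ha hb
    have hs := fgHasSubst_pair ha hb
    rw [cobd, subst_sub hs, subst_add hs, psubst_comp (by simp) hs, psubst_comp (by simp) hs,
      psubst_comp hΓ0 hs, subst_X hs, subst_X hs]
    rfl
  refine ⟨fun i => ?_, fun i j => ?_, ?_⟩
  · have h1 := key (PowerSeries.X : PowerSeries κ) 0 PowerSeries.constantCoeff_X (map_zero _)
    rw [Γ.add_zero (hasSubst_of_cc PowerSeries.constantCoeff_X),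
      PowerSeries.subst_zero_of_constantCoeff_zero hχ, add_zero, sub_self] at h1
    rw [coeff_single_zero_eq, h1, map_zero]
  · have h1 := key (X 1 : MvPowerSeries (Fin 2) κ) (X 0) (by simp) (by simp)
    have h2 := key (X 0 : MvPowerSeries (Fin 2) κ) (X 1) (by simp) (by simp)
    rw [Γ.comm' (hasSubst_of_cc (by simp)) (hasSubst_of_cc (by simp)),
      add_comm (PowerSeries.subst (X 1 : MvPowerSeries (Fin 2) κ) χ), ← h2] at h1
    have h3 : subst ![(X 0 : MvPowerSeries (Fin 2) κ), X 1] (cobd Γ χ) = cobd Γ χ := by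
      have : (![X 0, X 1] : Fin 2 → MvPowerSeries (Fin 2) κ) = X := by
        funext s; fin_cases s <;> rfl
      rw [this, subst_self]
      rfl
    rw [h3] at h1
    rw [← uc_coeff_swap (cobd Γ χ) j i, h1]
  · rw [key _ _ (by simp) (by simp), key _ _ (constantCoeff_subst_pair Γ (by simp) (by simp))
      (by simp), key _ _ (by simp) (constantCoeff_subst_pair Γ (by simp) (by simp)),
      key _ _ (by simp) (by simp), Γ.assoc]
    ring

end CocAlg

section CocLead

variable {κ : Type*} [Field κ] {Γ : FormalGroup κ}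

theorem uc_order_left {p n : ℕ} [Fact p.Prime] (hn : 1 ≤ n)
    (hlead : HasLead p (p ^ n) (-1) (Γ.toPowerSeries - (X 0 : MvPowerSeries (Fin 2) κ) - X 1))
    {τ : Type*} (s t : τ) :
    2 ≤ ((Γ.toPowerSeries.subst ![(X s : MvPowerSeries τ κ), X t]) - (X s + X t)).order := by
  have hs : HasSubst ![(X s : MvPowerSeries τ κ), X t] := HasSubst.X_X
  have e : (Γ.toPowerSeries.subst ![(X s : MvPowerSeries τ κ), X t]) - (X s + X t) =
      (Γ.toPowerSeries - ((X 0 : MvPowerSeries (Fin 2) κ) + X 1)).subst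
        ![(X s : MvPowerSeries τ κ), X t] := by
    rw [subst_sub hs, subst_add hs, subst_X hs, subst_X hs]
    rfl
  rw [e]
  refine le_trans ?_ (le_order_subst hs _)
  have h1 : (1 : ℕ∞) ≤ ⨅ i, (![(X s : MvPowerSeries τ κ), X t] i).order := by
    refine le_iInf fun i => ?_
    fin_cases i <;> exact uc_one_le_order (by simp)
  calc (2 : ℕ∞) = 1 * 2 := (one_mul _).symm
    _ ≤ _ := mul_le_mul' h1 (uc_two_le_order hn hlead)

theorem uc_coeff_gamma_left {p n : ℕ} [Fact p.Prime] (hn : 1 ≤ n)
    (hlead : HasLead p (p ^ n) (-1) (Γ.toPowerSeries - (X 0 : MvPowerSeries (Fin 2) κ) - X 1))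
    (m k : ℕ) (e : Fin 3 →₀ ℕ) (he : e 0 + e 1 + e 2 ≤ m + k) :
    coeff e ((Γ.toPowerSeries.subst ![(X 0 : MvPowerSeries (Fin 3) κ), X 1]) ^ m * X 2 ^ k) =
      if e 0 + e 1 = m ∧ e 2 = k then (m.choose (e 0) : κ) else 0 := by
  rw [← uc_coeff_add_pow_left, ← sub_eq_zero, ← map_sub, ← sub_mul]
  have h0 : constantCoeff (Γ.toPowerSeries.subst ![(X 0 : MvPowerSeries (Fin 3) κ), X 1]) = 0 :=
    constantCoeff_subst_pair Γ (by simp) (by simp)
  have h1 := uc_order_pow_sub (uc_one_le_order h0) (uc_one_le_order (A :=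
    (X 0 : MvPowerSeries (Fin 3) κ) + X 1) (by simp)) (uc_order_left hn hlead 0 1) m
  have h2 : (k : ℕ∞) ≤ ((X 2 : MvPowerSeries (Fin 3) κ) ^ k).order := by
    refine le_trans ?_ (le_order_pow k)
    rw [nsmul_eq_mul]
    calc (k : ℕ∞) = k * 1 := (mul_one _).symm
      _ ≤ _ := mul_le_mul_right (uc_one_le_order (by simp)) _
  refine coeff_of_lt_order (lt_of_lt_of_le ?_ ((add_le_add h1 h2).trans le_order_mul))
  rw [uc_degree3]
  norm_cast
  omega

theorem uc_coeff_gamma_right {p n : ℕ} [Fact p.Prime] (hn : 1 ≤ n)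
    (hlead : HasLead p (p ^ n) (-1) (Γ.toPowerSeries - (X 0 : MvPowerSeries (Fin 2) κ) - X 1))
    (m k : ℕ) (e : Fin 3 →₀ ℕ) (he : e 0 + e 1 + e 2 ≤ m + k) :
    coeff e ((X 0 : MvPowerSeries (Fin 3) κ) ^ k *
      (Γ.toPowerSeries.subst ![(X 1 : MvPowerSeries (Fin 3) κ), X 2]) ^ m) =
      if e 1 + e 2 = m ∧ e 0 = k then (m.choose (e 1) : κ) else 0 := by
  rw [← uc_coeff_add_pow_right, ← sub_eq_zero, ← map_sub, ← mul_sub]
  have h0 : constantCoeff (Γ.toPowerSeries.subst ![(X 1 : MvPowerSeries (Fin 3) κ), X 2]) = 0 :=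
    constantCoeff_subst_pair Γ (by simp) (by simp)
  have h1 := uc_order_pow_sub (uc_one_le_order h0) (uc_one_le_order (A :=
    (X 1 : MvPowerSeries (Fin 3) κ) + X 2) (by simp)) (uc_order_left hn hlead 1 2) m
  have h2 : (k : ℕ∞) ≤ ((X 0 : MvPowerSeries (Fin 3) κ) ^ k).order := by
    refine le_trans ?_ (le_order_pow k)
    rw [nsmul_eq_mul]
    calc (k : ℕ∞) = k * 1 := (mul_one _).symm
      _ ≤ _ := mul_le_mul_right (uc_one_le_order (by simp)) _
  refine coeff_of_lt_order (lt_of_lt_of_le ?_ ((add_le_add h2 h1).trans le_order_mul))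
  rw [uc_degree3]
  norm_cast
  omega

/-- the coefficient of a cocycle vanishing below degree `N` composed with the law. -/
theorem uc_coeff_left {p n : ℕ} [Fact p.Prime] (hn : 1 ≤ n)
    (hlead : HasLead p (p ^ n) (-1) (Γ.toPowerSeries - (X 0 : MvPowerSeries (Fin 2) κ) - X 1))
    {D : MvPowerSeries (Fin 2) κ} {N : ℕ}
    (hD : ∀ i j : ℕ, i + j < N → coeff (Finsupp.single 0 i + Finsupp.single 1 j) D = 0)
    (e : Fin 3 →₀ ℕ) (he : e 0 + e 1 + e 2 = N) :
    coeff e (D.subst ![Γ.toPowerSeries.subst ![(X 0 : MvPowerSeries (Fin 3) κ), X 1], X 2]) =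
      coeff (Finsupp.single 0 (e 0 + e 1) + Finsupp.single 1 (e 2)) D *
        ((e 0 + e 1).choose (e 0) : κ) := by
  have hprod : ∀ d : Fin 2 →₀ ℕ, (d.prod fun s k =>
      (![Γ.toPowerSeries.subst ![(X 0 : MvPowerSeries (Fin 3) κ), X 1], X 2] s) ^ k) =
      (Γ.toPowerSeries.subst ![(X 0 : MvPowerSeries (Fin 3) κ), X 1]) ^ (d 0) * X 2 ^ (d 1) := by
    intro d
    rw [Finsupp.prod_fintype _ _ (by simp), Fin.prod_univ_two]
    rfl
  rw [coeff_subst uc_hasSubst_left,
    finsum_eq_single _ (Finsupp.single 0 (e 0 + e 1) + Finsupp.single 1 (e 2))]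
  · rw [hprod, smul_eq_mul, uc_coeff_gamma_left hn hlead _ _ _ (by simp), if_pos (by simp)]
    simp
  · intro d hd
    by_cases hdN : d 0 + d 1 < N
    · have := hD _ _ hdN
      rw [uc_exp2] at this
      rw [this, zero_smul]
    · rw [hprod, uc_coeff_gamma_left hn hlead _ _ _ (by omega), if_neg, smul_zero]
      rintro ⟨h1, h2⟩
      apply hd
      rw [h1, h2, uc_exp2]

theorem uc_coeff_right {p n : ℕ} [Fact p.Prime] (hn : 1 ≤ n)
    (hlead : HasLead p (p ^ n) (-1) (Γ.toPowerSeries - (X 0 : MvPowerSeries (Fin 2) κ) - X 1))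
    {D : MvPowerSeries (Fin 2) κ} {N : ℕ}
    (hD : ∀ i j : ℕ, i + j < N → coeff (Finsupp.single 0 i + Finsupp.single 1 j) D = 0)
    (e : Fin 3 →₀ ℕ) (he : e 0 + e 1 + e 2 = N) :
    coeff e (D.subst ![(X 0 : MvPowerSeries (Fin 3) κ),
      Γ.toPowerSeries.subst ![(X 1 : MvPowerSeries (Fin 3) κ), X 2]]) =
      coeff (Finsupp.single 0 (e 0) + Finsupp.single 1 (e 1 + e 2)) D *
        ((e 1 + e 2).choose (e 1) : κ) := by
  have hprod : ∀ d : Fin 2 →₀ ℕ, (d.prod fun s k =>
      (![(X 0 : MvPowerSeries (Fin 3) κ),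
        Γ.toPowerSeries.subst ![(X 1 : MvPowerSeries (Fin 3) κ), X 2]] s) ^ k) =
      X 0 ^ (d 0) * (Γ.toPowerSeries.subst ![(X 1 : MvPowerSeries (Fin 3) κ), X 2]) ^ (d 1) := by
    intro d
    rw [Finsupp.prod_fintype _ _ (by simp), Fin.prod_univ_two]
    rfl
  rw [coeff_subst uc_hasSubst_right,
    finsum_eq_single _ (Finsupp.single 0 (e 0) + Finsupp.single 1 (e 1 + e 2))]
  · rw [hprod, smul_eq_mul, uc_coeff_gamma_right hn hlead _ _ _ (by simp; omega),
      if_pos (by simp)]
    simp
  · intro d hd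
    by_cases hdN : d 0 + d 1 < N
    · have := hD _ _ hdN
      rw [uc_exp2] at this
      rw [this, zero_smul]
    · rw [hprod, uc_coeff_gamma_right hn hlead _ _ _ (by omega), if_neg, smul_zero]
      rintro ⟨h1, h2⟩
      apply hd
      rw [h1, h2, uc_exp2]

/-- a series in the variables `s`, `t` has no monomials involving a third variable. -/
theorem uc_coeff_XX {σ : Type*} (s t u : σ) (hs : u ≠ s) (ht : u ≠ t)
    (D : MvPowerSeries (Fin 2) κ) (e : σ →₀ ℕ) (he : e u ≠ 0) :
    coeff e (D.subst ![(X s : MvPowerSeries σ κ), X t]) = 0 := by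
  classical
  rw [coeff_subst HasSubst.X_X]
  refine finsum_eq_zero_of_forall_eq_zero fun d => ?_
  rw [Finsupp.prod_fintype _ _ (by simp), Fin.prod_univ_two]
  have : coeff e ((X s : MvPowerSeries σ κ) ^ (d 0) * X t ^ (d 1)) = 0 := by
    rw [X_pow_eq, X_pow_eq, monomial_mul_monomial, coeff_monomial, if_neg]
    intro h
    apply he
    rw [h]
    simp [hs, ht]
  refine (congrArg (fun x => coeff d D • x) this).trans (smul_zero _)

theorem uc_exists_lead {p n : ℕ} [Fact p.Prime] [CharP κ p] (hn : 1 ≤ n)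
    (hlead : HasLead p (p ^ n) (-1) (Γ.toPowerSeries - (X 0 : MvPowerSeries (Fin 2) κ) - X 1))
    {D : MvPowerSeries (Fin 2) κ} (hDc : IsCocycle Γ D) {N : ℕ} (hN : 2 ≤ N)
    (hD : ∀ i j : ℕ, i + j < N → coeff (Finsupp.single 0 i + Finsupp.single 1 j) D = 0) :
    ∃ c : κ, HasLead p N c D := by
  have hsymm : ∀ i, 1 ≤ i → i < N →
      coeff (Finsupp.single 0 i + Finsupp.single 1 (N - i)) D =
        coeff (Finsupp.single 0 (N - i) + Finsupp.single 1 (N - (N - i))) D := by
    intro i hi hiN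
    rw [hDc.symm, Nat.sub_sub_self hiN.le]
  have hcoc : ∀ i j k, 1 ≤ i → 1 ≤ j → 1 ≤ k → i + j + k = N →
      coeff (Finsupp.single 0 i + Finsupp.single 1 (N - i)) D * ((j + k).choose j : κ) =
        coeff (Finsupp.single 0 (i + j) + Finsupp.single 1 (N - (i + j))) D *
          ((i + j).choose i : κ) := by
    intro i j k hi hj hk hijk
    let e : Fin 3 →₀ ℕ := Finsupp.single 0 i + Finsupp.single 1 j + Finsupp.single 2 k
    have e0 : e 0 = i := by simp [e]
    have e1 : e 1 = j := by simp [e]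
    have e2 : e 2 = k := by simp [e]
    have h := congrArg (coeff e) hDc.cocycle
    rw [map_zero, map_sub, map_add, map_sub,
      uc_coeff_left hn hlead hD e (by rw [e0, e1, e2, hijk]),
      uc_coeff_right hn hlead hD e (by rw [e0, e1, e2, hijk]),
      uc_coeff_XX 1 2 0 (by decide) (by decide) D e (by rw [e0]; omega),
      uc_coeff_XX 0 1 2 (by decide) (by decide) D e (by rw [e2]; omega), e0, e1, e2] at h
    have e3 : N - i = j + k := by omega
    have e4 : N - (i + j) = k := by omega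
    rw [e3, e4]
    linear_combination h
  obtain ⟨c, hc⟩ := lazard_lemma (κ := κ) p N hN
    (fun i => coeff (Finsupp.single 0 i + Finsupp.single 1 (N - i)) D) hsymm hcoc
  refine ⟨c, hD, fun i j hi hj hij => ?_⟩
  rw [← hc i hi (by omega), ← hij, Nat.add_sub_cancel_left]

end CocLead

section CocIdx

open Classical in
/-- the degree of the cocycle attached to the coefficient of `X^m`. -/
noncomputable def ucIdx (p n m : ℕ) : ℕ := if ∃ r, m = p ^ r then p ^ n * m else m

theorem uc_idx_pow (p n r : ℕ) : ucIdx p n (p ^ r) = p ^ (n + r) := by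
  rw [ucIdx, if_pos ⟨r, rfl⟩, pow_add]

theorem uc_idx_not {p m : ℕ} (n : ℕ) (h : ¬ ∃ r, m = p ^ r) : ucIdx p n m = m := by
  rw [ucIdx, if_neg h]

theorem uc_idx_inj {p : ℕ} (hp : p.Prime) (n : ℕ) : Function.Injective (ucIdx p n) := by
  intro m m' h
  by_cases hm : ∃ r, m = p ^ r
  · obtain ⟨r, rfl⟩ := hm
    rw [uc_idx_pow] at h
    by_cases hm' : ∃ r, m' = p ^ r
    · obtain ⟨r', rfl⟩ := hm'
      rw [uc_idx_pow] at h
      have := Nat.pow_right_injective hp.two_le h
      congr 1
      omega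
    · rw [uc_idx_not n hm'] at h
      exact (hm' ⟨_, h.symm⟩).elim
  · rw [uc_idx_not n hm] at h
    by_cases hm' : ∃ r, m' = p ^ r
    · obtain ⟨r', rfl⟩ := hm'
      rw [uc_idx_pow] at h
      exact (hm ⟨_, h⟩).elim
    · rw [uc_idx_not n hm'] at h
      exact h

theorem uc_idx_ne {p : ℕ} (hp : p.Prime) {n : ℕ} (i : Fin (n - 1)) (m : ℕ) :
    p ^ ((i : ℕ) + 1) ≠ ucIdx p n m := by
  intro h
  by_cases hm : ∃ r, m = p ^ r
  · obtain ⟨r, rfl⟩ := hm
    rw [uc_idx_pow] at h
    have h1 := Nat.pow_right_injective hp.two_le h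
    have h2 := i.2
    omega
  · rw [uc_idx_not n hm] at h
    exact hm ⟨_, h.symm⟩

theorem uc_two_le_idx {p : ℕ} (hp : p.Prime) {n : ℕ} (hn : 1 ≤ n) {m : ℕ} (hm : m ≠ 0) :
    2 ≤ ucIdx p n m := by
  by_cases h : ∃ r, m = p ^ r
  · obtain ⟨r, rfl⟩ := h
    rw [uc_idx_pow]
    exact hp.two_le.trans (Nat.le_self_pow (by omega) p)
  · rw [uc_idx_not n h]
    by_contra h2
    exact h ⟨0, by rw [pow_zero]; omega⟩

end CocIdx

section CocMain

variable {κ : Type*} [Field κ] {Γ : FormalGroup κ}

/-- the combination attached to a sequence of coefficients -/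
noncomputable def ucC (p n : ℕ) (a : ℕ → κ) : Fin (n - 1) → κ := fun i => a (p ^ ((i : ℕ) + 1))

/-- the coboundary part attached to a sequence of coefficients -/
noncomputable def ucChi (p n : ℕ) (a : ℕ → κ) : PowerSeries κ :=
  PowerSeries.mk fun m => if m = 0 then 0 else a (ucIdx p n m)

/-- the cocycle attached to a sequence of coefficients -/
noncomputable def ucPhi (p n : ℕ) (Γ : FormalGroup κ)
    (Δ : Fin (n - 1) → MvPowerSeries (Fin 2) κ) (a : ℕ → κ) : MvPowerSeries (Fin 2) κ :=
  ∑ i, MvPowerSeries.C (ucC p n a i) * Δ i + cobd Γ (ucChi p n a)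

theorem uc_cobd_add (χ ξ : PowerSeries κ) : cobd Γ (χ + ξ) = cobd Γ χ + cobd Γ ξ := by
  rw [cobd, cobd, cobd, PowerSeries.subst_add (hasSubst_of_cc (by simp)),
    PowerSeries.subst_add (hasSubst_of_cc (by simp)),
    PowerSeries.subst_add (hasSubst_of_cc Γ.zero_constantCoeff)]
  ring

theorem uc_cobd_sub (χ ξ : PowerSeries κ) : cobd Γ (χ - ξ) = cobd Γ χ - cobd Γ ξ := by
  rw [cobd, cobd, cobd, PowerSeries.subst_sub (hasSubst_of_cc (by simp)),
    PowerSeries.subst_sub (hasSubst_of_cc (by simp)),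
    PowerSeries.subst_sub (hasSubst_of_cc Γ.zero_constantCoeff)]
  ring

theorem uc_phi_add (p n : ℕ) (Δ : Fin (n - 1) → MvPowerSeries (Fin 2) κ) (a b : ℕ → κ) :
    ucPhi p n Γ Δ (a + b) = ucPhi p n Γ Δ a + ucPhi p n Γ Δ b := by
  have h1 : ucChi p n (a + b) = ucChi p n a + ucChi p n b := by
    ext m
    simp only [ucChi, map_add, PowerSeries.coeff_mk, Pi.add_apply]
    split_ifs <;> simp
  have h2 : ∀ i, ucC p n (a + b) i = ucC p n a i + ucC p n b i := fun i => rfl
  simp only [ucPhi, h1, h2, uc_cobd_add, map_add, add_mul, Finset.sum_add_distrib]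
  ring

theorem uc_cc_chi (p n : ℕ) (a : ℕ → κ) : PowerSeries.constantCoeff (ucChi p n a) = 0 := by
  rw [← PowerSeries.coeff_zero_eq_constantCoeff_apply, ucChi, PowerSeries.coeff_mk, if_pos rfl]

theorem uc_phi_isCocycle {p n : ℕ} (hcomm : Γ.IsComm) (Δ : Fin (n - 1) → MvPowerSeries (Fin 2) κ)
    (hΔ : ∀ i, IsCocycle Γ (Δ i)) (a : ℕ → κ) : IsCocycle Γ (ucPhi p n Γ Δ a) :=
  uc_add (uc_sum _ fun i => uc_smul _ (hΔ i)) (uc_cobd hcomm (uc_cc_chi p n a))

/-- the leading form of the cocycle attached to a sequence. -/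
theorem uc_phi_lead {p n : ℕ} [Fact p.Prime] [CharP κ p] (hn : 1 ≤ n)
    (hlead : HasLead p (p ^ n) (-1) (Γ.toPowerSeries - (X 0 : MvPowerSeries (Fin 2) κ) - X 1))
    (Δ : Fin (n - 1) → MvPowerSeries (Fin 2) κ)
    (lam : Fin (n - 1) → κ) (hlam : ∀ i, lam i ≠ 0)
    (hΔl : ∀ i : Fin (n - 1), HasLead p (p ^ ((i : ℕ) + 1)) (lam i) (Δ i)) (N : ℕ) :
    ∃ s : κ, s ≠ 0 ∧ ∀ a : ℕ → κ, (∀ M < N, a M = 0) →
      HasLead p N (s * a N) (ucPhi p n Γ Δ a) := by
  have hp : p.Prime := Fact.out
  -- vanishing of the individual terms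
  have hE : ∀ m : ℕ, ∀ i j : ℕ, i + j < ucIdx p n m →
      coeff (Finsupp.single 0 i + Finsupp.single 1 j) (ucE Γ m) = 0 := by
    intro m
    by_cases hm : ∃ r, m = p ^ r
    · obtain ⟨r, rfl⟩ := hm
      rw [uc_idx_pow]
      exact (uc_E_lead_pow hn hlead r).1
    · rw [uc_idx_not n hm]
      exact (uc_E_lead_not hn hlead m hm).1
  have hco : ∀ (a : ℕ → κ) (d : Fin 2 →₀ ℕ), coeff d (ucPhi p n Γ Δ a) =
      ∑ i : Fin (n - 1), a (p ^ ((i : ℕ) + 1)) * coeff d (Δ i) +
        ∑ᶠ m : ℕ, (if m = 0 then 0 else a (ucIdx p n m)) * coeff d (ucE Γ m) := by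
    intro a d
    rw [ucPhi, map_add, map_sum, uc_coeff_cobd]
    congr 1
    · refine Finset.sum_congr rfl fun i _ => ?_
      rw [coeff_C_mul]
      rfl
    · refine finsum_congr fun m => ?_
      rw [ucChi, PowerSeries.coeff_mk]
  -- the terms which can contribute
  have t1 : ∀ (a : ℕ → κ), (∀ M < N, a M = 0) → ∀ i j : ℕ, i + j ≤ N → ∀ k : Fin (n - 1),
      (p ^ ((k : ℕ) + 1) = N → i + j < N) → a (p ^ ((k : ℕ) + 1)) *
        coeff (Finsupp.single 0 i + Finsupp.single 1 j) (Δ k) = 0 := by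
    intro a ha i j hij k hk
    rcases lt_trichotomy (p ^ ((k : ℕ) + 1)) N with h | h | h
    · rw [ha _ h, zero_mul]
    · rw [(hΔl k).1 i j (by rw [h]; exact hk h), mul_zero]
    · rw [(hΔl k).1 i j (by omega), mul_zero]
  have t2 : ∀ (a : ℕ → κ), (∀ M < N, a M = 0) → ∀ i j : ℕ, i + j ≤ N → ∀ m : ℕ,
      (ucIdx p n m = N → i + j < N) → (if m = 0 then 0 else a (ucIdx p n m)) *
        coeff (Finsupp.single 0 i + Finsupp.single 1 j) (ucE Γ m) = 0 := by
    intro a ha i j hij m hm
    split_ifs with h0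
    · exact zero_mul _
    rcases lt_trichotomy (ucIdx p n m) N with h | h | h
    · rw [ha _ h, zero_mul]
    · rw [hE m i j (by rw [h]; exact hm h), mul_zero]
    · rw [hE m i j (by omega), mul_zero]
  have hlow : ∀ (a : ℕ → κ), (∀ M < N, a M = 0) → ∀ i j : ℕ, i + j < N →
      coeff (Finsupp.single 0 i + Finsupp.single 1 j) (ucPhi p n Γ Δ a) = 0 := by
    intro a ha i j hij
    rw [hco, Finset.sum_eq_zero fun k _ => t1 a ha i j hij.le k fun _ => hij,
      finsum_eq_zero_of_forall_eq_zero fun m => t2 a ha i j hij.le m fun _ => hij, add_zero]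
  by_cases hA : ∃ i : Fin (n - 1), N = p ^ ((i : ℕ) + 1)
  · obtain ⟨i0, hi0⟩ := hA
    refine ⟨lam i0, hlam i0, fun a ha => ⟨hlow a ha, fun i j hi hj hij => ?_⟩⟩
    rw [hco, finsum_eq_zero_of_forall_eq_zero fun m => t2 a ha i j hij.le m
      fun h => (uc_idx_ne hp i0 m (hi0.symm.trans h.symm)).elim, add_zero,
      Finset.sum_eq_single i0]
    · rw [← hi0, (hΔl i0).2 i j hi hj (by rw [hij, hi0]), ← hi0]
      ring
    · intro k _ hk
      refine t1 a ha i j hij.le k fun h => ?_
      exfalso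
      apply hk
      have := Nat.pow_right_injective hp.two_le (h.trans hi0)
      ext
      omega
    · intro h
      exact (h (Finset.mem_univ _)).elim
  · have t3 : ∀ (a : ℕ → κ), (∀ M < N, a M = 0) → ∀ i j : ℕ, i + j ≤ N →
        ∑ k : Fin (n - 1), a (p ^ ((k : ℕ) + 1)) *
          coeff (Finsupp.single 0 i + Finsupp.single 1 j) (Δ k) = 0 := by
      intro a ha i j hij
      exact Finset.sum_eq_zero fun k _ => t1 a ha i j hij k fun h => (hA ⟨k, h.symm⟩).elim
    -- a single value of `m` contributes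
    have t4 : ∀ (m0 : ℕ) (s : κ), m0 ≠ 0 → ucIdx p n m0 = N → HasLead p N s (ucE Γ m0) →
        s ≠ 0 → ∃ s : κ, s ≠ 0 ∧ ∀ a : ℕ → κ, (∀ M < N, a M = 0) →
      HasLead p N (s * a N) (ucPhi p n Γ Δ a) := by
      intro m0 s hm0 hm0N hs hs0
      refine ⟨s, hs0, fun a ha => ⟨hlow a ha, fun i j hi hj hij => ?_⟩⟩
      rw [hco, t3 a ha i j hij.le, zero_add, finsum_eq_single _ m0]
      · rw [if_neg hm0, hm0N, hs.2 i j hi hj hij]
        ring
      · intro m hm
        refine t2 a ha i j hij.le m fun h => ?_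
        exact (hm (uc_idx_inj hp n (h.trans hm0N.symm))).elim
    by_cases hB : ∃ r, N = p ^ r
    · obtain ⟨r, hr⟩ := hB
      by_cases hrn : n ≤ r
      · obtain ⟨j, rfl⟩ := Nat.exists_eq_add_of_le hrn
        refine t4 (p ^ j) 1 (pow_ne_zero _ hp.ne_zero) ?_ ?_ one_ne_zero
        · rw [uc_idx_pow, hr]
        · rw [hr]
          exact uc_E_lead_pow hn hlead j
      · -- `N = 1`
        have hr0 : r = 0 := by
          by_contra h
          exact hA ⟨⟨r - 1, by omega⟩, by rw [hr]; congr 1; simp only; omega⟩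
        refine ⟨1, one_ne_zero, fun a ha => ⟨hlow a ha, fun i j hi hj hij => ?_⟩⟩
        rw [hr, hr0, pow_zero] at hij
        omega
    · rcases Nat.eq_zero_or_pos N with hN | hN
      · refine ⟨1, one_ne_zero, fun a ha => ⟨hlow a ha, fun i j hi hj hij => ?_⟩⟩
        omega
      · exact t4 N (-1) hN.ne' (uc_idx_not n hB) (uc_E_lead_not hn hlead N hB)
          (neg_ne_zero.mpr one_ne_zero)

theorem uc_rec (G : ℕ → (ℕ → κ) → κ) :
    ∃ a : ℕ → κ, ∀ N, a N = G N (fun M => if M < N then a M else 0) := by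
  let F : (N : ℕ) → ((M : ℕ) → M < N → κ) → κ := fun N ih =>
    G N (fun M => if h : M < N then ih M h else 0)
  refine ⟨fun N => Nat.lt_wfRel.wf.fix F N, fun N => ?_⟩
  simp only
  rw [WellFounded.fix_eq]
  simp only [F]
  congr 1

/-- a cocycle vanishes in degrees `< 2`. -/
theorem uc_low {D : MvPowerSeries (Fin 2) κ} (hD : IsCocycle Γ D) (i j : ℕ)
    (h : i = 0 ∨ j = 0) : coeff (Finsupp.single 0 i + Finsupp.single 1 j) D = 0 := by
  rcases h with rfl | rfl
  · rw [hD.symm, Finsupp.single_zero, add_zero, hD.zero]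
  · rw [Finsupp.single_zero, add_zero, hD.zero]

set_option linter.unusedVariables false in
/-- 27c decomposition of symmetric cocycles. -/
theorem cocycle_decomp (p n : ℕ) [Fact p.Prime] [CharP κ p] (hn : 1 ≤ n)
    (Γ : FormalGroup κ) (hcomm : Γ.IsComm)
    (hfrob : ∀ m, coeff m Γ.toPowerSeries ^ p = coeff m Γ.toPowerSeries)
    (hlead : HasLead p (p ^ n) (-1)
      (Γ.toPowerSeries - (X 0 : MvPowerSeries (Fin 2) κ) - X 1))
    (Δ : Fin (n - 1) → MvPowerSeries (Fin 2) κ) (hΔ : ∀ i, IsCocycle Γ (Δ i))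
    (lam : Fin (n - 1) → κ) (hlam : ∀ i, lam i ≠ 0)
    (hΔl : ∀ i : Fin (n - 1), HasLead p (p ^ ((i : ℕ) + 1)) (lam i) (Δ i))
    (D : MvPowerSeries (Fin 2) κ) (hD : IsCocycle Γ D) :
    ∃! x : (Fin (n - 1) → κ) × PowerSeries κ, PowerSeries.constantCoeff x.2 = 0 ∧
      D = ∑ i, MvPowerSeries.C (x.1 i) * Δ i + cobd Γ x.2 := by
  classical
  have hp : p.Prime := Fact.out
  have hI : ∀ N : ℕ, ∃ i, 2 ≤ N → 1 ≤ i ∧ i < N ∧ (cbar p N i : κ) ≠ 0 := by
    intro N
    by_cases hN : 2 ≤ N
    · obtain ⟨i, hi⟩ := exists_cbar_ne_zero (κ := κ) p N hN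
      exact ⟨i, fun _ => hi⟩
    · exact ⟨0, fun h => (hN h).elim⟩
  choose I hI using hI
  choose s hs0 hs using uc_phi_lead hn hlead Δ lam hlam hΔl
  -- existence
  have hex : ∃ a : ℕ → κ, D = ucPhi p n Γ Δ a := by
    let e : ℕ → Fin 2 →₀ ℕ := fun N => Finsupp.single 0 (I N) + Finsupp.single 1 (N - I N)
    obtain ⟨a, ha⟩ := uc_rec (fun N b => if N < 2 then (0 : κ) else
      (coeff (e N) D - coeff (e N) (ucPhi p n Γ Δ b)) / (s N * (cbar p N (I N) : κ)))
    refine ⟨a, ?_⟩
    rw [← sub_eq_zero]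
    have hE : IsCocycle Γ (D - ucPhi p n Γ Δ a) := uc_sub hD (uc_phi_isCocycle hcomm Δ hΔ a)
    have hv : ∀ N : ℕ, ∀ i j : ℕ, i + j < N →
        coeff (Finsupp.single 0 i + Finsupp.single 1 j) (D - ucPhi p n Γ Δ a) = 0 := by
      intro N
      induction N with
      | zero => intro i j h; omega
      | succ N ih =>
        intro i j hij
        rcases Nat.lt_succ_iff_lt_or_eq.mp hij with h | h
        · exact ih i j h
        by_cases hij0 : i = 0 ∨ j = 0
        · exact uc_low hE i j hij0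
        have hN : 2 ≤ N := by omega
        obtain ⟨c, hc⟩ := uc_exists_lead hn hlead hE hN ih
        obtain ⟨hI1, hI2, hI3⟩ := hI N hN
        have e1 := hc.2 (I N) (N - I N) hI1 (by omega) (by omega)
        -- split the sequence
        let b : ℕ → κ := fun M => if M < N then a M else 0
        let b' : ℕ → κ := fun M => if M < N then 0 else a M
        have hb : a = b + b' := by
          funext M
          simp only [b, b', Pi.add_apply]
          split_ifs <;> simp
        have e2 := (hs N b' (fun M hM => if_pos hM)).2 (I N) (N - I N) hI1 (by omega) (by omega)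
        have e3 : b' N = a N := if_neg (lt_irrefl N)
        have e4 := ha N
        rw [if_neg (by omega), eq_div_iff (mul_ne_zero (hs0 N) hI3)] at e4
        have e5 : coeff (e N) (ucPhi p n Γ Δ a) =
            coeff (e N) (ucPhi p n Γ Δ b) + coeff (e N) (ucPhi p n Γ Δ b') := by
          rw [← map_add, ← uc_phi_add, ← hb]
        rw [e3] at e2
        change coeff (e N) (ucPhi p n Γ Δ b') = _ at e2
        change coeff (e N) _ = _ at e1
        rw [map_sub, e5, e2] at e1
        have e6 : c * (cbar p N (I N) : κ) = 0 := by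
          rw [← e1]
          change a N * (s N * (cbar p N (I N) : κ)) = coeff (e N) D - coeff (e N)
            (ucPhi p n Γ Δ b) at e4
          linear_combination -e4
        have hc0 : c = 0 := (mul_eq_zero.mp e6).resolve_right hI3
        rw [hc.2 i j (by omega) (by omega) h, hc0, zero_mul]
    ext d
    rw [map_zero, ← uc_exp2 d]
    exact hv _ _ _ (Nat.lt_succ_self _)
  obtain ⟨a, ha⟩ := hex
  refine ⟨(ucC p n a, ucChi p n a), ⟨uc_cc_chi p n a, ha⟩, ?_⟩
  -- uniqueness
  rintro ⟨c, χ⟩ ⟨hχ, hc⟩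
  simp only at hχ hc
  let g : Fin (n - 1) ⊕ {m : ℕ // m ≠ 0} → ℕ :=
    Sum.elim (fun i => p ^ ((i : ℕ) + 1)) (fun m => ucIdx p n m)
  have hg : Function.Injective g := by
    rintro (i | m) (i' | m') h
    · have := Nat.pow_right_injective hp.two_le (show p ^ ((i : ℕ) + 1) = p ^ ((i' : ℕ) + 1) from h)
      congr 1
      ext
      omega
    · exact (uc_idx_ne hp i m' h).elim
    · exact (uc_idx_ne hp i' m h.symm).elim
    · congr 1
      ext
      exact uc_idx_inj hp n h
  let f : Fin (n - 1) ⊕ {m : ℕ // m ≠ 0} → κ :=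
    Sum.elim (fun i => c i - ucC p n a i) (fun m => PowerSeries.coeff m (χ - ucChi p n a))
  let b : ℕ → κ := Function.extend g f 0
  have hb : ∀ x, b (g x) = f x := fun x => hg.extend_apply f 0 x
  have hb1 : ucC p n b = c - ucC p n a := by
    funext i
    exact hb (Sum.inl i)
  have hb2 : ucChi p n b = χ - ucChi p n a := by
    ext m
    by_cases hm : m = 0
    · rw [hm, PowerSeries.coeff_zero_eq_constantCoeff_apply,
        PowerSeries.coeff_zero_eq_constantCoeff_apply, uc_cc_chi, map_sub, uc_cc_chi, hχ, sub_zero]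
    · rw [ucChi, PowerSeries.coeff_mk, if_neg hm]
      exact hb (Sum.inr ⟨m, hm⟩)
  have hb3 : ucPhi p n Γ Δ b = 0 := by
    rw [ucPhi, hb1, hb2, uc_cobd_sub]
    have h1 := hc.symm.trans ha
    rw [ucPhi] at h1
    simp only [Pi.sub_apply, map_sub, sub_mul, Finset.sum_sub_distrib]
    linear_combination h1
  have hb4 : ∀ N, ∀ M < N, b M = 0 := by
    intro N
    induction N with
    | zero => intro M h; omega
    | succ N ih =>
      intro M hM
      rcases Nat.lt_succ_iff_lt_or_eq.mp hM with h | h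
      · exact ih M h
      subst h
      by_cases hN : 2 ≤ M
      · obtain ⟨hI1, hI2, hI3⟩ := hI M hN
        have e1 := (hs M b ih).2 (I M) (M - I M) hI1 (by omega) (by omega)
        rw [hb3, map_zero] at e1
        have e2 := (mul_eq_zero.mp e1.symm).resolve_right hI3
        exact (mul_eq_zero.mp e2).resolve_left (hs0 M)
      · have hM0 : (Function.extend g f (0 : ℕ → κ)) M = (0 : ℕ → κ) M := by
          refine Function.extend_apply' f (0 : ℕ → κ) M ?_
          rintro ⟨i | m, h⟩
          · have h1 : p ^ 1 ≤ p ^ ((i : ℕ) + 1) := Nat.pow_le_pow_right hp.pos (by omega)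
            have h2 : p ^ ((i : ℕ) + 1) = M := h
            have := hp.two_le
            rw [pow_one] at h1
            omega
          · have h2 : ucIdx p n m = M := h
            have := uc_two_le_idx hp hn m.2
            omega
        exact hM0
  have hb5 : b = 0 := funext fun M => hb4 (M + 1) M (Nat.lt_succ_self M)
  have h1 : c = ucC p n a := by
    rw [← sub_eq_zero, ← hb1, hb5]
    rfl
  have h2 : χ = ucChi p n a := by
    rw [← sub_eq_zero, ← hb2, hb5]
    ext m
    simp [ucChi]
  rw [h1, h2]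

end CocMain

end Vale.Agent.P217
end
end

section

section

/-!
# P217 (27a3): the leading term of the Honda formal group law
-/

namespace Vale.Agent.P217

open MvPowerSeries Finsupp

section Lead

variable {p n : ℕ} [Fact p.Prime]

theorem ulead_coeff_pow {τ L : Type*} [CommRing L] {A : MvPowerSeries τ L}
    (hA : constantCoeff A = 0) {e : τ →₀ ℕ} {k : ℕ} (he : degree e < k) : coeff e (A ^ k) = 0 :=
  coeff_eq_zero_of_constantCoeff_nilpotent (m := 1) (by rw [hA]; simp) (by omega)

theorem ulead_log_lt {τ : Type*} (hn : 1 ≤ n) {A : MvPowerSeries τ ℚ_[p]}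
    (hA : constantCoeff A = 0) {e : τ →₀ ℕ} (he : degree e < p ^ n) :
    coeff e (PowerSeries.subst A (hondaLog p n) : MvPowerSeries τ ℚ_[p]) = coeff e A := by
  have hq := two_le_q (p := p) hn
  rw [hondaLog_eq, coeff_subst_lser' hq _ (by simp) hA, Finset.sum_eq_zero, add_zero]
  intro i _
  have h1 : p ^ n ≤ (p ^ n) ^ (i + 1) := Nat.le_self_pow (Nat.succ_ne_zero i) _
  rw [ulead_coeff_pow hA (by omega), mul_zero]

theorem ulead_log_eq {τ : Type*} (hn : 1 ≤ n) {A : MvPowerSeries τ ℚ_[p]}
    (hA : constantCoeff A = 0) {e : τ →₀ ℕ} (he : degree e = p ^ n) :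
    coeff e (PowerSeries.subst A (hondaLog p n) : MvPowerSeries τ ℚ_[p]) =
      coeff e A + (p : ℚ_[p])⁻¹ * coeff e (A ^ (p ^ n)) := by
  have hq := two_le_q (p := p) hn
  rw [hondaLog_eq, coeff_subst_lser' hq _ (by simp) hA,
    Finset.sum_eq_single_of_mem 0 (Finset.mem_range.mpr (by omega))]
  · simp
  · intro i _ hi
    have h1 : (p ^ n) ^ 1 < (p ^ n) ^ (i + 1) := Nat.pow_lt_pow_right (by omega) (by omega)
    rw [pow_one] at h1
    rw [ulead_coeff_pow hA (by omega), mul_zero]

theorem ulead_degree (i j : ℕ) :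
    degree (Finsupp.single (0 : Fin 2) i + Finsupp.single 1 j) = i + j := by
  simp

theorem ulead_coeff_X0 {L : Type*} [CommRing L] {i j : ℕ} (hj : 1 ≤ j) :
    coeff (Finsupp.single (0 : Fin 2) i + Finsupp.single 1 j) (X 0 : MvPowerSeries (Fin 2) L) =
      0 := by
  classical
  rw [coeff_X, if_neg]
  intro h
  have := DFunLike.congr_fun h 1
  simp at this
  omega

theorem ulead_coeff_X1 {L : Type*} [CommRing L] {i j : ℕ} (hi : 1 ≤ i) :
    coeff (Finsupp.single (0 : Fin 2) i + Finsupp.single 1 j) (X 1 : MvPowerSeries (Fin 2) L) =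
      0 := by
  classical
  rw [coeff_X, if_neg]
  intro h
  have := DFunLike.congr_fun h 0
  simp at this
  omega

theorem ulead_coeff_X0_pow {L : Type*} [CommRing L] {i j k : ℕ} (hj : 1 ≤ j) :
    coeff (Finsupp.single (0 : Fin 2) i + Finsupp.single 1 j)
      ((X 0 : MvPowerSeries (Fin 2) L) ^ k) = 0 := by
  classical
  rw [X_pow_eq, coeff_monomial, if_neg]
  intro h
  have := DFunLike.congr_fun h 1
  simp at this
  omega

theorem ulead_coeff_X1_pow {L : Type*} [CommRing L] {i j k : ℕ} (hi : 1 ≤ i) :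
    coeff (Finsupp.single (0 : Fin 2) i + Finsupp.single 1 j)
      ((X 1 : MvPowerSeries (Fin 2) L) ^ k) = 0 := by
  classical
  rw [X_pow_eq, coeff_monomial, if_neg]
  intro h
  have := DFunLike.congr_fun h 0
  simp at this
  omega

theorem ulead_coeff_add_pow {L : Type*} [CommRing L] (i j : ℕ) :
    coeff (Finsupp.single (0 : Fin 2) i + Finsupp.single 1 j)
      ((X 0 + X 1 : MvPowerSeries (Fin 2) L) ^ (i + j)) = ((i + j).choose i : L) := by
  classical
  rw [add_pow, map_sum, Finset.sum_eq_single_of_mem i (Finset.mem_range.mpr (by omega))]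
  · rw [X_pow_eq, X_pow_eq, monomial_mul_monomial, one_mul, Nat.add_sub_cancel_left,
      ← Nat.cast_comm, ← nsmul_eq_mul, map_nsmul, coeff_monomial, if_pos rfl, nsmul_eq_mul,
      mul_one]
  · intro k _ hk
    rw [X_pow_eq, X_pow_eq, monomial_mul_monomial, one_mul, ← Nat.cast_comm, ← nsmul_eq_mul,
      map_nsmul, coeff_monomial, if_neg, smul_zero]
    intro h
    have := DFunLike.congr_fun h 0
    simp at this
    exact hk this.symm

variable (p n) in
/-- 27a3 -/
theorem IsHonda.hasLead (hn : 1 ≤ n) (Γ : FormalGroup (ZMod p)) (hΓ : IsHonda p n Γ) :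
    HasLead p (p ^ n) (-1) (Γ.toPowerSeries - (X 0 : MvPowerSeries (Fin 2) (ZMod p)) - X 1) := by
  classical
  obtain ⟨H, hH, hlog⟩ := hΓ
  have hq := two_le_q (p := p) hn
  have hp := (Fact.out : p.Prime)
  have hp0 : (p : ℚ_[p]) ≠ 0 := by exact_mod_cast hp.ne_zero
  set F : MvPowerSeries (Fin 2) ℚ_[p] := (H.map (algebraMap ℤ_[p] ℚ_[p])).toPowerSeries with hF
  have hF0 : constantCoeff F = 0 := (H.map (algebraMap ℤ_[p] ℚ_[p])).zero_constantCoeff
  have hcoe : Function.Injective (algebraMap ℤ_[p] ℚ_[p]) := Subtype.coe_injective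
  have hFH : ∀ e, coeff e F = algebraMap ℤ_[p] ℚ_[p] (coeff e H.toPowerSeries) := fun e => rfl
  have hΓH : ∀ e, coeff e Γ.toPowerSeries = PadicInt.toZMod (coeff e H.toPowerSeries) := by
    intro e
    rw [← hH]
    rfl
  have hlt : ∀ e : Fin 2 →₀ ℕ, degree e < p ^ n → coeff e F = coeff e (X 0 + X 1) := by
    intro e he
    have h := congrArg (coeff e) hlog
    rw [map_add, ulead_log_lt hn hF0 he, ulead_log_lt hn (constantCoeff_X 0) he,
      ulead_log_lt hn (constantCoeff_X 1) he] at h
    rw [h, map_add]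
  have hXm : ∀ e : Fin 2 →₀ ℕ, coeff e (X 0 + X 1 : MvPowerSeries (Fin 2) ℚ_[p]) =
      algebraMap ℤ_[p] ℚ_[p] (coeff e (X 0 + X 1 : MvPowerSeries (Fin 2) ℤ_[p])) := by
    intro e
    rw [← coeff_map, map_add (MvPowerSeries.map (σ := Fin 2) (algebraMap ℤ_[p] ℚ_[p])), map_X,
      map_X]
  have hXz : ∀ e : Fin 2 →₀ ℕ, coeff e (X 0 + X 1 : MvPowerSeries (Fin 2) (ZMod p)) =
      PadicInt.toZMod (coeff e (X 0 + X 1 : MvPowerSeries (Fin 2) ℤ_[p])) := by
    intro e
    rw [← coeff_map, map_add (MvPowerSeries.map (σ := Fin 2) (PadicInt.toZMod (p := p))), map_X,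
      map_X]
  refine ⟨fun i j hij => ?_, fun i j hi hj hij => ?_⟩
  · have h1 := hlt (Finsupp.single 0 i + Finsupp.single 1 j) (by rw [ulead_degree]; exact hij)
    rw [hFH, hXm] at h1
    have h2 := hcoe h1
    rw [sub_sub, map_sub, hΓH, h2, hXz, sub_self]
  · have hdeg : degree (Finsupp.single (0 : Fin 2) i + Finsupp.single 1 j) = p ^ n := by
      rw [ulead_degree]; exact hij
    have h := congrArg (coeff (Finsupp.single (0 : Fin 2) i + Finsupp.single 1 j)) hlog
    have hagree : AgreeLT (p ^ n) F (X 0 + X 1) := hlt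
    have hXX : constantCoeff (X 0 + X 1 : MvPowerSeries (Fin 2) ℚ_[p]) = 0 := by simp
    rw [map_add, ulead_log_eq hn hF0 hdeg, ulead_log_eq hn (constantCoeff_X 0) hdeg,
      ulead_log_eq hn (constantCoeff_X 1) hdeg,
      hagree.pow hF0 hXX hq _ (by rw [hdeg]; exact Nat.lt_succ_self _),
      ulead_coeff_X0 hj, ulead_coeff_X1 hi, ulead_coeff_X0_pow hj, ulead_coeff_X1_pow hi,
      mul_zero, add_zero, add_zero, ← hij, ulead_coeff_add_pow] at h
    have hdvd : p ∣ (i + j).choose i := by
      rw [hij]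
      exact hp.dvd_choose_pow (by omega) (by omega)
    obtain ⟨c, hc⟩ := hdvd
    have hcbar : cbar p (p ^ n) i = c := by
      rw [cbar, if_pos ⟨n, rfl⟩, ← hij, hc, Nat.mul_div_cancel_left _ hp.pos]
    have h3 : coeff (Finsupp.single (0 : Fin 2) i + Finsupp.single 1 j) F = -(c : ℚ_[p]) := by
      rw [hc, Nat.cast_mul, inv_mul_cancel_left₀ hp0] at h
      linear_combination h
    have h4 : coeff (Finsupp.single (0 : Fin 2) i + Finsupp.single 1 j) H.toPowerSeries =
        -(c : ℤ_[p]) := by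
      apply hcoe
      rw [← hFH, h3, map_neg, map_natCast]
    rw [map_sub, map_sub, hΓH, h4, ulead_coeff_X0 hj, ulead_coeff_X1 hi, sub_zero, sub_zero,
      map_neg, map_natCast, hcbar, neg_one_mul]

end Lead

end Vale.Agent.P217
end
end

section

section

/-!
# P217 (sanity part): existence of the Hazewinkel formal group law (functional equation lemma)
-/

namespace Vale.Agent.P217

open MvPowerSeries Finsupp

section HzLog

variable {τ L : Type*} [CommRing L]

/-- The coefficients of `g(A)`. -/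
theorem hz_coeff_subst (g : PowerSeries L) {A : MvPowerSeries τ L} (hA : constantCoeff A = 0)
    (e : τ →₀ ℕ) {M : ℕ} (hM : degree e < M) :
    coeff e (PowerSeries.subst A g : MvPowerSeries τ L) =
      ∑ m ∈ Finset.range M, PowerSeries.coeff m g * coeff e (A ^ m) := by
  have hs : PowerSeries.HasSubst A := PowerSeries.HasSubst.of_constantCoeff_zero hA
  rw [PowerSeries.coeff_subst hs, finsum_eq_sum_of_support_subset (s := Finset.range M)]
  · simp only [smul_eq_mul]
  · intro m hm
    rw [Function.mem_support] at hm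
    rw [Finset.coe_range, Set.mem_Iio]
    by_contra hi
    apply hm
    have h1 : coeff e (A ^ m) = 0 := by
      apply coeff_eq_zero_of_constantCoeff_nilpotent (m := 1) (by rw [hA]; simp)
      omega
    rw [h1, smul_zero]

/-- separating the first terms. -/
theorem hz_coeff_subst' (g : PowerSeries L) (h0 : PowerSeries.constantCoeff g = 0)
    (h1 : PowerSeries.coeff 1 g = 1) {A : MvPowerSeries τ L} (hA : constantCoeff A = 0)
    (e : τ →₀ ℕ) :
    coeff e (PowerSeries.subst A g : MvPowerSeries τ L) =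
      coeff e A + ∑ m ∈ Finset.range (degree e),
        PowerSeries.coeff (m + 2) g * coeff e (A ^ (m + 2)) := by
  rw [hz_coeff_subst g hA e (M := degree e + 2) (by omega), Finset.sum_range_succ',
    Finset.sum_range_succ', zero_add, h1, pow_one, one_mul,
    PowerSeries.coeff_zero_eq_constantCoeff_apply, h0, zero_mul, add_zero, add_comm]

/-- `g` is injective on series without constant term. -/
theorem hz_injective (g : PowerSeries L) (h0 : PowerSeries.constantCoeff g = 0)
    (h1 : PowerSeries.coeff 1 g = 1)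
    {A B : MvPowerSeries τ L} (hA : constantCoeff A = 0) (hB : constantCoeff B = 0)
    (h : (PowerSeries.subst A g : MvPowerSeries τ L) = PowerSeries.subst B g) :
    A = B := by
  have key : ∀ d : ℕ, AgreeLT d A B := by
    intro d
    induction d with
    | zero => intro e he; omega
    | succ d ih =>
      intro e he
      have h3 := congrArg (coeff e) h
      rw [hz_coeff_subst' g h0 h1 hA, hz_coeff_subst' g h0 h1 hB] at h3
      have h2 : ∑ m ∈ Finset.range (degree e),
            PowerSeries.coeff (m + 2) g * coeff e (A ^ (m + 2)) =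
          ∑ m ∈ Finset.range (degree e),
            PowerSeries.coeff (m + 2) g * coeff e (B ^ (m + 2)) := by
        refine Finset.sum_congr rfl (fun i _ => ?_)
        congr 1
        exact ih.pow hA hB (by omega) e he
      rw [h2] at h3
      exact add_right_cancel h3
  ext e
  exact key (degree e + 1) e (Nat.lt_succ_self _)

/-- every series without constant term is of the form `g(A)`. -/
theorem hz_surjective (g : PowerSeries L) (h0 : PowerSeries.constantCoeff g = 0)
    (h1 : PowerSeries.coeff 1 g = 1)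
    (R : MvPowerSeries τ L) (hR : constantCoeff R = 0) :
    ∃ A : MvPowerSeries τ L, constantCoeff A = 0 ∧
      (PowerSeries.subst A g : MvPowerSeries τ L) = R := by
  -- one step of the iteration
  let step : MvPowerSeries τ L → MvPowerSeries τ L := fun G e =>
    coeff e R - ∑ m ∈ Finset.range (degree e),
      PowerSeries.coeff (m + 2) g * coeff e (G ^ (m + 2))
  have hstep : ∀ G e, coeff e (step G) =
      coeff e R - ∑ m ∈ Finset.range (degree e),
        PowerSeries.coeff (m + 2) g * coeff e (G ^ (m + 2)) :=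
    fun _ _ => rfl
  have hstep0 : ∀ G, constantCoeff (step G) = 0 := by
    intro G
    rw [← coeff_zero_eq_constantCoeff_apply, hstep]
    simp [hR]
  let G : ℕ → MvPowerSeries τ L := fun k => step^[k] 0
  have hG0 : ∀ k, constantCoeff (G k) = 0 := by
    intro k
    cases k with
    | zero => simp [G]
    | succ k =>
      simp only [G, Function.iterate_succ_apply']
      exact hstep0 _
  have hGs : ∀ k, G (k + 1) = step (G k) := by
    intro k
    simp only [G, Function.iterate_succ_apply']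
  have hstepA : ∀ (d : ℕ) (A B : MvPowerSeries τ L), constantCoeff A = 0 → constantCoeff B = 0 →
      AgreeLT d A B → AgreeLT (d + 1) (step A) (step B) := by
    intro d A B hA hB h e he
    rw [hstep, hstep]
    refine congrArg₂ (· - ·) rfl (Finset.sum_congr rfl (fun i _ => ?_))
    exact congrArg₂ (· * ·) rfl (h.pow hA hB (by omega) e he)
  have hcons : ∀ k, AgreeLT k (G k) (G (k + 1)) := by
    intro k
    induction k with
    | zero => intro e he; omega
    | succ k ih =>
      rw [hGs k, hGs (k + 1)]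
      exact hstepA k _ _ (hG0 _) (hG0 _) ih
  have hcons2 : ∀ k j, AgreeLT k (G k) (G (k + j)) := by
    intro k j
    induction j with
    | zero => intro e _; rfl
    | succ j ih =>
      intro e he
      rw [ih e he]
      exact hcons (k + j) e (by omega)
  let A : MvPowerSeries τ L := fun e => coeff e (G (degree e + 1))
  have hA : ∀ e, coeff e A = coeff e (G (degree e + 1)) := fun _ => rfl
  have hAG : ∀ k, AgreeLT k A (G k) := by
    intro k e he
    rw [hA]
    obtain ⟨j, rfl⟩ := Nat.exists_eq_add_of_le (Nat.succ_le_of_lt he)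
    exact hcons2 (degree e + 1) j e (by omega)
  have hA0 : constantCoeff A = 0 := by
    rw [← coeff_zero_eq_constantCoeff_apply, hA, coeff_zero_eq_constantCoeff_apply, hG0]
  refine ⟨A, hA0, ?_⟩
  ext e
  rw [hz_coeff_subst' g h0 h1 hA0, hA, hGs, hstep]
  have h2 : ∑ m ∈ Finset.range (degree e), PowerSeries.coeff (m + 2) g * coeff e (A ^ (m + 2)) =
      ∑ m ∈ Finset.range (degree e),
        PowerSeries.coeff (m + 2) g * coeff e (G (degree e) ^ (m + 2)) := by
    refine Finset.sum_congr rfl (fun i _ => ?_)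
    exact congrArg₂ (· * ·) rfl ((hAG (degree e)).pow hA0 (hG0 _) (by omega) e
      (Nat.lt_succ_self _))
  rw [h2, sub_add_cancel]

/-- substituting agreeing series. -/
theorem hz_agree_subst (g : PowerSeries L) {d : ℕ} {A B : MvPowerSeries τ L}
    (h : AgreeLT d A B) (hA : constantCoeff A = 0) (hB : constantCoeff B = 0) :
    AgreeLT d (PowerSeries.subst A g : MvPowerSeries τ L) (PowerSeries.subst B g) := by
  intro e he
  rw [hz_coeff_subst g hA e (Nat.lt_succ_self _), hz_coeff_subst g hB e (Nat.lt_succ_self _)]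
  refine Finset.sum_congr rfl (fun i _ => ?_)
  rw [h.pow' _ e he]

theorem hz_expand_subst {q : ℕ} (hq0 : q ≠ 0) {A : MvPowerSeries τ L}
    (hA : constantCoeff A = 0) (f : PowerSeries L) :
    MvPowerSeries.expand q hq0 (PowerSeries.subst A f : MvPowerSeries τ L) =
      PowerSeries.subst (MvPowerSeries.expand q hq0 A) f := by
  rw [PowerSeries.subst_def, PowerSeries.subst_def]
  have hs : PowerSeries.HasSubst A := PowerSeries.HasSubst.of_constantCoeff_zero hA
  exact expand_subst q hq0 hs.const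

/-- summing over the multiples of `q`. -/
theorem hz_sum_mult {q : ℕ} (hq : 0 < q) (M : ℕ) (g a : ℕ → L) (h0 : ∀ m, M ≤ m → g m = 0) :
    ∑ m ∈ Finset.range M, (if q ∣ m then a (m / q) * g m else 0) =
      ∑ k ∈ Finset.range M, a k * g (q * k) := by
  rw [← Finset.sum_filter]
  have h1 : ∑ k ∈ (Finset.range M).filter (fun k => q * k < M), a k * g (q * k) =
      ∑ k ∈ Finset.range M, a k * g (q * k) := by
    apply Finset.sum_filter_of_ne
    intro k _ hne
    by_contra hlt
    exact hne (by rw [h0 _ (not_lt.1 hlt), mul_zero])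
  rw [← h1]
  refine Finset.sum_nbij' (fun m => m / q) (fun k => q * k) ?_ ?_ ?_ ?_ ?_
  · intro m hm
    rw [Finset.mem_filter, Finset.mem_range] at hm
    rw [Finset.mem_filter, Finset.mem_range, Nat.mul_div_cancel' hm.2]
    exact ⟨lt_of_le_of_lt (Nat.div_le_self _ _) hm.1, hm.1⟩
  · intro k hk
    rw [Finset.mem_filter, Finset.mem_range] at hk
    rw [Finset.mem_filter, Finset.mem_range]
    exact ⟨hk.2, Dvd.intro _ rfl⟩
  · intro m hm
    rw [Finset.mem_filter] at hm
    exact Nat.mul_div_cancel' hm.2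
  · intro k _
    exact Nat.mul_div_cancel_left _ hq
  · intro m hm
    rw [Finset.mem_filter] at hm
    show a (m / q) * g m = a (m / q) * g (q * (m / q))
    rw [Nat.mul_div_cancel' hm.2]

end HzLog

section HzPoly

variable {p n : ℕ} [Fact p.Prime]

/-- `v_j ↦ v_j^q` as a ring homomorphism. -/
noncomputable abbrev hzS (n q : ℕ) (T : Type) [CommRing T] :
    MvPolynomial (Fin n) T →+* MvPolynomial (Fin n) T :=
  (MvPolynomial.expand q : MvPolynomial (Fin n) T →ₐ[T] MvPolynomial (Fin n) T).toRingHom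

theorem hzS_apply (q : ℕ) (T : Type) [CommRing T] (x : MvPolynomial (Fin n) T) :
    hzS n q T x = MvPolynomial.expand q x := rfl

/-- `ℤ[v] → ℚ[v]`. -/
noncomputable abbrev hzI (n : ℕ) : MvPolynomial (Fin n) ℤ →+* MvPolynomial (Fin n) ℚ :=
  MvPolynomial.map (Int.castRingHom ℚ)

theorem hzI_injective : Function.Injective (hzI n) :=
  MvPolynomial.map_injective _ Int.cast_injective

theorem hzS_hzI (q : ℕ) (x : MvPolynomial (Fin n) ℤ) :
    hzS n q ℚ (hzI n x) = hzI n (hzS n q ℤ x) := by
  rw [hzS_apply, hzS_apply]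
  exact (MvPolynomial.map_expand _ _ _).symm

/-- the coefficients of the Hazewinkel logarithm. -/
noncomputable def hzCoeff (p n : ℕ) [Fact p.Prime] (m : ℕ) : MvPolynomial (Fin n) ℚ :=
  if h : m = 0 then 0 else (if m = 1 then 1 else 0) +
    ∑ i : Fin n, if p ^ ((i : ℕ) + 1) ∣ m then
      MvPolynomial.C (1 / (p : ℚ)) * MvPolynomial.X i *
        MvPolynomial.expand (p ^ ((i : ℕ) + 1)) (hzCoeff p n (m / p ^ ((i : ℕ) + 1)))
      else 0
termination_by m
decreasing_by
  apply Nat.div_lt_self (Nat.pos_of_ne_zero h)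
  exact Nat.one_lt_pow (Nat.succ_ne_zero _) (Fact.out : p.Prime).one_lt

theorem hzCoeff_zero : hzCoeff p n 0 = 0 := by
  rw [hzCoeff, dif_pos rfl]

theorem hzCoeff_eq (m : ℕ) : hzCoeff p n m = (if m = 1 then 1 else 0) +
    ∑ i : Fin n, if p ^ ((i : ℕ) + 1) ∣ m then
      MvPolynomial.C (1 / (p : ℚ)) * MvPolynomial.X i *
        MvPolynomial.expand (p ^ ((i : ℕ) + 1)) (hzCoeff p n (m / p ^ ((i : ℕ) + 1)))
      else 0 := by
  by_cases h : m = 0
  · subst h
    rw [hzCoeff_zero]
    simp [hzCoeff_zero]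
  · conv_lhs => rw [hzCoeff, dif_neg h]

/-- the functional equation for the coefficients. -/
def HzEq (p n : ℕ) (f : PowerSeries (MvPolynomial (Fin n) ℚ)) : Prop :=
  ∀ m : ℕ, PowerSeries.coeff m f = (if m = 1 then 1 else 0) +
    ∑ i : Fin n, if p ^ ((i : ℕ) + 1) ∣ m then
      MvPolynomial.C (1 / (p : ℚ)) * MvPolynomial.X i *
        MvPolynomial.expand (p ^ ((i : ℕ) + 1)) (PowerSeries.coeff (m / p ^ ((i : ℕ) + 1)) f)
      else 0

theorem HzEq.coeff_one {f : PowerSeries (MvPolynomial (Fin n) ℚ)} (hf : HzEq p n f) :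
    PowerSeries.coeff 1 f = 1 := by
  rw [hf 1, if_pos rfl, Finset.sum_eq_zero, add_zero]
  intro i _
  rw [if_neg]
  intro h
  have h1 := Nat.dvd_one.1 h
  have h2 := Nat.one_lt_pow (Nat.succ_ne_zero (i : ℕ)) (Fact.out : p.Prime).one_lt
  rw [Nat.succ_eq_add_one, h1] at h2
  exact lt_irrefl _ h2

/-- denominators. -/
theorem HzEq.denom {f : PowerSeries (MvPolynomial (Fin n) ℚ)}
    (h0 : PowerSeries.constantCoeff f = 0) (hf : HzEq p n f) (m : ℕ) :
    ∃ k : ℕ, p ^ k ∣ m ∧ ∃ z : MvPolynomial (Fin n) ℤ,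
      (p : MvPolynomial (Fin n) ℚ) ^ k * PowerSeries.coeff m f = hzI n z := by
  have hp := (Fact.out : p.Prime)
  have hpQ : (p : ℚ) ≠ 0 := by exact_mod_cast hp.ne_zero
  induction m using Nat.strong_induction_on with
  | _ m ih =>
    rcases Nat.eq_zero_or_pos m with rfl | hm
    · refine ⟨0, by simp, 0, ?_⟩
      rw [PowerSeries.coeff_zero_eq_constantCoeff_apply, h0, mul_zero, map_zero]
    · refine ⟨m.factorization p, Nat.ordProj_dvd m p, ?_⟩
      have hterm : ∀ i : Fin n, ∃ z : MvPolynomial (Fin n) ℤ,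
          (p : MvPolynomial (Fin n) ℚ) ^ (m.factorization p) *
            (if p ^ ((i : ℕ) + 1) ∣ m then
              MvPolynomial.C (1 / (p : ℚ)) * MvPolynomial.X i *
                MvPolynomial.expand (p ^ ((i : ℕ) + 1))
                  (PowerSeries.coeff (m / p ^ ((i : ℕ) + 1)) f)
              else 0) = hzI n z := by
        intro i
        split_ifs with hd
        · have hlt : m / p ^ ((i : ℕ) + 1) < m :=
            Nat.div_lt_self hm (Nat.one_lt_pow (Nat.succ_ne_zero _) hp.one_lt)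
          obtain ⟨k, hk, z, hz⟩ := ih _ hlt
          have hk2 : p ^ (k + 1) ∣ m := by
            have h2 : p ^ ((i : ℕ) + 1) * p ^ k ∣ m := by
              obtain ⟨c, hc⟩ := hd
              have h3 : m / p ^ ((i : ℕ) + 1) = c := by
                rw [hc, Nat.mul_div_cancel_left _ (pow_pos hp.pos _)]
              rw [h3] at hk
              rw [hc]
              exact Nat.mul_dvd_mul_left _ hk
            refine dvd_trans ?_ h2
            rw [← pow_add]
            exact pow_dvd_pow _ (by omega)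
          have hk3 : k + 1 ≤ m.factorization p :=
            (hp.pow_dvd_iff_le_factorization hm.ne').1 hk2
          refine ⟨(p : MvPolynomial (Fin n) ℤ) ^ (m.factorization p - (k + 1)) *
            (MvPolynomial.X i * MvPolynomial.expand (p ^ ((i : ℕ) + 1)) z), ?_⟩
          have h4 : (p : MvPolynomial (Fin n) ℚ) ^ (m.factorization p) =
              (p : MvPolynomial (Fin n) ℚ) ^ (m.factorization p - (k + 1)) *
                ((p : MvPolynomial (Fin n) ℚ) * (p : MvPolynomial (Fin n) ℚ) ^ k) := by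
            rw [← pow_succ', ← pow_add, Nat.sub_add_cancel hk3]
          have h5 : hzI n (MvPolynomial.expand (p ^ ((i : ℕ) + 1)) z) =
              (p : MvPolynomial (Fin n) ℚ) ^ k * MvPolynomial.expand (p ^ ((i : ℕ) + 1))
                  (PowerSeries.coeff (m / p ^ ((i : ℕ) + 1)) f) := by
            rw [show hzI n (MvPolynomial.expand (p ^ ((i : ℕ) + 1)) z) =
              MvPolynomial.expand (p ^ ((i : ℕ) + 1)) (hzI n z) from
                MvPolynomial.map_expand _ _ _, ← hz, map_mul, map_pow, map_natCast]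
          have h6 : (p : MvPolynomial (Fin n) ℚ) * MvPolynomial.C (1 / (p : ℚ)) = 1 := by
            rw [show (p : MvPolynomial (Fin n) ℚ) = MvPolynomial.C (p : ℚ) from
              (map_natCast _ _).symm, ← map_mul, mul_one_div_cancel hpQ, map_one]
          rw [map_mul, map_mul, map_pow, map_natCast, h5, MvPolynomial.map_X, h4]
          linear_combination ((p : MvPolynomial (Fin n) ℚ) ^ (m.factorization p - (k + 1)) *
            (p : MvPolynomial (Fin n) ℚ) ^ k * MvPolynomial.X i *
              MvPolynomial.expand (p ^ ((i : ℕ) + 1))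
                  (PowerSeries.coeff (m / p ^ ((i : ℕ) + 1)) f)) * h6
        · exact ⟨0, by rw [mul_zero, map_zero]⟩
      choose z hz using hterm
      refine ⟨(p : MvPolynomial (Fin n) ℤ) ^ (m.factorization p) *
        (if m = 1 then 1 else 0) + ∑ i, z i, ?_⟩
      rw [hf m, mul_add, Finset.mul_sum, map_add, map_sum, map_mul, map_pow, map_natCast]
      refine congrArg₂ (· + ·) (congrArg₂ (· * ·) rfl ?_)
        (Finset.sum_congr rfl (fun i _ => hz i))
      split_ifs <;> simp

/-- **functional equation** `f(A) = A + ∑ (v_i/p) f^{(q_i)}(A^(q_i))`. -/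
theorem HzEq.subst_eq {τ : Type*} {f : PowerSeries (MvPolynomial (Fin n) ℚ)}
    (hf : HzEq p n f) {A : MvPowerSeries τ (MvPolynomial (Fin n) ℚ)}
    (hA : constantCoeff A = 0) (e : τ →₀ ℕ) :
    coeff e (PowerSeries.subst A f : MvPowerSeries τ (MvPolynomial (Fin n) ℚ)) =
      coeff e A + ∑ i : Fin n, MvPolynomial.C (1 / (p : ℚ)) * MvPolynomial.X i *
        coeff e (PowerSeries.subst (A ^ (p ^ ((i : ℕ) + 1)))
          (f.map (hzS n (p ^ ((i : ℕ) + 1)) ℚ)) :
            MvPowerSeries τ (MvPolynomial (Fin n) ℚ)) := by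
  have hp := (Fact.out : p.Prime)
  have h0 : ∀ m, degree e + 2 ≤ m → coeff e (A ^ m) = 0 := by
    intro m hm
    apply coeff_eq_zero_of_constantCoeff_nilpotent (m := 1) (by rw [hA]; simp)
    omega
  rw [hz_coeff_subst f hA e (M := degree e + 2) (by omega)]
  have h1 : ∀ i : Fin n, coeff e (PowerSeries.subst (A ^ (p ^ ((i : ℕ) + 1)))
          (f.map (hzS n (p ^ ((i : ℕ) + 1)) ℚ)) : MvPowerSeries τ (MvPolynomial (Fin n) ℚ)) =
      ∑ m ∈ Finset.range (degree e + 2), if p ^ ((i : ℕ) + 1) ∣ m then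
        MvPolynomial.expand (p ^ ((i : ℕ) + 1))
          (PowerSeries.coeff (m / p ^ ((i : ℕ) + 1)) f) * coeff e (A ^ m) else 0 := by
    intro i
    have hAq : constantCoeff (A ^ (p ^ ((i : ℕ) + 1))) = 0 := by
      rw [map_pow, hA, zero_pow (pow_ne_zero _ hp.ne_zero)]
    rw [hz_coeff_subst _ hAq e (M := degree e + 2) (by omega),
      hz_sum_mult (q := p ^ ((i : ℕ) + 1)) (pow_pos hp.pos _) (degree e + 2)
        (fun m => coeff e (A ^ m))
        (fun m => MvPolynomial.expand (p ^ ((i : ℕ) + 1)) (PowerSeries.coeff m f)) h0]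
    refine Finset.sum_congr rfl (fun m _ => ?_)
    rw [PowerSeries.coeff_map, hzS_apply, ← pow_mul]
  simp only [h1]
  have h2 : ∀ m ∈ Finset.range (degree e + 2), PowerSeries.coeff m f * coeff e (A ^ m) =
      (if m = 1 then coeff e (A ^ m) else 0) + ∑ i : Fin n,
        MvPolynomial.C (1 / (p : ℚ)) * MvPolynomial.X i *
        (if p ^ ((i : ℕ) + 1) ∣ m then
        MvPolynomial.expand (p ^ ((i : ℕ) + 1))
          (PowerSeries.coeff (m / p ^ ((i : ℕ) + 1)) f) * coeff e (A ^ m) else 0) := by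
    intro m _
    rw [hf m, add_mul, Finset.sum_mul]
    refine congrArg₂ (· + ·) ?_ ?_
    · split_ifs
      · rw [one_mul]
      · rw [zero_mul]
    · refine Finset.sum_congr rfl (fun i _ => ?_)
      split_ifs
      · ring
      · rw [zero_mul, mul_zero]
  rw [Finset.sum_congr rfl h2, Finset.sum_add_distrib, Finset.sum_ite_eq',
    if_pos (Finset.mem_range.2 (by omega)), pow_one, Finset.sum_comm]
  refine congrArg₂ (· + ·) rfl (Finset.sum_congr rfl (fun i _ => ?_))
  rw [Finset.mul_sum]

/-- in `(ℤ/p)[v]` the `p^k`-th power is `v_j ↦ v_j^(p^k)`. -/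
theorem hz_iterateFrobenius (k : ℕ) (x : MvPolynomial (Fin n) (ZMod p)) :
    iterateFrobenius (MvPolynomial (Fin n) (ZMod p)) p k x = MvPolynomial.expand (p ^ k) x := by
  induction k with
  | zero => simp
  | succ k ih =>
    rw [iterateFrobenius_def] at ih ⊢
    rw [pow_succ, pow_mul, ih, ← MvPolynomial.expand_zmod, mul_comm, MvPolynomial.expand_mul]

/-- `(σA)(X^q) ≡ A^q mod p`. -/
theorem hz_dvd_expand {τ : Type*} (k : ℕ) (hq0 : p ^ k ≠ 0)
    (A : MvPowerSeries τ (MvPolynomial (Fin n) ℤ)) (e : τ →₀ ℕ) :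
    (p : MvPolynomial (Fin n) ℤ) ∣
      coeff e (MvPowerSeries.expand (p ^ k) hq0 (A.map (hzS n (p ^ k) ℤ))) -
        coeff e (A ^ (p ^ k)) := by
  have h1 : (MvPowerSeries.expand (p ^ k) hq0 (A.map (hzS n (p ^ k) ℤ))).map
      (MvPolynomial.map (Int.castRingHom (ZMod p))) =
      (A ^ (p ^ k)).map (MvPolynomial.map (Int.castRingHom (ZMod p))) := by
    have hp : p ≠ 0 := (Fact.out : p.Prime).ne_zero
    have h0 := map_iterateFrobenius_expand p hp
      (A.map (MvPolynomial.map (Int.castRingHom (ZMod p)))) k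
    rw [map_pow, ← h0, map_expand, map_expand]
    congr 1
    ext1 f
    rw [coeff_map, coeff_map, coeff_map, coeff_map, hz_iterateFrobenius, hzS_apply,
      MvPolynomial.map_expand]
  have h2 := congrArg (coeff e) h1
  rw [coeff_map, coeff_map, ← sub_eq_zero, ← map_sub] at h2
  have h3 := (MvPolynomial.C_dvd_iff_zmod p _).2 h2
  have h4 : (MvPolynomial.C ((p : ℕ) : ℤ) : MvPolynomial (Fin n) ℤ) = (p : MvPolynomial (Fin n) ℤ) := by
    simp
  rw [h4] at h3
  exact h3

omit [Fact p.Prime] in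
/-- If `A ≡ B mod p` and `g` has small denominators then `g(A) ≡ g(B) mod p`. -/
theorem hz_congr {τ : Type*} (g : PowerSeries (MvPolynomial (Fin n) ℚ))
    (hg : ∀ m, ∃ k : ℕ, p ^ k ∣ m ∧ ∃ z : MvPolynomial (Fin n) ℤ,
      (p : MvPolynomial (Fin n) ℚ) ^ k * PowerSeries.coeff m g = hzI n z)
    {A B : MvPowerSeries τ (MvPolynomial (Fin n) ℤ)}
    (hA : constantCoeff A = 0) (hB : constantCoeff B = 0)
    (h : ∀ e, (p : MvPolynomial (Fin n) ℤ) ∣ coeff e A - coeff e B) (e : τ →₀ ℕ) :
    ∃ w : MvPolynomial (Fin n) ℤ,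
      coeff e (PowerSeries.subst (A.map (hzI n)) g : MvPowerSeries τ (MvPolynomial (Fin n) ℚ)) -
        coeff e (PowerSeries.subst (B.map (hzI n)) g :
          MvPowerSeries τ (MvPolynomial (Fin n) ℚ)) = (p : MvPolynomial (Fin n) ℚ) * hzI n w := by
  have hA' : constantCoeff (A.map (hzI n)) = 0 := by rw [constantCoeff_map, hA, map_zero]
  have hB' : constantCoeff (B.map (hzI n)) = 0 := by rw [constantCoeff_map, hB, map_zero]
  have h1 : (p : MvPowerSeries τ (MvPolynomial (Fin n) ℤ)) ∣ A - B := by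
    choose c hc using h
    refine ⟨fun e => c e, ?_⟩
    ext1 e
    have := coeff_natCast_pow_mul (τ := τ) p 1
      (fun e => c e : MvPowerSeries τ (MvPolynomial (Fin n) ℤ)) e
    rw [pow_one, pow_one] at this
    rw [this, map_sub, hc e]
    rfl
  have hterm : ∀ m : ℕ, ∃ w : MvPolynomial (Fin n) ℤ,
      PowerSeries.coeff m g * coeff e ((A.map (hzI n)) ^ m) -
        PowerSeries.coeff m g * coeff e ((B.map (hzI n)) ^ m) =
        (p : MvPolynomial (Fin n) ℚ) * hzI n w := by
    intro m
    obtain ⟨k, ⟨c, hc⟩, z, hz⟩ := hg m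
    have h2 : (p : MvPowerSeries τ (MvPolynomial (Fin n) ℤ)) ^ (k + 1) ∣ A ^ m - B ^ m := by
      rw [hc, pow_mul, pow_mul]
      exact (dvd_sub_pow_of_dvd_sub h1 k).trans (sub_dvd_pow_sub_pow _ _ _)
    obtain ⟨D, hD⟩ := h2
    refine ⟨z * coeff e D, ?_⟩
    have h3 : coeff e ((A.map (hzI n)) ^ m) - coeff e ((B.map (hzI n)) ^ m) =
        hzI n (coeff e (A ^ m - B ^ m)) := by
      rw [map_sub (coeff e), map_sub (hzI n), ← map_pow, ← map_pow, coeff_map, coeff_map]
    rw [← mul_sub, h3, hD, coeff_natCast_pow_mul, map_mul, map_pow, map_natCast, map_mul, ← hz]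
    ring
  choose w hw using hterm
  refine ⟨∑ m ∈ Finset.range (degree e + 1), w m, ?_⟩
  rw [hz_coeff_subst g hA' e (Nat.lt_succ_self _), hz_coeff_subst g hB' e (Nat.lt_succ_self _),
    ← Finset.sum_sub_distrib, map_sum, Finset.mul_sum]
  exact Finset.sum_congr rfl (fun m _ => hw m)

/-- integrality. -/
theorem hz_integral {f : PowerSeries (MvPolynomial (Fin n) ℚ)}
    (h0 : PowerSeries.constantCoeff f = 0) (hf : HzEq p n f)
    {F : MvPowerSeries (Fin 2) (MvPolynomial (Fin n) ℚ)} (hF0 : constantCoeff F = 0)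
    (hF : (PowerSeries.subst F f : MvPowerSeries (Fin 2) (MvPolynomial (Fin n) ℚ)) =
      PowerSeries.subst (X 0 : MvPowerSeries (Fin 2) (MvPolynomial (Fin n) ℚ)) f +
        PowerSeries.subst (X 1 : MvPowerSeries (Fin 2) (MvPolynomial (Fin n) ℚ)) f) :
    ∀ e, ∃ z : MvPolynomial (Fin n) ℤ, coeff e F = hzI n z := by
  classical
  have hp := (Fact.out : p.Prime)
  have hpQ : (p : ℚ) ≠ 0 := by exact_mod_cast hp.ne_zero
  have key : ∀ d : ℕ, ∀ e : Fin 2 →₀ ℕ, degree e < d →
      ∃ z : MvPolynomial (Fin n) ℤ, coeff e F = hzI n z := by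
    intro d
    induction d with
    | zero => intro e he; omega
    | succ d ih =>
      intro e he
      -- the truncated lift
      choose z hz using ih
      let Ft : MvPowerSeries (Fin 2) (MvPolynomial (Fin n) ℤ) :=
        fun f => if h : degree f < d then z f h else 0
      have hFt : ∀ f, coeff f Ft = if h : degree f < d then z f h else 0 := fun _ => rfl
      have hFt0 : constantCoeff Ft = 0 := by
        rw [← coeff_zero_eq_constantCoeff_apply, hFt]
        split_ifs with h
        · apply hzI_injective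
          rw [← hz, coeff_zero_eq_constantCoeff_apply, hF0, map_zero]
        · rfl
      have hagree : AgreeLT d (Ft.map (hzI n)) F := by
        intro f hf
        rw [coeff_map, hFt, dif_pos hf, hz f hf]
      have hFtQ0 : constantCoeff (Ft.map (hzI n)) = 0 := by
        rw [constantCoeff_map, hFt0, map_zero]
      have hterm : ∀ i : Fin n, ∃ w : MvPolynomial (Fin n) ℤ,
          coeff e (PowerSeries.subst (X 0 ^ (p ^ ((i : ℕ) + 1)))
            (f.map (hzS n (p ^ ((i : ℕ) + 1)) ℚ)) :
              MvPowerSeries (Fin 2) (MvPolynomial (Fin n) ℚ)) +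
          coeff e (PowerSeries.subst (X 1 ^ (p ^ ((i : ℕ) + 1)))
            (f.map (hzS n (p ^ ((i : ℕ) + 1)) ℚ)) :
              MvPowerSeries (Fin 2) (MvPolynomial (Fin n) ℚ)) -
          coeff e (PowerSeries.subst (F ^ (p ^ ((i : ℕ) + 1)))
            (f.map (hzS n (p ^ ((i : ℕ) + 1)) ℚ)) :
              MvPowerSeries (Fin 2) (MvPolynomial (Fin n) ℚ)) =
          (p : MvPolynomial (Fin n) ℚ) * hzI n w := by
        intro i
        set q := p ^ ((i : ℕ) + 1) with hqdef
        have hq : 2 ≤ q := Nat.one_lt_pow (Nat.succ_ne_zero _) hp.one_lt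
        have hq0 : q ≠ 0 := by omega
        set σ := hzS n q ℚ with hσ
        -- the twisted logarithm
        have hden : ∀ m, ∃ k : ℕ, p ^ k ∣ m ∧ ∃ z : MvPolynomial (Fin n) ℤ,
            (p : MvPolynomial (Fin n) ℚ) ^ k * PowerSeries.coeff m (f.map σ) = hzI n z := by
          intro m
          obtain ⟨k, hk, z, hz⟩ := hf.denom h0 m
          refine ⟨k, hk, hzS n q ℤ z, ?_⟩
          rw [PowerSeries.coeff_map, ← hzS_hzI, ← hz, map_mul, map_pow, map_natCast]
        have hFσ0 : constantCoeff (F.map σ) = 0 := by rw [constantCoeff_map, hF0, map_zero]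
        have h4 : (PowerSeries.subst (MvPowerSeries.expand q hq0 (F.map σ)) (f.map σ) :
            MvPowerSeries (Fin 2) (MvPolynomial (Fin n) ℚ)) =
            PowerSeries.subst (X 0 ^ q) (f.map σ) + PowerSeries.subst (X 1 ^ q) (f.map σ) := by
          have h5 := congrArg (fun G => MvPowerSeries.expand q hq0 (MvPowerSeries.map σ G)) hF
          simp only [map_add] at h5
          rw [PowerSeries.map_subst (PowerSeries.HasSubst.of_constantCoeff_zero hF0),
            PowerSeries.map_subst (PowerSeries.HasSubst.of_constantCoeff_zero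
              (constantCoeff_X 0)),
            PowerSeries.map_subst (PowerSeries.HasSubst.of_constantCoeff_zero
              (constantCoeff_X 1)), map_X, map_X, hz_expand_subst hq0 hFσ0,
            hz_expand_subst hq0 (constantCoeff_X 0), hz_expand_subst hq0 (constantCoeff_X 1),
            expand_X, expand_X] at h5
          exact h5
        -- the integral series
        set A : MvPowerSeries (Fin 2) (MvPolynomial (Fin n) ℤ) :=
          MvPowerSeries.expand q hq0 (Ft.map (hzS n q ℤ)) with hAdef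
        set B : MvPowerSeries (Fin 2) (MvPolynomial (Fin n) ℤ) := Ft ^ q with hBdef
        have hA0 : constantCoeff A = 0 := by
          rw [hAdef, constantCoeff_expand, constantCoeff_map, hFt0, map_zero]
        have hB0 : constantCoeff B = 0 := by rw [hBdef, map_pow, hFt0, zero_pow hq0]
        have hAQ : A.map (hzI n) = MvPowerSeries.expand q hq0 ((Ft.map (hzI n)).map σ) := by
          rw [hAdef, map_expand]
          congr 1
          ext1 g
          rw [coeff_map, coeff_map, coeff_map, coeff_map, hσ, hzS_hzI]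
        have hBQ : B.map (hzI n) = (Ft.map (hzI n)) ^ q := by rw [hBdef, map_pow]
        have hA0' : constantCoeff (A.map (hzI n)) = 0 := by
          rw [constantCoeff_map, hA0, map_zero]
        have hB0' : constantCoeff (B.map (hzI n)) = 0 := by
          rw [constantCoeff_map, hB0, map_zero]
        have hFe0 : constantCoeff (MvPowerSeries.expand q hq0 (F.map σ)) = 0 := by
          rw [constantCoeff_expand, hFσ0]
        have hFq0 : constantCoeff (F ^ q) = 0 := by rw [map_pow, hF0, zero_pow hq0]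
        have hagreeσ : AgreeLT d ((Ft.map (hzI n)).map σ) (F.map σ) := by
          intro g hg
          exact (coeff_map _ _ _).trans
            ((congrArg σ (hagree g hg)).trans (coeff_map _ _ _).symm)
        have h1 : coeff e (PowerSeries.subst (MvPowerSeries.expand q hq0 (F.map σ)) (f.map σ) :
            MvPowerSeries (Fin 2) (MvPolynomial (Fin n) ℚ)) =
            coeff e (PowerSeries.subst (A.map (hzI n)) (f.map σ) :
              MvPowerSeries (Fin 2) (MvPolynomial (Fin n) ℚ)) := by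
          refine (hz_agree_subst (f.map σ) (d := d + 1) ?_ hFe0 hA0') e he
          rw [hAQ]
          intro g hg
          refine (hagreeσ.expand hq ?_ hFσ0 g hg).symm
          rw [constantCoeff_map, hFtQ0, map_zero]
        have h2 : coeff e (PowerSeries.subst (F ^ q) (f.map σ) :
            MvPowerSeries (Fin 2) (MvPolynomial (Fin n) ℚ)) =
            coeff e (PowerSeries.subst (B.map (hzI n)) (f.map σ) :
              MvPowerSeries (Fin 2) (MvPolynomial (Fin n) ℚ)) := by
          refine (hz_agree_subst (f.map σ) (d := d + 1) ?_ hFq0 hB0') e he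
          rw [hBQ]
          intro g hg
          exact (hagree.pow hFtQ0 hF0 hq g hg).symm
        rw [← map_add, ← h4, h1, h2]
        exact hz_congr (f.map σ) hden hA0 hB0
          (fun g => hz_dvd_expand ((i : ℕ) + 1) hq0 Ft g) e
      choose w hw using hterm
      have h3 := congrArg (coeff e) hF
      rw [map_add, hf.subst_eq hF0, hf.subst_eq (constantCoeff_X 0),
        hf.subst_eq (constantCoeff_X 1)] at h3
      have h6 : (p : MvPolynomial (Fin n) ℚ) * MvPolynomial.C (1 / (p : ℚ)) = 1 := by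
        rw [show (p : MvPolynomial (Fin n) ℚ) = MvPolynomial.C (p : ℚ) from
          (map_natCast _ _).symm, ← map_mul, mul_one_div_cancel hpQ, map_one]
      have h7 : coeff e F = coeff e (X 0) + coeff e (X 1) +
          ∑ i : Fin n, MvPolynomial.X i * hzI n (w i) := by
        have h8 : ∑ i : Fin n, MvPolynomial.X i * hzI n (w i) =
            ∑ i : Fin n, MvPolynomial.C (1 / (p : ℚ)) * MvPolynomial.X i *
              coeff e (PowerSeries.subst (X 0 ^ (p ^ ((i : ℕ) + 1)))
                (f.map (hzS n (p ^ ((i : ℕ) + 1)) ℚ)) :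
                  MvPowerSeries (Fin 2) (MvPolynomial (Fin n) ℚ)) +
            ∑ i : Fin n, MvPolynomial.C (1 / (p : ℚ)) * MvPolynomial.X i *
              coeff e (PowerSeries.subst (X 1 ^ (p ^ ((i : ℕ) + 1)))
                (f.map (hzS n (p ^ ((i : ℕ) + 1)) ℚ)) :
                  MvPowerSeries (Fin 2) (MvPolynomial (Fin n) ℚ)) -
            ∑ i : Fin n, MvPolynomial.C (1 / (p : ℚ)) * MvPolynomial.X i *
              coeff e (PowerSeries.subst (F ^ (p ^ ((i : ℕ) + 1)))
                (f.map (hzS n (p ^ ((i : ℕ) + 1)) ℚ)) :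
                  MvPowerSeries (Fin 2) (MvPolynomial (Fin n) ℚ)) := by
          rw [← Finset.sum_add_distrib, ← Finset.sum_sub_distrib]
          refine Finset.sum_congr rfl (fun i _ => ?_)
          rw [← mul_add, ← mul_sub, hw i]
          linear_combination (-(MvPolynomial.X i * hzI n (w i))) * h6
        rw [h8]
        linear_combination h3
      refine ⟨coeff e (X 0) + coeff e (X 1) + ∑ i : Fin n, MvPolynomial.X i * w i, ?_⟩
      rw [h7, map_add, map_add, map_sum, ← coeff_map, ← coeff_map, map_X, map_X]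
      congr 1
      refine Finset.sum_congr rfl (fun i _ => ?_)
      rw [map_mul, MvPolynomial.map_X]
  intro e
  exact key (degree e + 1) e (Nat.lt_succ_self _)

omit [Fact p.Prime] in
/-- additivity of the logarithm for general arguments. -/
theorem hz_log_subst {τ L : Type*} [CommRing L] (f : PowerSeries L)
    {F : MvPowerSeries (Fin 2) L} (hF0 : constantCoeff F = 0)
    (hF : (PowerSeries.subst F f : MvPowerSeries (Fin 2) L) =
      PowerSeries.subst (X 0 : MvPowerSeries (Fin 2) L) f +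
        PowerSeries.subst (X 1 : MvPowerSeries (Fin 2) L) f)
    {a b : MvPowerSeries τ L} (ha : constantCoeff a = 0) (hb : constantCoeff b = 0) :
    (PowerSeries.subst (MvPowerSeries.subst ![a, b] F) f : MvPowerSeries τ L) =
      PowerSeries.subst a f + PowerSeries.subst b f := by
  have hs : MvPowerSeries.HasSubst ![a, b] := by
    apply hasSubst_of_constantCoeff_zero
    intro i
    fin_cases i
    · exact ha
    · exact hb
  have h1 : ∀ (G : MvPowerSeries (Fin 2) L) (hG : constantCoeff G = 0),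
      MvPowerSeries.subst ![a, b] (PowerSeries.subst G f : MvPowerSeries (Fin 2) L) =
      PowerSeries.subst (MvPowerSeries.subst ![a, b] G) f := by
    intro G hG
    rw [PowerSeries.subst_def, PowerSeries.subst_def]
    exact subst_comp_subst_apply (PowerSeries.HasSubst.of_constantCoeff_zero hG).const hs _
  rw [← h1 F hF0, hF, subst_add hs, h1 _ (constantCoeff_X 0), h1 _ (constantCoeff_X 1),
    subst_X hs, subst_X hs]
  rfl

end HzPoly

/-- **The Hazewinkel formal group law exists.** -/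
theorem exists_haz (p n : ℕ) [Fact p.Prime] (_hn : 1 ≤ n) :
    ∃ (F : FormalGroup (MvPolynomial (Fin n) ℤ))
      (f : PowerSeries (MvPolynomial (Fin n) ℚ)), IsHaz p n F f := by
  -- the logarithm
  obtain ⟨f, hf0, hf⟩ : ∃ f : PowerSeries (MvPolynomial (Fin n) ℚ),
      PowerSeries.constantCoeff f = 0 ∧ HzEq p n f := by
    refine ⟨PowerSeries.mk (hzCoeff p n), ?_, ?_⟩
    · rw [← PowerSeries.coeff_zero_eq_constantCoeff_apply, PowerSeries.coeff_mk, hzCoeff_zero]
    · intro m
      simp only [PowerSeries.coeff_mk]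
      exact hzCoeff_eq m
  have hf1 := hf.coeff_one
  -- the formal group law over `ℚ[v]`
  have hX0 : ∀ i : Fin 2, constantCoeff (PowerSeries.subst
      (X i : MvPowerSeries (Fin 2) (MvPolynomial (Fin n) ℚ)) f :
        MvPowerSeries (Fin 2) (MvPolynomial (Fin n) ℚ)) = 0 := by
    intro i
    rw [← coeff_zero_eq_constantCoeff_apply,
      hz_coeff_subst f (constantCoeff_X i) 0 (M := 1) (by simp), Finset.sum_range_one,
      PowerSeries.coeff_zero_eq_constantCoeff_apply, hf0, zero_mul]
  obtain ⟨F, hF0, hF⟩ := hz_surjective f hf0 hf1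
    (PowerSeries.subst (X 0 : MvPowerSeries (Fin 2) (MvPolynomial (Fin n) ℚ)) f +
        PowerSeries.subst (X 1 : MvPowerSeries (Fin 2) (MvPolynomial (Fin n) ℚ)) f)
    (by rw [map_add, hX0, hX0, add_zero])
  have hint := hz_integral hf0 hf hF0 hF
  choose z hz using hint
  let Hs : MvPowerSeries (Fin 2) (MvPolynomial (Fin n) ℤ) := fun e => z e
  have hHs : Hs.map (hzI n) = F := by
    ext1 e
    rw [coeff_map, hz e]
    rfl
  have hHs0 : constantCoeff Hs = 0 := by
    apply hzI_injective
    rw [← constantCoeff_map, map_zero, hHs, hF0]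
  have hlin : ∀ i : Fin 2, coeff (single i 1) F = 1 := by
    intro i
    have hd : degree (single i 1 : Fin 2 →₀ ℕ) = 1 := by simp
    have hlin1 : ∀ A : MvPowerSeries (Fin 2) (MvPolynomial (Fin n) ℚ), constantCoeff A = 0 →
        coeff (single i 1) (PowerSeries.subst A f :
          MvPowerSeries (Fin 2) (MvPolynomial (Fin n) ℚ)) = coeff (single i 1) A := by
      intro A hA
      rw [hz_coeff_subst' f hf0 hf1 hA, hd, Finset.sum_range_one]
      have h1 : coeff (single i 1) (A ^ (0 + 2)) = 0 := by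
        apply coeff_eq_zero_of_constantCoeff_nilpotent (m := 1) (by rw [hA]; simp)
        rw [hd]
      rw [h1, mul_zero, add_zero]
    have h1 := congrArg (coeff (single i 1)) hF
    rw [map_add, hlin1 _ hF0, hlin1 _ (constantCoeff_X 0), hlin1 _ (constantCoeff_X 1)] at h1
    rw [h1]
    fin_cases i
    · simp [coeff_index_single_X]
    · simp [coeff_index_single_X]
  have hlin' : ∀ i : Fin 2, coeff (single i 1) Hs = 1 := by
    intro i
    apply hzI_injective
    rw [← coeff_map, map_one, hHs, hlin]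
  have hs2 : ∀ (τ : Type) (a b : MvPowerSeries τ (MvPolynomial (Fin n) ℤ)),
      constantCoeff a = 0 → constantCoeff b = 0 → MvPowerSeries.HasSubst ![a, b] := by
    intro τ a b ha hb
    apply hasSubst_of_constantCoeff_zero
    intro i
    fin_cases i
    · exact ha
    · exact hb
  have hmap2 : ∀ (τ : Type) (a b : MvPowerSeries τ (MvPolynomial (Fin n) ℤ)),
      constantCoeff a = 0 → constantCoeff b = 0 →
        (MvPowerSeries.subst ![a, b] Hs).map (hzI n) =
        MvPowerSeries.subst ![a.map (hzI n), b.map (hzI n)] F := by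
    intro τ a b ha hb
    rw [map_subst (hs2 τ a b ha hb)]
    have h1 : (fun i => MvPowerSeries.map (hzI n) (![a, b] i)) =
        ![a.map (hzI n), b.map (hzI n)] := by
      ext1 i
      fin_cases i <;> rfl
    rw [h1, hHs]
  have hc2 : ∀ (τ : Type) (a b : MvPowerSeries τ (MvPolynomial (Fin n) ℤ)),
      constantCoeff a = 0 →
      constantCoeff b = 0 → constantCoeff (MvPowerSeries.subst ![a, b] Hs) = 0 := by
    intro τ a b ha hb
    apply constantCoeff_subst_eq_zero (hs2 τ a b ha hb)
    · intro i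
      fin_cases i
      · exact ha
      · exact hb
    · exact hHs0
  have hQ0 : ∀ (τ : Type) (a : MvPowerSeries τ (MvPolynomial (Fin n) ℤ)),
      constantCoeff a = 0 → constantCoeff (a.map (hzI n)) = 0 := by
    intro τ a ha
    rw [constantCoeff_map, ha, map_zero]
  have hinjQ : ∀ (τ : Type) (a b : MvPowerSeries τ (MvPolynomial (Fin n) ℤ)),
      a.map (hzI n) = b.map (hzI n) → a = b := by
    intro τ a b hab
    ext1 e
    apply hzI_injective
    rw [← coeff_map, ← coeff_map, hab]
  let H : FormalGroup (MvPolynomial (Fin n) ℤ) :=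
    { toPowerSeries := Hs
      zero_constantCoeff := hHs0
      lin_coeff_X := hlin' 0
      lin_coeff_Y := hlin' 1
      assoc := by
        have hX : ∀ i : Fin 3,
            constantCoeff (X i : MvPowerSeries (Fin 3) (MvPolynomial (Fin n) ℤ)) = 0 :=
          fun i => constantCoeff_X i
        have h01 := hc2 (Fin 3) (X 0) (X 1) (hX 0) (hX 1)
        have h12 := hc2 (Fin 3) (X 1) (X 2) (hX 1) (hX 2)
        apply hinjQ
        have hL0 := hQ0 _ _ (hc2 _ _ _ h01 (hX 2))
        have hR0 := hQ0 _ _ (hc2 _ _ _ (hX 0) h12)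
        have hA0 := hQ0 _ _ h01
        have hB0 := hQ0 _ _ h12
        apply hz_injective f hf0 hf1 hL0 hR0
        rw [hmap2 _ _ _ h01 (hX 2), hmap2 _ _ _ (hX 0) h12,
          hz_log_subst f hF0 hF hA0 (hQ0 _ _ (hX 2)),
          hz_log_subst f hF0 hF (hQ0 _ _ (hX 0)) hB0,
          hmap2 _ _ _ (hX 0) (hX 1), hmap2 _ _ _ (hX 1) (hX 2),
          hz_log_subst f hF0 hF (hQ0 _ _ (hX 0)) (hQ0 _ _ (hX 1)),
          hz_log_subst f hF0 hF (hQ0 _ _ (hX 1)) (hQ0 _ _ (hX 2)), add_assoc] }
  have hHF : (H.map (hzI n)).toPowerSeries = F := hHs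
  refine ⟨H, f, ⟨?_, hf0, hf, ?_⟩⟩
  · -- commutativity
    refine ⟨?_⟩
    show Hs = MvPowerSeries.subst ![X 1, X 0] Hs
    apply hinjQ
    have hX : ∀ i : Fin 2,
        constantCoeff (X i : MvPowerSeries (Fin 2) (MvPolynomial (Fin n) ℤ)) = 0 :=
      fun i => constantCoeff_X i
    rw [hmap2 _ _ _ (hX 1) (hX 0), hHs, map_X, map_X]
    have h10 : constantCoeff (MvPowerSeries.subst ![(X 1 : MvPowerSeries (Fin 2)
        (MvPolynomial (Fin n) ℚ)), X 0] F) = 0 := by
      have := hQ0 _ _ (hc2 _ _ _ (hX 1) (hX 0))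
      rw [hmap2 _ _ _ (hX 1) (hX 0), map_X, map_X] at this
      exact this
    apply hz_injective f hf0 hf1 hF0 h10
    rw [hF, hz_log_subst f hF0 hF (constantCoeff_X 1) (constantCoeff_X 0), add_comm]
  · rw [hHF]
    exact hF

end Vale.Agent.P217
end
end

section

section

/-!
# P217 (27a2): the Hazewinkel formal group law over `E₀`
-/

namespace Vale.Agent.P217.UF

open MvPowerSeries Finsupp

section Compare

variable {R : Type*} [CommRing R]

/-- low degree coefficients of a logarithm. -/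
theorem coeff_log_sub {τ : Type*} {N : ℕ} {f g : PowerSeries R} {c : R}
    (hlt : ∀ m, m < N → PowerSeries.coeff m f = PowerSeries.coeff m g)
    (heq : PowerSeries.coeff N f = PowerSeries.coeff N g + c) {A : MvPowerSeries τ R}
    (hA : constantCoeff A = 0) {e : τ →₀ ℕ} (he : degree e ≤ N) :
    coeff e (PowerSeries.subst A f : MvPowerSeries τ R) =
      coeff e (PowerSeries.subst A g : MvPowerSeries τ R) +
        (if degree e = N then c * coeff e (A ^ N) else 0) := by
  rw [hc_coeff_subst hA, hc_coeff_subst hA]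
  split_ifs with h
  · rw [h, Finset.sum_range_succ, Finset.sum_range_succ, heq, add_mul, ← add_assoc]
    congr 2
    refine Finset.sum_congr rfl fun j hj => ?_
    rw [hlt j (Finset.mem_range.mp hj)]
  · rw [add_zero]
    refine Finset.sum_congr rfl fun j hj => ?_
    have := Finset.mem_range.mp hj
    rw [hlt j (by omega)]

/-- the leading term of the difference of two values of a logarithm. -/
theorem coeff_log_agree {τ : Type*} {g : PowerSeries R} (h1 : PowerSeries.coeff 1 g = 1)
    {A B : MvPowerSeries τ R} (hA : constantCoeff A = 0)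
    (hB : constantCoeff B = 0) {e : τ →₀ ℕ} (h : AgreeLT (degree e) A B) (he : degree e ≠ 0) :
    coeff e (PowerSeries.subst A g : MvPowerSeries τ R) -
      coeff e (PowerSeries.subst B g : MvPowerSeries τ R) = coeff e A - coeff e B := by
  rw [hc_coeff_subst hA, hc_coeff_subst hB, ← Finset.sum_sub_distrib,
    Finset.sum_eq_single_of_mem 1 (Finset.mem_range.mpr (by omega))]
  · rw [h1, one_mul, one_mul, pow_one, pow_one]
  · intro j _ hj
    rcases Nat.eq_zero_or_pos j with rfl | hj0
    · rw [pow_zero, pow_zero, sub_self]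
    · rw [h.pow hA hB (show 2 ≤ j by omega) e (Nat.lt_succ_self _), sub_self]

/-- the degree `N` part of `A ^ N` depends only on the linear part of `A`. -/
theorem coeff_pow_of_agree {τ : Type*} {A B : MvPowerSeries τ R} (hA : constantCoeff A = 0)
    (hB : constantCoeff B = 0) (h : AgreeLT 2 A B) (N : ℕ) :
    ∀ e : τ →₀ ℕ, degree e ≤ N → coeff e (A ^ N) = coeff e (B ^ N) := by
  classical
  induction N with
  | zero => intro e _; rw [pow_zero, pow_zero]
  | succ N ih =>
    intro e he
    rw [pow_succ', pow_succ', coeff_mul, coeff_mul]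
    refine Finset.sum_congr rfl fun q hq => ?_
    have hq' : q.1 + q.2 = e := Finset.HasAntidiagonal.mem_antidiagonal.mp hq
    have hdeg : degree q.1 + degree q.2 = degree e := by rw [← map_add, hq']
    rcases Nat.lt_or_ge (degree q.1) 2 with h1 | h1
    · rcases Nat.eq_zero_or_pos (degree q.1) with h0 | h0
      · have : q.1 = 0 := by rwa [← Finsupp.degree_eq_zero_iff]
        rw [this, coeff_zero_eq_constantCoeff_apply, coeff_zero_eq_constantCoeff_apply, hA, hB,
          zero_mul, zero_mul]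
      · rw [h q.1 h1, ih q.2 (by omega)]
    · rw [ulead_coeff_pow hA (by omega), ulead_coeff_pow hB (by omega), mul_zero, mul_zero]

/-- comparison of two formal group laws whose logarithms agree in degrees `< N`. -/
theorem compare {N : ℕ} (hN : 2 ≤ N) {F G : FormalGroup R} {f g : PowerSeries R} {c : R}
    (hF : FA.IsLog F f) (hG : FA.IsLog G g) (hg1 : PowerSeries.coeff 1 g = 1)
    (hlt : ∀ m, m < N → PowerSeries.coeff m f = PowerSeries.coeff m g)
    (heq : PowerSeries.coeff N f = PowerSeries.coeff N g + c) :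
    AgreeLT N F.toPowerSeries G.toPowerSeries ∧
      ∀ i j : ℕ, 1 ≤ i → 1 ≤ j → i + j = N →
        coeff (Finsupp.single 0 i + Finsupp.single 1 j) F.toPowerSeries =
          coeff (Finsupp.single 0 i + Finsupp.single 1 j) G.toPowerSeries -
            c * (N.choose i : R) := by
  have hF0 := F.zero_constantCoeff
  have hG0 := G.zero_constantCoeff
  have main : ∀ e : Fin 2 →₀ ℕ, degree e ≤ N → degree e ≠ 0 →
      AgreeLT (degree e) F.toPowerSeries G.toPowerSeries →
      coeff e F.toPowerSeries = coeff e G.toPowerSeries + (if degree e = N then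
        c * (coeff e ((X 0 : MvPowerSeries (Fin 2) R) ^ N) +
          coeff e ((X 1 : MvPowerSeries (Fin 2) R) ^ N) - coeff e (F.toPowerSeries ^ N)) else 0) := by
    intro e he he0 hag
    have e1 := congrArg (coeff e) hF.add
    have e2 := congrArg (coeff e) hG.add
    rw [map_add] at e1 e2
    rw [coeff_log_sub hlt heq hF0 he, coeff_log_sub hlt heq (constantCoeff_X 0) he,
      coeff_log_sub hlt heq (constantCoeff_X 1) he] at e1
    have e3 := coeff_log_agree hg1 hF0 hG0 hag he0
    split_ifs at e1 ⊢ with h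
    · linear_combination e1 - e2 - e3
    · linear_combination e1 - e2 - e3
  have hag : ∀ d, d ≤ N → AgreeLT d F.toPowerSeries G.toPowerSeries := by
    intro d
    induction d with
    | zero => intro _ e he; omega
    | succ d ih =>
      intro hd e he
      rcases Nat.lt_or_ge (degree e) d with h | h
      · exact ih (by omega) e h
      · have hed : degree e = d := by omega
        rcases Nat.eq_zero_or_pos d with hd0 | hd0
        · have : e = 0 := by
            rw [← Finsupp.degree_eq_zero_iff]; omega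
          rw [this, coeff_zero_eq_constantCoeff_apply, coeff_zero_eq_constantCoeff_apply, hF0, hG0]
        · have := main e (by omega) (by omega) (by rw [hed]; exact ih (by omega))
          rw [if_neg (by omega), add_zero] at this
          exact this
  refine ⟨hag N le_rfl, fun i j hi hj hij => ?_⟩
  have hdeg : degree (Finsupp.single (0 : Fin 2) i + Finsupp.single 1 j) = N := by
    rw [ulead_degree]; exact hij
  have h1 := main (Finsupp.single (0 : Fin 2) i + Finsupp.single 1 j) hdeg.le (by omega)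
    (by rw [hdeg]; exact hag N le_rfl)
  rw [if_pos hdeg, ulead_coeff_X0_pow hj, ulead_coeff_X1_pow hi] at h1
  have hXX : constantCoeff (X 0 + X 1 : MvPowerSeries (Fin 2) R) = 0 := by simp
  -- `F` agrees with `X + Y` in degrees `< 2`
  have hF2 : AgreeLT 2 F.toPowerSeries (X 0 + X 1) := by
    intro e he
    rcases Nat.eq_zero_or_pos (degree e) with h | h
    · have : e = 0 := by
        rwa [← Finsupp.degree_eq_zero_iff]
      rw [this, coeff_zero_eq_constantCoeff_apply, coeff_zero_eq_constantCoeff_apply, hF0, hXX]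
    · have hd1 : degree e = 1 := by omega
      have e1 := congrArg (coeff e) hF.add
      have hf1 : PowerSeries.coeff 1 f = 1 := by rw [hlt 1 (by omega), hg1]
      have hz : AgreeLT (degree e) F.toPowerSeries (X 0 + X 1) := by
        intro e' he'
        have : e' = 0 := by
          rw [← Finsupp.degree_eq_zero_iff]; omega
        rw [this, coeff_zero_eq_constantCoeff_apply, coeff_zero_eq_constantCoeff_apply, hF0, hXX]
      have hzz : ∀ A : MvPowerSeries (Fin 2) R, constantCoeff A = 0 →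
          coeff e (PowerSeries.subst A f : MvPowerSeries (Fin 2) R) = coeff e A := by
        intro A hA
        have h2 := coeff_log_agree (e := e) hf1 hA (B := 0) (map_zero _) (by
          intro e' he'
          have : e' = 0 := by
            rw [← Finsupp.degree_eq_zero_iff]; omega
          rw [this, coeff_zero_eq_constantCoeff_apply, hA, map_zero]) (by omega)
        rw [PowerSeries.subst_zero_of_constantCoeff_zero hF.zero, map_zero, sub_zero,
          sub_zero] at h2
        exact h2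
      rw [map_add, hzz _ hF0, hzz _ (constantCoeff_X 0), hzz _ (constantCoeff_X 1)] at e1
      rw [e1, map_add]
  have h2 : coeff (Finsupp.single (0 : Fin 2) i + Finsupp.single 1 j) (F.toPowerSeries ^ N) =
      (N.choose i : R) := by
    rw [coeff_pow_of_agree hF0 hXX hF2 N _ hdeg.le, ← hij]
    exact ulead_coeff_add_pow i j
  rw [h2] at h1
  rw [h1]
  ring

end Compare

section Haz

variable {p n : ℕ} [hp : Fact p.Prime] {F : FormalGroup (MvPolynomial (Fin n) ℤ)}
  {f : PowerSeries (MvPolynomial (Fin n) ℚ)}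

theorem haz_coeff_one (h : IsHaz p n F f) : PowerSeries.coeff 1 f = 1 := by
  rw [h.coeff_log, if_pos rfl, Finset.sum_eq_zero, add_zero]
  intro i _
  rw [if_neg]
  intro hd
  have h1 : 1 < p ^ ((i : ℕ) + 1) := Nat.one_lt_pow (by omega) hp.out.one_lt
  have := Nat.le_of_dvd one_pos hd
  omega

theorem haz_isLog (h : IsHaz p n F f) :
    FA.IsLog (F.map (MvPolynomial.map (Int.castRingHom ℚ))) f where
  zero := h.cc
  unit := by rw [haz_coeff_one h]; exact isUnit_one
  add := h.log

theorem castQ_injective : Function.Injective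
    (MvPolynomial.map (Int.castRingHom ℚ) : MvPolynomial (Fin n) ℤ →+* MvPolynomial (Fin n) ℚ) :=
  MvPolynomial.map_injective _ Int.cast_injective

/-- values of the coefficients of `f` in degrees `1 ≤ m ≤ p^(k+1)`. -/
theorem haz_coeff_le (h : IsHaz p n F f) {k : ℕ} {m : ℕ} (hm1 : 1 ≤ m)
    (hm : m ≤ p ^ (k + 1)) :
    PowerSeries.coeff m f = (if m = 1 then 1 else 0) +
    ∑ i : Fin n, if p ^ ((i : ℕ) + 1) ∣ m ∧ (i : ℕ) ≤ k then
      MvPolynomial.C (1 / (p : ℚ)) * MvPolynomial.X i *
        MvPolynomial.expand (p ^ ((i : ℕ) + 1)) (PowerSeries.coeff (m / p ^ ((i : ℕ) + 1)) f)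
      else 0 := by
  rw [h.coeff_log]
  congr 1
  refine Finset.sum_congr rfl fun i _ => ?_
  by_cases hd : p ^ ((i : ℕ) + 1) ∣ m
  · have h1 : p ^ ((i : ℕ) + 1) ≤ p ^ (k + 1) := (Nat.le_of_dvd (by omega) hd).trans hm
    have h2 := (Nat.pow_le_pow_iff_right hp.out.one_lt).mp h1
    rw [if_pos hd, if_pos ⟨hd, by omega⟩]
  · rw [if_neg hd, if_neg (fun hh => hd hh.1)]

/-- reduction to the Honda logarithm: the homomorphism `v_i ↦ 0` (`i < n`), `v_n ↦ 1`. -/
noncomputable def evQ (p n : ℕ) [Fact p.Prime] : MvPolynomial (Fin n) ℚ →+* ℚ_[p] :=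
  MvPolynomial.eval₂Hom (algebraMap ℚ ℚ_[p]) (fun i => if (i : ℕ) < n - 1 then 0 else 1)

theorem evQ_expand (k : ℕ) (hk : k ≠ 0) (g : MvPolynomial (Fin n) ℚ) :
    evQ p n (MvPolynomial.expand k g) = evQ p n g := by
  have : (evQ p n).comp (MvPolynomial.expand k :
      MvPolynomial (Fin n) ℚ →ₐ[ℚ] MvPolynomial (Fin n) ℚ).toRingHom = evQ p n := by
    refine MvPolynomial.ringHom_ext (fun r => ?_) (fun i => ?_)
    · simp [evQ]
    · simp only [evQ, RingHom.comp_apply, AlgHom.toRingHom_eq_coe, RingHom.coe_coe,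
        MvPolynomial.expand_X, map_pow, MvPolynomial.coe_eval₂Hom, MvPolynomial.eval₂_X]
      split_ifs
      · exact zero_pow hk
      · exact one_pow k
  exact RingHom.congr_fun this g

theorem honda_rec (hn : 1 ≤ n) {m : ℕ} (hm : m ≠ 0) :
    PowerSeries.coeff m (hondaLog p n) = (if m = 1 then 1 else 0) +
      if p ^ n ∣ m then (p : ℚ_[p])⁻¹ * PowerSeries.coeff (m / p ^ n) (hondaLog p n) else 0 := by
  have hq : 1 < p ^ n := Nat.one_lt_pow (by omega) hp.out.one_lt
  by_cases h : ∃ i, m = p ^ (n * i)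
  · obtain ⟨i, rfl⟩ := h
    rw [FA.coeff_hondaLog_pow p n hn]
    rcases Nat.eq_zero_or_pos i with rfl | hi
    · have h1 : ¬ p ^ n ∣ p ^ (n * 0) := by
        rw [mul_zero, pow_zero]
        intro hd
        have := Nat.le_of_dvd one_pos hd
        omega
      rw [if_neg h1]
      simp
    · obtain ⟨j, rfl⟩ := Nat.exists_eq_succ_of_ne_zero (by omega : i ≠ 0)
      have h2 : p ^ (n * (j + 1)) = p ^ n * p ^ (n * j) := by
        rw [← pow_add]; congr 1; ring
      have h3 : p ^ (n * (j + 1)) ≠ 1 := by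
        rw [h2]
        have : 0 < p ^ (n * j) := pow_pos hp.out.pos _
        intro h4
        have := Nat.eq_one_of_mul_eq_one_right h4
        omega
      rw [Nat.succ_eq_add_one, if_neg h3, h2, if_pos (dvd_mul_right _ _),
        Nat.mul_div_cancel_left _ (by omega), FA.coeff_hondaLog_pow p n hn, zero_add, pow_succ,
        mul_inv, mul_comm]
  · push Not at h
    rw [FA.coeff_hondaLog_eq_zero p n m h, if_neg (fun h1 => h 0 (by rw [h1]; simp)), zero_add]
    split_ifs with hd
    · obtain ⟨k, rfl⟩ := hd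
      rw [Nat.mul_div_cancel_left _ (by omega), FA.coeff_hondaLog_eq_zero p n k, mul_zero]
      intro i hi
      refine h (i + 1) ?_
      rw [hi, ← pow_add]; congr 1; ring
    · rfl

theorem evQ_log (hn : 1 ≤ n) (h : IsHaz p n F f) :
    PowerSeries.map (evQ p n) f = hondaLog p n := by
  ext m
  rw [PowerSeries.coeff_map]
  induction m using Nat.strong_induction_on with
  | _ m ih =>
    rcases Nat.eq_zero_or_pos m with rfl | hm
    · rw [PowerSeries.coeff_zero_eq_constantCoeff_apply,
        PowerSeries.coeff_zero_eq_constantCoeff_apply, h.cc, map_zero, FA.hondaLog_zero]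
    · rw [honda_rec hn (by omega), h.coeff_log, map_add, map_sum]
      congr 1
      · split_ifs <;> simp
      · have hlast : n - 1 < n := by omega
        rw [Finset.sum_eq_single_of_mem (⟨n - 1, hlast⟩ : Fin n) (Finset.mem_univ _)]
        · simp only [show n - 1 + 1 = n by omega]
          split_ifs with hd
          · have h1 : m / p ^ n < m := Nat.div_lt_self hm (Nat.one_lt_pow (by omega)
              hp.out.one_lt)
            rw [map_mul, map_mul, evQ_expand _ (pow_ne_zero _ hp.out.ne_zero), ih _ h1]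
            congr 1
            simp [evQ]
          · exact map_zero _
        · intro i _ hi
          split_ifs with hd
          · have h2 : (i : ℕ) < n - 1 := by
              have h3 := i.2
              have h4 : (i : ℕ) ≠ n - 1 := fun h5 => hi (Fin.ext h5)
              omega
            rw [map_mul, map_mul]
            have h3 : evQ p n (MvPolynomial.X i) = 0 := by
              simp [evQ, h2]
            rw [h3, mul_zero, zero_mul]
          · exact map_zero _

/-- `ℤ[v] → ℤ_p`. -/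
noncomputable def evZ (p n : ℕ) [Fact p.Prime] : MvPolynomial (Fin n) ℤ →+* ℤ_[p] :=
  MvPolynomial.eval₂Hom (Int.castRingHom ℤ_[p]) (fun i => if (i : ℕ) < n - 1 then 0 else 1)

theorem evZ_comp : (algebraMap ℤ_[p] ℚ_[p]).comp (evZ p n) =
    (evQ p n).comp (MvPolynomial.map (Int.castRingHom ℚ)) := by
  refine MvPolynomial.ringHom_ext (fun r => ?_) (fun i => ?_)
  · simp [evZ, evQ]
  · simp only [evZ, evQ, RingHom.comp_apply, MvPolynomial.coe_eval₂Hom, MvPolynomial.eval₂_X,
      MvPolynomial.map_X]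
    split_ifs
    · exact map_zero _
    · exact map_one _

theorem red_hazMap : (red p n).comp (hazMap p n) =
    ((algebraMap (ZMod p) (GaloisField p n)).comp PadicInt.toZMod).comp (evZ p n) := by
  refine MvPolynomial.ringHom_ext (fun r => ?_) (fun i => ?_)
  · simp [evZ, hazMap]
  · simp only [evZ, hazMap, RingHom.comp_apply, MvPolynomial.coe_eval₂Hom, MvPolynomial.eval₂_X]
    by_cases hi : (i : ℕ) < n - 1
    · rw [dif_pos hi, if_pos hi, map_zero, map_zero]
      simp [red]
    · rw [dif_neg hi, if_neg hi, map_one, map_one, map_one]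

theorem haz_reduction (hn : 1 ≤ n) (h : IsHaz p n F f) (Γ : FormalGroup (ZMod p))
    (hΓ : IsHonda p n Γ) : (F.map (hazMap p n)).map (red p n) =
      Γ.map (algebraMap (ZMod p) (GaloisField p n)) := by
  obtain ⟨H, hH, hl⟩ := hΓ.exists_log hn
  have h1 : FA.IsLog ((F.map (MvPolynomial.map (Int.castRingHom ℚ))).map (evQ p n))
      (hondaLog p n) := by
    have := (haz_isLog h).map (evQ p n)
    rwa [evQ_log hn h] at this
  have h2 : F.map (evZ p n) = H := by
    have h3 : ((F.map (MvPolynomial.map (Int.castRingHom ℚ))).map (evQ p n)).toPowerSeries =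
        (H.map (algebraMap ℤ_[p] ℚ_[p])).toPowerSeries := by
      refine FA.subst_injective h1.zero h1.unit (FormalGroup.zero_constantCoeff _)
        (FormalGroup.zero_constantCoeff _) ?_
      rw [h1.add, hl.add]
    have h4 : ∀ e, coeff e (F.map (evZ p n)).toPowerSeries = coeff e H.toPowerSeries := by
      intro e
      apply FA.algebraMap_injective
      have h5 := congrArg (coeff e) h3
      have h6 : coeff e ((F.map (MvPolynomial.map (Int.castRingHom ℚ))).map
          (evQ p n)).toPowerSeries = ((evQ p n).comp (MvPolynomial.map (Int.castRingHom ℚ)))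
            (coeff e F.toPowerSeries) := rfl
      rw [h6, ← evZ_comp] at h5
      exact h5
    exact FormalGroup.ext (MvPowerSeries.ext h4)
  have h7 : (F.map (hazMap p n)).map (red p n) = ((F.map (evZ p n)).map
      PadicInt.toZMod).map (algebraMap (ZMod p) (GaloisField p n)) := by
    refine FormalGroup.ext (MvPowerSeries.ext fun e => ?_)
    exact RingHom.congr_fun red_hazMap (coeff e F.toPowerSeries)
  rw [h7, h2, hH]

end Haz


section Height

variable {p n : ℕ} [hp : Fact p.Prime] {F : FormalGroup (MvPolynomial (Fin n) ℤ)}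
  {f : PowerSeries (MvPolynomial (Fin n) ℚ)}

theorem log_multSeries {R : Type*} [CommRing R] {F : FormalGroup R} [F.IsComm]
    {l : PowerSeries R} (h : FA.IsLog F l) (m : ℕ) :
    (PowerSeries.subst (multSeries F m) l : PowerSeries R) = m • l := by
  have h7 := h.subst_nsmul m (FA.ZPt.mk F PowerSeries.X PowerSeries.constantCoeff_X)
  rw [FA.ZPt.val_nsmul] at h7
  have h8 : (PowerSeries.subst (FA.ZPt.mk F PowerSeries.X PowerSeries.constantCoeff_X).val
      (multSeries F m) : PowerSeries R) = multSeries F m := PowerSeries.X_subst _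
  have h9 : (PowerSeries.subst (FA.ZPt.mk F PowerSeries.X PowerSeries.constantCoeff_X).val
      l : PowerSeries R) = l := PowerSeries.X_subst _
  rw [h8, h9] at h7
  exact h7

theorem coeff_subst_one {R : Type*} [CommRing R] {P l : PowerSeries R}
    (hP : PowerSeries.constantCoeff P = 0) (j : ℕ) :
    PowerSeries.coeff j (PowerSeries.subst P l : PowerSeries R) =
      ∑ k ∈ Finset.range (j + 1), PowerSeries.coeff k l * PowerSeries.coeff j (P ^ k) := by
  have h := hc_coeff_subst (τ := Unit) (f := P) hP l (Finsupp.single () j)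
  rw [Finsupp.degree_single] at h
  exact h

theorem coeff_pow_self {R : Type*} [CommRing R] {P : PowerSeries R}
    (hP : PowerSeries.constantCoeff P = 0) (N : ℕ) :
    PowerSeries.coeff N (P ^ N) = PowerSeries.coeff 1 P ^ N := by
  obtain ⟨Q, rfl⟩ := PowerSeries.X_dvd_iff.mpr hP
  rw [mul_pow, PowerSeries.coeff_X_pow_mul', if_pos le_rfl, Nat.sub_self,
    PowerSeries.coeff_zero_eq_constantCoeff_apply, map_pow]
  congr 1
  have := PowerSeries.coeff_succ_X_mul 0 Q
  rw [zero_add, PowerSeries.coeff_zero_eq_constantCoeff_apply] at this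
  exact this.symm

/-- the first coefficients of `[p]`. -/
theorem mult_coeffs {R : Type*} [CommRing R] {N : ℕ} (hN : 2 ≤ N) {P l : PowerSeries R} {a c : R}
    (hP : PowerSeries.constantCoeff P = 0) (hl0 : PowerSeries.coeff 0 l = 0)
    (hl1 : PowerSeries.coeff 1 l = 1)
    (hlt : ∀ m, 2 ≤ m → m < N → PowerSeries.coeff m l = 0) (hc : PowerSeries.coeff N l = c)
    (h : ∀ j, PowerSeries.coeff j (PowerSeries.subst P l : PowerSeries R) =
      a * PowerSeries.coeff j l) :
    PowerSeries.coeff 1 P = a ∧ (∀ j, 2 ≤ j → j < N → PowerSeries.coeff j P = 0) ∧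
      PowerSeries.coeff N P = a * c - c * a ^ N := by
  have e1 : PowerSeries.coeff 1 P = a := by
    have := h 1
    rw [coeff_subst_one hP, Finset.sum_range_succ, Finset.sum_range_one, hl0, hl1, zero_mul,
      zero_add, one_mul, pow_one, mul_one] at this
    exact this
  refine ⟨e1, fun j hj hjN => ?_, ?_⟩
  · have := h j
    rw [coeff_subst_one hP, hlt j hj hjN, mul_zero,
      Finset.sum_eq_single_of_mem 1 (Finset.mem_range.mpr (by omega))] at this
    · rw [hl1, one_mul, pow_one] at this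
      exact this
    · intro k hk hk1
      have := Finset.mem_range.mp hk
      rcases Nat.eq_zero_or_pos k with rfl | hk0
      · rw [hl0, zero_mul]
      · rw [hlt k (by omega) (by omega), zero_mul]
  · have := h N
    rw [coeff_subst_one hP, Finset.sum_range_succ, hc, coeff_pow_self hP, e1,
      Finset.sum_eq_single_of_mem 1 (Finset.mem_range.mpr (by omega))] at this
    · rw [hl1, one_mul, pow_one] at this
      rw [← this]; ring
    · intro k hk hk1
      have := Finset.mem_range.mp hk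
      rcases Nat.eq_zero_or_pos k with rfl | hk0
      · rw [hl0, zero_mul]
      · rw [hlt k (by omega) (by omega), zero_mul]

/-- `v_i ↦ 0` for `i < h`. -/
noncomputable def cutZ (n h : ℕ) : MvPolynomial (Fin n) ℤ →+* MvPolynomial (Fin n) ℤ :=
  MvPolynomial.eval₂Hom MvPolynomial.C (fun i => if (i : ℕ) + 1 < h then 0 else MvPolynomial.X i)

/-- `v_i ↦ 0` for `i < h`. -/
noncomputable def cutQ (n h : ℕ) : MvPolynomial (Fin n) ℚ →+* MvPolynomial (Fin n) ℚ :=
  MvPolynomial.eval₂Hom MvPolynomial.C (fun i => if (i : ℕ) + 1 < h then 0 else MvPolynomial.X i)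

theorem cut_comp (n h : ℕ) : (MvPolynomial.map (Int.castRingHom ℚ)).comp (cutZ n h) =
    (cutQ n h).comp (MvPolynomial.map (Int.castRingHom ℚ)) := by
  refine MvPolynomial.ringHom_ext (fun r => ?_) (fun i => ?_)
  · simp [cutZ, cutQ]
  · simp only [cutZ, cutQ, RingHom.comp_apply, MvPolynomial.coe_eval₂Hom, MvPolynomial.eval₂_X,
      MvPolynomial.map_X]
    split_ifs
    · exact map_zero _
    · exact MvPolynomial.map_X _ _

theorem cutQ_lt (h : IsHaz p n F f) {k m : ℕ} (hm : 2 ≤ m) (hmk : m < p ^ (k + 1)) :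
    cutQ n (k + 1) (PowerSeries.coeff m f) = 0 := by
  rw [haz_coeff_le h (by omega) hmk.le, if_neg (by omega), zero_add, map_sum]
  refine Finset.sum_eq_zero fun i _ => ?_
  split_ifs with hd
  · have h1 : (i : ℕ) < k := by
      rcases Nat.lt_or_ge (i : ℕ) k with h | h
      · exact h
      · have h2 : (i : ℕ) = k := by omega
        have h3 := Nat.le_of_dvd (by omega) hd.1
        rw [h2] at h3
        omega
    have h2 : cutQ n (k + 1) (MvPolynomial.X i) = 0 := by
      simp [cutQ, h1]
    rw [map_mul, map_mul, h2, mul_zero, zero_mul]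
  · exact map_zero _

theorem cutQ_eq (h : IsHaz p n F f) {k : ℕ} (hk : k < n) :
    cutQ n (k + 1) (PowerSeries.coeff (p ^ (k + 1)) f) =
      MvPolynomial.C (1 / (p : ℚ)) * MvPolynomial.X ⟨k, hk⟩ := by
  have hq : 1 < p ^ (k + 1) := Nat.one_lt_pow (by omega) hp.out.one_lt
  rw [haz_coeff_le h (by omega) le_rfl, if_neg (by omega), zero_add, map_sum,
    Finset.sum_eq_single_of_mem (⟨k, hk⟩ : Fin n) (Finset.mem_univ _)]
  · simp only [dvd_refl, le_refl, and_self, if_true]
    rw [Nat.div_self (by omega), haz_coeff_one h, map_one, mul_one, map_mul]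
    simp [cutQ]
  · intro i _ hi
    split_ifs with hd
    · have h1 : (i : ℕ) < k := by
        have : (i : ℕ) ≠ k := fun h5 => hi (Fin.ext h5)
        omega
      have h2 : cutQ n (k + 1) (MvPolynomial.X i) = 0 := by
        simp [cutQ, h1]
      rw [map_mul, map_mul, h2, mul_zero, zero_mul]
    · exact map_zero _

theorem haz_mult (h : IsHaz p n F f) {k : ℕ} (hk : k < n) :
    cutZ n (k + 1) (PowerSeries.coeff 1 (multSeries F p)) = p ∧ (∀ j, 2 ≤ j → j < p ^ (k + 1) →
      cutZ n (k + 1) (PowerSeries.coeff j (multSeries F p)) = 0) ∧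
      cutZ n (k + 1) (PowerSeries.coeff (p ^ (k + 1)) (multSeries F p)) =
        MvPolynomial.X ⟨k, hk⟩ - (p : MvPolynomial (Fin n) ℤ) ^ (p ^ (k + 1) - 1) *
          MvPolynomial.X ⟨k, hk⟩ := by
  have hq : 1 < p ^ (k + 1) := Nat.one_lt_pow (by omega) hp.out.one_lt
  have hl := (haz_isLog h).map (cutQ n (k + 1))
  have hcm : ((F.map (MvPolynomial.map (Int.castRingHom ℚ))).map (cutQ n (k + 1))).IsComm :=
    hl.isComm
  have hms := log_multSeries hl p
  have hP : multSeries ((F.map (MvPolynomial.map (Int.castRingHom ℚ))).map (cutQ n (k + 1))) p =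
      PowerSeries.map ((MvPolynomial.map (Int.castRingHom ℚ)).comp (cutZ n (k + 1)))
        (multSeries F p) := by
    rw [cut_comp, hc_multSeries_map, hc_multSeries_map]
    ext m
    simp
  rw [hP] at hms
  have hP0 : PowerSeries.constantCoeff (PowerSeries.map ((MvPolynomial.map
      (Int.castRingHom ℚ)).comp (cutZ n (k + 1))) (multSeries F p)) = 0 := by
    rw [← PowerSeries.coeff_zero_eq_constantCoeff_apply, PowerSeries.coeff_map,
      PowerSeries.coeff_zero_eq_constantCoeff_apply, FPt.constantCoeff_multSeries, map_zero]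
  obtain ⟨h1, h2, h3⟩ := mult_coeffs (a := (p : MvPolynomial (Fin n) ℚ))
    (c := MvPolynomial.C (1 / (p : ℚ)) * MvPolynomial.X ⟨k, hk⟩) (show 2 ≤ p ^ (k + 1) by omega) hP0
    (by rw [PowerSeries.coeff_zero_eq_constantCoeff_apply]; exact hl.zero)
    (by rw [PowerSeries.coeff_map, haz_coeff_one h, map_one])
    (fun m hm hm2 => by rw [PowerSeries.coeff_map]; exact cutQ_lt h hm hm2)
    (by rw [PowerSeries.coeff_map]; exact cutQ_eq h hk)
    (fun j => by rw [hms, map_nsmul, nsmul_eq_mul])
  refine ⟨?_, fun j hj hj2 => ?_, ?_⟩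
  · apply castQ_injective
    rw [PowerSeries.coeff_map, RingHom.comp_apply] at h1
    rw [h1, map_natCast]
  · apply castQ_injective
    have := h2 j hj hj2
    rw [PowerSeries.coeff_map, RingHom.comp_apply] at this
    rw [this, map_zero]
  · apply castQ_injective
    rw [PowerSeries.coeff_map, RingHom.comp_apply] at h3
    rw [h3, map_sub, map_mul, map_pow, map_natCast, MvPolynomial.map_X]
    have hp0 : (p : ℚ) ≠ 0 := by exact_mod_cast hp.out.ne_zero
    have e1 : (p : MvPolynomial (Fin n) ℚ) * MvPolynomial.C (1 / (p : ℚ)) = 1 := by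
      rw [← map_natCast (MvPolynomial.C (σ := Fin n) (R := ℚ)) p, ← map_mul,
        mul_one_div_cancel hp0, map_one]
    obtain ⟨N, hN⟩ := Nat.exists_eq_succ_of_ne_zero (by omega : p ^ (k + 1) ≠ 0)
    rw [hN, Nat.succ_eq_add_one, Nat.add_sub_cancel, pow_succ]
    linear_combination (MvPolynomial.X (⟨k, hk⟩ : Fin n) -
      (p : MvPolynomial (Fin n) ℚ) ^ N * MvPolynomial.X (⟨k, hk⟩ : Fin n)) * e1

theorem hazMap_X_lt {i : Fin n} (hi : (i : ℕ) < n - 1) :
    hazMap p n (MvPolynomial.X i) = X ⟨i, hi⟩ := by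
  simp [hazMap, hi]

theorem hazMap_sub_cut {h : ℕ} (hh : 1 ≤ h) (hhn : h ≤ n) (c : MvPolynomial (Fin n) ℤ) :
    hazMap p n c - hazMap p n (cutZ n h c) ∈ heightIdeal p n h := by
  have e : (Ideal.Quotient.mk (heightIdeal p n h)).comp (hazMap p n) =
      ((Ideal.Quotient.mk (heightIdeal p n h)).comp (hazMap p n)).comp (cutZ n h) := by
    refine MvPolynomial.ringHom_ext (fun r => ?_) (fun i => ?_)
    · simp [cutZ, hazMap]
    · by_cases hi : (i : ℕ) + 1 < h
      · have h1 : cutZ n h (MvPolynomial.X i) = 0 := by simp [cutZ, hi]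
        rw [RingHom.comp_apply, RingHom.comp_apply, h1, map_zero,
          hazMap_X_lt (show (i : ℕ) < n - 1 by omega), Ideal.Quotient.eq_zero_iff_mem, heightIdeal,
          if_neg (by omega)]
        exact Ideal.subset_span (Or.inr ⟨_, hi, rfl⟩)
      · have h1 : cutZ n h (MvPolynomial.X i) = MvPolynomial.X i := by simp [cutZ, hi]
        rw [RingHom.comp_apply _ (cutZ n h), h1]
  rw [← Ideal.Quotient.eq_zero_iff_mem, map_sub, sub_eq_zero]
  exact RingHom.congr_fun e c

theorem natCast_mem {h : ℕ} (hh : 1 ≤ h) : (p : E0 p n) ∈ heightIdeal p n h := by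
  rw [heightIdeal, if_neg (by omega)]
  exact Ideal.subset_span (Or.inl rfl)

theorem haz_coeff_mem (h : IsHaz p n F f) {k : ℕ} (hk : k < n) {j : ℕ} (hj : j < p ^ (k + 1)) :
    PowerSeries.coeff j (multSeries (F.map (hazMap p n)) p) ∈ heightIdeal p n (k + 1) := by
  have hcF : F.IsComm := h.comm
  rw [hc_multSeries_map, PowerSeries.coeff_map]
  rcases Nat.lt_or_ge j 2 with h2 | h2
  · rcases Nat.eq_zero_or_pos j with rfl | h0
    · rw [PowerSeries.coeff_zero_eq_constantCoeff_apply, FPt.constantCoeff_multSeries, map_zero]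
      exact Submodule.zero_mem _
    · have h3 : j = 1 := by omega
      have h4 := hazMap_sub_cut (p := p) (show 1 ≤ k + 1 by omega) (show k + 1 ≤ n by omega)
        (PowerSeries.coeff 1 (multSeries F p))
      rw [(haz_mult h hk).1, map_natCast] at h4
      have h5 := Submodule.add_mem _ h4 (natCast_mem (p := p) (n := n) (show 1 ≤ k + 1 by omega))
      rw [sub_add_cancel] at h5
      rw [h3]
      exact h5
  · have h3 := hazMap_sub_cut (p := p) (show 1 ≤ k + 1 by omega) (show k + 1 ≤ n by omega)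
      (PowerSeries.coeff j (multSeries F p))
    rw [(haz_mult h hk).2.1 j h2 hj, map_zero, sub_zero] at h3
    exact h3

theorem haz_coeff_sub_mem (h : IsHaz p n F f) {k : ℕ} (hk : k < n - 1) :
    (X ⟨k, hk⟩ : E0 p n) -
      PowerSeries.coeff (p ^ (k + 1)) (multSeries (F.map (hazMap p n)) p) ∈
      heightIdeal p n (k + 1) := by
  have hk' : k < n := by omega
  have hq : 1 < p ^ (k + 1) := Nat.one_lt_pow (by omega) hp.out.one_lt
  rw [hc_multSeries_map, PowerSeries.coeff_map]
  have h3 := hazMap_sub_cut (p := p) (show 1 ≤ k + 1 by omega) (show k + 1 ≤ n by omega)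
      (PowerSeries.coeff (p ^ (k + 1)) (multSeries F p))
  rw [(haz_mult h hk').2.2, map_sub, map_mul, map_pow, map_natCast,
    hazMap_X_lt (show ((⟨k, hk'⟩ : Fin n) : ℕ) < n - 1 from hk)] at h3
  have h4 : (p : E0 p n) ^ (p ^ (k + 1) - 1) * X ⟨k, hk⟩ ∈ heightIdeal p n (k + 1) := by
    refine Ideal.mul_mem_right _ _ (Ideal.pow_mem_of_mem _ (natCast_mem (by omega)) _ (by omega))
  have h5 := Submodule.add_mem _ (Submodule.neg_mem _ h3) h4
  convert h5 using 1
  ring

theorem haz_adapted (h : IsHaz p n F f) : HeightAdapted p n (F.map (hazMap p n)) := by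
  intro k0 hk1 hkn
  obtain ⟨k, rfl⟩ := Nat.exists_eq_succ_of_ne_zero (by omega : k0 ≠ 0)
  rw [Nat.succ_eq_add_one] at *
  apply le_antisymm
  · have key : ∀ i : ℕ, ∀ hi : i < n - 1, i + 1 < k + 1 → (X ⟨i, hi⟩ : E0 p n) ∈
        Ideal.span ({(p : E0 p n)} ∪ {x | ∃ j < p ^ (k + 1), x =
          PowerSeries.coeff j (multSeries (F.map (hazMap p n)) p)}) := by
      intro i
      induction i using Nat.strong_induction_on with
      | _ i ih =>
        intro hi hik
        have h1 := haz_coeff_sub_mem h hi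
        have h2 : heightIdeal p n (i + 1) ≤ Ideal.span ({(p : E0 p n)} ∪ {x | ∃ j < p ^ (k + 1),
            x = PowerSeries.coeff j (multSeries (F.map (hazMap p n)) p)}) := by
          rw [heightIdeal, if_neg (by omega), Ideal.span_le]
          rintro x (hx | ⟨i', hi', rfl⟩)
          · exact Ideal.subset_span (Or.inl hx)
          · exact ih i' (by omega) i'.2 (by omega)
        have h3 : PowerSeries.coeff (p ^ (i + 1)) (multSeries (F.map (hazMap p n)) p) ∈
            Ideal.span ({(p : E0 p n)} ∪ {x | ∃ j < p ^ (k + 1), x =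
              PowerSeries.coeff j (multSeries (F.map (hazMap p n)) p)}) :=
          Ideal.subset_span (Or.inr ⟨_, Nat.pow_lt_pow_right hp.out.one_lt (by omega), rfl⟩)
        have h4 := Submodule.add_mem _ (h2 h1) h3
        rwa [sub_add_cancel] at h4
    rw [heightIdeal, if_neg (by omega), Ideal.span_le]
    rintro x (hx | ⟨i, hi, rfl⟩)
    · exact Ideal.subset_span (Or.inl hx)
    · exact key i i.2 hi
  · rw [Ideal.span_le]
    rintro x (hx | ⟨j, hj, rfl⟩)
    · rw [Set.mem_singleton_iff.mp hx]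
      exact natCast_mem (by omega)
    · exact haz_coeff_mem h (by omega) hj

end Height

section Lead

variable {p n : ℕ} [hp : Fact p.Prime] {F : FormalGroup (MvPolynomial (Fin n) ℤ)}
  {f : PowerSeries (MvPolynomial (Fin n) ℚ)}

/-- `v_k ↦ 0`. -/
noncomputable def killZ (n k : ℕ) : MvPolynomial (Fin n) ℤ →+* MvPolynomial (Fin n) ℤ :=
  MvPolynomial.eval₂Hom MvPolynomial.C (fun i => if (i : ℕ) = k then 0 else MvPolynomial.X i)

/-- `v_k ↦ 0`. -/
noncomputable def killQ (n k : ℕ) : MvPolynomial (Fin n) ℚ →+* MvPolynomial (Fin n) ℚ :=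
  MvPolynomial.eval₂Hom MvPolynomial.C (fun i => if (i : ℕ) = k then 0 else MvPolynomial.X i)

theorem kill_comp (n k : ℕ) : (MvPolynomial.map (Int.castRingHom ℚ)).comp (killZ n k) =
    (killQ n k).comp (MvPolynomial.map (Int.castRingHom ℚ)) := by
  refine MvPolynomial.ringHom_ext (fun r => ?_) (fun i => ?_)
  · simp [killZ, killQ]
  · simp only [killZ, killQ, RingHom.comp_apply, MvPolynomial.coe_eval₂Hom, MvPolynomial.eval₂_X,
      MvPolynomial.map_X]
    split_ifs
    · exact map_zero _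
    · exact MvPolynomial.map_X _ _

theorem killQ_expand (k a : ℕ) (ha : a ≠ 0) (g : MvPolynomial (Fin n) ℚ) :
    killQ n k (MvPolynomial.expand a g) = MvPolynomial.expand a (killQ n k g) := by
  have : (killQ n k).comp (MvPolynomial.expand a :
      MvPolynomial (Fin n) ℚ →ₐ[ℚ] MvPolynomial (Fin n) ℚ).toRingHom =
      (MvPolynomial.expand a :
        MvPolynomial (Fin n) ℚ →ₐ[ℚ] MvPolynomial (Fin n) ℚ).toRingHom.comp (killQ n k) := by
    refine MvPolynomial.ringHom_ext (fun r => ?_) (fun i => ?_)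
    · simp [killQ]
    · simp only [killQ, RingHom.comp_apply, AlgHom.toRingHom_eq_coe, RingHom.coe_coe,
        MvPolynomial.expand_X, map_pow, MvPolynomial.coe_eval₂Hom, MvPolynomial.eval₂_X]
      split_ifs
      · rw [zero_pow ha, map_zero]
      · rw [MvPolynomial.expand_X]
  exact RingHom.congr_fun this g

theorem haz_kill (h : IsHaz p n F f) {k : ℕ} (hk : k < n) :
    ∀ m, m ≤ p ^ (k + 1) → PowerSeries.coeff m f = killQ n k (PowerSeries.coeff m f) +
      (if m = p ^ (k + 1) then MvPolynomial.C (1 / (p : ℚ)) * MvPolynomial.X ⟨k, hk⟩ else 0) := by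
  have hq : 1 < p ^ (k + 1) := Nat.one_lt_pow (by omega) hp.out.one_lt
  intro m
  induction m using Nat.strong_induction_on with
  | _ m ih =>
    intro hm
    rcases Nat.eq_zero_or_pos m with rfl | hm0
    · rw [PowerSeries.coeff_zero_eq_constantCoeff_apply, h.cc, map_zero, if_neg (by omega),
        add_zero]
    · rw [haz_coeff_le h hm0 hm, map_add, map_sum, add_assoc]
      congr 1
      · split_ifs <;> simp
      · have key : ∀ i : Fin n, (if p ^ ((i : ℕ) + 1) ∣ m ∧ (i : ℕ) ≤ k then
            MvPolynomial.C (1 / (p : ℚ)) * MvPolynomial.X i *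
              MvPolynomial.expand (p ^ ((i : ℕ) + 1))
                (PowerSeries.coeff (m / p ^ ((i : ℕ) + 1)) f) else 0) =
            killQ n k (if p ^ ((i : ℕ) + 1) ∣ m ∧ (i : ℕ) ≤ k then
              MvPolynomial.C (1 / (p : ℚ)) * MvPolynomial.X i *
              MvPolynomial.expand (p ^ ((i : ℕ) + 1))
                (PowerSeries.coeff (m / p ^ ((i : ℕ) + 1)) f) else 0) +
            (if i = ⟨k, hk⟩ then (if m = p ^ (k + 1) then
              MvPolynomial.C (1 / (p : ℚ)) * MvPolynomial.X ⟨k, hk⟩ else 0) else 0) := by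
          intro i
          by_cases hd : p ^ ((i : ℕ) + 1) ∣ m ∧ (i : ℕ) ≤ k
          · rw [if_pos hd, map_mul, map_mul, killQ_expand _ _ (pow_ne_zero _ hp.out.ne_zero)]
            have hC : killQ n k (MvPolynomial.C (1 / (p : ℚ))) = MvPolynomial.C (1 / (p : ℚ)) := by
              simp [killQ]
            rw [hC]
            by_cases hik : i = ⟨k, hk⟩
            · subst hik
              have hm' : m = p ^ (k + 1) := le_antisymm hm (Nat.le_of_dvd hm0 hd.1)
              have hX : killQ n k (MvPolynomial.X (⟨k, hk⟩ : Fin n)) = 0 := by simp [killQ]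
              rw [if_pos rfl, if_pos hm', hX, mul_zero, zero_mul, zero_add, hm',
                Nat.div_self (by omega), haz_coeff_one h, map_one, mul_one]
            · have hik' : (i : ℕ) ≠ k := fun h5 => hik (Fin.ext h5)
              have hX : killQ n k (MvPolynomial.X i) = MvPolynomial.X i := by simp [killQ, hik']
              have h1 : m / p ^ ((i : ℕ) + 1) < m :=
                Nat.div_lt_self hm0 (Nat.one_lt_pow (by omega) hp.out.one_lt)
              have h2 := ih _ h1 (by omega)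
              rw [if_neg (by omega), add_zero] at h2
              rw [if_neg hik, add_zero, hX, ← h2]
          · rw [if_neg hd, map_zero, zero_add]
            by_cases hik : i = ⟨k, hk⟩
            · subst hik
              rw [if_pos rfl, if_neg]
              intro hm'
              apply hd
              simp [hm']
            · rw [if_neg hik]
        rw [Finset.sum_congr rfl fun i _ => key i, Finset.sum_add_distrib, Finset.sum_ite_eq',
          if_pos (Finset.mem_univ _)]

theorem haz_compare (h : IsHaz p n F f) {k : ℕ} (hk : k < n) :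
    (∀ e : Fin 2 →₀ ℕ, degree e < p ^ (k + 1) →
      coeff e F.toPowerSeries = killZ n k (coeff e F.toPowerSeries)) ∧
    ∀ i j : ℕ, 1 ≤ i → 1 ≤ j → i + j = p ^ (k + 1) →
      coeff (Finsupp.single 0 i + Finsupp.single 1 j) F.toPowerSeries =
        killZ n k (coeff (Finsupp.single 0 i + Finsupp.single 1 j) F.toPowerSeries) -
          MvPolynomial.X ⟨k, hk⟩ * (cbar p (p ^ (k + 1)) i : MvPolynomial (Fin n) ℤ) := by
  have hq : 1 < p ^ (k + 1) := Nat.one_lt_pow (by omega) hp.out.one_lt
  have hl := haz_isLog h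
  have hl2 := hl.map (killQ n k)
  obtain ⟨h1, h2⟩ := compare (N := p ^ (k + 1)) (by omega) hl hl2
    (c := MvPolynomial.C (1 / (p : ℚ)) * MvPolynomial.X ⟨k, hk⟩)
    (by rw [PowerSeries.coeff_map, haz_coeff_one h, map_one])
    (fun m hm => by
      rw [PowerSeries.coeff_map]
      have := haz_kill h hk m hm.le
      rwa [if_neg (by omega), add_zero] at this)
    (by
      rw [PowerSeries.coeff_map]
      have := haz_kill h hk _ le_rfl
      rwa [if_pos rfl] at this)
  have e1 : ∀ e, coeff e (F.map (MvPolynomial.map (Int.castRingHom ℚ))).toPowerSeries =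
      MvPolynomial.map (Int.castRingHom ℚ) (coeff e F.toPowerSeries) := fun e => rfl
  have e2 : ∀ e, coeff e ((F.map (MvPolynomial.map (Int.castRingHom ℚ))).map
      (killQ n k)).toPowerSeries =
      MvPolynomial.map (Int.castRingHom ℚ) (killZ n k (coeff e F.toPowerSeries)) := fun e =>
    (RingHom.congr_fun (kill_comp n k) (coeff e F.toPowerSeries)).symm
  refine ⟨fun e he => ?_, fun i j hi hj hij => ?_⟩
  · apply castQ_injective
    rw [← e1, ← e2]
    exact h1 e he
  · apply castQ_injective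
    have h3 := h2 i j hi hj hij
    rw [e1, e2] at h3
    rw [h3, map_sub, map_mul, MvPolynomial.map_X, map_natCast]
    have hdvd : p ∣ (i + j).choose i := by
      rw [hij]
      exact hp.out.dvd_choose_pow (by omega) (by omega)
    obtain ⟨c, hc⟩ := hdvd
    have hcbar : cbar p (p ^ (k + 1)) i = c := by
      rw [cbar, if_pos ⟨k + 1, rfl⟩, ← hij, hc, Nat.mul_div_cancel_left _ hp.out.pos]
    rw [hcbar, ← hij, hc, Nat.cast_mul]
    have hp0 : (p : ℚ) ≠ 0 := by exact_mod_cast hp.out.ne_zero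
    have e3 : (p : MvPolynomial (Fin n) ℚ) * MvPolynomial.C (1 / (p : ℚ)) = 1 := by
      rw [← map_natCast (MvPolynomial.C (σ := Fin n) (R := ℚ)) p, ← map_mul,
        mul_one_div_cancel hp0, map_one]
    linear_combination -(MvPolynomial.X (⟨k, hk⟩ : Fin n) * (c : MvPolynomial (Fin n) ℚ)) * e3

theorem coeff_hazMap_kill (i : Fin (n - 1)) (c : MvPolynomial (Fin n) ℤ) :
    ∀ m : Fin (n - 1) →₀ ℕ, m i ≠ 0 →
      coeff (R := WittVector p (GaloisField p n)) m (hazMap p n (killZ n i c)) = 0 := by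
  classical
  induction c using MvPolynomial.induction_on with
  | C a =>
    intro m hm
    have h1 : hazMap p n (killZ n i (MvPolynomial.C a)) =
        C ((a : ℤ) : WittVector p (GaloisField p n)) := by
      simp [hazMap, killZ]
    rw [h1, coeff_C, if_neg]
    intro h
    rw [h] at hm
    exact hm rfl
  | add c d hc hd =>
    intro m hm
    rw [map_add, map_add, map_add, hc m hm, hd m hm, add_zero]
  | mul_X c j hc =>
    intro m hm
    rw [map_mul, map_mul]
    by_cases hj : (j : ℕ) = i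
    · have h1 : killZ n i (MvPolynomial.X j) = 0 := by simp [killZ, hj]
      rw [h1, map_zero, mul_zero, map_zero]
    · have h1 : killZ n i (MvPolynomial.X j) = MvPolynomial.X j := by simp [killZ, hj]
      rw [h1]
      by_cases hj1 : (j : ℕ) < n - 1
      · rw [hazMap_X_lt hj1, X, coeff_mul_monomial]
        split_ifs with hle
        · rw [hc, zero_mul]
          have hne : (⟨j, hj1⟩ : Fin (n - 1)) ≠ i := fun h5 => hj (congrArg Fin.val h5)
          rw [Finsupp.tsub_apply, Finsupp.single_apply, if_neg hne, tsub_zero]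
          exact hm
        · rfl
      · have h2 : hazMap p n (MvPolynomial.X j) = 1 := by simp [hazMap, hj1]
        rw [h2, mul_one]
        exact hc m hm

theorem lin_hazMap_kill (i : Fin (n - 1)) (c : MvPolynomial (Fin n) ℤ) :
    lin p n i (hazMap p n (killZ n i c)) = 0 := by
  have h1 := coeff_hazMap_kill (p := p) i c (Finsupp.single i 1) (by simp)
  have h2 : lin p n i (hazMap p n (killZ n i c)) = WittVector.constantCoeff
      (coeff (R := WittVector p (GaloisField p n)) (Finsupp.single i 1)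
        (hazMap p n (killZ n i c))) := rfl
  rw [h2, h1, map_zero]

theorem lin_X_mul (i : Fin (n - 1)) (c : ℕ) :
    lin p n i (X i * (c : E0 p n)) = (c : GaloisField p n) := by
  classical
  have h2 : lin p n i (X i * (c : E0 p n)) = WittVector.constantCoeff
      (coeff (R := WittVector p (GaloisField p n)) (Finsupp.single i 1)
        (X i * (c : E0 p n))) := rfl
  have h3 : (c : E0 p n) = C ((c : ℕ) : WittVector p (GaloisField p n)) := (map_natCast _ _).symm
  rw [h2, h3, coeff_mul_C, coeff_X, if_pos rfl, one_mul, map_natCast]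

theorem haz_lead (h : IsHaz p n F f) (i : Fin (n - 1)) :
    HasLead p (p ^ ((i : ℕ) + 1)) (-1) (linF p n (F.map (hazMap p n)) i) := by
  have hi : (i : ℕ) < n := by omega
  obtain ⟨h1, h2⟩ := haz_compare h hi
  have e1 : ∀ e, coeff e (linF p n (F.map (hazMap p n)) i) =
      lin p n i (hazMap p n (coeff e F.toPowerSeries)) := fun e => rfl
  refine ⟨fun a b hab => ?_, fun a b ha hb hab => ?_⟩
  · rw [e1, h1 _ (by rw [ulead_degree]; exact hab)]
    exact lin_hazMap_kill i _
  · rw [e1, h2 a b ha hb hab, map_sub, map_sub, lin_hazMap_kill, map_mul, map_natCast,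
      hazMap_X_lt (show ((⟨i, hi⟩ : Fin n) : ℕ) < n - 1 from i.2), zero_sub]
    have h3 := lin_X_mul (p := p) i (cbar p (p ^ ((i : ℕ) + 1)) a)
    rw [h3, neg_one_mul]

end Lead

end Vale.Agent.P217.UF

namespace Vale.Agent.P217

open MvPowerSeries

variable (p n : ℕ) [Fact p.Prime]

/-- 27a2: the Hazewinkel formal group law gives a good formal group law over `E₀`. -/
theorem IsHaz.goodF (hn : 1 ≤ n) {F : FormalGroup (MvPolynomial (Fin n) ℤ)}
    {f : PowerSeries (MvPolynomial (Fin n) ℚ)} (h : IsHaz p n F f)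
    (Γ : FormalGroup (ZMod p)) (hΓ : IsHonda p n Γ) :
    GoodF p n Γ (F.map (hazMap p n)) where
  comm := hc_isComm_map F h.comm _
  reduction := UF.haz_reduction hn h Γ hΓ
  adapted := UF.haz_adapted h
  lead := UF.haz_lead h

end Vale.Agent.P217
end
end

section

section

/-!
# P217: existence of the universal deformation and the final theorem (version 2)
-/

namespace Vale.Agent.P217.LTC

open MvPowerSeries Vale.Agent.P217

variable {p n : ℕ} [Fact p.Prime] {Γ : FormalGroup (ZMod p)} {F : FormalGroup (P217.E0 p n)}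

theorem decHyp (hn : 1 ≤ n) (hΓ : P217.IsHonda p n Γ) (hF : GoodF p n Γ F) :
    US.DecHyp p n F := by
  intro k _ i hcoc D hD
  set j : ZMod p →+* k := i.comp (algebraMap (ZMod p) (GaloisField p n)) with hj
  have e : (F.map (red p n)).map i = Γ.map j := by
    rw [hF.reduction, C0.FG_map_map]
  have hCh : CharP k p := charP_of_injective_ringHom j.injective p
  have hcomm : ((F.map (red p n)).map i).IsComm := by
    have := hF.comm
    infer_instance
  have hlead : HasLead p (p ^ n) (-1) (((F.map (red p n)).map i).toPowerSeries -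
      (X 0 : MvPowerSeries (Fin 2) k) - X 1) := by
    have h := UD.hasLead_map j (IsHonda.hasLead p n hn Γ hΓ)
    rw [map_neg, map_one, map_sub, map_sub, map_X, map_X, ← C0.FG_map_toPowerSeries, ← e] at h
    exact h
  refine cocycle_decomp p n hn _ hcomm ?_ hlead _ hcoc (fun _ => -1)
    (fun _ => neg_ne_zero.2 one_ne_zero) (fun i' => hasLead_DeltaF hF i i') D hD
  intro m
  rw [e, C0.FG_map_toPowerSeries, coeff_map, ← map_pow, ZMod.pow_card]

theorem goodF_isUniversal (hn : 1 ≤ n) (hΓ : P217.IsHonda p n Γ) (hF : GoodF p n Γ F) :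
    P217.IsUniversalDeformation p n Γ F := by
  refine UnivT.isUniversalDeformation_of_step hF.comm hF.reduction ?_
  intro B B' _ _ _ _ _ π hπ t ht ht0 htm htm' h
  exact HasUniv.step_of p n Γ F (decHyp hn hΓ hF) hF B B' π hπ t ht ht0 htm htm' h

/-- existence of a universal deformation with adapted coordinates. -/
theorem exists_universal (hn : 1 ≤ n) (hΓ : P217.IsHonda p n Γ) :
    ∃ F : FormalGroup (P217.E0 p n),
      P217.IsUniversalDeformation p n Γ F ∧ P217.HeightAdapted p n F := by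
  obtain ⟨F, f, h⟩ := exists_haz p n hn
  have hG := h.goodF p n hn Γ hΓ
  exact ⟨_, goodF_isUniversal hn hΓ hG, hG.adapted⟩

theorem final (p n : ℕ) [Fact p.Prime] (hn : 1 ≤ n) :
    (∃! Γ, LT.IsHonda p n Γ) ∧ ∀ Γ, LT.IsHonda p n Γ →
      LT.multSeries Γ p = PowerSeries.X ^ p ^ n ∧
      (∃ F, LT.IsUniversal p n Γ F ∧ LT.HeightAdapted p n F) ∧
      ∀ F, LT.IsUniversal p n Γ F → LT.HeightAdapted p n F →
        (∀ σ γ, LT.IsIso (LT.base p n Γ) (LT.base p n Γ) γ →
          ∃ φ : LT.E0 p n ≃+* LT.E0 p n, ∀ ψ, LT.Acts p n Γ F σ γ ψ ↔ ψ = φ) ∧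
        ∀ J : Ideal (LT.E0 p n),
          ((J.IsPrime ∧ LT.IsInvariant p n Γ F J) ↔ ∃ h ≤ n, J = LT.heightIdeal p n h) ∧
          ((J.IsRadical ∧ LT.IsInvariant p n Γ F J) ↔
            (J = ⊤ ∨ ∃ h ≤ n, J = LT.heightIdeal p n h)) := by
  refine ⟨exists_unique_honda hn, fun Γ hΓ => ⟨honda_series hn hΓ, ?_, ?_⟩⟩
  · obtain ⟨F, h1, h2⟩ := exists_universal hn (isHonda_iff.1 hΓ)
    exact ⟨F, isUniversal_iff.2 h1, heightAdapted_iff.2 h2⟩
  · intro F hF hH
    exact main hn hΓ hF hH

end Vale.Agent.P217.LTC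
end
end
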